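import Claimed.Agent.R292.Defs.BETHE

/-!
# Row 292 (and 290), unit BETHE: SOFT REDUCTIONS      (pen helper110; prefix `bs110_`)

Text: `origin/helper110:notes/R292/BETHE_WALL_110.md`, Part A.

* intrinsic (`ZMod`) forms of the ice rule, the column count and the number of `c`-vertices;
* **frozen row**: inserting a row of horizontal arrows that all point the same way is an injective, weight preserving map of
  configurations, so `baZ c M (N+1) n ≥ baZ c M N n` and `baZ c M (N+1) (n+1) ≥ baZ c M N n`;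
* the order `bs110_mono`;  positivity of `baZ`;  Lipschitz dependence of `log baZ` on `log c`.
-/

set_option autoImplicit false

namespace Claimed.Agent.R292

open Claims.C0466

/-! ## 1. intrinsic forms -/

/-- in-count at the vertex `(x,y)` of the torus -/
def bs110_in {M L : ℕ} (ω : ZMod M × ZMod L × Bool → Bool) (x : ZMod M) (y : ZMod L) : ℕ :=
  (if ω (x - 1, y, false) then 1 else 0) + (if ω (x, y, false) then 0 else 1) +
    (if ω (x, y - 1, true) then 1 else 0) + (if ω (x, y, true) then 0 else 1)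

/-- indicator of a `c`-vertex at `(x,y)` -/
def bs110_c {M L : ℕ} (ω : ZMod M × ZMod L × Bool → Bool) (x : ZMod M) (y : ZMod L) : ℕ :=
  if ω (x - 1, y, false) = ω (x, y, false) then 0 else 1

theorem bs110_inCount_eq {M L : ℕ} (ω : ZMod M × ZMod L × Bool → Bool) (a b : ℤ) :
    svInCount ω a b = bs110_in ω (a : ZMod M) (b : ZMod L) := by
  unfold svInCount bs110_in svH svV
  push_cast
  rfl

theorem bs110_ice_iff {M L : ℕ} (ω : ZMod M × ZMod L × Bool → Bool) :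
    (∀ a b : ℤ, svInCount ω a b = 2) ↔ ∀ (x : ZMod M) (y : ZMod L), bs110_in ω x y = 2 := by
  constructor
  · intro h x y
    obtain ⟨a, rfl⟩ := ZMod.intCast_surjective x
    obtain ⟨b, rfl⟩ := ZMod.intCast_surjective y
    rw [← bs110_inCount_eq]; exact h a b
  · intro h a b
    rw [bs110_inCount_eq]; exact h _ _

theorem bs110_sum_range {L : ℕ} [NeZero L] (g : ZMod L → ℕ) :
    ∑ j ∈ Finset.range L, g (((j : ℕ) : ℤ) : ZMod L) = ∑ y : ZMod L, g y := by
  refine Finset.sum_nbij' (fun j => ((j : ℕ) : ZMod L)) ZMod.val ?_ ?_ ?_ ?_ ?_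
  · intro a _; exact Finset.mem_univ _
  · intro y _; exact Finset.mem_range.2 (ZMod.val_lt y)
  · intro a ha; exact ZMod.val_natCast_of_lt (Finset.mem_range.1 ha)
  · intro y _; exact ZMod.natCast_zmod_val y
  · intro a _; simp

theorem bs110_col_eq {M L : ℕ} [NeZero L] (ω : ZMod M × ZMod L × Bool → Bool) (i : ℤ) :
    ((Finset.range L).filter (fun j : ℕ => svH ω i (j : ℤ) = true)).card =
      ∑ y : ZMod L, if ω ((i : ZMod M), y, false) then 1 else 0 := by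
  rw [Finset.card_filter]
  exact bs110_sum_range (fun y => if ω ((i : ZMod M), y, false) then 1 else 0)

theorem bs110_isC_iff {M L : ℕ} (ω : ZMod M × ZMod L × Bool → Bool) (a b : ℤ) :
    svIsC ω a b ↔ ¬ (ω ((a : ZMod M) - 1, (b : ZMod L), false) = ω ((a : ZMod M), (b : ZMod L), false)) := by
  unfold svIsC svH
  push_cast
  generalize ω ((a : ZMod M) - 1, (b : ZMod L), false) = p
  generalize ω ((a : ZMod M), (b : ZMod L), false) = q
  cases p <;> cases q <;> simp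

theorem bs110_numC_eq {M L : ℕ} [NeZero M] [NeZero L] (ω : ZMod M × ZMod L × Bool → Bool) :
    svNumC ω = ∑ x : ZMod M, ∑ y : ZMod L, bs110_c ω x y := by
  unfold svNumC
  rw [Finset.card_filter, Finset.sum_product]
  rw [← bs110_sum_range (fun x => ∑ y : ZMod L, bs110_c ω x y)]
  refine Finset.sum_congr rfl fun a _ => ?_
  rw [← bs110_sum_range (fun y => bs110_c ω (((a : ℕ) : ℤ) : ZMod M) y)]
  refine Finset.sum_congr rfl fun b _ => ?_
  unfold bs110_c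
  by_cases h : ω ((((a : ℕ) : ℤ) : ZMod M) - 1, (((b : ℕ) : ℤ) : ZMod L), false) =
      ω ((((a : ℕ) : ℤ) : ZMod M), (((b : ℕ) : ℤ) : ZMod L), false)
  · rw [if_pos h, if_neg]
    rw [bs110_isC_iff]; exact not_not.2 h
  · rw [if_neg h, if_pos]
    rw [bs110_isC_iff]; exact h

theorem bs110_sector_iff {M L : ℕ} [NeZero L] (n : ℕ) (ω : ZMod M × ZMod L × Bool → Bool) :
    baSector n ω ↔ (∀ (x : ZMod M) (y : ZMod L), bs110_in ω x y = 2) ∧
      ∀ x : ZMod M, (∑ y : ZMod L, if ω (x, y, false) then 1 else 0) = n := by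
  unfold baSector
  rw [bs110_ice_iff]
  refine and_congr_right fun _ => ?_
  constructor
  · intro h x
    obtain ⟨a, rfl⟩ := ZMod.intCast_surjective x
    rw [← bs110_col_eq]; exact h a
  · intro h i
    rw [bs110_col_eq]; exact h _

theorem bs110_numC_le {M L : ℕ} (ω : ZMod M × ZMod L × Bool → Bool) : svNumC ω ≤ M * L := by
  classical
  unfold svNumC
  refine (Finset.card_le_card (Finset.filter_subset _ _)).trans ?_
  simp

/-! ## 2. the frozen row -/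

/-- the old row `i`, as a row of the taller torus -/
def bs110_cs (k : ℕ) (i : ZMod (k + 1)) : ZMod (k + 2) := (Fin.castSucc (i : Fin (k + 1)) : Fin (k + 2))

/-- the top row -/
def bs110_top (k : ℕ) : ZMod (k + 1) := (Fin.last k : Fin (k + 1))

theorem bs110_cases (k : ℕ) (y : ZMod (k + 2)) : y = bs110_top (k + 1) ∨ ∃ i : ZMod (k + 1), y = bs110_cs k i := by
  rcases Fin.eq_castSucc_or_eq_last (y : Fin (k + 2)) with ⟨i, hi⟩ | h
  · exact Or.inr ⟨i, hi⟩
  · exact Or.inl h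

theorem bs110_sum_split (k : ℕ) (f : ZMod (k + 2) → ℕ) :
    ∑ y : ZMod (k + 2), f y = (∑ i : ZMod (k + 1), f (bs110_cs k i)) + f (bs110_top (k + 1)) :=
  Fin.sum_univ_castSucc (n := k + 1) (fun y : Fin (k + 2) => f y)

/-- insert above the last row a new row of vertices, all of whose horizontal arrows are `β`; the vertical arrows go straight through -/
def bs110_ins {M k : ℕ} (β : Bool) (ω : ZMod M × ZMod (k + 1) × Bool → Bool) :
    ZMod M × ZMod (k + 2) × Bool → Bool := fun p =>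
  Fin.lastCases (n := k + 1) (motive := fun _ => Bool)
    (if p.2.2 then ω (p.1, bs110_top k, true) else β)
    (fun i : Fin (k + 1) => ω (p.1, i, p.2.2)) (p.2.1 : Fin (k + 2))

theorem bs110_ins_last {M k : ℕ} (β : Bool) (ω : ZMod M × ZMod (k + 1) × Bool → Bool) (x : ZMod M) (e : Bool) :
    bs110_ins β ω (x, bs110_top (k + 1), e) = if e then ω (x, bs110_top k, true) else β := by
  unfold bs110_ins
  exact Fin.lastCases_last

theorem bs110_ins_cast {M k : ℕ} (β : Bool) (ω : ZMod M × ZMod (k + 1) × Bool → Bool) (x : ZMod M)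
    (i : ZMod (k + 1)) (e : Bool) :
    bs110_ins β ω (x, bs110_cs k i, e) = ω (x, i, e) := by
  unfold bs110_ins
  exact Fin.lastCases_castSucc (i : Fin (k + 1))

theorem bs110_last_sub_one (k : ℕ) : bs110_top (k + 1) - 1 = bs110_cs k (bs110_top k) := by
  show ((Fin.last (k + 1) : Fin (k + 2)) - 1 : Fin (k + 2)) = Fin.castSucc (Fin.last k)
  apply Fin.ext
  rw [Fin.val_sub]
  simp only [Fin.val_last, Fin.val_one, Fin.val_castSucc]
  rw [show k + 2 - 1 + (k + 1) = k + (k + 2) by omega, Nat.add_mod_right, Nat.mod_eq_of_lt (by omega)]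

theorem bs110_cast_sub_one_fin (k : ℕ) (i : Fin (k + 1)) (hi : i ≠ 0) :
    ((Fin.castSucc i : Fin (k + 2)) - 1 : Fin (k + 2)) = Fin.castSucc (i - 1) := by
  have hi' : 0 < (i : ℕ) := Nat.pos_of_ne_zero fun h => hi (Fin.ext h)
  have hlt := i.2
  apply Fin.ext
  rw [Fin.val_sub, Fin.val_castSucc, Fin.val_castSucc, Fin.val_sub]
  rcases Nat.eq_zero_or_pos k with rfl | hk
  · omega
  · have h1 : ((1 : Fin (k + 2)) : ℕ) = 1 := by simp
    have h2 : ((1 : Fin (k + 1)) : ℕ) = 1 := by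
      rw [Fin.val_one']; exact Nat.mod_eq_of_lt (by omega)
    rw [h1, h2, show k + 2 - 1 + (i : ℕ) = ((i : ℕ) - 1) + (k + 2) by omega, Nat.add_mod_right,
      Nat.mod_eq_of_lt (by omega), show k + 1 - 1 + (i : ℕ) = ((i : ℕ) - 1) + (k + 1) by omega,
      Nat.add_mod_right, Nat.mod_eq_of_lt (by omega)]

theorem bs110_cast_sub_one (k : ℕ) (i : ZMod (k + 1)) (hi : i ≠ 0) :
    bs110_cs k i - 1 = bs110_cs k (i - 1) :=
  bs110_cast_sub_one_fin k i hi

theorem bs110_zero_sub_one (k : ℕ) : (0 : ZMod (k + 1)) - 1 = bs110_top k := by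
  show ((0 : Fin (k + 1)) - 1 : Fin (k + 1)) = Fin.last k
  apply Fin.ext
  rw [Fin.val_sub]
  rcases Nat.eq_zero_or_pos k with rfl | hk
  · simp
  · have h2 : ((1 : Fin (k + 1)) : ℕ) = 1 := by
      rw [Fin.val_one']; exact Nat.mod_eq_of_lt (by omega)
    rw [h2]
    simp only [Fin.val_zero, Fin.val_last, add_zero]
    exact Nat.mod_eq_of_lt (by omega)

theorem bs110_cs_zero (k : ℕ) : bs110_cs k 0 = 0 := by
  show (Fin.castSucc (0 : Fin (k + 1)) : Fin (k + 2)) = 0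
  exact Fin.castSucc_zero

/-- the vertical arrow below an old row -/
theorem bs110_ins_below {M k : ℕ} (β : Bool) (ω : ZMod M × ZMod (k + 1) × Bool → Bool) (x : ZMod M)
    (i : ZMod (k + 1)) :
    bs110_ins β ω (x, bs110_cs k i - 1, true) = ω (x, i - 1, true) := by
  by_cases hi : i = 0
  · subst hi
    rw [bs110_cs_zero, bs110_zero_sub_one, bs110_ins_last, bs110_zero_sub_one]; rfl
  · rw [bs110_cast_sub_one k i hi, bs110_ins_cast]

theorem bs110_ins_in_cast {M k : ℕ} (β : Bool) (ω : ZMod M × ZMod (k + 1) × Bool → Bool) (x : ZMod M)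
    (i : ZMod (k + 1)) :
    bs110_in (bs110_ins β ω) x (bs110_cs k i) = bs110_in ω x i := by
  unfold bs110_in
  rw [bs110_ins_cast, bs110_ins_cast, bs110_ins_cast, bs110_ins_below]

theorem bs110_ins_in_last {M k : ℕ} (β : Bool) (ω : ZMod M × ZMod (k + 1) × Bool → Bool) (x : ZMod M) :
    bs110_in (bs110_ins β ω) x (bs110_top (k + 1)) = 2 := by
  unfold bs110_in
  rw [bs110_ins_last, bs110_ins_last, bs110_ins_last, bs110_last_sub_one, bs110_ins_cast]
  generalize ω (x, bs110_top k, true) = v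
  cases β <;> cases v <;> simp

theorem bs110_ins_c_cast {M k : ℕ} (β : Bool) (ω : ZMod M × ZMod (k + 1) × Bool → Bool) (x : ZMod M)
    (i : ZMod (k + 1)) :
    bs110_c (bs110_ins β ω) x (bs110_cs k i) = bs110_c ω x i := by
  unfold bs110_c
  rw [bs110_ins_cast, bs110_ins_cast]

theorem bs110_ins_c_last {M k : ℕ} (β : Bool) (ω : ZMod M × ZMod (k + 1) × Bool → Bool) (x : ZMod M) :
    bs110_c (bs110_ins β ω) x (bs110_top (k + 1)) = 0 := by
  unfold bs110_c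
  rw [bs110_ins_last, bs110_ins_last]
  simp

theorem bs110_ins_sector {M k n : ℕ} (β : Bool) {ω : ZMod M × ZMod (k + 1) × Bool → Bool}
    (h : baSector n ω) : baSector (n + if β then 1 else 0) (bs110_ins β ω) := by
  rw [bs110_sector_iff] at h ⊢
  refine ⟨fun x y => ?_, fun x => ?_⟩
  · rcases bs110_cases k y with rfl | ⟨i, rfl⟩
    · exact bs110_ins_in_last β ω x
    · rw [bs110_ins_in_cast]; exact h.1 x i
  · rw [bs110_sum_split k (fun y => if bs110_ins β ω (x, y, false) then 1 else 0), bs110_ins_last]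
    simp only [bs110_ins_cast]
    rw [h.2 x]
    simp

theorem bs110_ins_numC {M k : ℕ} [NeZero M] (β : Bool) (ω : ZMod M × ZMod (k + 1) × Bool → Bool) :
    svNumC (bs110_ins β ω) = svNumC ω := by
  rw [bs110_numC_eq, bs110_numC_eq]
  refine Finset.sum_congr rfl fun x _ => ?_
  rw [bs110_sum_split k (fun y => bs110_c (bs110_ins β ω) x y), bs110_ins_c_last]
  simp only [bs110_ins_c_cast, add_zero]

theorem bs110_ins_injective {M k : ℕ} (β : Bool) :
    Function.Injective (bs110_ins (M := M) (k := k) β) := by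
  intro ω ω' h
  funext ⟨x, i, e⟩
  have := congrFun h (x, bs110_cs k i, e)
  rwa [bs110_ins_cast, bs110_ins_cast] at this

/-! ## 3. the partition functions -/

open Classical in
theorem bs110_baZ_eq_sum (c : ℝ) (M L n : ℕ) [NeZero M] [NeZero L] :
    baZ c M L n = ∑ ω : ZMod M × ZMod L × Bool → Bool, if baSector n ω then c ^ svNumC ω else 0 := by
  unfold baZ
  exact tsum_fintype _

/-- **frozen row** -/
theorem bs110_baZ_ins (c : ℝ) (hc : 0 ≤ c) (M k n : ℕ) [NeZero M] (β : Bool) :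
    baZ c M (k + 1) n ≤ baZ c M (k + 2) (n + if β then 1 else 0) := by
  classical
  obtain ⟨n', hn'⟩ : ∃ n', n' = n + if β then 1 else 0 := ⟨_, rfl⟩
  rw [← hn', bs110_baZ_eq_sum, bs110_baZ_eq_sum]
  calc (∑ ω : ZMod M × ZMod (k + 1) × Bool → Bool, if baSector n ω then c ^ svNumC ω else 0)
      ≤ ∑ ω : ZMod M × ZMod (k + 1) × Bool → Bool,
          if baSector n' (bs110_ins β ω) then c ^ svNumC (bs110_ins β ω) else 0 := by
        refine Finset.sum_le_sum fun ω _ => ?_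
        by_cases h : baSector n ω
        · rw [if_pos h, if_pos (hn' ▸ bs110_ins_sector β h), bs110_ins_numC]
        · rw [if_neg h]; split_ifs
          · positivity
          · exact le_rfl
    _ = ∑ ω' ∈ Finset.univ.image (bs110_ins (M := M) (k := k) β),
          if baSector n' ω' then c ^ svNumC ω' else 0 := by
        rw [Finset.sum_image fun a _ b _ hab => bs110_ins_injective β hab]
    _ ≤ ∑ ω' : ZMod M × ZMod (k + 2) × Bool → Bool,
          if baSector n' ω' then c ^ svNumC ω' else 0 := by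
        refine Finset.sum_le_sum_of_subset_of_nonneg (Finset.subset_univ _) fun ω' _ _ => ?_
        split_ifs
        · positivity
        · exact le_rfl

theorem bs110_baZ_succ_left (c : ℝ) (hc : 0 ≤ c) (M N n : ℕ) [NeZero M] (hN : 1 ≤ N) :
    baZ c M N n ≤ baZ c M (N + 1) n := by
  obtain ⟨k, rfl⟩ : ∃ k, N = k + 1 := ⟨N - 1, by omega⟩
  simpa using bs110_baZ_ins c hc M k n false

theorem bs110_baZ_succ_right (c : ℝ) (hc : 0 ≤ c) (M N n : ℕ) [NeZero M] (hN : 1 ≤ N) :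
    baZ c M N n ≤ baZ c M (N + 1) (n + 1) := by
  obtain ⟨k, rfl⟩ : ∃ k, N = k + 1 := ⟨N - 1, by omega⟩
  simpa using bs110_baZ_ins c hc M k n true

/-- **the order**: more rows, of which at least `n' - n` and at most all point right -/
theorem bs110_mono (c : ℝ) (hc : 0 ≤ c) (M : ℕ) [NeZero M] {N N' n n' : ℕ} (hN : 1 ≤ N)
    (h1 : n ≤ n') (h2 : n' - n ≤ N' - N) (h3 : N ≤ N') : baZ c M N n ≤ baZ c M N' n' := by
  obtain ⟨p, rfl⟩ : ∃ p, n' = n + p := ⟨n' - n, by omega⟩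
  obtain ⟨q, rfl⟩ : ∃ q, N' = N + p + q := ⟨N' - N - p, by omega⟩
  clear h1 h2 h3
  have A : ∀ p : ℕ, baZ c M N n ≤ baZ c M (N + p) (n + p) := by
    intro p
    induction p with
    | zero => exact le_rfl
    | succ p ih => exact ih.trans (bs110_baZ_succ_right c hc M (N + p) (n + p) (by omega))
  have B : ∀ q : ℕ, baZ c M (N + p) (n + p) ≤ baZ c M (N + p + q) (n + p) := by
    intro q
    induction q with
    | zero => exact le_rfl
    | succ q ih => exact ih.trans (bs110_baZ_succ_left c hc M (N + p + q) (n + p) (by omega))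
  exact (A p).trans (B q)

/-! ## 4. positivity, dependence on `c` -/

/-- reference configuration of the sector `n`: the rows `0, …, n-1` point right, the others left, all vertical arrows point up -/
def bs110_ref (M L n : ℕ) : ZMod M × ZMod L × Bool → Bool :=
  fun p => if p.2.2 then true else decide (p.2.1.val < n)

theorem bs110_ref_sector {M L n : ℕ} [NeZero L] (hn : n ≤ L) : baSector n (bs110_ref M L n) := by
  rw [bs110_sector_iff]
  refine ⟨fun x y => ?_, fun x => ?_⟩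
  · unfold bs110_in bs110_ref
    by_cases h : y.val < n <;> simp [h]
  · rw [← bs110_sum_range (fun y => if bs110_ref M L n (x, y, false) then 1 else 0)]
    have : ∀ j ∈ Finset.range L, (if bs110_ref M L n (x, (((j : ℕ) : ℤ) : ZMod L), false) then 1 else 0) =
        if j < n then 1 else 0 := by
      intro j hj
      unfold bs110_ref
      have e : ((((j : ℕ) : ℤ) : ZMod L)).val = j := by
        rw [Int.cast_natCast]; exact ZMod.val_natCast_of_lt (Finset.mem_range.1 hj)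
      simp only [Bool.false_eq_true, if_false, e, decide_eq_true_eq]
    rw [Finset.sum_congr rfl this, ← Finset.card_filter]
    have : (Finset.range L).filter (fun j => j < n) = Finset.range n := by
      ext j; simp only [Finset.mem_filter, Finset.mem_range]; omega
    rw [this, Finset.card_range]

theorem bs110_ref_numC {M L n : ℕ} [NeZero M] [NeZero L] : svNumC (bs110_ref M L n) = 0 := by
  rw [bs110_numC_eq]
  refine Finset.sum_eq_zero fun x _ => Finset.sum_eq_zero fun y _ => ?_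
  unfold bs110_c bs110_ref
  simp

/-- the reference configuration has weight one -/
theorem bs110_one_le_baZ (c : ℝ) (hc : 0 ≤ c) (M L n : ℕ) [NeZero M] [NeZero L] (hn : n ≤ L) :
    1 ≤ baZ c M L n := by
  classical
  rw [bs110_baZ_eq_sum]
  have := Finset.single_le_sum (f := fun ω : ZMod M × ZMod L × Bool → Bool =>
    if baSector n ω then c ^ svNumC ω else 0) (fun ω _ => by
      show 0 ≤ if baSector n ω then c ^ svNumC ω else 0
      split_ifs
      · positivity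
      · exact le_rfl) (Finset.mem_univ (bs110_ref M L n))
  simp only [if_pos (bs110_ref_sector (M := M) hn), bs110_ref_numC, pow_zero] at this
  exact this

theorem bs110_baZ_pos (c : ℝ) (hc : 0 ≤ c) (M L n : ℕ) [NeZero M] [NeZero L] (hn : n ≤ L) :
    0 < baZ c M L n := lt_of_lt_of_le one_pos (bs110_one_le_baZ c hc M L n hn)

theorem bs110_baZ_le_of_le {c c' : ℝ} (hc : 0 ≤ c) (h : c ≤ c') (M L n : ℕ) [NeZero M] [NeZero L] :
    baZ c M L n ≤ baZ c' M L n := by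
  classical
  rw [bs110_baZ_eq_sum, bs110_baZ_eq_sum]
  refine Finset.sum_le_sum fun ω _ => ?_
  split_ifs
  · exact pow_le_pow_left₀ hc h _
  · exact le_rfl

theorem bs110_baZ_le_mul {c c' : ℝ} (hc : 0 < c) (h : c ≤ c') (M L n : ℕ) [NeZero M] [NeZero L] :
    baZ c' M L n ≤ (c' / c) ^ (M * L) * baZ c M L n := by
  classical
  rw [bs110_baZ_eq_sum, bs110_baZ_eq_sum, Finset.mul_sum]
  refine Finset.sum_le_sum fun ω _ => ?_
  have h1 : 1 ≤ c' / c := (one_le_div hc).2 h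
  split_ifs
  · calc c' ^ svNumC ω = (c' / c) ^ svNumC ω * c ^ svNumC ω := by
          rw [← mul_pow, div_mul_cancel₀ _ hc.ne']
      _ ≤ (c' / c) ^ (M * L) * c ^ svNumC ω :=
          mul_le_mul_of_nonneg_right (pow_le_pow_right₀ h1 (bs110_numC_le ω)) (by positivity)
  · simp

/-- **Lipschitz in `log c`** -/
theorem bs110_log_baZ_lipschitz {c c' : ℝ} (hc : 0 < c) (h : c ≤ c') (M L n : ℕ) [NeZero M] [NeZero L]
    (hn : n ≤ L) :
    |Real.log (baZ c' M L n) - Real.log (baZ c M L n)| ≤ (M * L : ℕ) * (Real.log c' - Real.log c) := by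
  have p1 := bs110_baZ_pos c hc.le M L n hn
  have p2 := bs110_baZ_pos c' (hc.le.trans h) M L n hn
  have a1 : Real.log (baZ c M L n) ≤ Real.log (baZ c' M L n) :=
    Real.log_le_log p1 (bs110_baZ_le_of_le hc.le h M L n)
  have a2 : Real.log (baZ c' M L n) ≤ (M * L : ℕ) * (Real.log c' - Real.log c) + Real.log (baZ c M L n) := by
    have := Real.log_le_log p2 (bs110_baZ_le_mul hc h M L n)
    rwa [Real.log_mul (by have : 0 < c' / c := div_pos (lt_of_lt_of_le hc h) hc; positivity) p1.ne',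
      Real.log_pow, Real.log_div (lt_of_lt_of_le hc h).ne' hc.ne'] at this
  rw [abs_le]
  constructor <;> linarith

/-! ## 5. what the finite Bethe ansatz has to deliver, and the squeeze -/

/-- **(BA⋆)** weak form of `the free energy per site at density d is φ`: for every large `N` there is SOME `n` within `2` of `d N`
(for instance the nearest even number) for which `log Z / (M N)` is eventually `ε`-close to `φ`. -/
def bs110_FE (c d φ : ℝ) : Prop :=
  ∀ ε : ℝ, 0 < ε → ∃ N₀ : ℕ, ∀ N : ℕ, N₀ ≤ N → ∃ n : ℕ, |(n : ℝ) - d * N| ≤ 2 ∧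
    ∃ M₀ : ℕ, ∀ M : ℕ, M₀ ≤ M → |Real.log (baZ c M N n) / ((M : ℝ) * N) - φ| ≤ ε

/-- **the squeeze**: every pair `(N, n)` is caught between two pairs of density `d`. -/
theorem bs110_transfer (c : ℝ) (hc : 0 < c) (d φ : ℝ) (hd1 : d < 1) (h : bs110_FE c d φ)
    (ε : ℝ) (hε : 0 < ε) :
    ∃ N₀ : ℕ, ∀ N n N₁ N₂ : ℕ, N₀ ≤ N₁ →
      d * N₁ + 2 ≤ n → (1 - d) * N₁ + 2 ≤ (N : ℝ) - n →
      (n : ℝ) + 2 ≤ d * N₂ → (N : ℝ) - n + 2 ≤ (1 - d) * N₂ → N₁ ≤ N₂ →
      ∃ M₀ : ℕ, ∀ M : ℕ, M₀ ≤ M →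
        (N₁ : ℝ) * (φ - ε) ≤ Real.log (baZ c M N n) / M ∧ Real.log (baZ c M N n) / M ≤ N₂ * (φ + ε) := by
  obtain ⟨N₀, hN₀⟩ := h ε hε
  obtain ⟨K, hK⟩ := exists_nat_ge (2 / (1 - d))
  have h1d : 0 < 1 - d := by linarith
  refine ⟨max (max N₀ K) 1, fun N n N₁ N₂ hN₁ a1 a2 b1 b2 h12 => ?_⟩
  have hN₁0 : N₀ ≤ N₁ := le_trans (le_trans (le_max_left _ _) (le_max_left _ _)) hN₁
  have hN₁K : K ≤ N₁ := le_trans (le_trans (le_max_right _ _) (le_max_left _ _)) hN₁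
  have hN₁1 : 1 ≤ N₁ := le_trans (le_max_right _ _) hN₁
  obtain ⟨n₁, hn₁, M₁, hM₁⟩ := hN₀ N₁ hN₁0
  obtain ⟨n₂, hn₂, M₂, hM₂⟩ := hN₀ N₂ (hN₁0.trans h12)
  rw [abs_le] at hn₁ hn₂
  have hKr : 2 ≤ (1 - d) * N₁ := by
    have : (K : ℝ) ≤ N₁ := by exact_mod_cast hN₁K
    have h3 : 2 / (1 - d) ≤ N₁ := hK.trans this
    rw [div_le_iff₀ h1d] at h3; linarith
  -- order relations, as natural numbers
  have o1 : n₁ ≤ n := by
    have : (n₁ : ℝ) ≤ n := by linarith [hn₁.2]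
    exact_mod_cast this
  have o2 : n + N₁ ≤ N + n₁ := by
    have : (n : ℝ) + N₁ ≤ N + n₁ := by linarith [hn₁.1]
    exact_mod_cast this
  have o3 : n₁ ≤ N₁ := by
    have : (n₁ : ℝ) ≤ N₁ := by linarith [hn₁.2]
    exact_mod_cast this
  have o4 : n ≤ n₂ := by
    have : (n : ℝ) ≤ n₂ := by linarith [hn₂.1]
    exact_mod_cast this
  have o5 : n₂ + N ≤ N₂ + n := by
    have : (n₂ : ℝ) + N ≤ N₂ + n := by linarith [hn₂.2]
    exact_mod_cast this
  have o6 : n ≤ N := by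
    have : (n : ℝ) ≤ N := by nlinarith [hKr]
    exact_mod_cast this
  have hN1 : 1 ≤ N := by omega
  refine ⟨max (max M₁ M₂) 1, fun M hM => ?_⟩
  have hMa : M₁ ≤ M := le_trans (le_trans (le_max_left _ _) (le_max_left _ _)) hM
  have hMb : M₂ ≤ M := le_trans (le_trans (le_max_right _ _) (le_max_left _ _)) hM
  have hM1 : 1 ≤ M := le_trans (le_max_right _ _) hM
  have : NeZero M := ⟨by omega⟩
  have : NeZero N := ⟨by omega⟩
  have : NeZero N₁ := ⟨by omega⟩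
  have hMpos : (0 : ℝ) < M := by exact_mod_cast hM1
  have hN₁pos : (0 : ℝ) < N₁ := by exact_mod_cast hN₁1
  have hN₂pos : (0 : ℝ) < N₂ := lt_of_lt_of_le hN₁pos (by exact_mod_cast h12)
  have m1 : baZ c M N₁ n₁ ≤ baZ c M N n := bs110_mono c hc.le M hN₁1 o1 (by omega) (by omega)
  have m2 : baZ c M N n ≤ baZ c M N₂ n₂ := bs110_mono c hc.le M hN1 o4 (by omega) (by omega)
  have p1 := bs110_baZ_pos c hc.le M N₁ n₁ o3
  have p2 := bs110_baZ_pos c hc.le M N n o6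
  have l1 := Real.log_le_log p1 m1
  have l2 := Real.log_le_log p2 m2
  have e1 := (abs_le.1 (hM₁ M hMa)).1
  have e2 := (abs_le.1 (hM₂ M hMb)).2
  constructor
  · have : (N₁ : ℝ) * (φ - ε) ≤ Real.log (baZ c M N₁ n₁) / M := by
      have e3 : φ - ε ≤ Real.log (baZ c M N₁ n₁) / ((M : ℝ) * N₁) := by linarith
      have e4 : Real.log (baZ c M N₁ n₁) / M = N₁ * (Real.log (baZ c M N₁ n₁) / ((M : ℝ) * N₁)) := by
        field_simp
      rw [e4]; exact mul_le_mul_of_nonneg_left e3 hN₁pos.le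
    exact this.trans (div_le_div_of_nonneg_right l1 hMpos.le)
  · have : Real.log (baZ c M N₂ n₂) / M ≤ (N₂ : ℝ) * (φ + ε) := by
      have e3 : Real.log (baZ c M N₂ n₂) / ((M : ℝ) * N₂) ≤ φ + ε := by linarith
      have e4 : Real.log (baZ c M N₂ n₂) / M = N₂ * (Real.log (baZ c M N₂ n₂) / ((M : ℝ) * N₂)) := by
        field_simp
      rw [e4]; exact mul_le_mul_of_nonneg_left e3 hN₂pos.le
    exact (div_le_div_of_nonneg_right l2 hMpos.le).trans this

theorem bs110_FE_nonneg (c : ℝ) (hc : 0 < c) (d φ : ℝ) (hd1 : d < 1) (h : bs110_FE c d φ) : 0 ≤ φ := by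
  by_contra hφ
  rw [not_le] at hφ
  obtain ⟨N₀, hN₀⟩ := h (-φ / 2) (by linarith)
  obtain ⟨K, hK⟩ := exists_nat_ge (2 / (1 - d))
  have h1d : 0 < 1 - d := by linarith
  obtain ⟨n, hn, M₀, hM₀⟩ := hN₀ (max (max N₀ K) 1) (le_trans (le_max_left _ _) (le_max_left _ _))
  set N := max (max N₀ K) 1 with hN
  have hNK : K ≤ N := le_trans (le_max_right _ _) (le_max_left _ _)
  have hN1 : 1 ≤ N := le_max_right _ _
  have hKr : 2 ≤ (1 - d) * N := by
    have : (K : ℝ) ≤ N := by exact_mod_cast hNK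
    have h3 : 2 / (1 - d) ≤ N := hK.trans this
    rw [div_le_iff₀ h1d] at h3; linarith
  have o3 : n ≤ N := by
    have : (n : ℝ) ≤ N := by linarith [(abs_le.1 hn).2]
    exact_mod_cast this
  have hM := hM₀ (max M₀ 1) (le_max_left _ _)
  set M := max M₀ 1 with hMdef
  have hM1 : 1 ≤ M := le_max_right _ _
  have : NeZero M := ⟨by omega⟩
  have : NeZero N := ⟨by omega⟩
  have h1 := bs110_one_le_baZ c hc.le M N n o3
  have h2 : 0 ≤ Real.log (baZ c M N n) / ((M : ℝ) * N) := by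
    have := Real.log_nonneg h1
    positivity
  have := (abs_le.1 hM).2
  linarith

/-- the squeeze for the tori of height `2 l` -/
theorem bs110_squeeze (c : ℝ) (hc : 0 < c) (d φ : ℝ) (hd0 : 0 < d) (hd1 : d < 1) (h : bs110_FE c d φ)
    (θ₁ θ₂ C : ℝ) (hθ₁ : 0 < θ₁) (hθ : θ₁ ≤ θ₂) (hC : 0 ≤ C) (nn : ℕ → ℕ)
    (a1 : ∀ l : ℕ, d * (2 * l * θ₁ - C) ≤ nn l) (a2 : ∀ l : ℕ, (1 - d) * (2 * l * θ₁ - C) ≤ 2 * (l : ℝ) - nn l)
    (b1 : ∀ l : ℕ, (nn l : ℝ) ≤ d * (2 * l * θ₂ + C)) (b2 : ∀ l : ℕ, 2 * (l : ℝ) - nn l ≤ (1 - d) * (2 * l * θ₂ + C))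
    (η : ℝ) (hη : 0 < η) :
    ∃ l₀ : ℕ, ∀ l : ℕ, l₀ ≤ l → ∃ M₀ : ℕ, ∀ M : ℕ, M₀ ≤ M →
      θ₁ * φ - η ≤ Real.log (baZ c M (2 * l) (nn l)) / (2 * (l : ℝ) * (M : ℝ)) ∧
        Real.log (baZ c M (2 * l) (nn l)) / (2 * (l : ℝ) * (M : ℝ)) ≤ θ₂ * φ + η := by
  have hφ := bs110_FE_nonneg c hc d φ hd1 h
  have h1d : 0 < 1 - d := by linarith
  have hθ₂ : 0 < θ₂ := lt_of_lt_of_le hθ₁ hθ
  set C₂ : ℝ := C + 2 / d + 2 / (1 - d) + 1 with hC₂
  have hC₂pos : 0 < C₂ := by positivity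
  have hdC : d * C₂ ≥ d * C + 2 := by
    have e : d * C₂ = d * C + 2 + d * (2 / (1 - d)) + d := by rw [hC₂]; field_simp
    have : 0 ≤ d * (2 / (1 - d)) := by positivity
    linarith
  have hdC' : (1 - d) * C₂ ≥ (1 - d) * C + 2 := by
    have e : (1 - d) * C₂ = (1 - d) * C + 2 + (1 - d) * (2 / d) + (1 - d) := by rw [hC₂]; field_simp; ring
    have : 0 ≤ (1 - d) * (2 / d) := by positivity
    linarith
  set ε : ℝ := η / (2 * (θ₂ + 1)) with hεdef
  have hε : 0 < ε := by positivity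
  obtain ⟨N₀, hN₀⟩ := bs110_transfer c hc d φ hd1 h ε hε
  -- `l` large
  obtain ⟨l₁, hl₁⟩ := exists_nat_ge (((N₀ : ℝ) + C₂ + 1) / (2 * θ₁))
  obtain ⟨l₂, hl₂⟩ := exists_nat_ge ((C₂ + 1) * (φ + ε) / η)
  refine ⟨max (max l₁ l₂) 1, fun l hl => ?_⟩
  have hla : l₁ ≤ l := le_trans (le_trans (le_max_left _ _) (le_max_left _ _)) hl
  have hlb : l₂ ≤ l := le_trans (le_trans (le_max_right _ _) (le_max_left _ _)) hl
  have hl1 : 1 ≤ l := le_trans (le_max_right _ _) hl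
  have hlpos : (0 : ℝ) < l := by exact_mod_cast hl1
  have hA : (N₀ : ℝ) + C₂ + 1 ≤ 2 * l * θ₁ := by
    have : ((N₀ : ℝ) + C₂ + 1) / (2 * θ₁) ≤ l := hl₁.trans (by exact_mod_cast hla)
    rw [div_le_iff₀ (by positivity)] at this; linarith
  have hB : (C₂ + 1) * (φ + ε) ≤ l * η := by
    have : (C₂ + 1) * (φ + ε) / η ≤ l := hl₂.trans (by exact_mod_cast hlb)
    rwa [div_le_iff₀ hη] at this
  set N₁ : ℕ := ⌊2 * (l : ℝ) * θ₁ - C₂⌋₊ with hN₁
  set N₂ : ℕ := ⌈2 * (l : ℝ) * θ₂ + C₂⌉₊ with hN₂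
  have hx1 : 0 ≤ 2 * (l : ℝ) * θ₁ - C₂ := by
    have : (0 : ℝ) ≤ N₀ := Nat.cast_nonneg _
    linarith
  have f1 : (N₁ : ℝ) ≤ 2 * l * θ₁ - C₂ := Nat.floor_le hx1
  have f2 : 2 * (l : ℝ) * θ₁ - C₂ < N₁ + 1 := Nat.lt_floor_add_one _
  have g1 : 2 * (l : ℝ) * θ₂ + C₂ ≤ N₂ := Nat.le_ceil _
  have g2 : (N₂ : ℝ) < 2 * l * θ₂ + C₂ + 1 := Nat.ceil_lt_add_one (by positivity)
  have hN₁N₀ : N₀ ≤ N₁ := by
    have : (N₀ : ℝ) < N₁ + 1 := by linarith
    have : N₀ < N₁ + 1 := by exact_mod_cast this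
    omega
  have h12 : N₁ ≤ N₂ := by
    have : (N₁ : ℝ) ≤ N₂ := by
      have : 2 * (l : ℝ) * θ₁ ≤ 2 * l * θ₂ := by
        apply mul_le_mul_of_nonneg_left hθ; positivity
      linarith
    exact_mod_cast this
  have cast2l : ((2 * l : ℕ) : ℝ) = 2 * (l : ℝ) := by push_cast; ring
  have q1 : d * (N₁ : ℝ) + 2 ≤ nn l := by
    have := a1 l
    have h3 : d * (N₁ : ℝ) ≤ d * (2 * l * θ₁ - C₂) := mul_le_mul_of_nonneg_left f1 hd0.le
    have r1 : d * (2 * l * θ₁ - C₂) = d * (2 * l * θ₁) - d * C₂ := by ring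
    have r2 : d * (2 * l * θ₁ - C) = d * (2 * l * θ₁) - d * C := by ring
    linarith
  have q2 : (1 - d) * (N₁ : ℝ) + 2 ≤ ((2 * l : ℕ) : ℝ) - nn l := by
    rw [cast2l]
    have := a2 l
    have h3 : (1 - d) * (N₁ : ℝ) ≤ (1 - d) * (2 * l * θ₁ - C₂) := mul_le_mul_of_nonneg_left f1 h1d.le
    have r1 : (1 - d) * (2 * l * θ₁ - C₂) = (1 - d) * (2 * l * θ₁) - (1 - d) * C₂ := by ring
    have r2 : (1 - d) * (2 * l * θ₁ - C) = (1 - d) * (2 * l * θ₁) - (1 - d) * C := by ring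
    linarith
  have q3 : (nn l : ℝ) + 2 ≤ d * (N₂ : ℝ) := by
    have := b1 l
    have h3 : d * (2 * l * θ₂ + C₂) ≤ d * (N₂ : ℝ) := mul_le_mul_of_nonneg_left g1 hd0.le
    have r1 : d * (2 * l * θ₂ + C₂) = d * (2 * l * θ₂) + d * C₂ := by ring
    have r2 : d * (2 * l * θ₂ + C) = d * (2 * l * θ₂) + d * C := by ring
    linarith
  have q4 : ((2 * l : ℕ) : ℝ) - nn l + 2 ≤ (1 - d) * (N₂ : ℝ) := by
    rw [cast2l]
    have := b2 l
    have h3 : (1 - d) * (2 * l * θ₂ + C₂) ≤ (1 - d) * (N₂ : ℝ) := mul_le_mul_of_nonneg_left g1 h1d.le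
    have r1 : (1 - d) * (2 * l * θ₂ + C₂) = (1 - d) * (2 * l * θ₂) + (1 - d) * C₂ := by ring
    have r2 : (1 - d) * (2 * l * θ₂ + C) = (1 - d) * (2 * l * θ₂) + (1 - d) * C := by ring
    linarith
  obtain ⟨M₀, hM₀⟩ := hN₀ (2 * l) (nn l) N₁ N₂ hN₁N₀ q1 q2 q3 q4 h12
  refine ⟨max M₀ 1, fun M hM => ?_⟩
  obtain ⟨u1, u2⟩ := hM₀ M (le_trans (le_max_left _ _) hM)
  have hM1 : 1 ≤ M := le_trans (le_max_right _ _) hM
  have hMpos : (0 : ℝ) < M := by exact_mod_cast hM1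
  have eX : Real.log (baZ c M (2 * l) (nn l)) / (2 * (l : ℝ) * (M : ℝ)) =
      (Real.log (baZ c M (2 * l) (nn l)) / M) / (2 * l) := by
    field_simp
  rw [eX]
  generalize Real.log (baZ c M (2 * l) (nn l)) / M = X at u1 u2 ⊢
  have hεη : (θ₂ + 1) * ε = η / 2 := by rw [hεdef]; field_simp
  have hθε : θ₂ * ε ≤ η / 2 := by
    have : (θ₂ + 1) * ε = θ₂ * ε + ε := by ring
    linarith
  have k4 : 2 * (l : ℝ) * θ₂ * ε ≤ l * η := by
    calc 2 * (l : ℝ) * θ₂ * ε = 2 * l * (θ₂ * ε) := by ring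
      _ ≤ 2 * l * (η / 2) := mul_le_mul_of_nonneg_left hθε (by positivity)
      _ = l * η := by ring
  constructor
  · rw [le_div_iff₀ (by positivity)]
    refine le_trans ?_ u1
    have k1 : (2 * l * θ₁ - C₂ - 1) * φ ≤ (N₁ : ℝ) * φ := mul_le_mul_of_nonneg_right (by linarith) hφ
    have k2 : (N₁ : ℝ) * ε ≤ (2 * l * θ₂) * ε := by
      apply mul_le_mul_of_nonneg_right _ hε.le
      have : 2 * (l : ℝ) * θ₁ ≤ 2 * l * θ₂ := by
        apply mul_le_mul_of_nonneg_left hθ; positivity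
      linarith
    have k3 : (C₂ + 1) * φ ≤ l * η := by
      have : (C₂ + 1) * φ ≤ (C₂ + 1) * (φ + ε) := by
        apply mul_le_mul_of_nonneg_left _ (by positivity); linarith
      linarith
    have e1 : (N₁ : ℝ) * (φ - ε) = N₁ * φ - N₁ * ε := by ring
    have e2 : (2 * l * θ₁ - C₂ - 1) * φ = 2 * l * θ₁ * φ - (C₂ + 1) * φ := by ring
    have e3 : (θ₁ * φ - η) * (2 * l) = 2 * l * θ₁ * φ - 2 * (l * η) := by ring
    linarith
  · rw [div_le_iff₀ (by positivity)]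
    refine le_trans u2 ?_
    have k1 : (N₂ : ℝ) * (φ + ε) ≤ (2 * l * θ₂ + C₂ + 1) * (φ + ε) :=
      mul_le_mul_of_nonneg_right g2.le (by positivity)
    have e2 : (2 * l * θ₂ + C₂ + 1) * (φ + ε) = 2 * l * θ₂ * φ + 2 * l * θ₂ * ε + (C₂ + 1) * (φ + ε) := by ring
    have e3 : (θ₂ * φ + η) * (2 * l) = 2 * l * θ₂ * φ + 2 * (l * η) := by ring
    linarith

/-! ## 6. the reduction of `ba_stiffness` -/

/-- the tilted sector `(2 l, l - ⌊s l⌋)` has the free energy of the density `(1 - s) / 2` -/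
theorem bs110_tilted (c : ℝ) (hc : 0 < c) (s φ : ℝ) (hs0 : 0 < s) (hs1 : s < 1)
    (h : bs110_FE c ((1 - s) / 2) φ) (η : ℝ) (hη : 0 < η) :
    ∃ l₀ : ℕ, ∀ l : ℕ, l₀ ≤ l → ∃ M₀ : ℕ, ∀ M : ℕ, M₀ ≤ M →
      |Real.log (baZ c M (2 * l) (l - ⌊s * l⌋₊)) / (2 * (l : ℝ) * (M : ℝ)) - φ| ≤ η := by
  set d : ℝ := (1 - s) / 2 with hd
  have hd0 : 0 < d := by rw [hd]; linarith
  have hd1 : d < 1 := by rw [hd]; linarith
  have h1d : 0 < 1 - d := by linarith
  set C : ℝ := 1 / d + 1 / (1 - d) with hC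
  have hCpos : 0 ≤ C := by positivity
  have hdC : 1 ≤ d * C := by
    have e : d * C = 1 + d * (1 / (1 - d)) := by rw [hC]; field_simp
    have : 0 ≤ d * (1 / (1 - d)) := by positivity
    linarith
  have hdC' : 1 ≤ (1 - d) * C := by
    have e : (1 - d) * C = 1 + (1 - d) * (1 / d) := by rw [hC]; field_simp; ring
    have : 0 ≤ (1 - d) * (1 / d) := by positivity
    linarith
  have key : ∀ l : ℕ, (((l - ⌊s * l⌋₊ : ℕ) : ℝ) = l - (⌊s * (l : ℝ)⌋₊ : ℝ)) ∧
      (⌊s * (l : ℝ)⌋₊ : ℝ) ≤ s * l ∧ s * l < (⌊s * (l : ℝ)⌋₊ : ℝ) + 1 := by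
    intro l
    have hl : (0 : ℝ) ≤ l := Nat.cast_nonneg _
    have f1 : (⌊s * (l : ℝ)⌋₊ : ℝ) ≤ s * l := Nat.floor_le (by positivity)
    have f2 : s * l < (⌊s * (l : ℝ)⌋₊ : ℝ) + 1 := Nat.lt_floor_add_one _
    have f3 : ⌊s * (l : ℝ)⌋₊ ≤ l := by
      have : (⌊s * (l : ℝ)⌋₊ : ℝ) ≤ l := f1.trans (by nlinarith)
      exact_mod_cast this
    exact ⟨Nat.cast_sub f3, f1, f2⟩
  have e2d : 2 * d = 1 - s := by rw [hd]; ring
  obtain ⟨l₀, hl₀⟩ := bs110_squeeze c hc d φ hd0 hd1 h 1 1 C one_pos le_rfl hCpos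
    (fun l => l - ⌊s * (l : ℝ)⌋₊)
    (fun l => by
      obtain ⟨k1, k2, k3⟩ := key l
      rw [k1]
      have r : d * (2 * l * 1 - C) = (2 * d) * l - d * C := by ring
      rw [r, e2d]; nlinarith)
    (fun l => by
      obtain ⟨k1, k2, k3⟩ := key l
      rw [k1]
      have r : (1 - d) * (2 * l * 1 - C) = (2 - 2 * d) * l - (1 - d) * C := by ring
      rw [r, e2d]; nlinarith)
    (fun l => by
      obtain ⟨k1, k2, k3⟩ := key l
      rw [k1]
      have r : d * (2 * l * 1 + C) = (2 * d) * l + d * C := by ring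
      rw [r, e2d]; nlinarith)
    (fun l => by
      obtain ⟨k1, k2, k3⟩ := key l
      rw [k1]
      have r : (1 - d) * (2 * l * 1 + C) = (2 - 2 * d) * l + (1 - d) * C := by ring
      rw [r, e2d]; nlinarith)
    η hη
  refine ⟨l₀, fun l hl => ?_⟩
  obtain ⟨M₀, hM₀⟩ := hl₀ l hl
  refine ⟨M₀, fun M hM => ?_⟩
  obtain ⟨u1, u2⟩ := hM₀ M hM
  rw [abs_le]
  constructor <;> linarith

/-- the balanced sector `(2 l, l)`, caught between tilted ones -/
theorem bs110_balanced (c : ℝ) (hc : 0 < c) (s φ : ℝ) (hs0 : 0 < s) (hs1 : s ≤ 1 / 2)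
    (h : bs110_FE c ((1 - s) / 2) φ) (η : ℝ) (hη : 0 < η) :
    ∃ l₀ : ℕ, ∀ l : ℕ, l₀ ≤ l → ∃ M₀ : ℕ, ∀ M : ℕ, M₀ ≤ M →
      |Real.log (baZ c M (2 * l) l) / (2 * (l : ℝ) * (M : ℝ)) - φ| ≤ 2 * s * φ + η := by
  set d : ℝ := (1 - s) / 2 with hd
  have hd0 : 0 < d := by rw [hd]; linarith
  have hd1 : d < 1 := by rw [hd]; linarith
  have hφ := bs110_FE_nonneg c hc d φ hd1 h
  have p1 : 0 < 1 + s := by linarith
  have p2 : 0 < 1 - s := by linarith
  have t12 : 1 / (1 + s) ≤ 1 / (1 - s) := one_div_le_one_div_of_le p2 (by linarith)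
  have e1 : d * (2 * (1 / (1 + s))) ≤ 1 := by
    have : d * (2 * (1 / (1 + s))) = (1 - s) / (1 + s) := by rw [hd]; field_simp
    rw [this, div_le_one p1]; linarith
  have e2 : (1 - d) * (2 * (1 / (1 + s))) = 1 := by rw [hd]; field_simp; ring
  have e3 : d * (2 * (1 / (1 - s))) = 1 := by rw [hd]; field_simp
  have e4 : 1 ≤ (1 - d) * (2 * (1 / (1 - s))) := by
    have : (1 - d) * (2 * (1 / (1 - s))) = (1 + s) / (1 - s) := by rw [hd]; field_simp; ring
    rw [this, le_div_iff₀ p2]; linarith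
  obtain ⟨l₀, hl₀⟩ := bs110_squeeze c hc d φ hd0 hd1 h (1 / (1 + s)) (1 / (1 - s)) 0 (by positivity) t12 le_rfl
    (fun l => l)
    (fun l => by
      have hl : (0 : ℝ) ≤ l := Nat.cast_nonneg _
      have r : d * (2 * l * (1 / (1 + s)) - 0) = l * (d * (2 * (1 / (1 + s)))) := by ring
      rw [r]; nlinarith)
    (fun l => by
      have r : (1 - d) * (2 * l * (1 / (1 + s)) - 0) = l * ((1 - d) * (2 * (1 / (1 + s)))) := by ring
      rw [r, e2]; linarith)
    (fun l => by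
      have r : d * (2 * l * (1 / (1 - s)) + 0) = l * (d * (2 * (1 / (1 - s)))) := by ring
      rw [r, e3]; linarith)
    (fun l => by
      have hl : (0 : ℝ) ≤ l := Nat.cast_nonneg _
      have r : (1 - d) * (2 * l * (1 / (1 - s)) + 0) = l * ((1 - d) * (2 * (1 / (1 - s)))) := by ring
      rw [r]; nlinarith)
    η hη
  have g1 : 1 - s ≤ 1 / (1 + s) := by
    rw [le_div_iff₀ p1]; nlinarith
  have g2 : 1 / (1 - s) ≤ 1 + 2 * s := by
    rw [div_le_iff₀ p2]; nlinarith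
  refine ⟨l₀, fun l hl => ?_⟩
  obtain ⟨M₀, hM₀⟩ := hl₀ l hl
  refine ⟨M₀, fun M hM => ?_⟩
  obtain ⟨u1, u2⟩ := hM₀ M hM
  have v1 : (1 - s) * φ ≤ 1 / (1 + s) * φ := mul_le_mul_of_nonneg_right g1 hφ
  have v2 : 1 / (1 - s) * φ ≤ (1 + 2 * s) * φ := mul_le_mul_of_nonneg_right g2 hφ
  have v3 : 0 ≤ s * φ := by positivity
  rw [abs_le]
  constructor <;> nlinarith

/-- the balanced free energy is the limit of the tilted ones -/
theorem bs110_balanced_limit (c : ℝ) (hc : 0 < c) (A φh d₀ : ℝ) (φ : ℝ → ℝ) (hd₀' : d₀ < 1 / 2)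
    (hBA : ∀ d, d₀ < d → d < 1 / 2 → bs110_FE c d (φ d))
    (hC : ∀ ε : ℝ, 0 < ε → ∃ δ : ℝ, 0 < δ ∧ ∀ d, 1 / 2 - δ < d → d < 1 / 2 →
      |φh - φ d - 2 * A * (1 / 2 - d) ^ 2| ≤ ε * (1 / 2 - d) ^ 2) (η : ℝ) (hη : 0 < η) :
    ∃ l₀ : ℕ, ∀ l : ℕ, l₀ ≤ l → ∃ M₀ : ℕ, ∀ M : ℕ, M₀ ≤ M →
      |Real.log (baZ c M (2 * l) l) / (2 * (l : ℝ) * (M : ℝ)) - φh| ≤ η := by
  obtain ⟨δ, hδ, hδ'⟩ := hC 1 one_pos
  set B : ℝ := 2 * |A| + 1 with hB
  have hBpos : 0 < B := by positivity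
  set G : ℝ := |φh| + B with hG
  have hGpos : 0 < G := by positivity
  set s : ℝ := min (min δ ((1 - 2 * d₀) / 2)) (min (1 / 2) (η / (8 * G))) with hs
  have hs0 : 0 < s := by
    refine lt_min (lt_min hδ (by linarith)) (lt_min (by norm_num) (by positivity))
  have hsδ : s ≤ δ := le_trans (min_le_left _ _) (min_le_left _ _)
  have hsd : s ≤ (1 - 2 * d₀) / 2 := le_trans (min_le_left _ _) (min_le_right _ _)
  have hs12 : s ≤ 1 / 2 := le_trans (min_le_right _ _) (min_le_left _ _)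
  have hsη : s ≤ η / (8 * G) := le_trans (min_le_right _ _) (min_le_right _ _)
  have hsG : s * G ≤ η / 8 := by
    rw [le_div_iff₀ (by positivity)] at hsη; linarith
  have hd1 : d₀ < (1 - s) / 2 := by linarith
  have hd2 : (1 - s) / 2 < 1 / 2 := by linarith
  have hclose := hδ' ((1 - s) / 2) (by linarith) hd2
  have e12 : 1 / 2 - (1 - s) / 2 = s / 2 := by ring
  rw [e12] at hclose
  -- `|φh - φ'| ≤ B s² / 4 ≤ η / 8`
  have hss : s ^ 2 ≤ s := by nlinarith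
  have hdiff : |φh - φ ((1 - s) / 2)| ≤ B * s := by
    have t1 : |φh - φ ((1 - s) / 2)| ≤ |φh - φ ((1 - s) / 2) - 2 * A * (s / 2) ^ 2| + |2 * A * (s / 2) ^ 2| := by
      have := abs_add_le (φh - φ ((1 - s) / 2) - 2 * A * (s / 2) ^ 2) (2 * A * (s / 2) ^ 2)
      simpa using this
    have t2 : |2 * A * (s / 2) ^ 2| = 2 * |A| * (s / 2) ^ 2 := by
      rw [abs_mul, abs_mul, abs_of_pos (by norm_num : (0 : ℝ) < 2), abs_of_nonneg (by positivity : (0 : ℝ) ≤ (s / 2) ^ 2)]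
    have t3 : (s / 2) ^ 2 ≤ s := by nlinarith
    have t4 : 0 ≤ |A| := abs_nonneg _
    rw [t2] at t1
    have t5 : 2 * |A| * (s / 2) ^ 2 ≤ 2 * |A| * s := mul_le_mul_of_nonneg_left t3 (by positivity)
    rw [hB]; nlinarith
  have hBs : B * s ≤ η / 8 := by
    have : B ≤ G := by rw [hG]; linarith [abs_nonneg φh]
    nlinarith
  have hφ'G : |φ ((1 - s) / 2)| ≤ G := by
    have t1 : |φ ((1 - s) / 2)| ≤ |φh| + |φh - φ ((1 - s) / 2)| := by
      have := abs_sub_abs_le_abs_sub (φ ((1 - s) / 2)) φh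
      rw [abs_sub_comm] at this; linarith
    have : B * s ≤ B := by nlinarith
    rw [hG]; linarith
  obtain ⟨l₀, hl₀⟩ := bs110_balanced c hc s (φ ((1 - s) / 2)) hs0 hs12 (hBA _ hd1 hd2) (η / 4) (by positivity)
  refine ⟨l₀, fun l hl => ?_⟩
  obtain ⟨M₀, hM₀⟩ := hl₀ l hl
  refine ⟨M₀, fun M hM => ?_⟩
  have u := hM₀ M hM
  have w1 : 2 * s * φ ((1 - s) / 2) ≤ η / 4 := by
    have : φ ((1 - s) / 2) ≤ G := (le_abs_self _).trans hφ'G
    nlinarith
  generalize Real.log (baZ c M (2 * l) l) / (2 * (l : ℝ) * (M : ℝ)) = X at u ⊢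
  have t : |X - φh| ≤ |X - φ ((1 - s) / 2)| + |φh - φ ((1 - s) / 2)| := by
    have := abs_sub_le X (φ ((1 - s) / 2)) φh
    rw [abs_sub_comm (φ ((1 - s) / 2)) φh] at this; exact this
  linarith

/-- **REDUCTION (A3).**  (BA⋆) at the regular densities `d ∈ (d₀, 1/2)` and the second order expansion of the limit at `1/2`
give the statement of `ba_stiffness`: no Bethe ansatz at half filling, no parity, no floors. -/
theorem bs110_stiffness_of (c : ℝ) (hc : 0 < c) (A φh d₀ : ℝ) (φ : ℝ → ℝ) (hd₀' : d₀ < 1 / 2)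
    (hBA : ∀ d, d₀ < d → d < 1 / 2 → bs110_FE c d (φ d))
    (hC : ∀ ε : ℝ, 0 < ε → ∃ δ : ℝ, 0 < δ ∧ ∀ d, 1 / 2 - δ < d → d < 1 / 2 →
      |φh - φ d - 2 * A * (1 / 2 - d) ^ 2| ≤ ε * (1 / 2 - d) ^ 2) :
    ∀ ε : ℝ, 0 < ε → ∃ s₀ : ℝ, 0 < s₀ ∧ ∀ s : ℝ, 0 < s → s < s₀ →
      ∃ l₀ : ℕ, ∀ l : ℕ, l₀ ≤ l → ∃ M₀ : ℕ, ∀ M : ℕ, M₀ ≤ M →
        |(Real.log (baZ c M (2 * l) (l - ⌊s * l⌋₊)) - Real.log (baZ c M (2 * l) l)) /
              (2 * (l : ℝ) * (M : ℝ)) + A * s ^ 2 / 2| ≤ ε * s ^ 2 := by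
  intro ε hε
  obtain ⟨δ, hδ, hδ'⟩ := hC ε hε
  refine ⟨min (min (2 * δ) (1 - 2 * d₀)) 1, lt_min (lt_min (by linarith) (by linarith)) one_pos, fun s hs0 hs => ?_⟩
  have hsδ : s < 2 * δ := lt_of_lt_of_le hs (le_trans (min_le_left _ _) (min_le_left _ _))
  have hsd : s < 1 - 2 * d₀ := lt_of_lt_of_le hs (le_trans (min_le_left _ _) (min_le_right _ _))
  have hs1 : s < 1 := lt_of_lt_of_le hs (min_le_right _ _)
  have hd1 : d₀ < (1 - s) / 2 := by linarith
  have hd2 : (1 - s) / 2 < 1 / 2 := by linarith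
  have hclose := hδ' ((1 - s) / 2) (by linarith) hd2
  have e12 : 1 / 2 - (1 - s) / 2 = s / 2 := by ring
  rw [e12] at hclose
  have hη : 0 < ε * s ^ 2 / 4 := by positivity
  obtain ⟨l₁, hl₁⟩ := bs110_tilted c hc s (φ ((1 - s) / 2)) hs0 hs1 (hBA _ hd1 hd2) _ hη
  obtain ⟨l₂, hl₂⟩ := bs110_balanced_limit c hc A φh d₀ φ hd₀' hBA hC _ hη
  refine ⟨max l₁ l₂, fun l hl => ?_⟩
  obtain ⟨M₁, hM₁⟩ := hl₁ l (le_trans (le_max_left _ _) hl)
  obtain ⟨M₂, hM₂⟩ := hl₂ l (le_trans (le_max_right _ _) hl)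
  refine ⟨max M₁ M₂, fun M hM => ?_⟩
  have u1 := hM₁ M (le_trans (le_max_left _ _) hM)
  have u2 := hM₂ M (le_trans (le_max_right _ _) hM)
  rw [sub_div]
  generalize Real.log (baZ c M (2 * l) (l - ⌊s * l⌋₊)) / (2 * (l : ℝ) * (M : ℝ)) = X at u1 ⊢
  generalize Real.log (baZ c M (2 * l) l) / (2 * (l : ℝ) * (M : ℝ)) = Y at u2 ⊢
  generalize φ ((1 - s) / 2) = p at u1 hclose
  rw [abs_le] at u1 u2 hclose ⊢
  have e : 2 * A * (s / 2) ^ 2 = A * s ^ 2 / 2 := by ring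
  have e' : ε * (s / 2) ^ 2 = ε * s ^ 2 / 4 := by ring
  rw [e, e'] at hclose
  constructor <;> linarith [u1.1, u1.2, u2.1, u2.2, hclose.1, hclose.2]

/-! ## 7. the endpoint `c₀` (for `c₀ = 2`) from `c < c₀` -/

/-- **(A4, soft half).**  (BA⋆) passes to the limit `c ↑ c₀`, by the uniform Lipschitz bound in `log c`. -/
theorem bs110_FE_limit (c₀ d φ₀ : ℝ) (hd1 : d < 1) (Φ : ℝ → ℝ)
    (hΦ : ∀ ε : ℝ, 0 < ε → ∃ c : ℝ, 0 < c ∧ c ≤ c₀ ∧ Real.log c₀ - Real.log c ≤ ε ∧ |Φ c - φ₀| ≤ ε ∧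
      bs110_FE c d (Φ c)) : bs110_FE c₀ d φ₀ := by
  intro ε hε
  obtain ⟨c, hc, hcc, hlog, hΦc, hFE⟩ := hΦ (ε / 3) (by positivity)
  obtain ⟨N₀, hN₀⟩ := hFE (ε / 3) (by positivity)
  obtain ⟨K, hK⟩ := exists_nat_ge (2 / (1 - d))
  have h1d : 0 < 1 - d := by linarith
  refine ⟨max (max N₀ K) 1, fun N hN => ?_⟩
  have hNa : N₀ ≤ N := le_trans (le_trans (le_max_left _ _) (le_max_left _ _)) hN
  have hNK : K ≤ N := le_trans (le_trans (le_max_right _ _) (le_max_left _ _)) hN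
  have hN1 : 1 ≤ N := le_trans (le_max_right _ _) hN
  obtain ⟨n, hn, M₀, hM₀⟩ := hN₀ N hNa
  have hKr : 2 ≤ (1 - d) * N := by
    have : (K : ℝ) ≤ N := by exact_mod_cast hNK
    have h3 : 2 / (1 - d) ≤ N := hK.trans this
    rw [div_le_iff₀ h1d] at h3; linarith
  have o3 : n ≤ N := by
    have : (n : ℝ) ≤ N := by linarith [(abs_le.1 hn).2]
    exact_mod_cast this
  refine ⟨n, hn, max M₀ 1, fun M hM => ?_⟩
  have u := hM₀ M (le_trans (le_max_left _ _) hM)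
  have hM1 : 1 ≤ M := le_trans (le_max_right _ _) hM
  have : NeZero M := ⟨by omega⟩
  have : NeZero N := ⟨by omega⟩
  have hMN : (0 : ℝ) < (M : ℝ) * N := by
    have h1 : (0 : ℝ) < M := by exact_mod_cast hM1
    have h2 : (0 : ℝ) < N := by exact_mod_cast hN1
    positivity
  have L := bs110_log_baZ_lipschitz hc hcc M N n o3
  have L' : |Real.log (baZ c₀ M N n) / ((M : ℝ) * N) - Real.log (baZ c M N n) / ((M : ℝ) * N)| ≤ ε / 3 := by
    rw [← sub_div, abs_div, abs_of_pos hMN, div_le_iff₀ hMN]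
    refine L.trans ?_
    push_cast
    have : ((M : ℝ) * N) * (Real.log c₀ - Real.log c) ≤ ((M : ℝ) * N) * (ε / 3) :=
      mul_le_mul_of_nonneg_left hlog hMN.le
    linarith
  generalize Real.log (baZ c₀ M N n) / ((M : ℝ) * N) = X at L' ⊢
  generalize Real.log (baZ c M N n) / ((M : ℝ) * N) = Y at L' u
  rw [abs_le] at L' u hΦc ⊢
  constructor <;> linarith [L'.1, L'.2, u.1, u.2, hΦc.1, hΦc.2]

end Claimed.Agent.R292
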