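import Claimed.Agent.R292.Bethe.Ins260
import Claimed.Agent.R292.Bethe.Soft110

/-!
# Row 292, unit BETHE, leaf A4 : THE END POINT `c = 2` FROM `c < 2`      (helper10; prefix `a4x10`)

Text: `origin/helper110:notes/R292/BETHE_WALL_110.md`, Part A (d).  No Bethe ansatz at `c = 2`.

Abstract in `G c M N n = log Z_c (M, N, n)`; only three soft facts are used:
insertion monotonicity (`Ins260Mono`, leaf A1), `G ≥ 0`, and the Lipschitz bound in `log c` (`A4x10Lip`, leaf A2).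

* `a4x10_phi_lip`   : the regular-filling limits `Φ c ρ` are Lipschitz in `log c`;
* `a4x10_reg_end`   : if the regular-filling limit (`Ins260Reg`, even sectors) holds for all `c ∈ (c₀, c₁)`, it holds at `c₁`, with
                      `Φ₁ ρ = lim_{c ↑ c₁} Φ c ρ` and `|Φ c ρ - Φ₁ ρ| ≤ log c₁ - log c`  (exchange of limits);
* `a4x10_order`     : `Φ ρ ≤ max ((1-ρ)/(1-ρ')) (ρ/ρ') * Φ ρ'`: equicontinuity in the filling, with NO constant depending on `c`;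
* `a4x10_ident`     : identification of `Φ₁`: if `Φ c (D c) = E c`, `D c → d`, `E c → e` as `c ↑ c₁`, then `Φ₁ d = e`
                      (so only the CONTINUUM functionals `D_c (Q)`, `E_c (Q)` have to be followed to `λ = 0`, leaf C5);
* `a4x10_svZN_two`, `a4x10_svStiff_two` : the same for the frozen partition functions, `c₁ = 2`;
* `a4x10_hub_two`   : THE ADAPTER TO THE HUB: the first six conjuncts of `ba_thermo` for `c ∈ (c₀, 2)` (explicit families `Dq c`, `Eq c`,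
                      `Einf c`, any parametrisation `Q`), `Einf c - Eq c Q → 0` (`Q → ∞`), C5 pointwise in `Q`
                      (`Dq c Q → D₂ Q`, `Einf c - Eq c Q → dE₂ Q` as `c ↑ 2`), and at `λ = 0`: `D₂` continuous, `< 1/2`, `→ 1/2`,
                      `dE₂ / (1/2 - D₂)² → 2 A`.  Conclusion `SvStiff 2 A`.  The convergence of `Einf c` is NOT a hypothesis
                      (it is Lipschitz in `log c`, softly), nor is any monotonicity at `λ = 0`.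

v2: everything for fillings `ρ ∈ (ρ₀, 1/2)` only (`Ins260RegOn ρ₀` of `Ins260.lean` v2; `Ins260Reg = Ins260RegOn 0` by `Iff.rfl`).
-/

set_option autoImplicit false

namespace Claimed.Agent.R292

open Filter Topology

section abstract

/-- an even sector of filling close to `ρ`, on a torus as high as we like -/
theorem a4x10_exists_pair {ρ δ : ℝ} (hρ0 : 0 < ρ) (hρ1 : ρ < 1 / 2) (hδ : 0 < δ) (N₀ : ℕ) :
    ∃ N n : ℕ, N₀ ≤ N ∧ 0 < N ∧ Even n ∧ n ≤ N ∧ |(n : ℝ) / N - ρ| ≤ δ := by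
  obtain ⟨K, hK⟩ := exists_nat_gt (2 / δ)
  set N : ℕ := N₀ + K + 1 with hN
  have hNpos : 0 < N := by omega
  have hN' : (0 : ℝ) < N := by exact_mod_cast hNpos
  set m : ℕ := ⌊ρ * N / 2⌋₊ with hm
  have h1 : (m : ℝ) ≤ ρ * N / 2 := Nat.floor_le (by positivity)
  have h2 : ρ * N / 2 < m + 1 := Nat.lt_floor_add_one _
  have hKN : (K : ℝ) ≤ N := by exact_mod_cast (by omega : K ≤ N)
  have h3 : 2 / δ < N := lt_of_lt_of_le hK hKN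
  have h4 : 2 ≤ δ * N := by
    rw [div_lt_iff₀ hδ] at h3
    linarith
  refine ⟨N, 2 * m, by omega, hNpos, even_two_mul m, ?_, ?_⟩
  · have : ((2 * m : ℕ) : ℝ) ≤ N := by
      push_cast
      nlinarith
    exact_mod_cast this
  · have e : ((2 * m : ℕ) : ℝ) / N - ρ = (2 * (m : ℝ) - ρ * N) / N := by
      push_cast
      field_simp
    rw [e, abs_le]
    constructor
    · rw [le_div_iff₀ hN']
      linarith
    · rw [div_le_iff₀ hN']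
      linarith

/-- leaf A2: `log Z` is Lipschitz in `log c`, with constant the number of vertices -/
def A4x10Lip (G : ℝ → ℕ → ℕ → ℕ → ℝ) (c₀ c₁ : ℝ) : Prop :=
  ∀ c c' : ℝ, c₀ < c → c ≤ c' → c' ≤ c₁ → ∀ M N n : ℕ, 0 < M → 0 < N → n ≤ N →
    |G c' M N n - G c M N n| ≤ ((N : ℝ) * M) * (Real.log c' - Real.log c)

variable {G : ℝ → ℕ → ℕ → ℕ → ℝ} {c₀ c₁ : ℝ}

theorem a4x10_lip_div (hL : A4x10Lip G c₀ c₁) {c c' : ℝ} (h0 : c₀ < c) (h : c ≤ c') (h1 : c' ≤ c₁)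
    {M N n : ℕ} (hM : 0 < M) (hN : 0 < N) (hn : n ≤ N) :
    |G c' M N n / ((N : ℝ) * M) - G c M N n / ((N : ℝ) * M)| ≤ Real.log c' - Real.log c := by
  have hM' : (0 : ℝ) < M := by exact_mod_cast hM
  have hN' : (0 : ℝ) < N := by exact_mod_cast hN
  have hp : (0 : ℝ) < (N : ℝ) * M := by positivity
  rw [← sub_div, abs_div, abs_of_pos hp, div_le_iff₀ hp]
  have := hL c c' h0 h h1 M N n hM hN hn
  linarith

/-- the limits are Lipschitz in `log c` -/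
theorem a4x10_phi_lip (hL : A4x10Lip G c₀ c₁) {c c' : ℝ} (h0 : c₀ < c) (h : c ≤ c') (h1 : c' ≤ c₁)
    {ρ₀ : ℝ} (hρ₀ : 0 ≤ ρ₀)
    {φ φ' : ℝ → ℝ} (hR : Ins260RegOn ρ₀ (G c) φ Even) (hR' : Ins260RegOn ρ₀ (G c') φ' Even)
    {ρ : ℝ} (hρ0 : ρ₀ < ρ) (hρ1 : ρ < 1 / 2) :
    |φ' ρ - φ ρ| ≤ Real.log c' - Real.log c := by
  refine le_of_forall_pos_le_add fun ε hε => ?_
  obtain ⟨δ, hδ, N₀, H⟩ := hR ρ hρ0 hρ1 (ε / 2) (by positivity)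
  obtain ⟨δ', hδ', N₀', H'⟩ := hR' ρ hρ0 hρ1 (ε / 2) (by positivity)
  obtain ⟨N, n, hN, hNpos, hev, hnN, hn⟩ :=
    a4x10_exists_pair (lt_of_le_of_lt hρ₀ hρ0) hρ1 (lt_min hδ hδ') (max N₀ N₀')
  obtain ⟨M, hM1, hM2, hM0⟩ := ((H N n ((le_max_left _ _).trans hN) hev (hn.trans (min_le_left _ _))).and
    ((H' N n ((le_max_right _ _).trans hN) hev (hn.trans (min_le_right _ _))).and
      (eventually_gt_atTop 0))).exists
  have h3 := a4x10_lip_div hL h0 h h1 hM0 hNpos hnN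
  have e : φ' ρ - φ ρ = -(G c' M N n / ((N : ℝ) * M) - φ' ρ) + (G c M N n / ((N : ℝ) * M) - φ ρ)
      + (G c' M N n / ((N : ℝ) * M) - G c M N n / ((N : ℝ) * M)) := by ring
  rw [e]
  have t1 := abs_add_le (-(G c' M N n / ((N : ℝ) * M) - φ' ρ) + (G c M N n / ((N : ℝ) * M) - φ ρ))
    (G c' M N n / ((N : ℝ) * M) - G c M N n / ((N : ℝ) * M))
  have t2 := abs_add_le (-(G c' M N n / ((N : ℝ) * M) - φ' ρ)) (G c M N n / ((N : ℝ) * M) - φ ρ)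
  rw [abs_neg] at t2
  linarith

/-- a function on `(c₀, c₁)` that is Lipschitz in `log c` has a limit at `c₁`, with the same bound -/
theorem a4x10_exists_limit (hc₀ : 0 < c₀) (hc : c₀ < c₁) {f : ℝ → ℝ}
    (hf : ∀ c c' : ℝ, c₀ < c → c ≤ c' → c' < c₁ → |f c' - f c| ≤ Real.log c' - Real.log c) :
    ∃ ℓ : ℝ, ∀ c : ℝ, c₀ < c → c < c₁ → |f c - ℓ| ≤ Real.log c₁ - Real.log c := by
  set S : Set ℝ := (fun c => f c + Real.log c) '' Set.Ioo c₀ c₁ with hS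
  have hlog : ∀ c c' : ℝ, c₀ < c → c ≤ c' → Real.log c ≤ Real.log c' := fun c c' h0 h =>
    Real.log_le_log (hc₀.trans h0) h
  -- the key bound
  have key : ∀ c c' : ℝ, c₀ < c → c < c₁ → c₀ < c' → c' < c₁ →
      f c' + Real.log c' ≤ f c + 2 * Real.log c₁ - Real.log c := by
    intro c c' h0 h1 h0' h1'
    rcases le_total c c' with h | h
    · have a := (abs_le.1 (hf c c' h0 h h1')).2
      have b := hlog c' c₁ h0' h1'.le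
      linarith
    · have a := (abs_le.1 (hf c' c h0' h h1)).1
      have b := hlog c c₁ h0 h1.le
      linarith
  have hmid : (c₀ + c₁) / 2 ∈ Set.Ioo c₀ c₁ := ⟨by linarith, by linarith⟩
  have hne : S.Nonempty := ⟨_, ⟨_, hmid, rfl⟩⟩
  have hbdd : BddAbove S := by
    refine ⟨f ((c₀ + c₁) / 2) + 2 * Real.log c₁ - Real.log ((c₀ + c₁) / 2), ?_⟩
    rintro _ ⟨c', hc', rfl⟩
    exact key _ c' hmid.1 hmid.2 hc'.1 hc'.2
  refine ⟨sSup S - Real.log c₁, fun c h0 h1 => ?_⟩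
  have u1 : f c + Real.log c ≤ sSup S := le_csSup hbdd ⟨c, ⟨h0, h1⟩, rfl⟩
  have u2 : sSup S ≤ f c + 2 * Real.log c₁ - Real.log c := by
    refine csSup_le hne ?_
    rintro _ ⟨c', hc', rfl⟩
    exact key c c' h0 h1 hc'.1 hc'.2
  rw [abs_le]
  constructor <;> linarith

/-- some `c ∈ (c₀, c₁)` with `log c₁ - log c ≤ ε` -/
theorem a4x10_exists_close (hc₀ : 0 < c₀) (hc : c₀ < c₁) {ε : ℝ} (hε : 0 < ε) :
    ∃ c : ℝ, c₀ < c ∧ c < c₁ ∧ Real.log c₁ - Real.log c ≤ ε := by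
  have hc₁ : 0 < c₁ := hc₀.trans hc
  have hexp : Real.exp (-ε) < 1 := by
    rw [Real.exp_lt_one_iff]
    linarith
  refine ⟨max ((c₀ + c₁) / 2) (c₁ * Real.exp (-ε)), lt_of_lt_of_le (by linarith) (le_max_left _ _),
    max_lt (by linarith) (by nlinarith), ?_⟩
  have h1 : Real.log (c₁ * Real.exp (-ε)) ≤ Real.log (max ((c₀ + c₁) / 2) (c₁ * Real.exp (-ε))) :=
    Real.log_le_log (by positivity) (le_max_right _ _)
  rw [Real.log_mul hc₁.ne' (Real.exp_pos _).ne', Real.log_exp] at h1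
  linarith

/-- **Exchange of limits.**  The regular-filling limit at the end point `c₁`. -/
theorem a4x10_reg_end (hc₀ : 0 < c₀) (hc : c₀ < c₁) (hL : A4x10Lip G c₀ c₁) {ρ₀ : ℝ} (hρ₀ : 0 ≤ ρ₀)
    {Φ : ℝ → ℝ → ℝ} (hR : ∀ c : ℝ, c₀ < c → c < c₁ → Ins260RegOn ρ₀ (G c) (Φ c) Even) :
    ∃ Φ₁ : ℝ → ℝ, Ins260RegOn ρ₀ (G c₁) Φ₁ Even ∧
      ∀ c : ℝ, c₀ < c → c < c₁ → ∀ ρ : ℝ, ρ₀ < ρ → ρ < 1 / 2 →
        |Φ c ρ - Φ₁ ρ| ≤ Real.log c₁ - Real.log c := by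
  have hex : ∀ ρ : ℝ, ∃ ℓ : ℝ, ρ₀ < ρ → ρ < 1 / 2 → ∀ c : ℝ, c₀ < c → c < c₁ →
      |Φ c ρ - ℓ| ≤ Real.log c₁ - Real.log c := by
    intro ρ
    by_cases hρ : ρ₀ < ρ ∧ ρ < 1 / 2
    · obtain ⟨ℓ, hℓ⟩ := a4x10_exists_limit (f := fun c => Φ c ρ) hc₀ hc (fun c c' h0 h h1 =>
        a4x10_phi_lip hL h0 h h1.le hρ₀ (hR c h0 (lt_of_le_of_lt h h1))
          (hR c' (lt_of_lt_of_le h0 h) h1) hρ.1 hρ.2)
      exact ⟨ℓ, fun _ _ => hℓ⟩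
    · exact ⟨0, fun h0 h1 => absurd ⟨h0, h1⟩ hρ⟩
  choose Φ₁ hΦ₁ using hex
  refine ⟨Φ₁, ?_, fun c h0 h1 ρ hρ0 hρ1 => hΦ₁ ρ hρ0 hρ1 c h0 h1⟩
  intro ρ hρ0 hρ1 ε hε
  obtain ⟨c, h0, h1, hcl⟩ := a4x10_exists_close hc₀ hc (by positivity : 0 < ε / 3)
  obtain ⟨δ, hδ, N₀, H⟩ := hR c h0 h1 ρ hρ0 hρ1 (ε / 3) (by positivity)
  refine ⟨min δ (1 / 4), by positivity, N₀ + 1, ?_⟩
  intro N n hN hev hn
  have hNpos : 0 < N := by omega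
  have hN' : (0 : ℝ) < N := by exact_mod_cast hNpos
  have hn4 : |(n : ℝ) / N - ρ| ≤ 1 / 4 := hn.trans (min_le_right _ _)
  have hnN : n ≤ N := by
    have a1 : (n : ℝ) / N ≤ 1 := by have := (abs_le.1 hn4).2; linarith
    have a2 : (n : ℝ) ≤ N := by rwa [div_le_one hN'] at a1
    exact_mod_cast a2
  filter_upwards [H N n (by omega) hev (hn.trans (min_le_left _ _)), eventually_gt_atTop 0]
    with M hM hM0
  have h3 := a4x10_lip_div hL h0 h1.le le_rfl hM0 hNpos hnN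
  have h4 := hΦ₁ ρ hρ0 hρ1 c h0 h1
  have e : G c₁ M N n / ((N : ℝ) * M) - Φ₁ ρ =
      (G c₁ M N n / ((N : ℝ) * M) - G c M N n / ((N : ℝ) * M)) + (G c M N n / ((N : ℝ) * M) - Φ c ρ)
        + (Φ c ρ - Φ₁ ρ) := by ring
  rw [e]
  have t1 := abs_add_le ((G c₁ M N n / ((N : ℝ) * M) - G c M N n / ((N : ℝ) * M)) +
    (G c M N n / ((N : ℝ) * M) - Φ c ρ)) (Φ c ρ - Φ₁ ρ)
  have t2 := abs_add_le (G c₁ M N n / ((N : ℝ) * M) - G c M N n / ((N : ℝ) * M))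
    (G c M N n / ((N : ℝ) * M) - Φ c ρ)
  linarith

end abstract

section order

variable {H : ℕ → ℕ → ℕ → ℝ}

/-- the limit of a nonnegative quantity is nonnegative -/
theorem a4x10_phi_nonneg (hP : ∀ M N n : ℕ, 0 < M → 0 < N → n ≤ N → 0 ≤ H M N n) {φ : ℝ → ℝ}
    {ρ₀ : ℝ} (hρ₀ : 0 ≤ ρ₀)
    (hR : Ins260RegOn ρ₀ H φ Even) {ρ : ℝ} (hρ0 : ρ₀ < ρ) (hρ1 : ρ < 1 / 2) : 0 ≤ φ ρ := by
  refine le_of_forall_pos_le_add fun ε hε => ?_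
  obtain ⟨δ, hδ, N₀, A⟩ := hR ρ hρ0 hρ1 ε hε
  obtain ⟨N, n, hN, hNpos, hev, hnN, hn⟩ := a4x10_exists_pair (lt_of_le_of_lt hρ₀ hρ0) hρ1 hδ N₀
  obtain ⟨M, hM1, hM0⟩ := ((A N n hN hev hn).and (eventually_gt_atTop 0)).exists
  have h1 : 0 ≤ H M N n / ((N : ℝ) * M) := div_nonneg (hP M N n hM0 hNpos hnN) (by positivity)
  have h2 := (abs_le.1 hM1).2
  linarith

theorem a4x10_div_close {a b r : ℝ} {K : ℕ} (hK : 0 < K) (hb : (K : ℝ) ≤ b) (h : |a - r * b| ≤ 2) :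
    |a / b - r| ≤ 2 / K := by
  have hK' : (0 : ℝ) < K := by exact_mod_cast hK
  have hb' : 0 < b := lt_of_lt_of_le hK' hb
  have e : a / b - r = (a - r * b) / b := by field_simp
  rw [e, abs_div, abs_of_pos hb']
  exact div_le_div₀ (by norm_num) h hK' hb

/-- core of the comparison of two fillings -/
theorem a4x10_order_core (hP : ∀ M N n : ℕ, 0 < M → 0 < N → n ≤ N → 0 ≤ H M N n) {φ : ℝ → ℝ}
    {ρ₀ : ℝ} (hR : Ins260RegOn ρ₀ H φ (fun _ => True))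
    {ρ ρ' θ : ℝ} (hρ0 : ρ₀ < ρ) (hρ1 : ρ < 1 / 2) (hρ0' : ρ₀ < ρ') (hρ1' : ρ' < 1 / 2) (hθ : 1 ≤ θ)
    (hseq : ∀ K : ℕ, 0 < K → ∃ N n N' n' : ℕ, K ≤ N ∧ N ≤ N' ∧ n' ≤ N' ∧
      (∀ M : ℕ, 0 < M → H M N n ≤ H M N' n') ∧
      |(n : ℝ) / N - ρ| ≤ 2 / K ∧ |(n' : ℝ) / N' - ρ'| ≤ 2 / K ∧ (N' : ℝ) / N ≤ θ + 2 / K) :
    φ ρ ≤ θ * φ ρ' := by
  refine le_of_forall_pos_le_add fun η hη => ?_
  set B : ℝ := θ + |φ ρ'| + 2 with hB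
  have hBpos : 0 < B := by positivity
  set ε : ℝ := min 1 (η / B) with hε
  have hεpos : 0 < ε := by positivity
  have hε1 : ε ≤ 1 := min_le_left _ _
  have hεB : ε * B ≤ η := by
    have : ε ≤ η / B := min_le_right _ _
    rwa [le_div_iff₀ hBpos] at this
  obtain ⟨δ, hδ, N₀, A⟩ := hR ρ hρ0 hρ1 ε hεpos
  obtain ⟨δ', hδ', N₀', A'⟩ := hR ρ' hρ0' hρ1' ε hεpos
  set μ : ℝ := min δ (min δ' ε) with hμ
  have hμpos : 0 < μ := by positivity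
  obtain ⟨K₁, hK₁⟩ := exists_nat_gt (2 / μ)
  set K : ℕ := N₀ + N₀' + K₁ + 1 with hK
  have hKpos : 0 < K := by omega
  have hK' : (0 : ℝ) < K := by exact_mod_cast hKpos
  have h2K : 2 / (K : ℝ) ≤ μ := by
    have a1 : (K₁ : ℝ) ≤ K := by exact_mod_cast (by omega : K₁ ≤ K)
    have a2 : 2 / μ < K := lt_of_lt_of_le hK₁ a1
    rw [div_lt_iff₀ hμpos] at a2
    rw [div_le_iff₀ hK']
    linarith
  obtain ⟨N, n, N', n', hKN, hNN', hn'N', hmono, h1, h2, h3⟩ := hseq K hKpos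
  have hNpos : 0 < N := by omega
  have hN'pos : 0 < N' := by omega
  obtain ⟨M, hM1, hM2, hM0⟩ := ((A N n (by omega) trivial (h1.trans (h2K.trans (min_le_left _ _)))).and
    ((A' N' n' (by omega) trivial
      (h2.trans (h2K.trans ((min_le_right _ _).trans (min_le_left _ _))))).and
      (eventually_gt_atTop 0))).exists
  have hMr : (0 : ℝ) < M := by exact_mod_cast hM0
  have hNr : (0 : ℝ) < N := by exact_mod_cast hNpos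
  have hN'r : (0 : ℝ) < N' := by exact_mod_cast hN'pos
  set x : ℝ := H M N n / ((N : ℝ) * M) with hx
  set x' : ℝ := H M N' n' / ((N' : ℝ) * M) with hx'
  have hx'0 : 0 ≤ x' := div_nonneg (hP M N' n' hM0 hN'pos hn'N') (by positivity)
  have hxx' : x ≤ (N' : ℝ) / N * x' := by
    have e : (N' : ℝ) / N * x' = H M N' n' / ((N : ℝ) * M) := by
      rw [hx']
      field_simp
    rw [e, hx]
    exact div_le_div_of_nonneg_right (hmono M hM0) (by positivity)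
  have hr : (N' : ℝ) / N ≤ θ + ε :=
    h3.trans (by
      have := h2K.trans ((min_le_right _ _).trans (min_le_right _ _))
      linarith)
  have hx'u : x' ≤ φ ρ' + ε := by have := (abs_le.1 hM2).2; linarith
  have hxl : φ ρ - ε ≤ x := by have := (abs_le.1 hM1).1; linarith
  have hprod : (N' : ℝ) / N * x' ≤ (θ + ε) * (φ ρ' + ε) :=
    mul_le_mul hr hx'u hx'0 (by positivity)
  have habs : φ ρ' ≤ |φ ρ'| := le_abs_self _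
  have hfin : ε + (θ + ε) * (φ ρ' + ε) ≤ θ * φ ρ' + ε * B := by
    rw [hB]
    nlinarith [mul_le_mul_of_nonneg_left habs hεpos.le, mul_le_mul_of_nonneg_left hε1 hεpos.le]
  linarith

/-- adding full rows: from the filling `ρ` up to `ρ' ≥ ρ` -/
theorem a4x10_order_up (hG : Ins260Mono H)
    (hP : ∀ M N n : ℕ, 0 < M → 0 < N → n ≤ N → 0 ≤ H M N n) {φ : ℝ → ℝ}
    {ρ₀ : ℝ} (hρ₀ : 0 ≤ ρ₀) (hR : Ins260RegOn ρ₀ H φ (fun _ => True))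
    {ρ ρ' : ℝ} (hρ0 : ρ₀ < ρ) (hρ1 : ρ < 1 / 2) (hρ0' : ρ₀ < ρ') (hρ1' : ρ' < 1 / 2) (h : ρ ≤ ρ') :
    φ ρ ≤ (1 - ρ) / (1 - ρ') * φ ρ' := by
  have hρpos : 0 < ρ := lt_of_le_of_lt hρ₀ hρ0
  have hρpos' : 0 < ρ' := lt_of_le_of_lt hρ₀ hρ0'
  set θ : ℝ := (1 - ρ) / (1 - ρ') with hθ
  have h1ρ' : 0 < 1 - ρ' := by linarith
  have hθ1 : 1 ≤ θ := by
    rw [hθ, one_le_div h1ρ']
    linarith
  have hθe : θ * (1 - ρ') = 1 - ρ := by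
    rw [hθ]
    field_simp
  refine a4x10_order_core hP hR hρ0 hρ1 hρ0' hρ1' hθ1 fun K hK => ?_
  have hK' : (0 : ℝ) < K := by exact_mod_cast hK
  set n : ℕ := ⌊ρ * K⌋₊ with hn
  set j : ℕ := ⌈(θ - 1) * K⌉₊ with hj
  have n1 : (n : ℝ) ≤ ρ * K := Nat.floor_le (by positivity)
  have n2 : ρ * K < n + 1 := Nat.lt_floor_add_one _
  have j1 : (θ - 1) * K ≤ j := Nat.le_ceil _
  have j2 : (j : ℝ) < (θ - 1) * K + 1 := Nat.ceil_lt_add_one (by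
    have : 0 ≤ θ - 1 := by linarith
    positivity)
  have hnK : n ≤ K := by
    have : (n : ℝ) ≤ K := by nlinarith
    exact_mod_cast this
  refine ⟨K, n, K + j, n + j, le_rfl, by omega, by omega,
    fun M hM => ins260_mono_full hG hM hK hnK j, ?_, ?_, ?_⟩
  · refine a4x10_div_close hK le_rfl ?_
    rw [abs_le]
    constructor <;> linarith
  · refine a4x10_div_close hK (by push_cast; linarith [(Nat.cast_nonneg j : (0 : ℝ) ≤ j)]) ?_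
    have e : ((n + j : ℕ) : ℝ) - ρ' * ((K + j : ℕ) : ℝ) =
        ((n : ℝ) - ρ * K) + ((j : ℝ) - (θ - 1) * K) * (1 - ρ') := by
      push_cast
      linear_combination (K : ℝ) * hθe
    rw [e, abs_le]
    constructor
    · nlinarith [mul_nonneg (sub_nonneg.2 j1) h1ρ'.le]
    · nlinarith [mul_nonneg (sub_nonneg.2 j1) h1ρ'.le, mul_pos (sub_pos.2 j2) h1ρ']
  · have e : ((K + j : ℕ) : ℝ) / K = 1 + (j : ℝ) / K := by
      push_cast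
      field_simp
    rw [e]
    have : (j : ℝ) / K ≤ (θ - 1) + 1 / K := by
      rw [div_le_iff₀ hK']
      have : ((θ - 1) + 1 / (K : ℝ)) * K = (θ - 1) * K + 1 := by field_simp
      linarith
    have h12 : 1 / (K : ℝ) ≤ 2 / K := div_le_div_of_nonneg_right (by norm_num) hK'.le
    linarith

/-- adding empty rows: from the filling `ρ` down to `ρ' ≤ ρ` -/
theorem a4x10_order_down (hG : Ins260Mono H)
    (hP : ∀ M N n : ℕ, 0 < M → 0 < N → n ≤ N → 0 ≤ H M N n) {φ : ℝ → ℝ}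
    {ρ₀ : ℝ} (hρ₀ : 0 ≤ ρ₀) (hR : Ins260RegOn ρ₀ H φ (fun _ => True))
    {ρ ρ' : ℝ} (hρ0 : ρ₀ < ρ) (hρ1 : ρ < 1 / 2) (hρ0' : ρ₀ < ρ') (hρ1' : ρ' < 1 / 2) (h : ρ' ≤ ρ) :
    φ ρ ≤ ρ / ρ' * φ ρ' := by
  have hρpos : 0 < ρ := lt_of_le_of_lt hρ₀ hρ0
  have hρpos' : 0 < ρ' := lt_of_le_of_lt hρ₀ hρ0'
  set θ : ℝ := ρ / ρ' with hθ
  have hθ1 : 1 ≤ θ := by
    rw [hθ, one_le_div hρpos']
    exact h
  have hθe : θ * ρ' = ρ := by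
    rw [hθ]
    field_simp
  refine a4x10_order_core hP hR hρ0 hρ1 hρ0' hρ1' hθ1 fun K hK => ?_
  have hK' : (0 : ℝ) < K := by exact_mod_cast hK
  set n : ℕ := ⌊ρ * K⌋₊ with hn
  set j : ℕ := ⌈(θ - 1) * K⌉₊ with hj
  have n1 : (n : ℝ) ≤ ρ * K := Nat.floor_le (by positivity)
  have n2 : ρ * K < n + 1 := Nat.lt_floor_add_one _
  have j1 : (θ - 1) * K ≤ j := Nat.le_ceil _
  have j2 : (j : ℝ) < (θ - 1) * K + 1 := Nat.ceil_lt_add_one (by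
    have : 0 ≤ θ - 1 := by linarith
    positivity)
  have hnK : n ≤ K := by
    have : (n : ℝ) ≤ K := by nlinarith
    exact_mod_cast this
  refine ⟨K, n, K + j, n, le_rfl, by omega, by omega,
    fun M hM => ins260_mono_empty hG hM hK hnK j, ?_, ?_, ?_⟩
  · refine a4x10_div_close hK le_rfl ?_
    rw [abs_le]
    constructor <;> linarith
  · refine a4x10_div_close hK (by push_cast; linarith [(Nat.cast_nonneg j : (0 : ℝ) ≤ j)]) ?_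
    have e : (n : ℝ) - ρ' * ((K + j : ℕ) : ℝ) =
        ((n : ℝ) - ρ * K) - ((j : ℝ) - (θ - 1) * K) * ρ' := by
      push_cast
      linear_combination (-(K : ℝ)) * hθe
    rw [e, abs_le]
    constructor
    · nlinarith [mul_nonneg (sub_nonneg.2 j1) hρpos'.le, mul_pos (sub_pos.2 j2) hρpos']
    · nlinarith [mul_nonneg (sub_nonneg.2 j1) hρpos'.le]
  · have e : ((K + j : ℕ) : ℝ) / K = 1 + (j : ℝ) / K := by
      push_cast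
      field_simp
    rw [e]
    have : (j : ℝ) / K ≤ (θ - 1) + 1 / K := by
      rw [div_le_iff₀ hK']
      have : ((θ - 1) + 1 / (K : ℝ)) * K = (θ - 1) * K + 1 := by field_simp
      linarith
    have h12 : 1 / (K : ℝ) ≤ 2 / K := div_le_div_of_nonneg_right (by norm_num) hK'.le
    linarith

/-- **Equicontinuity in the filling**, with a modulus that does not depend on the model. -/
theorem a4x10_order (hG : Ins260Mono H)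
    (hP : ∀ M N n : ℕ, 0 < M → 0 < N → n ≤ N → 0 ≤ H M N n) {φ : ℝ → ℝ}
    {ρ₀ : ℝ} (hρ₀ : 0 ≤ ρ₀) (hR : Ins260RegOn ρ₀ H φ Even)
    {ρ ρ' : ℝ} (hρ0 : ρ₀ < ρ) (hρ1 : ρ < 1 / 2) (hρ0' : ρ₀ < ρ') (hρ1' : ρ' < 1 / 2) :
    φ ρ ≤ max ((1 - ρ) / (1 - ρ')) (ρ / ρ') * φ ρ' := by
  have hall := ins260_regOn_of_even hG hR
  have hnn := a4x10_phi_nonneg hP hρ₀ hR hρ0' hρ1'
  rcases le_total ρ ρ' with h | h
  · exact (a4x10_order_up hG hP hρ₀ hall hρ0 hρ1 hρ0' hρ1' h).trans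
      (mul_le_mul_of_nonneg_right (le_max_left _ _) hnn)
  · exact (a4x10_order_down hG hP hρ₀ hall hρ0 hρ1 hρ0' hρ1' h).trans
      (mul_le_mul_of_nonneg_right (le_max_right _ _) hnn)

end order

section ident

variable {G : ℝ → ℕ → ℕ → ℕ → ℝ} {c₀ c₁ : ℝ}

theorem a4x10_tendsto_phi (hc₀ : 0 < c₀) (hc : c₀ < c₁) {Φ : ℝ → ℝ → ℝ} {Φ₁ : ℝ → ℝ} {ρ₀ : ℝ}
    (hΦ₁ : ∀ c : ℝ, c₀ < c → c < c₁ → ∀ ρ : ℝ, ρ₀ < ρ → ρ < 1 / 2 →
      |Φ c ρ - Φ₁ ρ| ≤ Real.log c₁ - Real.log c)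
    {ρ : ℝ} (hρ0 : ρ₀ < ρ) (hρ1 : ρ < 1 / 2) :
    Tendsto (fun c => Φ c ρ) (𝓝[<] c₁) (𝓝 (Φ₁ ρ)) := by
  have hc₁ : 0 < c₁ := hc₀.trans hc
  have hIoo : ∀ᶠ c in 𝓝[<] c₁, c ∈ Set.Ioo c₀ c₁ := Ioo_mem_nhdsLT hc
  have hlog : Tendsto (fun c => Real.log c₁ - Real.log c) (𝓝[<] c₁) (𝓝 0) := by
    have h1 : Tendsto Real.log (𝓝[<] c₁) (𝓝 (Real.log c₁)) :=
      (Real.continuousAt_log hc₁.ne').tendsto.mono_left nhdsWithin_le_nhds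
    have h2 := (tendsto_const_nhds (x := Real.log c₁)).sub h1
    simpa using h2
  rw [tendsto_iff_norm_sub_tendsto_zero]
  refine squeeze_zero' (Eventually.of_forall fun _ => norm_nonneg _) ?_ hlog
  filter_upwards [hIoo] with c hcc
  rw [Real.norm_eq_abs]
  exact hΦ₁ c hcc.1 hcc.2 ρ hρ0 hρ1

/-- **Identification of the limit at the end point**: only the continuum functionals have to be followed to `c₁`. -/
theorem a4x10_ident (hc₀ : 0 < c₀) (hc : c₀ < c₁)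
    (hMono : ∀ c : ℝ, c₀ < c → c < c₁ → Ins260Mono (G c))
    (hPos : ∀ c : ℝ, c₀ < c → c < c₁ → ∀ M N n : ℕ, 0 < M → 0 < N → n ≤ N → 0 ≤ G c M N n)
    {ρ₀ : ℝ} (hρ₀ : 0 ≤ ρ₀)
    {Φ : ℝ → ℝ → ℝ} (hR : ∀ c : ℝ, c₀ < c → c < c₁ → Ins260RegOn ρ₀ (G c) (Φ c) Even) {Φ₁ : ℝ → ℝ}
    (hΦ₁ : ∀ c : ℝ, c₀ < c → c < c₁ → ∀ ρ : ℝ, ρ₀ < ρ → ρ < 1 / 2 →
      |Φ c ρ - Φ₁ ρ| ≤ Real.log c₁ - Real.log c)
    {D E : ℝ → ℝ} {d e : ℝ} (hd0 : ρ₀ < d) (hd1 : d < 1 / 2)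
    (hDE : ∀ᶠ c in 𝓝[<] c₁, ρ₀ < D c ∧ D c < 1 / 2 ∧ Φ c (D c) = E c)
    (hD : Tendsto D (𝓝[<] c₁) (𝓝 d)) (hE : Tendsto E (𝓝[<] c₁) (𝓝 e)) : Φ₁ d = e := by
  have hIoo : ∀ᶠ c in 𝓝[<] c₁, c ∈ Set.Ioo c₀ c₁ := Ioo_mem_nhdsLT hc
  have hb := a4x10_tendsto_phi hc₀ hc hΦ₁ hd0 hd1
  have hdpos : 0 < d := lt_of_le_of_lt hρ₀ hd0
  have h1d : (1 : ℝ) - d ≠ 0 := by linarith
  have hT1 : Tendsto (fun c => max ((1 - D c) / (1 - d)) (D c / d)) (𝓝[<] c₁) (𝓝 1) := by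
    have a1 : Tendsto (fun c => (1 - D c) / (1 - d)) (𝓝[<] c₁) (𝓝 ((1 - d) / (1 - d))) :=
      ((tendsto_const_nhds (x := (1 : ℝ))).sub hD).div_const _
    have a2 : Tendsto (fun c => D c / d) (𝓝[<] c₁) (𝓝 (d / d)) := hD.div_const _
    rw [div_self h1d] at a1
    rw [div_self hdpos.ne'] at a2
    simpa using a1.max a2
  have hT2 : Tendsto (fun c => max ((1 - d) / (1 - D c)) (d / D c)) (𝓝[<] c₁) (𝓝 1) := by
    have a1 : Tendsto (fun c => (1 - d) / (1 - D c)) (𝓝[<] c₁) (𝓝 ((1 - d) / (1 - d))) :=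
      (tendsto_const_nhds (x := (1 : ℝ) - d)).div ((tendsto_const_nhds (x := (1 : ℝ))).sub hD) h1d
    have a2 : Tendsto (fun c => d / D c) (𝓝[<] c₁) (𝓝 (d / d)) :=
      (tendsto_const_nhds (x := d)).div hD hdpos.ne'
    rw [div_self h1d] at a1
    rw [div_self hdpos.ne'] at a2
    simpa using a1.max a2
  have i1 : ∀ᶠ c in 𝓝[<] c₁, E c ≤ max ((1 - D c) / (1 - d)) (D c / d) * Φ c d := by
    filter_upwards [hIoo, hDE] with c hcc hc3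
    rw [← hc3.2.2]
    exact a4x10_order (hMono c hcc.1 hcc.2) (hPos c hcc.1 hcc.2) hρ₀ (hR c hcc.1 hcc.2) hc3.1
      hc3.2.1 hd0 hd1
  have i2 : ∀ᶠ c in 𝓝[<] c₁, Φ c d ≤ max ((1 - d) / (1 - D c)) (d / D c) * E c := by
    filter_upwards [hIoo, hDE] with c hcc hc3
    rw [← hc3.2.2]
    exact a4x10_order (hMono c hcc.1 hcc.2) (hPos c hcc.1 hcc.2) hρ₀ (hR c hcc.1 hcc.2) hd0 hd1
      hc3.1 hc3.2.1
  have l1 : e ≤ 1 * Φ₁ d := le_of_tendsto_of_tendsto hE (hT1.mul hb) i1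
  have l2 : Φ₁ d ≤ 1 * e := le_of_tendsto_of_tendsto hb (hT2.mul hE) i2
  linarith

end ident

section final

theorem a4x10_svZN_eq_baZ (c : ℝ) (M L n : ℕ) : svZN c M L n = baZ c M L n := rfl

theorem a4x10_lip_svZN (c₀ c₁ : ℝ) (hc₀ : 0 < c₀) :
    A4x10Lip (fun c M N n => Real.log (svZN c M N n)) c₀ c₁ := by
  intro c c' h0 h _ M N n hM hN hn
  have : NeZero M := ⟨by omega⟩
  have : NeZero N := ⟨by omega⟩
  have h1 := bs110_log_baZ_lipschitz (hc₀.trans h0) h M N n hn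
  simp only [a4x10_svZN_eq_baZ]
  have e : ((M * N : ℕ) : ℝ) = (N : ℝ) * M := by
    push_cast
    ring
  rwa [e] at h1

theorem a4x10_pos_svZN (c : ℝ) (hc : 0 ≤ c) (M N n : ℕ) (hM : 0 < M) (hN : 0 < N) (hn : n ≤ N) :
    0 ≤ Real.log (svZN c M N n) :=
  Real.log_nonneg (ins260_one_le_svZN c hc hM hN n hn)

/-- **Leaf A4, lattice side.**  The regular-filling limit at `c = 2` from the one at `c < 2`; its value is the limit of the values, and it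
is identified along every family `(D c, E c)` of continuum data. -/
theorem a4x10_svZN_two {c₀ : ℝ} (hc₀ : 0 < c₀) (hc : c₀ < 2) {ρ₀ : ℝ} (hρ₀ : 0 ≤ ρ₀) {Φ : ℝ → ℝ → ℝ}
    (hR : ∀ c : ℝ, c₀ < c → c < 2 →
      Ins260RegOn ρ₀ (fun M N n => Real.log (svZN c M N n)) (Φ c) Even) :
    ∃ Φ₂ : ℝ → ℝ, Ins260RegOn ρ₀ (fun M N n => Real.log (svZN 2 M N n)) Φ₂ Even ∧
      (∀ c : ℝ, c₀ < c → c < 2 → ∀ ρ : ℝ, ρ₀ < ρ → ρ < 1 / 2 →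
        |Φ c ρ - Φ₂ ρ| ≤ Real.log 2 - Real.log c) ∧
      ∀ (D E : ℝ → ℝ) (d e : ℝ), ρ₀ < d → d < 1 / 2 →
        (∀ᶠ c in 𝓝[<] (2 : ℝ), ρ₀ < D c ∧ D c < 1 / 2 ∧ Φ c (D c) = E c) →
        Tendsto D (𝓝[<] (2 : ℝ)) (𝓝 d) → Tendsto E (𝓝[<] (2 : ℝ)) (𝓝 e) → Φ₂ d = e := by
  obtain ⟨Φ₂, h1, h2⟩ := a4x10_reg_end (G := fun c M N n => Real.log (svZN c M N n)) hc₀ hc
    (a4x10_lip_svZN c₀ 2 hc₀) hρ₀ hR
  refine ⟨Φ₂, h1, h2, fun D E d e hd0 hd1 hDE hD hE => ?_⟩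
  exact a4x10_ident (G := fun c M N n => Real.log (svZN c M N n)) hc₀ hc
    (fun c h0 _ => ins260_mono_log c (hc₀.trans h0).le)
    (fun c h0 _ M N n hM hN hn => a4x10_pos_svZN c (hc₀.trans h0).le M N n hM hN hn)
    hρ₀ hR h2 hd0 hd1 hDE hD hE

/-- **Leaf A4.**  `SvStiff 2 A` from: `(R)` the regular-filling limit for `c ∈ (c₀, 2)`, with `Φ c (D c Q) = E c Q`;
`(C5)` `D c Q → D₂ Q`, `E c Q → E₂ Q` as `c ↑ 2`, for every fixed `Q > 0`; `(C)` the continuum expansion at `λ = 0`. -/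
theorem a4x10_svStiff_two {c₀ : ℝ} (hc₀ : 0 < c₀) (hc : c₀ < 2) {ρ₀ : ℝ} (hρ₀ : 0 ≤ ρ₀)
    (hρ₀' : ρ₀ < 1 / 2) {Φ : ℝ → ℝ → ℝ}
    (hR : ∀ c : ℝ, c₀ < c → c < 2 →
      Ins260RegOn ρ₀ (fun M N n => Real.log (svZN c M N n)) (Φ c) Even)
    {D E : ℝ → ℝ → ℝ} {D₂ E₂ : ℝ → ℝ}
    (hDE : ∀ Q : ℝ, 0 < Q → ρ₀ < D₂ Q →
      ∀ᶠ c in 𝓝[<] (2 : ℝ), ρ₀ < D c Q ∧ D c Q < 1 / 2 ∧ Φ c (D c Q) = E c Q)
    (hD : ∀ Q : ℝ, 0 < Q → Tendsto (fun c => D c Q) (𝓝[<] (2 : ℝ)) (𝓝 (D₂ Q)))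
    (hE : ∀ Q : ℝ, 0 < Q → Tendsto (fun c => E c Q) (𝓝[<] (2 : ℝ)) (𝓝 (E₂ Q)))
    {Φ₀ A : ℝ}
    (hC : ∀ ε : ℝ, 0 < ε → ∃ s₀ : ℝ, 0 < s₀ ∧ ∀ s : ℝ, 0 < s → s < s₀ →
      ∃ Q : ℝ, 0 < Q ∧ D₂ Q = 1 / 2 - s / 2 ∧ |E₂ Q - Φ₀ + A / 2 * s ^ 2| ≤ ε * s ^ 2) :
    SvStiff 2 A := by
  obtain ⟨Φ₂, h1, -, h3⟩ := a4x10_svZN_two hc₀ hc hρ₀ hR
  refine ins260_svStiffOn (Φ₀ := Φ₀) 2 (by norm_num) hρ₀' h1 fun ε hε => ?_
  obtain ⟨s₀, hs₀, H⟩ := hC ε hε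
  refine ⟨min s₀ (1 - 2 * ρ₀), lt_min hs₀ (by linarith), fun s hs0 hs => ?_⟩
  obtain ⟨Q, hQ, hQ1, hQ2⟩ := H s hs0 (lt_of_lt_of_le hs (min_le_left _ _))
  have hs1 : s < 1 - 2 * ρ₀ := lt_of_lt_of_le hs (min_le_right _ _)
  have hQρ : ρ₀ < D₂ Q := by rw [hQ1]; linarith
  have e : Φ₂ (1 / 2 - s / 2) = E₂ Q := by
    rw [← hQ1]
    exact h3 (fun c => D c Q) (fun c => E c Q) (D₂ Q) (E₂ Q) hQρ
      (by rw [hQ1]; linarith) (hDE Q hQ hQρ) (hD Q hQ) (hE Q hQ)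
  rw [e]
  exact hQ2

end final

/-! ## The adapter to the hub: thermodynamics at `c < 2` (shape of `ba_thermo`) + C5 + the continuum at `λ = 0` give `SvStiff 2 A` -/

section hub

theorem a4x10_regOn_mono {G : ℕ → ℕ → ℕ → ℝ} {Φ : ℝ → ℝ} {P : ℕ → Prop} {ρ₀ ρ₁ : ℝ} (h : ρ₀ ≤ ρ₁)
    (hR : Ins260RegOn ρ₀ G Φ P) : Ins260RegOn ρ₁ G Φ P :=
  fun ρ hρ0 hρ1 ε hε => hR ρ (lt_of_le_of_lt h hρ0) hρ1 ε hε

/-- intermediate values of a density that tends to `ℓ` at infinity -/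
theorem a4x10_ivt {Dq : ℝ → ℝ} {ℓ : ℝ} (hDc : ContinuousOn Dq (Set.Ioi 0)) (hDlim : Tendsto Dq atTop (𝓝 ℓ))
    {a ρ : ℝ} (ha : 0 < a) (h1 : Dq a < ρ) (h2 : ρ < ℓ) : ∃ Q : ℝ, a < Q ∧ Dq Q = ρ := by
  obtain ⟨Q₂, hQ₂, hQ₂'⟩ := ((hDlim.eventually (lt_mem_nhds h2)).and (eventually_gt_atTop a)).exists
  have hc' : ContinuousOn Dq (Set.Icc a Q₂) := hDc.mono (fun x hx => lt_of_lt_of_le ha hx.1)
  obtain ⟨Q, hQ, e⟩ := intermediate_value_Icc hQ₂'.le hc' ⟨h1.le, hQ₂.le⟩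
  refine ⟨Q, lt_of_le_of_ne hQ.1 ?_, e⟩
  rintro rfl
  exact absurd e h1.ne

/-- thermodynamics parametrised by the Fermi point gives the regular-filling limit, with `Φ (Dq Q) = Eq Q` -/
theorem a4x10_regOn_of_thermo {G : ℕ → ℕ → ℕ → ℝ} (F : ℕ → ℕ → ℝ) (N₁ : ℕ)
    (hlim : ∀ N n : ℕ, N₁ ≤ N → n ≤ N → Tendsto (fun M : ℕ => G M N n / (M : ℝ)) atTop (𝓝 (F N n)))
    {Dq Eq : ℝ → ℝ} (hDc : ContinuousOn Dq (Set.Ioi 0)) (hEc : ContinuousOn Eq (Set.Ioi 0))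
    (hDm : StrictMonoOn Dq (Set.Ioi 0)) (hDr : ∀ Q, 0 < Q → Dq Q < 1 / 2)
    (hDlim : Tendsto Dq atTop (𝓝 (1 / 2)))
    (hcond : ∀ Q₁ Q₂ : ℝ, 0 < Q₁ → Q₁ ≤ Q₂ → ∀ ε : ℝ, 0 < ε → ∃ N₀ : ℕ, ∀ N n : ℕ, N₀ ≤ N → Even n →
      ∀ Q ∈ Set.Icc Q₁ Q₂, (n : ℝ) = N * Dq Q → |F N n / N - Eq Q| ≤ ε)
    {Q₀ : ℝ} (hQ₀ : 0 < Q₀) :
    ∃ Φ : ℝ → ℝ, Ins260RegOn (Dq Q₀) G Φ Even ∧ ∀ Q : ℝ, Q₀ < Q → Φ (Dq Q) = Eq Q := by
  classical
  have ivt : ∀ a b : ℝ, 0 < a → a ≤ b → ∀ y ∈ Set.Icc (Dq a) (Dq b), ∃ Q ∈ Set.Icc a b, Dq Q = y := by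
    intro a b ha hab y hy
    have hc' : ContinuousOn Dq (Set.Icc a b) := hDc.mono (fun x hx => lt_of_lt_of_le ha hx.1)
    obtain ⟨Q, hQ, e⟩ := intermediate_value_Icc hab hc' hy
    exact ⟨Q, hQ, e⟩
  have ex : ∀ ρ : ℝ, Dq Q₀ < ρ → ρ < 1 / 2 → ∃ Q : ℝ, Q₀ < Q ∧ Dq Q = ρ :=
    fun ρ h1 h2 => a4x10_ivt hDc hDlim hQ₀ h1 h2
  set Qi : ℝ → ℝ := fun ρ => if h : Dq Q₀ < ρ ∧ ρ < 1 / 2 then Classical.choose (ex ρ h.1 h.2) else Q₀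
    with hQi
  have hQi1 : ∀ ρ : ℝ, Dq Q₀ < ρ → ρ < 1 / 2 → Q₀ < Qi ρ ∧ Dq (Qi ρ) = ρ := by
    intro ρ h1 h2
    have : Qi ρ = Classical.choose (ex ρ h1 h2) := by
      rw [hQi]; exact dif_pos ⟨h1, h2⟩
    rw [this]
    exact Classical.choose_spec (ex ρ h1 h2)
  refine ⟨fun ρ => Eq (Qi ρ), ?_, ?_⟩
  · refine ins260_regOn_of_lam N₁ hlim ?_
    intro ρ h1 h2 ε hε
    obtain ⟨hQ1, hQe⟩ := hQi1 ρ h1 h2
    set Qs := Qi ρ with hQs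
    have hQs0 : 0 < Qs := by linarith
    have hcont : ContinuousAt Eq Qs := hEc.continuousAt (Ioi_mem_nhds hQs0)
    obtain ⟨η, hη, Hη⟩ := Metric.continuousAt_iff.1 hcont (ε / 2) (by positivity)
    set η' : ℝ := min (η / 2) (Qs / 2) with hη'
    have hη'pos : 0 < η' := by positivity
    have hη'1 : η' < η := lt_of_le_of_lt (min_le_left _ _) (by linarith)
    have hη'2 : η' ≤ Qs / 2 := min_le_right _ _
    have ha : 0 < Qs - η' := by linarith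
    have hab : Qs - η' ≤ Qs + η' := by linarith
    have hDa : Dq (Qs - η') < ρ := by
      rw [← hQe]; exact hDm ha hQs0 (by linarith)
    have hDb : ρ < Dq (Qs + η') := by
      rw [← hQe]; exact hDm hQs0 (by show (0 : ℝ) < Qs + η'; linarith) (by linarith)
    obtain ⟨N₀, HN⟩ := hcond (Qs - η') (Qs + η') ha hab (ε / 2) (by positivity)
    refine ⟨min (ρ - Dq (Qs - η')) (Dq (Qs + η') - ρ), lt_min (by linarith) (by linarith), N₀ + 1, ?_⟩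
    intro N n hN he hn
    have hNpos : (0 : ℝ) < N := by exact_mod_cast (by omega : 0 < N)
    have hn1 := (abs_le.1 (hn.trans (min_le_left _ _))).1
    have hn2 := (abs_le.1 (hn.trans (min_le_right _ _))).2
    obtain ⟨Q, hQ, e⟩ := ivt _ _ ha hab ((n : ℝ) / N) ⟨by linarith, by linarith⟩
    have hnN : (n : ℝ) = N * Dq Q := by rw [e]; field_simp
    have b1 := HN N n (by omega) he Q hQ hnN
    have hd : dist Q Qs < η := by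
      rw [Real.dist_eq, abs_lt]
      constructor
      · linarith [hQ.1]
      · linarith [hQ.2]
    have b2 := Hη hd
    rw [Real.dist_eq] at b2
    have tri := abs_add_le (F N n / N - Eq Q) (Eq Q - Eq Qs)
    rw [sub_add_sub_cancel] at tri
    show |F N n / (N : ℝ) - Eq Qs| ≤ ε
    linarith
  · intro Q hQ
    have hQ0 : 0 < Q := hQ₀.trans hQ
    obtain ⟨h1, h2⟩ := hQi1 (Dq Q) (hDm hQ₀ hQ0 hQ) (hDr Q hQ0)
    have : Qi (Dq Q) = Q := hDm.injOn (show (0 : ℝ) < Qi (Dq Q) from hQ₀.trans h1) hQ0 h2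
    show Eq (Qi (Dq Q)) = Eq Q
    rw [this]

theorem a4x10_tendsto_of_bound {c₀ c₁ : ℝ} (hc₀ : 0 < c₀) (hc : c₀ < c₁) {f : ℝ → ℝ} {ℓ : ℝ}
    (h : ∀ c : ℝ, c₀ < c → c < c₁ → |f c - ℓ| ≤ Real.log c₁ - Real.log c) :
    Tendsto f (𝓝[<] c₁) (𝓝 ℓ) :=
  a4x10_tendsto_phi (Φ := fun c _ => f c) (Φ₁ := fun _ => ℓ) (ρ₀ := 0) (ρ := 1 / 4) hc₀ hc
    (fun c h0 h1 _ _ _ => h c h0 h1) (by norm_num) (by norm_num)

/-- **Leaf A4, in the shape of the hub.** -/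
theorem a4x10_hub_two {c₀ : ℝ} (hc₀ : 0 < c₀) (hc : c₀ < 2) {A : ℝ} (F : ℝ → ℕ → ℕ → ℝ) (N₁ : ℕ)
    (hlim : ∀ c : ℝ, c₀ < c → c < 2 → ∀ N n : ℕ, N₁ ≤ N → n ≤ N →
      Tendsto (fun M : ℕ => Real.log (svZN c M N n) / M) atTop (𝓝 (F c N n)))
    (Dq Eq : ℝ → ℝ → ℝ) (Einf : ℝ → ℝ)
    (hth : ∀ c : ℝ, c₀ < c → c < 2 →
      ContinuousOn (Dq c) (Set.Ioi 0) ∧ ContinuousOn (Eq c) (Set.Ioi 0) ∧
      StrictMonoOn (Dq c) (Set.Ioi 0) ∧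
      (∀ Q, 0 < Q → 0 < Dq c Q ∧ Dq c Q < 1 / 2) ∧ Tendsto (Dq c) atTop (𝓝 (1 / 2)) ∧
      (∀ Q₁ Q₂ : ℝ, 0 < Q₁ → Q₁ ≤ Q₂ → ∀ ε : ℝ, 0 < ε → ∃ N₀ : ℕ, ∀ N n : ℕ, N₀ ≤ N → Even n →
        ∀ Q ∈ Set.Icc Q₁ Q₂, (n : ℝ) = N * Dq c Q → |F c N n / N - Eq c Q| ≤ ε) ∧
      Tendsto (fun Q => Einf c - Eq c Q) atTop (𝓝 0))
    (D₂ dE₂ : ℝ → ℝ)
    (hD5 : ∀ Q : ℝ, 0 < Q → Tendsto (fun c => Dq c Q) (𝓝[<] (2 : ℝ)) (𝓝 (D₂ Q)))
    (hE5 : ∀ Q : ℝ, 0 < Q → Tendsto (fun c => Einf c - Eq c Q) (𝓝[<] (2 : ℝ)) (𝓝 (dE₂ Q)))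
    (hD₂c : ContinuousOn D₂ (Set.Ioi 0)) (hD₂r : ∀ Q : ℝ, 0 < Q → D₂ Q < 1 / 2)
    (hD₂lim : Tendsto D₂ atTop (𝓝 (1 / 2)))
    (hratio : Tendsto (fun Q => dE₂ Q / (1 / 2 - D₂ Q) ^ 2) atTop (𝓝 (2 * A))) :
    SvStiff 2 A := by
  classical
  -- a common lower end of the fillings
  set ρ₀ : ℝ := (max (D₂ 1) 0 + 1 / 2) / 2 with hρ₀def
  have hD21 : D₂ 1 < 1 / 2 := hD₂r 1 one_pos
  have hmax : max (D₂ 1) 0 < 1 / 2 := max_lt hD21 (by norm_num)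
  have hρ₀ : 0 ≤ ρ₀ := by
    have := le_max_right (D₂ 1) 0
    rw [hρ₀def]; linarith
  have hρ₀' : ρ₀ < 1 / 2 := by rw [hρ₀def]; linarith
  have hD2ρ : D₂ 1 < ρ₀ := by
    have := le_max_left (D₂ 1) 0
    rw [hρ₀def]; linarith
  have hev : ∀ᶠ c in 𝓝[<] (2 : ℝ), Dq c 1 < ρ₀ := (hD5 1 one_pos).eventually (gt_mem_nhds hD2ρ)
  obtain ⟨c₂, hc₂, hsub⟩ := (mem_nhdsLT_iff_exists_Ioo_subset' hc).1 hev
  set c₃ : ℝ := max c₀ c₂ with hc₃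
  have hc₃0 : 0 < c₃ := lt_of_lt_of_le hc₀ (le_max_left _ _)
  have hc₃2 : c₃ < 2 := max_lt hc hc₂
  have hin : ∀ c : ℝ, c₃ < c → c₀ < c := fun c h => lt_of_le_of_lt (le_max_left _ _) h
  have hin2 : ∀ c : ℝ, c₃ < c → c < 2 → Dq c 1 < ρ₀ := fun c h h2 =>
    hsub ⟨lt_of_le_of_lt (le_max_right _ _) h, h2⟩
  -- the regular-filling limits at `c < 2`
  have hex : ∀ c : ℝ, ∃ Φ : ℝ → ℝ, c₃ < c → c < 2 →
      Ins260RegOn ρ₀ (fun M N n => Real.log (svZN c M N n)) Φ Even ∧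
        ∀ Q : ℝ, 1 < Q → Φ (Dq c Q) = Eq c Q := by
    intro c
    by_cases hcc : c₃ < c ∧ c < 2
    · obtain ⟨hDc, hEc, hDm, hDr, hDlim, hcond, -⟩ := hth c (hin c hcc.1) hcc.2
      obtain ⟨Φ, h1, h2⟩ := a4x10_regOn_of_thermo (G := fun M N n => Real.log (svZN c M N n)) (F c) N₁
        (hlim c (hin c hcc.1) hcc.2) hDc hEc hDm (fun Q hQ => (hDr Q hQ).2) hDlim hcond one_pos
      exact ⟨Φ, fun _ _ => ⟨a4x10_regOn_mono (hin2 c hcc.1 hcc.2).le h1, h2⟩⟩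
    · exact ⟨fun _ => 0, fun h1 h2 => absurd ⟨h1, h2⟩ hcc⟩
  choose Φ hΦ using hex
  have hR : ∀ c : ℝ, c₃ < c → c < 2 →
      Ins260RegOn ρ₀ (fun M N n => Real.log (svZN c M N n)) (Φ c) Even :=
    fun c h1 h2 => (hΦ c h1 h2).1
  -- `Einf` is Lipschitz in `log c`
  have hElip : ∀ c c' : ℝ, c₃ < c → c ≤ c' → c' < 2 →
      |Einf c' - Einf c| ≤ Real.log c' - Real.log c := by
    intro c c' h0 h h1
    have h0' : c₃ < c' := lt_of_lt_of_le h0 h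
    have h1' : c < 2 := lt_of_le_of_lt h h1
    refine le_of_forall_pos_le_add fun η hη => ?_
    obtain ⟨hDc, -, hDm, hDr, hDlim, -, hE0⟩ := hth c (hin c h0) h1'
    obtain ⟨hDc', -, hDm', hDr', hDlim', -, hE0'⟩ := hth c' (hin c' h0') h1
    obtain ⟨Qa, hQa⟩ := eventually_atTop.1 ((Metric.tendsto_nhds.1 hE0) (η / 2) (by positivity))
    obtain ⟨Qb, hQb⟩ := eventually_atTop.1 ((Metric.tendsto_nhds.1 hE0') (η / 2) (by positivity))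
    set a : ℝ := max Qa 1 with ha
    set b : ℝ := max Qb 1 with hb
    have ha1 : 1 ≤ a := le_max_right _ _
    have hb1 : 1 ≤ b := le_max_right _ _
    have ha0 : 0 < a := by linarith
    have hb0 : 0 < b := by linarith
    have hm : max (max (Dq c a) (Dq c' b)) ρ₀ < 1 / 2 :=
      max_lt (max_lt (hDr a ha0).2 (hDr' b hb0).2) hρ₀'
    set ρ : ℝ := (max (max (Dq c a) (Dq c' b)) ρ₀ + 1 / 2) / 2 with hρ
    have hρ1 : ρ < 1 / 2 := by rw [hρ]; linarith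
    have hρm : max (max (Dq c a) (Dq c' b)) ρ₀ < ρ := by rw [hρ]; linarith
    have hρa : Dq c a < ρ := lt_of_le_of_lt ((le_max_left _ _).trans (le_max_left _ _)) hρm
    have hρb : Dq c' b < ρ := lt_of_le_of_lt ((le_max_right _ _).trans (le_max_left _ _)) hρm
    have hρ0 : ρ₀ < ρ := lt_of_le_of_lt (le_max_right _ _) hρm
    obtain ⟨Q, hQ, eQ⟩ := a4x10_ivt hDc hDlim ha0 hρa hρ1
    obtain ⟨Q', hQ', eQ'⟩ := a4x10_ivt hDc' hDlim' hb0 hρb hρ1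
    have e1 : Φ c ρ = Eq c Q := by rw [← eQ]; exact (hΦ c h0 h1').2 Q (by linarith)
    have e2 : Φ c' ρ = Eq c' Q' := by rw [← eQ']; exact (hΦ c' h0' h1).2 Q' (by linarith)
    have d1 := hQa Q ((le_max_left _ _).trans hQ.le)
    have d2 := hQb Q' ((le_max_left _ _).trans hQ'.le)
    rw [Real.dist_eq, sub_zero] at d1 d2
    have l1 := a4x10_phi_lip (a4x10_lip_svZN c₃ 2 hc₃0) h0 h h1.le hρ₀ (hR c h0 h1') (hR c' h0' h1)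
      hρ0 hρ1
    rw [e1, e2] at l1
    have e : Einf c' - Einf c = (Einf c' - Eq c' Q') - (Einf c - Eq c Q) + (Eq c' Q' - Eq c Q) := by
      ring
    rw [e]
    have t1 := abs_add_le ((Einf c' - Eq c' Q') - (Einf c - Eq c Q)) (Eq c' Q' - Eq c Q)
    have t2 := abs_sub (Einf c' - Eq c' Q') (Einf c - Eq c Q)
    linarith
  obtain ⟨Φ₀, hΦ₀⟩ := a4x10_exists_limit hc₃0 hc₃2 hElip
  have hEinf : Tendsto Einf (𝓝[<] (2 : ℝ)) (𝓝 Φ₀) := a4x10_tendsto_of_bound hc₃0 hc₃2 hΦ₀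
  have hIoo : ∀ᶠ c in 𝓝[<] (2 : ℝ), c ∈ Set.Ioo c₃ 2 := Ioo_mem_nhdsLT hc₃2
  refine a4x10_svStiff_two (Φ₀ := Φ₀) hc₃0 hc₃2 hρ₀ hρ₀' hR (D := Dq) (E := Eq) (D₂ := D₂)
    (E₂ := fun Q => Φ₀ - dE₂ Q) ?_ hD5 ?_ ?_
  · intro Q hQ hQρ
    filter_upwards [hIoo, (hD5 Q hQ).eventually (lt_mem_nhds hQρ)] with c hcc hcQ
    obtain ⟨-, -, hDm, hDr, -, -, -⟩ := hth c (hin c hcc.1) hcc.2
    refine ⟨hcQ, (hDr Q hQ).2, (hΦ c hcc.1 hcc.2).2 Q ?_⟩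
    by_contra hcon
    have := hDm.monotoneOn hQ (show (0 : ℝ) < 1 from one_pos) (not_lt.1 hcon)
    have := hin2 c hcc.1 hcc.2
    linarith
  · intro Q hQ
    have := hEinf.sub (hE5 Q hQ)
    simpa using this
  · intro ε hε
    have hev2 := (Metric.tendsto_nhds.1 hratio) (4 * ε) (by positivity)
    obtain ⟨Q₀, HQ₀⟩ := eventually_atTop.1 hev2
    set Q₁ : ℝ := max Q₀ 1 with hQ₁
    have hQ₁0 : 0 < Q₁ := lt_of_lt_of_le one_pos (le_max_right _ _)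
    have hD1 : D₂ Q₁ < 1 / 2 := hD₂r Q₁ hQ₁0
    refine ⟨1 - 2 * D₂ Q₁, by linarith, ?_⟩
    intro s hs0 hs
    obtain ⟨Q, hQ, eQ⟩ := a4x10_ivt hD₂c hD₂lim hQ₁0 (show D₂ Q₁ < 1 / 2 - s / 2 by linarith)
      (by linarith)
    refine ⟨Q, hQ₁0.trans hQ, eQ, ?_⟩
    have hb := HQ₀ Q ((le_max_left _ _).trans hQ.le)
    rw [Real.dist_eq, eQ] at hb
    have e1 : (1 : ℝ) / 2 - (1 / 2 - s / 2) = s / 2 := by ring
    rw [e1] at hb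
    have hs2 : 0 < s ^ 2 := by positivity
    have e2 : Φ₀ - dE₂ Q - Φ₀ + A / 2 * s ^ 2 = -((dE₂ Q / (s / 2) ^ 2 - 2 * A) * (s ^ 2 / 4)) := by
      field_simp
      ring
    rw [e2, abs_neg, abs_mul, abs_of_pos (by positivity : 0 < s ^ 2 / 4)]
    nlinarith [abs_nonneg (dE₂ Q / (s / 2) ^ 2 - 2 * A)]

end hub

end Claimed.Agent.R292
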