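import Claimed.Agent.R292.Bethe.Ba2Core270

/-!
# Row 292, unit BETHE, block BA2, pen P2 (helper270): the explicit amplitudes

`A σ = sign σ * ∏_{k<l} s (z (σ k)) (z (σ l))`, `s u v = 1 - d u + u v`, `d = 2 Δ = 2 - c²`.
* (R1): exchange relation under an adjacent transposition (no hypothesis);
* (R2): cyclic relation, from the Bethe equations;
* the closed form of BA2 for the continuant: `ba2a270_eigen`.
-/

set_option autoImplicit false

namespace Claimed.Agent.R292

open Finset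

section Pairs

variable {K : Type*} [CommRing K]

/-- the product over ordered pairs of places `k < l`. -/
def ba2a270_P {n : ℕ} (f : K → K → K) (w : Fin n → K) : K :=
  ∏ k : Fin n, ∏ l ∈ Ioi k, f (w k) (w l)

theorem ba2a270_P_ite {n : ℕ} (f : K → K → K) (w : Fin n → K) :
    ba2a270_P f w = ∏ k : Fin n, ∏ l : Fin n, if k < l then f (w k) (w l) else 1 := by
  unfold ba2a270_P
  refine prod_congr rfl fun k _ => ?_
  rw [← prod_filter, filter_lt_eq_Ioi]

theorem ba2a270_P_succ {m : ℕ} (f : K → K → K) (w : Fin (m + 1) → K) :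
    ba2a270_P f w = (∏ l : Fin m, f (w 0) (w l.succ)) * ba2a270_P f (fun k => w k.succ) := by
  rw [ba2a270_P_ite, ba2a270_P_ite, Fin.prod_univ_succ]
  congr 1
  · rw [Fin.prod_univ_succ]
    simp
  · refine prod_congr rfl fun k _ => ?_
    rw [Fin.prod_univ_succ]
    simp

theorem ba2a270_P_castSucc {m : ℕ} (f : K → K → K) (w : Fin (m + 1) → K) :
    ba2a270_P f w = ba2a270_P f (fun k => w k.castSucc) *
      ∏ k : Fin m, f (w k.castSucc) (w (Fin.last m)) := by
  rw [ba2a270_P_ite, ba2a270_P_ite, Fin.prod_univ_castSucc, ← prod_mul_distrib]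
  have h1 : (∏ l : Fin (m + 1), if Fin.last m < l then f (w (Fin.last m)) (w l) else 1) = 1 := by
    refine prod_eq_one fun l _ => ?_
    rw [if_neg (not_lt.mpr (Fin.le_last l))]
  rw [h1, mul_one]
  refine prod_congr rfl fun k _ => ?_
  rw [Fin.prod_univ_castSucc]
  simp [Fin.castSucc_lt_last]

/-- the rotated word. -/
theorem ba2a270_P_rot {m : ℕ} (f : K → K → K) (w : Fin (m + 1) → K) :
    ba2a270_P f (fun k => w (finRotate (m + 1) k)) = ba2a270_P f (fun k => w k.succ) *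
      ∏ k : Fin m, f (w k.succ) (w 0) := by
  rw [ba2a270_P_castSucc]
  have h1 : ∀ k : Fin m, finRotate (m + 1) k.castSucc = k.succ := by
    intro k
    apply Fin.ext
    rw [coe_finRotate_of_ne_last (Fin.castSucc_lt_last k).ne]
    simp
  simp only [h1, finRotate_last]

theorem ba2a270_swap_val {n : ℕ} (a b : Fin n) (hab : (b : ℕ) = a + 1) (i : Fin n) :
    ((Equiv.swap a b i : Fin n) : ℕ) =
      if (i : ℕ) = a then (a : ℕ) + 1 else if (i : ℕ) = a + 1 then (a : ℕ) else i := by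
  rw [Equiv.swap_apply_def]
  by_cases h1 : i = a
  · subst h1
    simp [hab]
  · have h1' : (i : ℕ) ≠ a := fun h => h1 (Fin.ext h)
    by_cases h2 : i = b
    · subst h2
      simp [h1, hab]
    · have h2' : (i : ℕ) ≠ a + 1 := fun h => h2 (Fin.ext (by rw [h, hab]))
      simp [h1, h2, h1', h2']

theorem ba2a270_swap_lt {n : ℕ} (a b : Fin n) (hab : (b : ℕ) = a + 1) (i j : Fin n)
    (h1 : (i, j) ≠ (a, b)) (h2 : (i, j) ≠ (b, a)) :
    Equiv.swap a b i < Equiv.swap a b j ↔ i < j := by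
  have h1' : ¬ ((i : ℕ) = a ∧ (j : ℕ) = a + 1) := by
    rintro ⟨e1, e2⟩
    exact h1 (Prod.ext (Fin.ext e1) (Fin.ext (by rw [e2, hab])))
  have h2' : ¬ ((i : ℕ) = a + 1 ∧ (j : ℕ) = a) := by
    rintro ⟨e1, e2⟩
    exact h2 (Prod.ext (Fin.ext (by rw [e1, hab])) (Fin.ext e2))
  rw [Fin.lt_def, Fin.lt_def, ba2a270_swap_val a b hab i, ba2a270_swap_val a b hab j]
  split_ifs <;> omega

/-- the product over pairs under an adjacent transposition. -/
theorem ba2a270_P_swap {n : ℕ} (f : K → K → K) (w : Fin n → K) (a b : Fin n)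
    (hab : (b : ℕ) = a + 1) :
    ba2a270_P f (fun k => w (Equiv.swap a b k)) * f (w a) (w b) =
      ba2a270_P f w * f (w b) (w a) := by
  have hlt : a < b := by rw [Fin.lt_def]; omega
  have hne : (b, a) ≠ (a, b) := by
    intro h
    exact hlt.ne (congrArg Prod.fst h).symm
  set G : Fin n × Fin n → K :=
    fun p => if Equiv.swap a b p.1 < Equiv.swap a b p.2 then f (w p.1) (w p.2) else 1 with hG
  set G' : Fin n × Fin n → K := fun p => if p.1 < p.2 then f (w p.1) (w p.2) else 1 with hG'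
  have e1 : ba2a270_P f (fun k => w (Equiv.swap a b k)) = ∏ p, G p := by
    rw [ba2a270_P_ite, ← Equiv.prod_comp (Equiv.prodCongr (Equiv.swap a b) (Equiv.swap a b)) G,
      Fintype.prod_prod_type]
    simp [hG]
  have e2 : ba2a270_P f w = ∏ p, G' p := by
    rw [ba2a270_P_ite, Fintype.prod_prod_type]
  have s1 : ∏ p, G p = G (a, b) * (G (b, a) * ∏ p ∈ (univ.erase (a, b)).erase (b, a), G p) := by
    rw [mul_prod_erase _ G (mem_erase.mpr ⟨hne, mem_univ _⟩), mul_prod_erase _ G (mem_univ _)]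
  have s2 : ∏ p, G' p = G' (a, b) * (G' (b, a) * ∏ p ∈ (univ.erase (a, b)).erase (b, a), G' p) := by
    rw [mul_prod_erase _ G' (mem_erase.mpr ⟨hne, mem_univ _⟩), mul_prod_erase _ G' (mem_univ _)]
  have s3 : ∏ p ∈ (univ.erase (a, b)).erase (b, a), G p =
      ∏ p ∈ (univ.erase (a, b)).erase (b, a), G' p := by
    refine prod_congr rfl fun p hp => ?_
    rw [mem_erase, mem_erase] at hp
    simp only [hG, hG']
    rw [if_congr (ba2a270_swap_lt a b hab p.1 p.2 hp.2.1 hp.1) rfl rfl]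
  have g1 : G (a, b) = 1 := by
    simp only [hG, Equiv.swap_apply_left, Equiv.swap_apply_right]
    rw [if_neg hlt.not_gt]
  have g2 : G (b, a) = f (w b) (w a) := by
    simp only [hG, Equiv.swap_apply_left, Equiv.swap_apply_right]
    rw [if_pos hlt]
  have g3 : G' (a, b) = f (w a) (w b) := by
    simp only [hG']
    rw [if_pos hlt]
  have g4 : G' (b, a) = 1 := by
    simp only [hG']
    rw [if_neg hlt.not_gt]
  rw [e1, e2, s1, s2, s3, g1, g2, g3, g4]
  ring

end Pairs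

section Amp

variable {K : Type*} [CommRing K]

/-- the scattering factor, `d = 2 Δ`. -/
def ba2a270_s (d u v : K) : K := 1 - d * u + u * v

/-- the Bethe amplitudes. -/
def ba2a270_A {n : ℕ} (d : K) (z : Fin n → K) (σ : Equiv.Perm (Fin n)) : K :=
  ((Equiv.Perm.sign σ : ℤ) : K) * ∏ k : Fin n, ∏ l ∈ Ioi k, ba2a270_s d (z (σ k)) (z (σ l))

/-- the Bethe equations (polynomial form), `n` particles, period `N`. -/
def ba2a270_BE {n : ℕ} (d : K) (N : ℕ) (z : Fin n → K) : Prop :=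
  ∀ j, z j ^ N * ∏ l ∈ univ.erase j, ba2a270_s d (z l) (z j) =
    (-1) ^ (n - 1) * ∏ l ∈ univ.erase j, ba2a270_s d (z j) (z l)

theorem ba2a270_A_eq {n : ℕ} (d : K) (z : Fin n → K) (σ : Equiv.Perm (Fin n)) :
    ba2a270_A d z σ = ((Equiv.Perm.sign σ : ℤ) : K) * ba2a270_P (ba2a270_s d) (fun k => z (σ k)) :=
  rfl

/-- **(R1)** in terms of the scattering factor. -/
theorem ba2a270_R1 {n : ℕ} (d : K) (z : Fin n → K) (σ : Equiv.Perm (Fin n)) (a b : Fin n)
    (hab : (b : ℕ) = a + 1) :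
    ba2a270_A d z σ * ba2a270_s d (z (σ b)) (z (σ a)) +
      ba2a270_A d z (σ * Equiv.swap a b) * ba2a270_s d (z (σ a)) (z (σ b)) = 0 := by
  have hne : a ≠ b := by
    intro h
    rw [h] at hab
    omega
  have h := ba2a270_P_swap (ba2a270_s d) (fun k => z (σ k)) a b hab
  rw [ba2a270_A_eq, ba2a270_A_eq, Equiv.Perm.sign_mul, Equiv.Perm.sign_swap hne]
  simp only [Equiv.Perm.mul_apply]
  push_cast
  linear_combination (-((Equiv.Perm.sign σ : ℤ) : K)) * h

theorem ba2a270_prod_erase {m : ℕ} (τ : Equiv.Perm (Fin (m + 1))) (G : Fin (m + 1) → K) :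
    ∏ l ∈ univ.erase (τ 0), G l = ∏ k : Fin m, G (τ k.succ) := by
  have h1 : univ.erase (τ 0) = (univ : Finset (Fin m)).image (fun k => τ k.succ) := by
    ext l
    simp only [mem_erase, mem_univ, and_true, mem_image, true_and]
    constructor
    · intro hl
      have h2 : τ⁻¹ l ≠ 0 := by
        intro h
        apply hl
        rw [← h]
        simp
      obtain ⟨k, hk⟩ := Fin.exists_succ_eq.mpr h2
      exact ⟨k, by rw [hk]; simp⟩
    · rintro ⟨k, rfl⟩ h
      exact Fin.succ_ne_zero k (τ.injective h)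
  rw [h1, prod_image]
  intro k _ k' _ h
  exact Fin.succ_injective _ (τ.injective h)

/-- **(R2)** from the Bethe equations. -/
theorem ba2a270_R2 {m : ℕ} (d : K) (N : ℕ) (z : Fin (m + 1) → K) (hBE : ba2a270_BE d N z)
    (τ : Equiv.Perm (Fin (m + 1))) :
    ba2a270_A d z τ = z (τ 0) ^ N * ba2a270_A d z (τ * finRotate (m + 1)) := by
  have h := hBE (τ 0)
  rw [ba2a270_prod_erase τ (fun l => ba2a270_s d (z l) (z (τ 0))),
    ba2a270_prod_erase τ (fun l => ba2a270_s d (z (τ 0)) (z l))] at h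
  rw [ba2a270_A_eq, ba2a270_A_eq, Equiv.Perm.sign_mul, sign_finRotate]
  simp only [Equiv.Perm.mul_apply]
  rw [ba2a270_P_rot (ba2a270_s d) (fun k => z (τ k)), ba2a270_P_succ (ba2a270_s d) (fun k => z (τ k))]
  simp only [Nat.add_sub_cancel] at h ⊢
  have h2 : ((-1 : K) ^ m) * (-1) ^ m = 1 := by
    rw [← mul_pow]
    simp
  push_cast
  linear_combination (-((Equiv.Perm.sign τ : ℤ) : K) * (-1) ^ m *
    ba2a270_P (ba2a270_s d) (fun k => z (τ k.succ))) * h -
    (((Equiv.Perm.sign τ : ℤ) : K) * ba2a270_P (ba2a270_s d) (fun k => z (τ k.succ)) *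
      ∏ k : Fin m, ba2a270_s d (z (τ 0)) (z (τ k.succ))) * h2

end Amp

section FieldPart

variable {K : Type*} [Field K]

/-- `L (w) = 1 + c² w / (1 - w)`. -/
def ba2a270_L (c w : K) : K := 1 + c ^ 2 * w / (1 - w)

/-- `M (w) = 1 - c² / (1 - w)`. -/
def ba2a270_M (c w : K) : K := 1 - c ^ 2 / (1 - w)

theorem ba2a270_key (c p q : K) (hp : p ≠ 1) (hq : q ≠ 1) :
    ba2a270_M c p * ba2a270_L c q - 1 =
      -c ^ 2 * ba2a270_s (2 - c ^ 2) q p / ((1 - p) * (1 - q)) := by
  have h1 : (1 - p) ≠ 0 := sub_ne_zero.mpr (Ne.symm hp)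
  have h2 : (1 - q) ≠ 0 := sub_ne_zero.mpr (Ne.symm hq)
  unfold ba2a270_M ba2a270_L ba2a270_s
  field_simp
  ring

/-- the one-particle sum: end points with weight `1`, inner points with weight `c²`. -/
theorem ba2a270_geom (c w : K) (hw : w ≠ 1) {lo hi : ℕ} (h : lo < hi) :
    w ^ lo + w ^ hi + c ^ 2 * ∑ j ∈ Ioo lo hi, w ^ j =
      w ^ lo * ba2a270_L c w + w ^ hi * ba2a270_M c w := by
  have h1 : (1 - w) ≠ 0 := sub_ne_zero.mpr (Ne.symm hw)
  have h3 : (w - 1) ≠ 0 := sub_ne_zero.mpr hw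
  have h2 : Ioo lo hi = Ico (lo + 1) hi := by
    ext j
    simp only [mem_Ioo, mem_Ico]
    omega
  rw [h2, geom_sum_Ico hw (by omega : lo + 1 ≤ hi)]
  unfold ba2a270_M ba2a270_L
  field_simp
  ring

/-- (R1) in the form consumed by the core. -/
theorem ba2a270_R1' {n : ℕ} (c : K) (z : Fin n → K) (hz : ∀ j, z j ≠ 1) (σ : Equiv.Perm (Fin n))
    (a b : Fin n) (hab : (b : ℕ) = a + 1) :
    ba2a270_A (2 - c ^ 2) z σ * (ba2a270_M c (z (σ a)) * ba2a270_L c (z (σ b)) - 1) +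
      ba2a270_A (2 - c ^ 2) z (σ * Equiv.swap a b) *
        (ba2a270_M c (z (σ b)) * ba2a270_L c (z (σ a)) - 1) = 0 := by
  have h := ba2a270_R1 (2 - c ^ 2) z σ a b hab
  rw [ba2a270_key c _ _ (hz (σ a)) (hz (σ b)), ba2a270_key c _ _ (hz (σ b)) (hz (σ a))]
  have h1 : (1 - z (σ a)) ≠ 0 := sub_ne_zero.mpr (Ne.symm (hz (σ a)))
  have h2 : (1 - z (σ b)) ≠ 0 := sub_ne_zero.mpr (Ne.symm (hz (σ b)))
  field_simp
  linear_combination (-c ^ 2) * h

/-- **BA2, pens P1 + P2**: the coordinate Bethe ansatz for the continuant form of the row sum.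
`m + 1` particles, period `N`, `a = b = 1`, `2 Δ = 2 - c²`, roots `z j ≠ 1` solving the Bethe
equations. -/
theorem ba2a270_eigen {m : ℕ} (c : K) (N : ℕ) (z : Fin (m + 1) → K) (hz : ∀ j, z j ≠ 1)
    (hBE : ba2a270_BE (2 - c ^ 2) N z) (x : ℕ → ℕ) :
    ∑ σ, ba2a270_A (2 - c ^ 2) z σ * Matrix.trace
        (ba2c270_op (ba2c270_Q (ba2a270_L c) (ba2a270_M c) x (ba2c270_xp m N x)
          (ba2c270_W z σ)) 0 (m + 1)) =
      ((∏ j, ba2a270_L c (z j)) + ∏ j, ba2a270_M c (z j)) *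
        ba2c270_Psi (ba2a270_A (2 - c ^ 2) z) z x :=
  ba2c270_core N _ z _ _ (fun σ a b hab => ba2a270_R1' c z hz σ a b hab)
    (fun τ => ba2a270_R2 _ N z hBE τ) x

end FieldPart

end Claimed.Agent.R292
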