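import Mathlib

/-!
# Row 292, unit BETHE, block BA2, pen P4a: the column transfer matrix in position coordinates

`ba2d160_T c N e e' = ∑ v, ∏ b, wt (e b) (e' b) (v (b - 1)) (v b)` is the cyclic column transfer matrix of
the six-vertex model `a = b = 1` on `ZMod N`.  For particles at `x 0 < ... < x m < x 0 + N` the pairs
`(e', v)` obeying the ice rule are in bijection with the chains `x k ≤ y k ≤ x (k + 1)`,
`y k < y (k + 1)` (cyclically, lifted), and the weight is `c ^ 2` for every `y k` strictly inside: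
`ba2d160_main`.  No hypothesis on `c`, any commutative semiring.
-/

namespace Claimed.Agent.R292

open Finset

/-- Local weight of the six-vertex model `a = b = 1`: `e`, `e'` the two vertical edges at the site,
`vl`, `vr` the two horizontal ones. -/
def ba2d160_wt {K : Type*} [CommSemiring K] (c : K) (e e' vl vr : Bool) : K :=
  if e.toNat + vl.toNat = e'.toNat + vr.toNat then (if e = e' then 1 else c) else 0

/-- The row-to-row transfer matrix on the cycle `ZMod N`. -/
def ba2d160_T {K : Type*} [CommSemiring K] (c : K) (N : ℕ) [NeZero N] (e e' : ZMod N → Bool) : K :=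
  ∑ v : ZMod N → Bool, ∏ b : ZMod N, ba2d160_wt c (e b) (e' b) (v (b - 1)) (v b)

/-- The shift at the seam. -/
def ba2d160_s (N : ℕ) {m : ℕ} (k : Fin (m + 1)) : ℕ := if k = 0 then N else 0

/-- The next particle (cyclically, lifted). -/
def ba2d160_xp (N : ℕ) {m : ℕ} (x : Fin (m + 1) → ℕ) (k : Fin (m + 1)) : ℕ :=
  x (k + 1) + ba2d160_s N (k + 1)

/-- The configuration with particles at the positions `y k` modulo `N`. -/
def ba2d160_ind (N : ℕ) {m : ℕ} (y : Fin (m + 1) → ℕ) (b : ZMod N) : Bool :=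
  decide (∃ k, (y k : ZMod N) = b)

open Classical in
/-- The horizontal edges occupied when the particle `k` moves from `x k` to `y k`. -/
noncomputable def ba2d160_vv (N : ℕ) {m : ℕ} (x y : Fin (m + 1) → ℕ) (b : ZMod N) : Bool :=
  decide (∃ k, ∃ t, x k ≤ t ∧ t < y k ∧ (t : ZMod N) = b)

/-- The chain set. -/
def ba2d160_chain (N : ℕ) {m : ℕ} (x : Fin (m + 1) → ℕ) : Finset (Fin (m + 1) → ℕ) :=
  (Fintype.piFinset fun k => Finset.Icc (x k) (ba2d160_xp N x k)).filter
    fun y => ∀ k, y k < y (k + 1) + ba2d160_s N (k + 1)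

section geom

variable {N m : ℕ} {x : Fin (m + 1) → ℕ}

theorem ba2d160_xp_last (x : Fin (m + 1) → ℕ) : ba2d160_xp N x (Fin.last m) = x 0 + N := by
  simp [ba2d160_xp, ba2d160_s]

theorem ba2d160_succ_ne_zero {k : Fin (m + 1)} (hk : k ≠ Fin.last m) : k + 1 ≠ 0 := by
  intro h
  have := Fin.val_add_one k
  rw [h, if_neg hk] at this
  simp at this

theorem ba2d160_xp_of_ne {k : Fin (m + 1)} (hk : k ≠ Fin.last m) :
    ba2d160_xp N x k = x (k + 1) := by
  simp [ba2d160_xp, ba2d160_s, ba2d160_succ_ne_zero hk]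

theorem ba2d160_lt_succ {k : Fin (m + 1)} (hk : k ≠ Fin.last m) : k < k + 1 :=
  Fin.lt_add_one_iff.2 (lt_of_le_of_ne (Fin.le_last k) hk)

theorem ba2d160_x0_le (hx : StrictMono x) (k : Fin (m + 1)) : x 0 ≤ x k :=
  hx.monotone (Fin.zero_le k)

theorem ba2d160_lt_xp (hx : StrictMono x) (hN : x (Fin.last m) < x 0 + N) (k : Fin (m + 1)) :
    x k < ba2d160_xp N x k := by
  by_cases hk : k = Fin.last m
  · subst hk; rw [ba2d160_xp_last]; exact hN
  · rw [ba2d160_xp_of_ne hk]; exact hx (ba2d160_lt_succ hk)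

theorem ba2d160_xp_le (hx : StrictMono x) (hN : x (Fin.last m) < x 0 + N) (k : Fin (m + 1)) :
    ba2d160_xp N x k ≤ x 0 + N := by
  by_cases hk : k = Fin.last m
  · subst hk; rw [ba2d160_xp_last]
  · rw [ba2d160_xp_of_ne hk]
    exact le_trans (hx.monotone (Fin.le_last _)) hN.le

theorem ba2d160_xp_le_of_lt (hx : StrictMono x) {k k' : Fin (m + 1)} (h : k < k') :
    ba2d160_xp N x k ≤ x k' := by
  have hk : k ≠ Fin.last m := fun h' => absurd (Fin.le_last k') (by rw [← h']; exact not_le.2 h)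
  rw [ba2d160_xp_of_ne hk]
  exact hx.monotone (Fin.add_one_le_of_lt h)

/-- The segments `[x k, xp k)` are disjoint. -/
theorem ba2d160_seg_unique (hx : StrictMono x) {k k' : Fin (m + 1)} {t : ℕ}
    (h1 : x k ≤ t) (h2 : t < ba2d160_xp N x k) (h1' : x k' ≤ t) (h2' : t < ba2d160_xp N x k') :
    k = k' := by
  rcases lt_trichotomy k k' with h | h | h
  · have := ba2d160_xp_le_of_lt (N := N) hx h; omega
  · exact h
  · have := ba2d160_xp_le_of_lt (N := N) hx h; omega

/-- The segments cover the window `[x 0, x 0 + N)`. -/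
theorem ba2d160_seg_exists (x : Fin (m + 1) → ℕ) {t : ℕ}
    (h1 : x 0 ≤ t) (h2 : t < x 0 + N) : ∃ k, x k ≤ t ∧ t < ba2d160_xp N x k := by
  obtain ⟨k, hk, hmax⟩ := Finset.exists_max_image (Finset.univ.filter fun k => x k ≤ t)
    (fun k : Fin (m + 1) => k) ⟨0, by simp [h1]⟩
  refine ⟨k, (Finset.mem_filter.1 hk).2, ?_⟩
  by_cases hl : k = Fin.last m
  · subst hl; rw [ba2d160_xp_last]; exact h2
  · rw [ba2d160_xp_of_ne hl]
    by_contra hcon
    have := hmax (k + 1) (by simp; omega)
    exact absurd (ba2d160_lt_succ hl) (not_lt.2 this)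

/-- Two lifts in one window agree. -/
theorem ba2d160_cast_inj {a t t' : ℕ} (h1 : a ≤ t) (h2 : t < a + N) (h1' : a ≤ t') (h2' : t' < a + N)
    (h : (t : ZMod N) = (t' : ZMod N)) : t = t' := by
  rw [ZMod.natCast_eq_natCast_iff] at h
  apply h.eq_of_abs_lt
  rw [abs_lt]; constructor <;> omega

/-- Every site has a lift in the window. -/
theorem ba2d160_cast_surj [NeZero N] (a : ℕ) (b : ZMod N) :
    ∃ t, a ≤ t ∧ t < a + N ∧ (t : ZMod N) = b := by
  refine ⟨a + (b - (a : ZMod N)).val, by omega, ?_, ?_⟩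
  · have := ZMod.val_lt (b - (a : ZMod N)); omega
  · push_cast; rw [ZMod.natCast_zmod_val]; ring

/-- Every site has a lift in a segment. -/
theorem ba2d160_site [NeZero N] (x : Fin (m + 1) → ℕ) (b : ZMod N) :
    ∃ k t, x k ≤ t ∧ t < ba2d160_xp N x k ∧ (t : ZMod N) = b := by
  obtain ⟨t, h1, h2, h3⟩ := ba2d160_cast_surj (x 0) b
  obtain ⟨k, h4, h5⟩ := ba2d160_seg_exists x h1 h2
  exact ⟨k, t, h4, h5, h3⟩

end geom

section dict

variable {N m : ℕ} {x y : Fin (m + 1) → ℕ}

/-- Membership in the box. -/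
def ba2d160_Box (N : ℕ) {m : ℕ} (x y : Fin (m + 1) → ℕ) : Prop :=
  ∀ k, x k ≤ y k ∧ y k ≤ ba2d160_xp N x k

/-- **SEG**: on the segment `k` the horizontal edge at `t` is occupied iff `t < y k`. -/
theorem ba2d160_vv_seg (hx : StrictMono x) (hN : x (Fin.last m) < x 0 + N)
    (hy : ba2d160_Box N x y) {k : Fin (m + 1)} {t : ℕ} (h1 : x k ≤ t) (h2 : t < ba2d160_xp N x k) :
    ba2d160_vv N x y (t : ZMod N) = decide (t < y k) := by
  unfold ba2d160_vv
  rw [decide_eq_decide]
  constructor
  · rintro ⟨k', t', h3, h4, h5⟩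
    have h6 : t' < ba2d160_xp N x k' := lt_of_lt_of_le h4 (hy k').2
    have e1 : t' = t := ba2d160_cast_inj (a := x 0) (N := N)
      (le_trans (ba2d160_x0_le hx k') h3) (lt_of_lt_of_le h6 (ba2d160_xp_le hx hN k'))
      (le_trans (ba2d160_x0_le hx k) h1) (lt_of_lt_of_le h2 (ba2d160_xp_le hx hN k)) h5
    subst e1
    have e2 : k' = k := ba2d160_seg_unique hx h3 h6 h1 h2
    subst e2
    exact h4
  · intro h
    exact ⟨k, t, h1, h, rfl⟩

theorem ba2d160_s_cast (k : Fin (m + 1)) : ((ba2d160_s N k : ℕ) : ZMod N) = 0 := by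
  unfold ba2d160_s
  split_ifs <;> simp

theorem ba2d160_xp_cast (x : Fin (m + 1) → ℕ) (k : Fin (m + 1)) :
    ((ba2d160_xp N x k : ℕ) : ZMod N) = (x (k + 1) : ZMod N) := by
  unfold ba2d160_xp
  rw [Nat.cast_add, ba2d160_s_cast, add_zero]

/-- **IND**: on the segment `k + 1` the new configuration has a particle at `t` iff `t = y (k + 1)`, or
`t = x (k + 1)` and the particle `k` has moved all the way. -/
theorem ba2d160_ind_seg (hx : StrictMono x) (hN : x (Fin.last m) < x 0 + N)
    (hy : ba2d160_Box N x y) {k : Fin (m + 1)} {t : ℕ} (h1 : x (k + 1) ≤ t)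
    (h2 : t < ba2d160_xp N x (k + 1)) :
    ba2d160_ind N y (t : ZMod N) =
      decide (t = y (k + 1) ∨ (t = x (k + 1) ∧ y k = ba2d160_xp N x k)) := by
  unfold ba2d160_ind
  rw [decide_eq_decide]
  have ht1 : x 0 ≤ t := le_trans (ba2d160_x0_le hx _) h1
  have ht2 : t < x 0 + N := lt_of_lt_of_le h2 (ba2d160_xp_le hx hN _)
  constructor
  · rintro ⟨k', h5⟩
    by_cases h6 : y k' = ba2d160_xp N x k'
    · -- the particle `k'` has moved all the way
      right
      rw [h6, ba2d160_xp_cast] at h5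
      have e1 : x (k' + 1) = t := ba2d160_cast_inj (a := x 0) (N := N)
        (ba2d160_x0_le hx _) (lt_of_le_of_lt (hx.monotone (Fin.le_last _)) hN) ht1 ht2 h5
      have e2 : k' + 1 = k + 1 := ba2d160_seg_unique hx (le_of_eq e1)
        (by rw [← e1]; exact ba2d160_lt_xp hx hN _) h1 h2
      have e3 : k' = k := add_right_cancel e2
      subst e3
      exact ⟨e1.symm, h6⟩
    · left
      have h7 : y k' < ba2d160_xp N x k' := lt_of_le_of_ne (hy k').2 h6
      have e1 : y k' = t := ba2d160_cast_inj (a := x 0) (N := N)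
        (le_trans (ba2d160_x0_le hx _) (hy k').1) (lt_of_lt_of_le h7 (ba2d160_xp_le hx hN _))
        ht1 ht2 h5
      have e2 : k' = k + 1 := ba2d160_seg_unique hx (hy k').1 h7 (by rw [e1]; exact h1)
        (by rw [e1]; exact h2)
      subst e2
      exact e1.symm
  · rintro (h | ⟨h, h'⟩)
    · exact ⟨k + 1, by rw [h]⟩
    · exact ⟨k, by rw [h', ba2d160_xp_cast, h]⟩

theorem ba2d160_toNat_decide (p : Prop) [Decidable p] :
    (decide p).toNat = if p then 1 else 0 := by
  by_cases h : p <;> simp [h]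

theorem ba2d160_box_self (hx : StrictMono x) (hN : x (Fin.last m) < x 0 + N) :
    ba2d160_Box N x x := fun k => ⟨le_rfl, (ba2d160_lt_xp hx hN k).le⟩

/-- The site before `x (k + 1)` is the last site of the segment `k`. -/
theorem ba2d160_pred_cast (hx : StrictMono x) (hN : x (Fin.last m) < x 0 + N) (k : Fin (m + 1)) :
    (x (k + 1) : ZMod N) - 1 = ((ba2d160_xp N x k - 1 : ℕ) : ZMod N) := by
  have hk := ba2d160_lt_xp hx hN k
  rw [Nat.cast_sub (by omega), ba2d160_xp_cast]; simp

/-- **The ice rule** for the pair attached to a chain `y`. -/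
theorem ba2d160_ice [NeZero N] (hx : StrictMono x) (hN : x (Fin.last m) < x 0 + N)
    (hy : ba2d160_Box N x y) (hc : ∀ k, y k < y (k + 1) + ba2d160_s N (k + 1)) (b : ZMod N) :
    (ba2d160_ind N x b).toNat + (ba2d160_vv N x y (b - 1)).toNat =
      (ba2d160_ind N y b).toNat + (ba2d160_vv N x y b).toNat := by
  obtain ⟨k0, t, h1, h2, rfl⟩ := ba2d160_site x b
  obtain ⟨k, rfl⟩ : ∃ k, k0 = k + 1 := ⟨k0 - 1, by simp⟩
  rw [ba2d160_ind_seg hx hN (ba2d160_box_self hx hN) h1 h2, ba2d160_ind_seg hx hN hy h1 h2,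
    ba2d160_vv_seg hx hN hy h1 h2]
  have hk := ba2d160_lt_xp hx hN k
  have hy1 := hy k
  have hy2 := hy (k + 1)
  have hc1 := hc k
  have hdef : ba2d160_xp N x k = x (k + 1) + ba2d160_s N (k + 1) := rfl
  rcases eq_or_lt_of_le h1 with h | h
  · have e : (t : ZMod N) - 1 = ((ba2d160_xp N x k - 1 : ℕ) : ZMod N) := by
      rw [← h]; exact ba2d160_pred_cast hx hN k
    rw [e, ba2d160_vv_seg hx hN hy (k := k) (by omega) (by omega)]
    simp only [ba2d160_toNat_decide]
    split_ifs <;> omega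
  · have e : (t : ZMod N) - 1 = ((t - 1 : ℕ) : ZMod N) := by
      rw [Nat.cast_sub (by omega)]; simp
    rw [e, ba2d160_vv_seg hx hN hy (k := k + 1) (by omega) (by omega)]
    simp only [ba2d160_toNat_decide]
    split_ifs <;> omega

/-- In a pair obeying the ice rule as many particles leave as arrive. -/
theorem ba2d160_cnt [NeZero N] (e e' v : ZMod N → Bool)
    (h : ∀ b, (e b).toNat + (v (b - 1)).toNat = (e' b).toNat + (v b).toNat) :
    (Finset.univ.filter fun b => e b ≠ e' b).card =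
      2 * (Finset.univ.filter fun b => e b = false ∧ e' b = true).card := by
  have h1 : ∑ b, (v (b - 1)).toNat = ∑ b, (v b).toNat :=
    Equiv.sum_comp (Equiv.subRight (1 : ZMod N)) fun b => (v b).toNat
  have h2 : ∑ b, (e b).toNat = ∑ b, (e' b).toNat := by
    have := Finset.sum_congr (rfl : (Finset.univ : Finset (ZMod N)) = Finset.univ) fun b _ => h b
    rw [Finset.sum_add_distrib, Finset.sum_add_distrib, h1] at this
    omega
  have h4 : ∑ b, ((e' b).toNat + (if e b ≠ e' b then 1 else 0)) =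
      ∑ b, ((e b).toNat + 2 * (if e b = false ∧ e' b = true then 1 else 0)) := by
    refine Finset.sum_congr rfl fun b _ => ?_
    cases e b <;> cases e' b <;> simp
  rw [Finset.card_filter, Finset.card_filter]
  rw [Finset.sum_add_distrib, Finset.sum_add_distrib, ← Finset.mul_sum] at h4
  omega

/-- The sites where a particle arrives are the `y k` strictly inside their segments. -/
theorem ba2d160_arrive [NeZero N] (hx : StrictMono x) (hN : x (Fin.last m) < x 0 + N)
    (hy : ba2d160_Box N x y) :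
    (Finset.univ.filter fun b => ba2d160_ind N x b = false ∧ ba2d160_ind N y b = true).card =
      (Finset.univ.filter fun k => ¬ (y k = x k ∨ y k = ba2d160_xp N x k)).card := by
  symm
  refine Finset.card_bij (fun k _ => (y k : ZMod N)) ?_ ?_ ?_
  · intro k0 hk
    obtain ⟨k, rfl⟩ : ∃ k, k0 = k + 1 := ⟨k0 - 1, by simp⟩
    have hk' := (Finset.mem_filter.1 hk).2
    have hy2 := hy (k + 1)
    have hk1 := ba2d160_lt_xp hx hN k
    rw [Finset.mem_filter]
    refine ⟨Finset.mem_univ _, ?_, ?_⟩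
    · rw [ba2d160_ind_seg hx hN (ba2d160_box_self hx hN) (k := k) hy2.1 (by omega)]
      rw [decide_eq_false_iff_not]
      omega
    · rw [ba2d160_ind_seg hx hN hy (k := k) hy2.1 (by omega)]
      rw [decide_eq_true_iff]
      left; rfl
  · intro k hk k' hk' h
    have hk1 := (Finset.mem_filter.1 hk).2
    have hk2 := (Finset.mem_filter.1 hk').2
    have h1 := hy k
    have h2 := hy k'
    have e1 : y k = y k' := ba2d160_cast_inj (a := x 0) (N := N)
      (le_trans (ba2d160_x0_le hx _) h1.1)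
      (lt_of_lt_of_le (by omega : y k < ba2d160_xp N x k) (ba2d160_xp_le hx hN _))
      (le_trans (ba2d160_x0_le hx _) h2.1)
      (lt_of_lt_of_le (by omega : y k' < ba2d160_xp N x k') (ba2d160_xp_le hx hN _)) h
    exact ba2d160_seg_unique (N := N) (t := y k) hx h1.1 (by omega) (by omega) (by omega)
  · intro b hb
    obtain ⟨hb1, hb2⟩ := (Finset.mem_filter.1 hb).2
    obtain ⟨k0, t, h1, h2, rfl⟩ := ba2d160_site x b
    obtain ⟨k, rfl⟩ : ∃ k, k0 = k + 1 := ⟨k0 - 1, by simp⟩
    rw [ba2d160_ind_seg hx hN (ba2d160_box_self hx hN) h1 h2, decide_eq_false_iff_not] at hb1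
    rw [ba2d160_ind_seg hx hN hy h1 h2, decide_eq_true_iff] at hb2
    refine ⟨k + 1, ?_, ?_⟩
    · rw [Finset.mem_filter]
      refine ⟨Finset.mem_univ _, ?_⟩
      omega
    · have : t = y (k + 1) := by omega
      rw [this]

/-- **(A)** the weight of the pair attached to a chain `y`. -/
theorem ba2d160_weight {K : Type*} [CommSemiring K] (c : K) [NeZero N] (hx : StrictMono x)
    (hN : x (Fin.last m) < x 0 + N) (hy : ba2d160_Box N x y)
    (hc : ∀ k, y k < y (k + 1) + ba2d160_s N (k + 1)) :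
    ∏ b : ZMod N, ba2d160_wt c (ba2d160_ind N x b) (ba2d160_ind N y b)
        (ba2d160_vv N x y (b - 1)) (ba2d160_vv N x y b) =
      ∏ k, if y k = x k ∨ y k = ba2d160_xp N x k then 1 else c ^ 2 := by
  have h1 : ∀ b : ZMod N, ba2d160_wt c (ba2d160_ind N x b) (ba2d160_ind N y b)
        (ba2d160_vv N x y (b - 1)) (ba2d160_vv N x y b) =
      if ba2d160_ind N x b ≠ ba2d160_ind N y b then c else 1 := by
    intro b
    unfold ba2d160_wt
    rw [if_pos (ba2d160_ice hx hN hy hc b)]
    by_cases h : ba2d160_ind N x b = ba2d160_ind N y b <;> simp [h]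
  simp_rw [h1]
  rw [Finset.prod_ite, Finset.prod_ite]
  simp only [Finset.prod_const, one_pow, mul_one, one_mul]
  rw [ba2d160_cnt _ _ _ (ba2d160_ice hx hN hy hc), ba2d160_arrive hx hN hy, pow_mul]

/-- **(B)** the horizontal edges determine the chain. -/
theorem ba2d160_vv_inj (hx : StrictMono x) (hN : x (Fin.last m) < x 0 + N)
    {y y' : Fin (m + 1) → ℕ} (hy : ba2d160_Box N x y) (hy' : ba2d160_Box N x y')
    (h : ba2d160_vv N x y = ba2d160_vv N x y') : y = y' := by
  funext k
  have h1 := hy k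
  have h2 := hy' k
  rcases lt_trichotomy (y k) (y' k) with hlt | heq | hlt
  · have e1 := ba2d160_vv_seg hx hN hy (k := k) (t := y k) h1.1 (by omega)
    have e2 := ba2d160_vv_seg hx hN hy' (k := k) (t := y k) h1.1 (by omega)
    rw [h, e2] at e1
    simp [hlt] at e1
  · exact heq
  · have e1 := ba2d160_vv_seg hx hN hy (k := k) (t := y' k) h2.1 (by omega)
    have e2 := ba2d160_vv_seg hx hN hy' (k := k) (t := y' k) h2.1 (by omega)
    rw [h, e2] at e1
    simp [hlt] at e1

/-- **(C)** every pair obeying the ice rule comes from a chain. -/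
theorem ba2d160_surj [NeZero N] (hx : StrictMono x) (hN : x (Fin.last m) < x 0 + N)
    (e' v : ZMod N → Bool)
    (h : ∀ b, (ba2d160_ind N x b).toNat + (v (b - 1)).toNat = (e' b).toNat + (v b).toNat) :
    ∃ y, ba2d160_Box N x y ∧ (∀ k, y k < y (k + 1) + ba2d160_s N (k + 1)) ∧
      ba2d160_ind N y = e' ∧ ba2d160_vv N x y = v := by
  classical
  have hex : ∀ k, ∃ t, x k ≤ t ∧ (t = ba2d160_xp N x k ∨ v (t : ZMod N) = false) :=
    fun k => ⟨ba2d160_xp N x k, (ba2d160_lt_xp hx hN k).le, Or.inl rfl⟩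
  let y : Fin (m + 1) → ℕ := fun k => Nat.find (hex k)
  have y1 : ∀ k, x k ≤ y k := fun k => (Nat.find_spec (hex k)).1
  have y2 : ∀ k, y k = ba2d160_xp N x k ∨ v (y k : ZMod N) = false :=
    fun k => (Nat.find_spec (hex k)).2
  have y3 : ∀ k, y k ≤ ba2d160_xp N x k :=
    fun k => Nat.find_min' (hex k) ⟨(ba2d160_lt_xp hx hN k).le, Or.inl rfl⟩
  have y4 : ∀ k t, x k ≤ t → t < y k → v (t : ZMod N) = true := by
    intro k t h1 h2
    have := Nat.find_min (hex k) h2
    by_contra hv
    exact this ⟨h1, Or.inr (by simpa using hv)⟩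
  have hbox : ba2d160_Box N x y := fun k => ⟨y1 k, y3 k⟩
  -- inside a segment `v` cannot switch on
  have y5 : ∀ k t, y k ≤ t → t < ba2d160_xp N x k → v (t : ZMod N) = false := by
    intro k0 t h1
    obtain ⟨k, rfl⟩ : ∃ k, k0 = k + 1 := ⟨k0 - 1, by simp⟩
    induction t, h1 using Nat.le_induction with
    | base =>
      intro h2
      rcases y2 (k + 1) with h3 | h3
      · omega
      · exact h3
    | succ t h1 ih =>
      intro h2
      have ih' := ih (by omega)
      have hh := h ((t + 1 : ℕ) : ZMod N)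
      have hy1 := y1 (k + 1)
      have hk1 := ba2d160_lt_xp hx hN k
      rw [ba2d160_ind_seg hx hN (ba2d160_box_self hx hN) (k := k) (by omega) h2] at hh
      have e : ((t + 1 : ℕ) : ZMod N) - 1 = (t : ZMod N) := by push_cast; ring
      rw [e, ih', decide_eq_false (by omega)] at hh
      cases hv : v ((t + 1 : ℕ) : ZMod N)
      · rfl
      · rw [hv] at hh; simp at hh
  have y6 : ∀ k t, x k ≤ t → t < ba2d160_xp N x k → v (t : ZMod N) = decide (t < y k) := by
    intro k t h1 h2
    by_cases h3 : t < y k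
    · rw [y4 k t h1 h3]; simp [h3]
    · rw [y5 k t (by omega) h2]; simp [h3]
  have hvv : ba2d160_vv N x y = v := by
    funext b
    obtain ⟨k, t, h1, h2, rfl⟩ := ba2d160_site x b
    rw [ba2d160_vv_seg hx hN hbox h1 h2, y6 k t h1 h2]
  have hchain : ∀ k, y k < y (k + 1) + ba2d160_s N (k + 1) := by
    intro k
    by_contra hcon
    have hdef : ba2d160_xp N x k = x (k + 1) + ba2d160_s N (k + 1) := rfl
    have a1 := y1 (k + 1)
    have a2 := y3 k
    have a3 := ba2d160_lt_xp hx hN k
    have a4 := ba2d160_lt_xp hx hN (k + 1)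
    have hh := h (x (k + 1) : ZMod N)
    rw [ba2d160_pred_cast hx hN k, y6 k _ (by omega) (by omega), y6 (k + 1) _ le_rfl a4,
      ba2d160_ind_seg hx hN (ba2d160_box_self hx hN) (k := k) le_rfl a4,
      decide_eq_true (by omega), decide_eq_true (by omega), decide_eq_false (by omega)] at hh
    cases he : e' (x (k + 1) : ZMod N) <;> rw [he] at hh <;> simp at hh
  refine ⟨y, hbox, hchain, ?_, hvv⟩
  funext b
  have h1 := ba2d160_ice hx hN hbox hchain b
  have h2 := h b
  rw [hvv] at h1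
  have h3 : (ba2d160_ind N y b).toNat = (e' b).toNat := by omega
  cases h4 : ba2d160_ind N y b <;> cases h5 : e' b <;> rw [h4, h5] at h3 <;> simp at h3

theorem ba2d160_mem_chain {y : Fin (m + 1) → ℕ} :
    y ∈ ba2d160_chain N x ↔
      ba2d160_Box N x y ∧ ∀ k, y k < y (k + 1) + ba2d160_s N (k + 1) := by
  unfold ba2d160_chain ba2d160_Box
  rw [Finset.mem_filter, Fintype.mem_piFinset]
  simp only [Finset.mem_Icc]

/-- **Pen P4a.**  The transfer matrix in position coordinates: for every function `F` of the new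
configuration, `∑ e', T (ind x) e' * F e'` is the chain sum. -/
theorem ba2d160_main {K : Type*} [CommSemiring K] (c : K) [NeZero N] (hx : StrictMono x)
    (hN : x (Fin.last m) < x 0 + N) (F : (ZMod N → Bool) → K) :
    ∑ e' : ZMod N → Bool, ba2d160_T c N (ba2d160_ind N x) e' * F e' =
      ∑ y ∈ ba2d160_chain N x,
        (∏ k, if y k = x k ∨ y k = ba2d160_xp N x k then 1 else c ^ 2) * F (ba2d160_ind N y) := by
  classical
  let g : (ZMod N → Bool) × (ZMod N → Bool) → K := fun p =>
    (∏ b : ZMod N, ba2d160_wt c (ba2d160_ind N x b) (p.1 b) (p.2 (b - 1)) (p.2 b)) * F p.1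
  let Φ : (Fin (m + 1) → ℕ) → (ZMod N → Bool) × (ZMod N → Bool) := fun y =>
    (ba2d160_ind N y, ba2d160_vv N x y)
  have hL : ∑ e' : ZMod N → Bool, ba2d160_T c N (ba2d160_ind N x) e' * F e' = ∑ p, g p := by
    rw [Fintype.sum_prod_type]
    refine Finset.sum_congr rfl fun e' _ => ?_
    unfold ba2d160_T
    rw [Finset.sum_mul]
  have hR : ∑ y ∈ ba2d160_chain N x,
        (∏ k, if y k = x k ∨ y k = ba2d160_xp N x k then 1 else c ^ 2) * F (ba2d160_ind N y) =
      ∑ y ∈ ba2d160_chain N x, g (Φ y) := by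
    refine Finset.sum_congr rfl fun y hy => ?_
    obtain ⟨h1, h2⟩ := ba2d160_mem_chain.1 hy
    rw [← ba2d160_weight c hx hN h1 h2]
  have hinj : Set.InjOn Φ (ba2d160_chain N x : Set (Fin (m + 1) → ℕ)) := by
    intro y hy y' hy' h
    exact ba2d160_vv_inj hx hN (ba2d160_mem_chain.1 hy).1 (ba2d160_mem_chain.1 hy').1
      (congrArg Prod.snd h)
  rw [hL, hR, ← Finset.sum_image hinj]
  symm
  refine Finset.sum_subset (Finset.subset_univ _) fun p _ hp => ?_
  by_cases hv : ∀ b, (ba2d160_ind N x b).toNat + (p.2 (b - 1)).toNat =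
      (p.1 b).toNat + (p.2 b).toNat
  · exfalso
    obtain ⟨y, h1, h2, h3, h4⟩ := ba2d160_surj hx hN p.1 p.2 hv
    exact hp (Finset.mem_image.2 ⟨y, ba2d160_mem_chain.2 ⟨h1, h2⟩, by
      show (ba2d160_ind N y, ba2d160_vv N x y) = p
      rw [h3, h4]⟩)
  · push Not at hv
    obtain ⟨b, hb⟩ := hv
    show (∏ b : ZMod N, ba2d160_wt c (ba2d160_ind N x b) (p.1 b) (p.2 (b - 1)) (p.2 b)) * F p.1 = 0
    rw [Finset.prod_eq_zero (Finset.mem_univ b) (by unfold ba2d160_wt; rw [if_neg hb]), zero_mul]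

end dict

end Claimed.Agent.R292
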