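import Mathlib

/-!
# Row 292, unit BETHE, block BA2, pen P1 (helper270): the abstract core of the coordinate Bethe ansatz

`a = b = 1`.  For one plane wave `w` the row sum of the transfer matrix is the trace of an ordered
product of `2 × 2` matrices `Q k = X k + Y k` (a continuant).  Summed against amplitudes `A σ` which
satisfy the exchange relation (R1) and the cyclic relation (R2), everything cancels except the
all-`X` and the all-`Y` words.
-/

set_option autoImplicit false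

namespace Claimed.Agent.R292

open Finset

section RingPart

variable {R : Type*} [Ring R]

/-- ordered product `F a * F (a+1) * ... * F (b-1)` (`1` if `b ≤ a`). -/
def ba2c270_op (F : ℕ → R) (a : ℕ) : ℕ → R
  | 0 => 1
  | b + 1 => if a ≤ b then ba2c270_op F a b * F b else 1

theorem ba2c270_op_succ (F : ℕ → R) {a b : ℕ} (h : a ≤ b) :
    ba2c270_op F a (b + 1) = ba2c270_op F a b * F b := by
  simp [ba2c270_op, h]

theorem ba2c270_op_of_le (F : ℕ → R) {a b : ℕ} (h : b ≤ a) : ba2c270_op F a b = 1 := by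
  cases b with
  | zero => rfl
  | succ b =>
    have : ¬ a ≤ b := by omega
    simp [ba2c270_op, this]

theorem ba2c270_op_self (F : ℕ → R) (a : ℕ) : ba2c270_op F a a = 1 :=
  ba2c270_op_of_le F le_rfl

theorem ba2c270_op_left (F : ℕ → R) {a b : ℕ} (h : a < b) :
    ba2c270_op F a b = F a * ba2c270_op F (a + 1) b := by
  induction b with
  | zero => omega
  | succ b ih =>
    rcases Nat.lt_or_ge a b with h1 | h1
    · rw [ba2c270_op_succ F h1.le, ih h1, ba2c270_op_succ F (by omega), mul_assoc]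
    · have hab : a = b := by omega
      subst hab
      rw [ba2c270_op_succ F le_rfl, ba2c270_op_self, ba2c270_op_self, one_mul, mul_one]

theorem ba2c270_op_congr {F G : ℕ → R} {a b : ℕ} (h : ∀ i, a ≤ i → i < b → F i = G i) :
    ba2c270_op F a b = ba2c270_op G a b := by
  induction b with
  | zero => rfl
  | succ b ih =>
    by_cases hab : a ≤ b
    · rw [ba2c270_op_succ F hab, ba2c270_op_succ G hab, ih (fun i h1 h2 => h i h1 (by omega)),
        h b hab (by omega)]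
    · rw [ba2c270_op_of_le F (by omega), ba2c270_op_of_le G (by omega)]

/-- the ordered words `X .. X Y .. Y` on `[a, b)`, summed. -/
def ba2c270_O (X Y : ℕ → R) (a : ℕ) : ℕ → R
  | 0 => 1
  | b + 1 => if a ≤ b then ba2c270_O X Y a b * Y b + ba2c270_op X a (b + 1) else 1

theorem ba2c270_O_succ (X Y : ℕ → R) {a b : ℕ} (h : a ≤ b) :
    ba2c270_O X Y a (b + 1) = ba2c270_O X Y a b * Y b + ba2c270_op X a (b + 1) := by
  simp [ba2c270_O, h]

theorem ba2c270_O_of_le (X Y : ℕ → R) {a b : ℕ} (h : b ≤ a) : ba2c270_O X Y a b = 1 := by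
  cases b with
  | zero => rfl
  | succ b =>
    have : ¬ a ≤ b := by omega
    simp [ba2c270_O, this]

theorem ba2c270_O_congr {X Y X' Y' : ℕ → R} {a b : ℕ} (hX : ∀ i, a ≤ i → i < b → X i = X' i)
    (hY : ∀ i, a ≤ i → i < b → Y i = Y' i) :
    ba2c270_O X Y a b = ba2c270_O X' Y' a b := by
  induction b with
  | zero => rfl
  | succ b ih =>
    by_cases hab : a ≤ b
    · rw [ba2c270_O_succ X Y hab, ba2c270_O_succ X' Y' hab,
        ih (fun i h1 h2 => hX i h1 (by omega)) (fun i h1 h2 => hY i h1 (by omega)),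
        hY b hab (by omega), ba2c270_op_congr hX]
    · rw [ba2c270_O_of_le X Y (by omega), ba2c270_O_of_le X' Y' (by omega)]

theorem ba2c270_O_left (X Y : ℕ → R) {a b : ℕ} (h : a < b) :
    ba2c270_O X Y a b = ba2c270_op Y a b + X a * ba2c270_O X Y (a + 1) b := by
  induction b with
  | zero => omega
  | succ b ih =>
    rcases Nat.lt_or_ge a b with h1 | h1
    · rw [ba2c270_O_succ X Y h1.le, ih h1, ba2c270_O_succ X Y (by omega : a + 1 ≤ b),
        ba2c270_op_succ Y h1.le, ba2c270_op_left X (by omega : a < b + 1)]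
      noncomm_ring
    · have hab : a = b := by omega
      subst hab
      rw [ba2c270_O_succ X Y le_rfl, ba2c270_O_of_le X Y le_rfl, ba2c270_O_of_le X Y le_rfl,
        ba2c270_op_succ X le_rfl, ba2c270_op_succ Y le_rfl, ba2c270_op_self, ba2c270_op_self]
      noncomm_ring

/-- **Ring identity**: the product of `X + Y` is the sum of the ordered words plus the words that
contain a factor `Y k * X (k+1)`. -/
theorem ba2c270_expand (X Y : ℕ → R) (m : ℕ) :
    ba2c270_op (fun i => X i + Y i) 0 (m + 1) = ba2c270_O X Y 0 (m + 1) +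
      ∑ k ∈ range m, ba2c270_O X Y 0 k * (Y k * X (k + 1)) *
        ba2c270_op (fun i => X i + Y i) (k + 2) (m + 1) := by
  induction m with
  | zero =>
    rw [ba2c270_op_succ _ le_rfl, ba2c270_O_succ X Y le_rfl, ba2c270_op_succ X le_rfl]
    simp [ba2c270_op, ba2c270_O, add_comm]
  | succ m ih =>
    rw [ba2c270_op_succ _ (Nat.zero_le _), ih, sum_range_succ, ba2c270_op_self,
      ba2c270_O_succ X Y (Nat.zero_le (m + 1)), ba2c270_op_succ X (Nat.zero_le (m + 1)),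
      ba2c270_O_succ X Y (Nat.zero_le m)]
    have h1 : ∀ k ∈ range m, ba2c270_O X Y 0 k * (Y k * X (k + 1)) *
        ba2c270_op (fun i => X i + Y i) (k + 2) (m + 1 + 1) =
        ba2c270_O X Y 0 k * (Y k * X (k + 1)) *
        ba2c270_op (fun i => X i + Y i) (k + 2) (m + 1) * (X (m + 1) + Y (m + 1)) := by
      intro k hk
      rw [mem_range] at hk
      rw [ba2c270_op_succ _ (by omega : k + 2 ≤ m + 1)]
      simp only [mul_assoc]
    rw [sum_congr rfl h1, ← sum_mul]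
    noncomm_ring

/-- the ordered words for at least two letters: all `Y`, all `X`, and those of the form
`X 0 * .. * Y (m+1)`. -/
theorem ba2c270_O_split (X Y : ℕ → R) (m : ℕ) :
    ba2c270_O X Y 0 (m + 2) = ba2c270_op Y 0 (m + 2) + ba2c270_op X 0 (m + 2) +
      X 0 * ba2c270_O X Y 1 (m + 1) * Y (m + 1) := by
  rw [ba2c270_O_left X Y (by omega : 0 < m + 2), ba2c270_O_succ X Y (by omega : 0 + 1 ≤ m + 1),
    ba2c270_op_left X (by omega : 0 < m + 2)]
  noncomm_ring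

end RingPart

section MatrixPart

variable {K : Type*} [CommRing K]

/-- the letter `X` (left end point of the interval). -/
def ba2c270_X (l a : K) : Matrix (Fin 2) (Fin 2) K := !![a * l, 0; -a, 0]

/-- the letter `Y` (right end point of the interval). -/
def ba2c270_Y (μ b : K) : Matrix (Fin 2) (Fin 2) K := !![b * μ, b; 0, 0]

/-- the elementary matrix `E₁₁`. -/
def ba2c270_E : Matrix (Fin 2) (Fin 2) K := !![1, 0; 0, 0]

theorem ba2c270_Y_mul_X (μ b l a : K) :
    ba2c270_Y μ b * ba2c270_X l a = (a * b * (μ * l - 1)) • (ba2c270_E : Matrix (Fin 2) (Fin 2) K) := by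
  ext i j
  fin_cases i <;> fin_cases j <;>
    simp [ba2c270_Y, ba2c270_X, ba2c270_E, Matrix.mul_apply, Fin.sum_univ_two]
  ring

theorem ba2c270_X_entries (l a : K) :
    ba2c270_X l a 0 0 = a * l ∧ ba2c270_X l a 0 1 = 0 ∧ ba2c270_X l a 1 0 = -a ∧
      ba2c270_X l a 1 1 = 0 := by
  simp [ba2c270_X]

theorem ba2c270_Y_entries (μ b : K) :
    ba2c270_Y μ b 0 0 = b * μ ∧ ba2c270_Y μ b 0 1 = b ∧ ba2c270_Y μ b 1 0 = 0 ∧
      ba2c270_Y μ b 1 1 = 0 := by
  simp [ba2c270_Y]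

theorem ba2c270_opX (l a : ℕ → K) (n : ℕ) :
    (ba2c270_op (fun i => ba2c270_X (l i) (a i)) 0 n) 0 0 = ∏ i ∈ range n, a i * l i ∧
    (ba2c270_op (fun i => ba2c270_X (l i) (a i)) 0 n) 0 1 = 0 := by
  induction n with
  | zero => simp [ba2c270_op]
  | succ n ih =>
    obtain ⟨e00, e01, e10, e11⟩ := ba2c270_X_entries (l n) (a n)
    rw [ba2c270_op_succ _ (Nat.zero_le n), prod_range_succ]
    constructor
    · rw [Matrix.mul_apply, Fin.sum_univ_two, ih.1, ih.2, e00, e10]; ring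
    · rw [Matrix.mul_apply, Fin.sum_univ_two, e01, e11]; ring

theorem ba2c270_trace_opX (l a : ℕ → K) (n : ℕ) :
    Matrix.trace (ba2c270_op (fun i => ba2c270_X (l i) (a i)) 0 (n + 1)) =
      ∏ i ∈ range (n + 1), a i * l i := by
  obtain ⟨e00, e01, e10, e11⟩ := ba2c270_X_entries (l n) (a n)
  rw [Matrix.trace_fin_two, (ba2c270_opX l a (n + 1)).1, ba2c270_op_succ _ (Nat.zero_le n),
    Matrix.mul_apply, Fin.sum_univ_two, e01, e11]
  ring

theorem ba2c270_opY (μ b : ℕ → K) (n : ℕ) :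
    (ba2c270_op (fun i => ba2c270_Y (μ i) (b i)) 0 n) 0 0 = ∏ i ∈ range n, b i * μ i ∧
    (ba2c270_op (fun i => ba2c270_Y (μ i) (b i)) 0 n) 1 0 = 0 := by
  induction n with
  | zero => simp [ba2c270_op]
  | succ n ih =>
    obtain ⟨e00, e01, e10, e11⟩ := ba2c270_Y_entries (μ n) (b n)
    rw [ba2c270_op_succ _ (Nat.zero_le n), prod_range_succ]
    constructor
    · rw [Matrix.mul_apply, Fin.sum_univ_two, ih.1, e00, e10]; ring
    · rw [Matrix.mul_apply, Fin.sum_univ_two, ih.2, e00, e10]; ring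

theorem ba2c270_trace_opY (μ b : ℕ → K) (n : ℕ) :
    Matrix.trace (ba2c270_op (fun i => ba2c270_Y (μ i) (b i)) 0 (n + 1)) =
      ∏ i ∈ range (n + 1), b i * μ i := by
  obtain ⟨e00, e01, e10, e11⟩ := ba2c270_Y_entries (μ n) (b n)
  rw [Matrix.trace_fin_two, (ba2c270_opY μ b (n + 1)).1, ba2c270_op_succ _ (Nat.zero_le n),
    Matrix.mul_apply, Fin.sum_univ_two, (ba2c270_opY μ b n).2, e01, e11]
  ring

end MatrixPart

section PermPart

variable {K : Type*} [CommRing K] {n : ℕ}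

/-- the plane wave variables in the order given by `σ`, as a sequence on `ℕ`. -/
def ba2c270_W (z : Fin n → K) (σ : Equiv.Perm (Fin n)) (i : ℕ) : K :=
  if h : i < n then z (σ ⟨i, h⟩) else 0

theorem ba2c270_W_of_lt (z : Fin n → K) (σ : Equiv.Perm (Fin n)) {i : ℕ} (h : i < n) :
    ba2c270_W z σ i = z (σ ⟨i, h⟩) := dif_pos h

theorem ba2c270_W_fin (z : Fin n → K) (σ : Equiv.Perm (Fin n)) (i : Fin n) :
    ba2c270_W z σ (i : ℕ) = z (σ i) := dif_pos i.2

theorem ba2c270_W_swap_of_ne (z : Fin n → K) (σ : Equiv.Perm (Fin n)) (a b : Fin n) {i : ℕ}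
    (ha : i ≠ (a : ℕ)) (hb : i ≠ (b : ℕ)) :
    ba2c270_W z (σ * Equiv.swap a b) i = ba2c270_W z σ i := by
  unfold ba2c270_W
  by_cases h : i < n
  · rw [dif_pos h, dif_pos h, Equiv.Perm.mul_apply, Equiv.swap_apply_of_ne_of_ne]
    · intro h1; exact ha (by rw [← h1])
    · intro h1; exact hb (by rw [← h1])
  · rw [dif_neg h, dif_neg h]

theorem ba2c270_W_swap_left (z : Fin n → K) (σ : Equiv.Perm (Fin n)) (a b : Fin n) :
    ba2c270_W z (σ * Equiv.swap a b) (a : ℕ) = ba2c270_W z σ (b : ℕ) := by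
  rw [ba2c270_W_fin, ba2c270_W_fin, Equiv.Perm.mul_apply, Equiv.swap_apply_left]

theorem ba2c270_W_swap_right (z : Fin n → K) (σ : Equiv.Perm (Fin n)) (a b : Fin n) :
    ba2c270_W z (σ * Equiv.swap a b) (b : ℕ) = ba2c270_W z σ (a : ℕ) := by
  rw [ba2c270_W_fin, ba2c270_W_fin, Equiv.Perm.mul_apply, Equiv.swap_apply_right]

/-- the sign-reversing involution. -/
theorem ba2c270_cancel (A : Equiv.Perm (Fin n) → K) (a b : Fin n) (hab : a ≠ b)
    (κ G : Equiv.Perm (Fin n) → K) (hG : ∀ σ, G (σ * Equiv.swap a b) = G σ)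
    (hκ : ∀ σ, A σ * κ σ + A (σ * Equiv.swap a b) * κ (σ * Equiv.swap a b) = 0) :
    ∑ σ, A σ * (κ σ * G σ) = 0 := by
  refine Finset.sum_involution (fun σ _ => σ * Equiv.swap a b) ?_ ?_ ?_ ?_
  · intro σ _
    rw [hG]
    linear_combination G σ * hκ σ
  · intro σ _ _ h
    have h1 : Equiv.swap a b = 1 := by
      have := congrArg (fun τ => σ⁻¹ * τ) h
      simpa using this
    exact hab (Equiv.swap_eq_one_iff.mp h1)
  · intro σ _
    exact mem_univ _
  · intro σ _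
    simp [mul_assoc]

/-- the letters along a plane wave `w`. -/
def ba2c270_Xs (L : K → K) (x : ℕ → ℕ) (w : ℕ → K) (i : ℕ) : Matrix (Fin 2) (Fin 2) K :=
  ba2c270_X (L (w i)) (w i ^ x i)

/-- the letters along a plane wave `w`. -/
def ba2c270_Ys (M : K → K) (xp : ℕ → ℕ) (w : ℕ → K) (i : ℕ) : Matrix (Fin 2) (Fin 2) K :=
  ba2c270_Y (M (w i)) (w i ^ xp i)

/-- the matrix `Q k = X k + Y k` of the continuant. -/
def ba2c270_Q (L M : K → K) (x xp : ℕ → ℕ) (w : ℕ → K) (i : ℕ) : Matrix (Fin 2) (Fin 2) K :=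
  ba2c270_Xs L x w i + ba2c270_Ys M xp w i

theorem ba2c270_Q_eq (L M : K → K) (x xp : ℕ → ℕ) (w : ℕ → K) (i : ℕ) :
    ba2c270_Q L M x xp w i =
      !![w i ^ x i * L (w i) + w i ^ xp i * M (w i), w i ^ xp i; -(w i ^ x i), 0] := by
  ext a b
  fin_cases a <;> fin_cases b <;>
    simp [ba2c270_Q, ba2c270_Xs, ba2c270_Ys, ba2c270_X, ba2c270_Y]

/-- a word that contains `Y a * X b` dies (general form: `a b` are two different places, the rest of
the word does not see them). -/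
theorem ba2c270_word_dies (A : Equiv.Perm (Fin n) → K) (z : Fin n → K) (L M : K → K)
    (x xp : ℕ → ℕ) (a b : Fin n) (hab : a ≠ b) (e f : ℕ)
    (hxp : xp a = e + f) (hx : x b = e)
    (hA : ∀ σ, A σ * (z (σ a) ^ f * (M (z (σ a)) * L (z (σ b)) - 1)) +
      A (σ * Equiv.swap a b) * (z (σ b) ^ f * (M (z (σ b)) * L (z (σ a)) - 1)) = 0)
    (U V : Equiv.Perm (Fin n) → Matrix (Fin 2) (Fin 2) K)
    (hU : ∀ σ, U (σ * Equiv.swap a b) = U σ) (hV : ∀ σ, V (σ * Equiv.swap a b) = V σ) :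
    ∑ σ, A σ * Matrix.trace (U σ * (ba2c270_Ys M xp (ba2c270_W z σ) a *
      ba2c270_Xs L x (ba2c270_W z σ) b) * V σ) = 0 := by
  have key : ∀ σ, A σ * Matrix.trace (U σ * (ba2c270_Ys M xp (ba2c270_W z σ) a *
      ba2c270_Xs L x (ba2c270_W z σ) b) * V σ) =
      A σ * ((z (σ b) ^ e * z (σ a) ^ (e + f) * (M (z (σ a)) * L (z (σ b)) - 1)) *
        Matrix.trace (U σ * ba2c270_E * V σ)) := by
    intro σ
    rw [ba2c270_Ys, ba2c270_Xs, ba2c270_Y_mul_X, ba2c270_W_fin, ba2c270_W_fin, hxp, hx,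
      Matrix.mul_smul, Matrix.smul_mul, Matrix.trace_smul, smul_eq_mul]
  rw [sum_congr rfl (fun σ _ => key σ)]
  refine ba2c270_cancel A a b hab _ (fun σ => Matrix.trace (U σ * ba2c270_E * V σ)) ?_ ?_
  · intro σ
    rw [hU, hV]
  · intro σ
    simp only [Equiv.Perm.mul_apply, Equiv.swap_apply_left, Equiv.swap_apply_right]
    linear_combination (z (σ a) ^ e * z (σ b) ^ e) * hA σ

end PermPart

section Core

variable {K : Type*} [CommRing K]

/-- the next position, cyclically with period `N` (`m + 1` particles). -/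
def ba2c270_xp (m N : ℕ) (x : ℕ → ℕ) (i : ℕ) : ℕ := if i = m then x 0 + N else x (i + 1)

/-- the Bethe wave function on position vectors. -/
def ba2c270_Psi {n : ℕ} (A : Equiv.Perm (Fin n) → K) (z : Fin n → K) (y : ℕ → ℕ) : K :=
  ∑ σ, A σ * ∏ k : Fin n, z (σ k) ^ y k

theorem ba2c270_prod_rot (m N : ℕ) (x : ℕ → ℕ) (g : Fin (m + 1) → K) :
    ∏ k : Fin (m + 1), g (finRotate (m + 1) k) ^ ba2c270_xp m N x k =
      g 0 ^ N * ∏ k : Fin (m + 1), g k ^ x k := by
  have h1 : ∀ k : Fin (m + 1), ba2c270_xp m N x k =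
      (fun j : Fin (m + 1) => x j + if j = 0 then N else 0) (finRotate (m + 1) k) := by
    intro k
    by_cases hk : k = Fin.last m
    · subst hk
      simp [ba2c270_xp]
    · have h2 : ((finRotate (m + 1) k : Fin (m + 1)) : ℕ) = k + 1 := coe_finRotate_of_ne_last hk
      have h3 : (k : ℕ) ≠ m := fun h => hk (Fin.ext (by simpa using h))
      have h4 : finRotate (m + 1) k ≠ 0 := by
        intro h
        rw [h] at h2
        simp at h2
      simp only [ba2c270_xp, if_neg h3, if_neg h4, h2, add_zero]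
  rw [prod_congr rfl (fun k _ => by rw [h1 k]),
    Equiv.prod_comp (finRotate (m + 1))
      (fun j : Fin (m + 1) => g j ^ (x j + if j = 0 then N else 0))]
  simp only [pow_add, prod_mul_distrib]
  rw [mul_comm]
  congr 1
  rw [prod_eq_single (0 : Fin (m + 1))]
  · simp
  · intro j _ hj
    simp [hj]
  · intro h
    exact absurd (mem_univ _) h

/-- quasi-periodicity of the wave function: (R2) gives `Psi (x₁, …, x_m, x₀ + N) = Psi x`. -/
theorem ba2c270_Psi_xp {m : ℕ} (N : ℕ) (A : Equiv.Perm (Fin (m + 1)) → K) (z : Fin (m + 1) → K)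
    (hR2 : ∀ τ, A τ = z (τ 0) ^ N * A (τ * finRotate (m + 1))) (x : ℕ → ℕ) :
    ba2c270_Psi A z (ba2c270_xp m N x) = ba2c270_Psi A z x := by
  unfold ba2c270_Psi
  rw [← Equiv.sum_comp (Equiv.mulRight (finRotate (m + 1)))]
  refine sum_congr rfl fun τ _ => ?_
  have h := ba2c270_prod_rot m N x (fun j => z (τ j))
  simp only [Equiv.coe_mulRight, Equiv.Perm.mul_apply]
  rw [h, hR2 τ]
  ring

/-- the exchange relation across the seam, from (R1) at the places `0, 1` and (R2). -/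
theorem ba2c270_wrap_rel {m : ℕ} (N : ℕ) (A : Equiv.Perm (Fin (m + 2)) → K) (z : Fin (m + 2) → K)
    (L M : K → K)
    (hR1 : ∀ (σ : Equiv.Perm (Fin (m + 2))) (a b : Fin (m + 2)), (b : ℕ) = a + 1 →
      A σ * (M (z (σ a)) * L (z (σ b)) - 1) +
        A (σ * Equiv.swap a b) * (M (z (σ b)) * L (z (σ a)) - 1) = 0)
    (hR2 : ∀ τ, A τ = z (τ 0) ^ N * A (τ * finRotate (m + 2))) (σ : Equiv.Perm (Fin (m + 2))) :
    A σ * (z (σ (Fin.last (m + 1))) ^ N *
        (M (z (σ (Fin.last (m + 1)))) * L (z (σ 0)) - 1)) +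
      A (σ * Equiv.swap (Fin.last (m + 1)) 0) * (z (σ 0) ^ N *
        (M (z (σ 0)) * L (z (σ (Fin.last (m + 1)))) - 1)) = 0 := by
  set ρ : Equiv.Perm (Fin (m + 2)) := finRotate (m + 2) with hρ
  have hρl : ρ⁻¹ 0 = Fin.last (m + 1) := by
    rw [Equiv.Perm.inv_eq_iff_eq, hρ, finRotate_last]
  have hρ0 : ρ⁻¹ 1 = 0 := by
    rw [Equiv.Perm.inv_eq_iff_eq, hρ, finRotate_apply, zero_add]
  set τ : Equiv.Perm (Fin (m + 2)) := σ * ρ⁻¹ with hτ
  have hτ0 : τ 0 = σ (Fin.last (m + 1)) := by rw [hτ, Equiv.Perm.mul_apply, hρl]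
  have hτ1 : τ 1 = σ 0 := by rw [hτ, Equiv.Perm.mul_apply, hρ0]
  have e1 : A τ = z (σ (Fin.last (m + 1))) ^ N * A σ := by
    have := hR2 τ
    rwa [hτ0, hτ, inv_mul_cancel_right] at this
  have e2 := hR1 τ 0 1 (by simp)
  have e3 : A (τ * Equiv.swap 0 1) = z (σ 0) ^ N * A (σ * Equiv.swap (Fin.last (m + 1)) 0) := by
    have h := hR2 (τ * Equiv.swap 0 1)
    have h4 : τ * Equiv.swap 0 1 * ρ = σ * Equiv.swap (Fin.last (m + 1)) 0 := by
      rw [hτ, mul_assoc σ, Equiv.mul_swap_eq_swap_mul, hρl, hρ0, mul_assoc, mul_assoc,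
        inv_mul_cancel, mul_one]
    rwa [h4, Equiv.Perm.mul_apply, Equiv.swap_apply_left, hτ1] at h
  rw [hτ0, hτ1, e1, e3] at e2
  linear_combination e2

theorem ba2c270_Xs_swap {n : ℕ} (L : K → K) (x : ℕ → ℕ) (z : Fin n → K) (σ : Equiv.Perm (Fin n))
    (a b : Fin n) {i : ℕ} (ha : i ≠ (a : ℕ)) (hb : i ≠ (b : ℕ)) :
    ba2c270_Xs L x (ba2c270_W z (σ * Equiv.swap a b)) i = ba2c270_Xs L x (ba2c270_W z σ) i := by
  unfold ba2c270_Xs
  rw [ba2c270_W_swap_of_ne z σ a b ha hb]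

theorem ba2c270_Ys_swap {n : ℕ} (M : K → K) (xp : ℕ → ℕ) (z : Fin n → K) (σ : Equiv.Perm (Fin n))
    (a b : Fin n) {i : ℕ} (ha : i ≠ (a : ℕ)) (hb : i ≠ (b : ℕ)) :
    ba2c270_Ys M xp (ba2c270_W z (σ * Equiv.swap a b)) i = ba2c270_Ys M xp (ba2c270_W z σ) i := by
  unfold ba2c270_Ys
  rw [ba2c270_W_swap_of_ne z σ a b ha hb]

/-- the all-`X` word. -/
theorem ba2c270_allX {m : ℕ} (L : K → K) (x : ℕ → ℕ) (z : Fin (m + 1) → K)
    (σ : Equiv.Perm (Fin (m + 1))) :
    Matrix.trace (ba2c270_op (ba2c270_Xs L x (ba2c270_W z σ)) 0 (m + 1)) =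
      (∏ j, L (z j)) * ∏ k : Fin (m + 1), z (σ k) ^ x k := by
  have h := ba2c270_trace_opX (fun i => L (ba2c270_W z σ i))
    (fun i => ba2c270_W z σ i ^ x i) m
  have h2 : (fun i => ba2c270_X (L (ba2c270_W z σ i)) (ba2c270_W z σ i ^ x i)) =
      ba2c270_Xs L x (ba2c270_W z σ) := rfl
  rw [h2] at h
  rw [h, prod_range, prod_mul_distrib, mul_comm]
  simp only [ba2c270_W_fin]
  rw [Equiv.prod_comp σ (fun j => L (z j))]

/-- the all-`Y` word. -/
theorem ba2c270_allY {m : ℕ} (M : K → K) (xp : ℕ → ℕ) (z : Fin (m + 1) → K)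
    (σ : Equiv.Perm (Fin (m + 1))) :
    Matrix.trace (ba2c270_op (ba2c270_Ys M xp (ba2c270_W z σ)) 0 (m + 1)) =
      (∏ j, M (z j)) * ∏ k : Fin (m + 1), z (σ k) ^ xp k := by
  have h := ba2c270_trace_opY (fun i => M (ba2c270_W z σ i))
    (fun i => ba2c270_W z σ i ^ xp i) m
  have h2 : (fun i => ba2c270_Y (M (ba2c270_W z σ i)) (ba2c270_W z σ i ^ xp i)) =
      ba2c270_Ys M xp (ba2c270_W z σ) := rfl
  rw [h2] at h
  rw [h, prod_range, prod_mul_distrib, mul_comm]
  simp only [ba2c270_W_fin]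
  rw [Equiv.prod_comp σ (fun j => M (z j))]

/-- the core for at least two particles. -/
theorem ba2c270_core_two {m : ℕ} (N : ℕ) (A : Equiv.Perm (Fin (m + 2)) → K) (z : Fin (m + 2) → K)
    (L M : K → K)
    (hR1 : ∀ (σ : Equiv.Perm (Fin (m + 2))) (a b : Fin (m + 2)), (b : ℕ) = a + 1 →
      A σ * (M (z (σ a)) * L (z (σ b)) - 1) +
        A (σ * Equiv.swap a b) * (M (z (σ b)) * L (z (σ a)) - 1) = 0)
    (hR2 : ∀ τ, A τ = z (τ 0) ^ N * A (τ * finRotate (m + 2))) (x : ℕ → ℕ) :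
    ∑ σ, A σ * Matrix.trace
        (ba2c270_op (ba2c270_Q L M x (ba2c270_xp (m + 1) N x) (ba2c270_W z σ)) 0 (m + 2)) =
      ((∏ j, L (z j)) + ∏ j, M (z j)) * ba2c270_Psi A z x := by
  set xp := ba2c270_xp (m + 1) N x with hxp
  -- the expansion, for every `σ`
  have hσ : ∀ σ : Equiv.Perm (Fin (m + 2)), A σ * Matrix.trace
        (ba2c270_op (ba2c270_Q L M x xp (ba2c270_W z σ)) 0 (m + 2)) =
      A σ * ((∏ j, M (z j)) * ∏ k : Fin (m + 2), z (σ k) ^ xp k) +
      A σ * ((∏ j, L (z j)) * ∏ k : Fin (m + 2), z (σ k) ^ x k) +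
      A σ * Matrix.trace (ba2c270_O (ba2c270_Xs L x (ba2c270_W z σ))
          (ba2c270_Ys M xp (ba2c270_W z σ)) 1 (m + 1) *
        (ba2c270_Ys M xp (ba2c270_W z σ) ((Fin.last (m + 1) : Fin (m + 2)) : ℕ) *
          ba2c270_Xs L x (ba2c270_W z σ) ((0 : Fin (m + 2)) : ℕ)) * 1) +
      ∑ k ∈ (range (m + 1)).attach, A σ * Matrix.trace (ba2c270_O (ba2c270_Xs L x (ba2c270_W z σ))
          (ba2c270_Ys M xp (ba2c270_W z σ)) 0 k *
        (ba2c270_Ys M xp (ba2c270_W z σ) k * ba2c270_Xs L x (ba2c270_W z σ) (k + 1)) *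
        ba2c270_op (ba2c270_Q L M x xp (ba2c270_W z σ)) (k + 2) (m + 2)) := by
    intro σ
    have hQ : ba2c270_Q L M x xp (ba2c270_W z σ) = fun i => ba2c270_Xs L x (ba2c270_W z σ) i +
        ba2c270_Ys M xp (ba2c270_W z σ) i := rfl
    rw [sum_attach (range (m + 1)) (fun k => A σ * Matrix.trace (ba2c270_O (ba2c270_Xs L x (ba2c270_W z σ))
          (ba2c270_Ys M xp (ba2c270_W z σ)) 0 k *
        (ba2c270_Ys M xp (ba2c270_W z σ) k * ba2c270_Xs L x (ba2c270_W z σ) (k + 1)) *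
        ba2c270_op (ba2c270_Q L M x xp (ba2c270_W z σ)) (k + 2) (m + 2)))]
    rw [← ba2c270_allY, ← ba2c270_allX, hQ, ba2c270_expand _ _ (m + 1), ba2c270_O_split,
      Matrix.trace_add, Matrix.trace_add, Matrix.trace_add, Matrix.trace_sum, mul_add, mul_add,
      mul_add, mul_sum, mul_one]
    congr 2
    rw [Matrix.trace_mul_cycle, ← mul_assoc, Matrix.trace_mul_comm]
    simp [mul_assoc]
  rw [sum_congr rfl (fun σ _ => hσ σ), sum_add_distrib, sum_add_distrib, sum_add_distrib, sum_comm]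
  -- the seam word
  have hw : ∑ σ, A σ * Matrix.trace (ba2c270_O (ba2c270_Xs L x (ba2c270_W z σ))
          (ba2c270_Ys M xp (ba2c270_W z σ)) 1 (m + 1) *
        (ba2c270_Ys M xp (ba2c270_W z σ) ((Fin.last (m + 1) : Fin (m + 2)) : ℕ) *
          ba2c270_Xs L x (ba2c270_W z σ) ((0 : Fin (m + 2)) : ℕ)) * 1) = 0 := by
    refine ba2c270_word_dies A z L M x xp (Fin.last (m + 1)) 0 (by simp [Fin.ext_iff]) (x 0) N
      (by simp [hxp, ba2c270_xp]) (by simp) (ba2c270_wrap_rel N A z L M hR1 hR2) _ (fun _ => 1)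
      ?_ (fun _ => rfl)
    intro σ
    refine ba2c270_O_congr (fun i h1 h2 => ?_) (fun i h1 h2 => ?_)
    · exact ba2c270_Xs_swap L x z σ _ _ (by simp; omega) (by simp; omega)
    · exact ba2c270_Ys_swap M xp z σ _ _ (by simp; omega) (by simp; omega)
  -- the inner words
  have hi : ∀ k ∈ (range (m + 1)).attach, ∑ σ, A σ * Matrix.trace
        (ba2c270_O (ba2c270_Xs L x (ba2c270_W z σ)) (ba2c270_Ys M xp (ba2c270_W z σ)) 0 k *
        (ba2c270_Ys M xp (ba2c270_W z σ) k * ba2c270_Xs L x (ba2c270_W z σ) (k + 1)) *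
        ba2c270_op (ba2c270_Q L M x xp (ba2c270_W z σ)) (k + 2) (m + 2)) = 0 := by
    rintro ⟨k, hk⟩ _
    rw [mem_range] at hk
    have := ba2c270_word_dies A z L M x xp (⟨k, by omega⟩ : Fin (m + 2)) ⟨k + 1, by omega⟩
      (by simp [Fin.ext_iff]) (x (k + 1)) 0
      (by simp only [hxp, ba2c270_xp, add_zero]; rw [if_neg (by omega)]) rfl
      (fun σ => by simpa using hR1 σ ⟨k, by omega⟩ ⟨k + 1, by omega⟩ rfl)
      (fun σ => ba2c270_O (ba2c270_Xs L x (ba2c270_W z σ)) (ba2c270_Ys M xp (ba2c270_W z σ)) 0 k)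
      (fun σ => ba2c270_op (ba2c270_Q L M x xp (ba2c270_W z σ)) (k + 2) (m + 2)) ?_ ?_
    · exact this
    · intro σ
      refine ba2c270_O_congr (fun i h1 h2 => ?_) (fun i h1 h2 => ?_)
      · exact ba2c270_Xs_swap L x z σ _ _ (by simp; omega) (by simp; omega)
      · exact ba2c270_Ys_swap M xp z σ _ _ (by simp; omega) (by simp; omega)
    · intro σ
      refine ba2c270_op_congr (fun i h1 h2 => ?_)
      unfold ba2c270_Q
      rw [ba2c270_Xs_swap L x z σ _ _ (by simp; omega) (by simp; omega),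
        ba2c270_Ys_swap M xp z σ _ _ (by simp; omega) (by simp; omega)]
  rw [hw, sum_eq_zero hi, add_zero, add_zero]
  have hP := ba2c270_Psi_xp N A z hR2 x
  unfold ba2c270_Psi at hP ⊢
  rw [← hxp] at hP
  have e1 : ∑ σ, A σ * ((∏ j, M (z j)) * ∏ k : Fin (m + 2), z (σ k) ^ xp k) =
      (∏ j, M (z j)) * ∑ σ, A σ * ∏ k : Fin (m + 2), z (σ k) ^ x k := by
    rw [← hP, mul_sum]
    exact sum_congr rfl fun σ _ => by ring
  have e2 : ∑ σ, A σ * ((∏ j, L (z j)) * ∏ k : Fin (m + 2), z (σ k) ^ x k) =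
      (∏ j, L (z j)) * ∑ σ, A σ * ∏ k : Fin (m + 2), z (σ k) ^ x k := by
    rw [mul_sum]
    exact sum_congr rfl fun σ _ => by ring
  rw [e1, e2]
  ring

/-- the core for one particle. -/
theorem ba2c270_core_one (N : ℕ) (A : Equiv.Perm (Fin 1) → K) (z : Fin 1 → K) (L M : K → K)
    (hR2 : ∀ τ, A τ = z (τ 0) ^ N * A (τ * finRotate 1)) (x : ℕ → ℕ) :
    ∑ σ, A σ * Matrix.trace
        (ba2c270_op (ba2c270_Q L M x (ba2c270_xp 0 N x) (ba2c270_W z σ)) 0 1) =
      ((∏ j, L (z j)) + ∏ j, M (z j)) * ba2c270_Psi A z x := by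
  have hP := ba2c270_Psi_xp N A z hR2 x
  have hσ : ∀ σ : Equiv.Perm (Fin 1), A σ * Matrix.trace
        (ba2c270_op (ba2c270_Q L M x (ba2c270_xp 0 N x) (ba2c270_W z σ)) 0 1) =
      A σ * ((∏ j, M (z j)) * ∏ k : Fin 1, z (σ k) ^ ba2c270_xp 0 N x k) +
      A σ * ((∏ j, L (z j)) * ∏ k : Fin 1, z (σ k) ^ x k) := by
    intro σ
    have hQ : ba2c270_Q L M x (ba2c270_xp 0 N x) (ba2c270_W z σ) =
        fun i => ba2c270_Xs L x (ba2c270_W z σ) i +
        ba2c270_Ys M (ba2c270_xp 0 N x) (ba2c270_W z σ) i := rfl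
    rw [← ba2c270_allY, ← ba2c270_allX, hQ, ba2c270_op_succ _ le_rfl, ba2c270_op_succ _ le_rfl,
      ba2c270_op_succ _ le_rfl, ba2c270_op_self, ba2c270_op_self, ba2c270_op_self, one_mul,
      one_mul, one_mul, Matrix.trace_add]
    ring
  rw [sum_congr rfl (fun σ _ => hσ σ), sum_add_distrib]
  unfold ba2c270_Psi at hP ⊢
  have e1 : ∑ σ, A σ * ((∏ j, M (z j)) * ∏ k : Fin 1, z (σ k) ^ ba2c270_xp 0 N x k) =
      (∏ j, M (z j)) * ∑ σ, A σ * ∏ k : Fin 1, z (σ k) ^ x k := by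
    rw [← hP, mul_sum]
    exact sum_congr rfl fun σ _ => by ring
  have e2 : ∑ σ, A σ * ((∏ j, L (z j)) * ∏ k : Fin 1, z (σ k) ^ x k) =
      (∏ j, L (z j)) * ∑ σ, A σ * ∏ k : Fin 1, z (σ k) ^ x k := by
    rw [mul_sum]
    exact sum_congr rfl fun σ _ => by ring
  rw [e1, e2]
  ring

/-- **BA2, pen P1: the abstract core of the coordinate Bethe ansatz** (`m + 1` particles, period `N`).
`A` = amplitudes with the exchange relation (R1) and the cyclic relation (R2); `Q k` = the matrix of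
the continuant of the `k`-th interval `[x k, x (k+1)]` (the last one is `[x m, x 0 + N]`). -/
theorem ba2c270_core {m : ℕ} (N : ℕ) (A : Equiv.Perm (Fin (m + 1)) → K) (z : Fin (m + 1) → K)
    (L M : K → K)
    (hR1 : ∀ (σ : Equiv.Perm (Fin (m + 1))) (a b : Fin (m + 1)), (b : ℕ) = a + 1 →
      A σ * (M (z (σ a)) * L (z (σ b)) - 1) +
        A (σ * Equiv.swap a b) * (M (z (σ b)) * L (z (σ a)) - 1) = 0)
    (hR2 : ∀ τ, A τ = z (τ 0) ^ N * A (τ * finRotate (m + 1))) (x : ℕ → ℕ) :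
    ∑ σ, A σ * Matrix.trace
        (ba2c270_op (ba2c270_Q L M x (ba2c270_xp m N x) (ba2c270_W z σ)) 0 (m + 1)) =
      ((∏ j, L (z j)) + ∏ j, M (z j)) * ba2c270_Psi A z x := by
  cases m with
  | zero => exact ba2c270_core_one N A z L M hR2 x
  | succ m => exact ba2c270_core_two N A z L M hR1 hR2 x

end Core

end Claimed.Agent.R292
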