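import Mathlib
import Claimed.Agent.R292.Bethe.Ba2Core270

/-!
# Row 292, unit BETHE, block BA2: the column transfer matrix applied to a plane wave, by a scan along the column
(helper100, prefix `ba2s100_`)
-/

set_option autoImplicit false
set_option linter.unusedSectionVars false

namespace Claimed.Agent.R292

open Matrix Finset

/-! ## A. products of matrices and open chains -/

section chain

variable {K : Type*} [CommRing K] {S : Type*} [Fintype S] [DecidableEq S]

/-- ordered product `τ a * τ (a+1) * ... * τ (a+d-1)` -/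
def ba2s100_P (τ : ℕ → Matrix S S K) (a : ℕ) : ℕ → Matrix S S K
  | 0 => 1
  | d + 1 => ba2s100_P τ a d * τ (a + d)

@[simp] theorem ba2s100_P_zero (τ : ℕ → Matrix S S K) (a : ℕ) : ba2s100_P τ a 0 = 1 := rfl

theorem ba2s100_P_succ (τ : ℕ → Matrix S S K) (a d : ℕ) :
    ba2s100_P τ a (d + 1) = ba2s100_P τ a d * τ (a + d) := rfl

theorem ba2s100_P_add (τ : ℕ → Matrix S S K) (a d₁ d₂ : ℕ) :
    ba2s100_P τ a (d₁ + d₂) = ba2s100_P τ a d₁ * ba2s100_P τ (a + d₁) d₂ := by
  induction d₂ with
  | zero => simp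
  | succ d ih =>
    rw [← add_assoc, ba2s100_P_succ, ih, ba2s100_P_succ, Matrix.mul_assoc, add_assoc]

theorem ba2s100_P_congr {τ τ' : ℕ → Matrix S S K} {a d : ℕ} (h : ∀ i, i < d → τ (a + i) = τ' (a + i)) :
    ba2s100_P τ a d = ba2s100_P τ' a d := by
  induction d with
  | zero => rfl
  | succ d ih =>
    rw [ba2s100_P_succ, ba2s100_P_succ, ih (fun i hi => h i (by omega)), h d (by omega)]

theorem ba2s100_ofFn_prod (τ : ℕ → Matrix S S K) (a d : ℕ) :
    (List.ofFn fun j : Fin d => τ (a + j)).prod = ba2s100_P τ a d := by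
  induction d with
  | zero => simp
  | succ d ih =>
    rw [List.ofFn_succ', List.concat_eq_append, List.prod_append, ba2s100_P_succ, ← ih]
    simp

/-- an entry of a product of matrices as a sum over open chains -/
theorem ba2s100_prod_apply : ∀ (n : ℕ) (A : Fin n → Matrix S S K) (x y : S),
    (List.ofFn A).prod x y
      = ∑ r : Fin (n + 1) → S, if r 0 = x ∧ r (Fin.last n) = y then
          ∏ i : Fin n, A i (r i.castSucc) (r i.succ) else 0
  | 0, A, x, y => by
    simp only [List.ofFn_zero, List.prod_nil, Matrix.one_apply, Finset.univ_eq_empty, Finset.prod_empty]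
    rw [← (Equiv.funUnique (Fin 1) S).symm.sum_comp]
    simp only [Equiv.funUnique_symm_apply, uniqueElim_const]
    by_cases h : x = y
    · subst h
      simp
    · simp only [h, if_false]
      symm
      apply Finset.sum_eq_zero
      intro z _
      rw [if_neg]
      rintro ⟨rfl, rfl⟩
      exact h rfl
  | n + 1, A, x, y => by
    rw [List.ofFn_succ, List.prod_cons, Matrix.mul_apply]
    rw [← (Fin.consEquiv (fun _ : Fin (n + 2) => S)).sum_comp, Fintype.sum_prod_type]
    have h0 : ∀ (x' : S) (r : Fin (n + 1) → S),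
        (Fin.consEquiv (fun _ : Fin (n + 2) => S)) (x', r) = (Fin.cons x' r : Fin (n + 2) → S) := fun _ _ => rfl
    simp only [h0]
    have hc : ∀ (x' : S) (r : Fin (n + 1) → S),
        (∏ i : Fin (n + 1), A i ((Fin.cons x' r : Fin (n + 2) → S) i.castSucc) ((Fin.cons x' r : Fin (n + 2) → S) i.succ))
          = A 0 x' (r 0) * ∏ i : Fin n, A i.succ (r i.castSucc) (r i.succ) := by
      intro x' r
      rw [Fin.prod_univ_succ]
      congr 1
    have h1 : ∀ (x' : S) (r : Fin (n + 1) → S),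
        (if (Fin.cons x' r : Fin (n + 2) → S) 0 = x ∧ (Fin.cons x' r : Fin (n + 2) → S) (Fin.last (n + 1)) = y
          then ∏ i : Fin (n + 1), A i ((Fin.cons x' r : Fin (n + 2) → S) i.castSucc) ((Fin.cons x' r : Fin (n + 2) → S) i.succ) else 0)
        = if x' = x then (if r (Fin.last n) = y then A 0 x (r 0) * ∏ i : Fin n, A i.succ (r i.castSucc) (r i.succ) else 0) else 0 := by
      intro x' r
      have e : (Fin.cons x' r : Fin (n + 2) → S) (Fin.last (n + 1)) = r (Fin.last n) := by
        rw [← Fin.succ_last, Fin.cons_succ]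
      rw [e, Fin.cons_zero, hc]
      by_cases hx : x' = x
      · subst hx
        simp
      · simp [hx]
    simp only [h1]
    conv_rhs => rw [Finset.sum_eq_single x (fun b _ hb => by simp [hb]) (fun h => absurd (Finset.mem_univ x) h)]
    simp only [if_true]
    have h2 : ∀ z : S, A 0 x z * (List.ofFn fun i => A i.succ).prod z y
        = ∑ r : Fin (n + 1) → S, if r 0 = z then (if r (Fin.last n) = y then A 0 x (r 0) * ∏ i : Fin n, A i.succ (r i.castSucc) (r i.succ) else 0) else 0 := by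
      intro z
      rw [ba2s100_prod_apply n (fun i => A i.succ) z y, Finset.mul_sum]
      refine Finset.sum_congr rfl fun r _ => ?_
      by_cases hz : r 0 = z
      · subst hz
        by_cases hy : r (Fin.last n) = y <;> simp [hy]
      · simp [hz]
    simp only [h2]
    rw [Finset.sum_comm]
    refine Finset.sum_congr rfl fun r _ => ?_
    rw [Finset.sum_ite_eq]
    simp

/-- closed chains whose weights depend on the base point -/
theorem ba2s100_closed (n : ℕ) (A : S → Fin n → Matrix S S K) :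
    (∑ r : Fin (n + 1) → S, if r 0 = r (Fin.last n) then
        ∏ i : Fin n, A (r 0) i (r i.castSucc) (r i.succ) else 0)
      = ∑ β : S, (List.ofFn (A β)).prod β β := by
  simp only [ba2s100_prod_apply]
  rw [Finset.sum_comm]
  refine Finset.sum_congr rfl fun r _ => ?_
  rw [Finset.sum_eq_single (r 0)]
  · by_cases h : r 0 = r (Fin.last n)
    · simp [h]
    · rw [if_neg h, if_neg]
      rintro ⟨-, h'⟩
      exact h h'.symm
  · intro b _ hb
    rw [if_neg]
    rintro ⟨h, -⟩
    exact hb h.symm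
  · intro h
    exact absurd (Finset.mem_univ _) h

end chain

/-! ## B. the column transfer matrix, plane waves, and the site matrices -/

section scan

variable {K : Type*} [CommRing K]

/-- weight of a vertex: `e`, `e'` the horizontal edges (in, out), `ρ`, `ρ'` the vertical edges (below, above) -/
def ba2s100_W (c : K) (e : Bool) (ρ : Fin 2) (e' : Bool) (ρ' : Fin 2) : K :=
  if e.toNat + (ρ : ℕ) = e'.toNat + (ρ' : ℕ) then (if e = e' then 1 else c) else 0

/-- the number of `true` strictly before `j` -/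
def ba2s100_rk {N : ℕ} (f : Fin N → Bool) (j : ℕ) : ℕ :=
  (Finset.univ.filter fun i : Fin N => (i : ℕ) < j ∧ f i = true).card

/-- the plane wave with momenta `w 0, w 1, ...` (the `k`-th particle carries `w k`) -/
def ba2s100_phi {N : ℕ} (w : ℕ → K) (f : Fin N → Bool) : K :=
  ∏ j : Fin N, if f j = true then w (ba2s100_rk f j) ^ (j : ℕ) else 1

/-- the column transfer matrix, vertical edges as an open chain with equal ends -/
def ba2s100_T (c : K) {N : ℕ} (e e' : Fin N → Bool) : K :=
  ∑ r : Fin (N + 1) → Fin 2, if r 0 = r (Fin.last N) then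
    ∏ j : Fin N, ba2s100_W c (e j) (r j.castSucc) (e' j) (r j.succ) else 0

theorem ba2s100_rk_zero {N : ℕ} (f : Fin N → Bool) : ba2s100_rk f 0 = 0 := by
  simp [ba2s100_rk]

theorem ba2s100_rk_succ {N : ℕ} (f : Fin N → Bool) (j : Fin N) :
    ba2s100_rk f ((j : ℕ) + 1) = ba2s100_rk f j + (f j).toNat := by
  unfold ba2s100_rk
  have h : (Finset.univ.filter fun i : Fin N => (i : ℕ) < (j : ℕ) + 1 ∧ f i = true)
      = (Finset.univ.filter fun i : Fin N => (i : ℕ) < (j : ℕ) ∧ f i = true) ∪
        (Finset.univ.filter fun i : Fin N => i = j ∧ f i = true) := by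
    ext i
    simp only [Finset.mem_filter, Finset.mem_univ, true_and, Finset.mem_union]
    constructor
    · rintro ⟨h1, h2⟩
      rcases Nat.lt_succ_iff_lt_or_eq.1 h1 with h | h
      · exact Or.inl ⟨h, h2⟩
      · exact Or.inr ⟨Fin.ext h, h2⟩
    · rintro (⟨h1, h2⟩ | ⟨h1, h2⟩)
      · exact ⟨by omega, h2⟩
      · subst h1
        exact ⟨by omega, h2⟩
  rw [h, Finset.card_union_of_disjoint]
  · congr 1
    cases hf : f j
    · simp only [Bool.toNat_false, Finset.card_eq_zero]
      ext i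
      simp only [Finset.mem_filter, Finset.mem_univ, true_and, Finset.notMem_empty, iff_false]
      rintro ⟨rfl, h2⟩
      rw [hf] at h2
      exact Bool.noConfusion h2
    · simp only [Bool.toNat_true]
      rw [Finset.card_eq_one]
      refine ⟨j, ?_⟩
      ext i
      simp only [Finset.mem_filter, Finset.mem_univ, true_and, Finset.mem_singleton]
      constructor
      · exact fun h => h.1
      · rintro rfl
        exact ⟨rfl, hf⟩
  · rw [Finset.disjoint_left]
    intro i h1 h2
    simp only [Finset.mem_filter, Finset.mem_univ, true_and] at h1 h2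
    have := h2.1
    subst this
    omega

/-- conservation of the lines: ranks in `e'` and in `e` differ by the vertical edges -/
theorem ba2s100_rk_chain {N : ℕ} (e e' : Fin N → Bool) (r : Fin (N + 1) → Fin 2)
    (h : ∀ j : Fin N, (e j).toNat + (r j.castSucc : ℕ) = (e' j).toNat + (r j.succ : ℕ)) (j : Fin (N + 1)) :
    ba2s100_rk e' j + (r j : ℕ) = ba2s100_rk e j + (r 0 : ℕ) := by
  induction j using Fin.induction with
  | zero => simp [ba2s100_rk_zero]
  | succ j ih =>
    have h1 := ba2s100_rk_succ e j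
    have h2 := ba2s100_rk_succ e' j
    have h3 := h j
    simp only [Fin.val_succ, Fin.val_castSucc] at ih ⊢
    omega

/-- the site matrix: rows = vertical edge below, columns = vertical edge above; `b` = the vertical edge at the
cut, `k` = rank of the site in `e`, `n` = number of particles = period of `w` -/
def ba2s100_t (c : K) (w : ℕ → K) (n b : ℕ) (ε : Bool) (k j : ℕ) : Matrix (Fin 2) (Fin 2) K :=
  fun ρ ρ' => ∑ ε' : Bool, ba2s100_W c ε ρ ε' ρ' * (if ε' = true then w (k + b + (n - (ρ : ℕ))) ^ j else 1)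

theorem ba2s100_t_false (c : K) (w : ℕ → K) (n b k j : ℕ) :
    ba2s100_t c w n b false k j = !![1, 0; c * w (k + b + (n - 1)) ^ j, 1] := by
  ext ρ ρ'
  fin_cases ρ <;> fin_cases ρ' <;> simp [ba2s100_t, ba2s100_W]

theorem ba2s100_t_true (c : K) (w : ℕ → K) (n b k j : ℕ) :
    ba2s100_t c w n b true k j = !![w (k + b + n) ^ j, c; 0, w (k + b + (n - 1)) ^ j] := by
  ext ρ ρ'
  fin_cases ρ <;> fin_cases ρ' <;> simp [ba2s100_t, ba2s100_W]

/-- **localisation**: the transfer matrix applied to a plane wave is a sum of two entries of products of site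
matrices -/
theorem ba2s100_T_phi (c : K) {N : ℕ} (n : ℕ) (hn : 1 ≤ n) (w : ℕ → K) (hw : ∀ k, w (k + n) = w k)
    (e : Fin N → Bool) :
    ∑ e' : Fin N → Bool, ba2s100_T c e e' * ba2s100_phi w e'
      = ∑ β : Fin 2, (List.ofFn fun j : Fin N => ba2s100_t c w n β (e j) (ba2s100_rk e j) j).prod β β := by
  rw [← ba2s100_closed N (fun β j => ba2s100_t c w n β (e j) (ba2s100_rk e j) j)]
  unfold ba2s100_T
  simp only [Finset.sum_mul]
  rw [Finset.sum_comm]
  refine Finset.sum_congr rfl fun r _ => ?_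
  by_cases hr : r 0 = r (Fin.last N)
  · simp only [hr, if_true]
    unfold ba2s100_t
    rw [Finset.prod_univ_sum, Fintype.piFinset_univ]
    refine Finset.sum_congr rfl fun e' _ => ?_
    unfold ba2s100_phi
    rw [← Finset.prod_mul_distrib]
    by_cases hice : ∀ j : Fin N, (e j).toNat + (r j.castSucc : ℕ) = (e' j).toNat + (r j.succ : ℕ)
    · refine Finset.prod_congr rfl fun j _ => ?_
      congr 1
      have h1 := ba2s100_rk_chain e e' r hice j.castSucc
      simp only [Fin.val_castSucc] at h1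
      have h2 : (r j.castSucc : ℕ) ≤ 1 := by have := (r j.castSucc).isLt; omega
      have h3 : ba2s100_rk e j + (r (Fin.last N) : ℕ) + (n - (r j.castSucc : ℕ)) = ba2s100_rk e' j + n := by
        rw [← hr]; omega
      rw [h3, hw]
    · obtain ⟨j, hj⟩ := not_forall.1 hice
      rw [Finset.prod_eq_zero (Finset.mem_univ j), Finset.prod_eq_zero (Finset.mem_univ j)]
      · simp [ba2s100_W, hj]
      · simp [ba2s100_W, hj]
  · simp [hr]

end scan

/-! ## C. positions, ranks -/

section pos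

/-- the data of a column with `m + 1` particles at `X 0 < ... < X m < N`, continued by `X (m+1) = X 0 + N` -/
structure Ba2s100Pos (m N : ℕ) (X : ℕ → ℕ) : Prop where
  step : ∀ k, k ≤ m → X k < X (k + 1)
  per : X (m + 1) = X 0 + N
  lt : X m < N

variable {m N : ℕ} {X : ℕ → ℕ}

/-- the column of the positions `X` -/
def ba2s100_E (m : ℕ) (X : ℕ → ℕ) (j : ℕ) : Bool := decide (j ∈ (Finset.range (m + 1)).image X)

/-- rank of a site -/
def ba2s100_R (m : ℕ) (X : ℕ → ℕ) (j : ℕ) : ℕ := ((Finset.range (m + 1)).filter fun k => X k < j).card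

theorem Ba2s100Pos.mono (h : Ba2s100Pos m N X) : ∀ k, k ≤ m + 1 → ∀ i, i < k → X i < X k := by
  intro k
  induction k with
  | zero => intro _ i hi; omega
  | succ k ih =>
    intro hk i hi
    have h1 := h.step k (by omega)
    rcases Nat.lt_succ_iff_lt_or_eq.1 hi with h2 | h2
    · exact (ih (by omega) i h2).trans h1
    · subst h2; exact h1

theorem Ba2s100Pos.le (h : Ba2s100Pos m N X) {i k : ℕ} (hk : k ≤ m + 1) (hi : i ≤ k) : X i ≤ X k := by
  rcases Nat.lt_or_eq_of_le hi with h1 | h1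
  · exact (h.mono k hk i h1).le
  · subst h1; exact le_refl _

theorem Ba2s100Pos.lt_N (h : Ba2s100Pos m N X) {k : ℕ} (hk : k ≤ m) : X k < N :=
  lt_of_le_of_lt (h.le (by omega) hk) h.lt

theorem Ba2s100Pos.E_before (h : Ba2s100Pos m N X) {j : ℕ} (hj : j < X 0) : ba2s100_E m X j = false := by
  unfold ba2s100_E
  rw [decide_eq_false_iff_not, Finset.mem_image]
  rintro ⟨k, hk, rfl⟩
  rw [Finset.mem_range] at hk
  have := h.le (i := 0) (k := k) (by omega) (by omega)
  omega

theorem Ba2s100Pos.R_before (h : Ba2s100Pos m N X) {j : ℕ} (hj : j ≤ X 0) : ba2s100_R m X j = 0 := by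
  unfold ba2s100_R
  rw [Finset.card_eq_zero, Finset.filter_eq_empty_iff]
  intro k hk
  rw [Finset.mem_range] at hk
  have := h.le (i := 0) (k := k) (by omega) (by omega)
  omega

theorem Ba2s100Pos.E_at (_h : Ba2s100Pos m N X) {k : ℕ} (hk : k ≤ m) : ba2s100_E m X (X k) = true := by
  unfold ba2s100_E
  rw [decide_eq_true_iff, Finset.mem_image]
  exact ⟨k, Finset.mem_range.2 (by omega), rfl⟩

theorem Ba2s100Pos.R_arc (h : Ba2s100Pos m N X) {k j : ℕ} (hk : k ≤ m) (h1 : X k < j) (h2 : j ≤ X (k + 1)) :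
    ba2s100_R m X j = k + 1 := by
  unfold ba2s100_R
  have : ((Finset.range (m + 1)).filter fun i => X i < j) = Finset.range (k + 1) := by
    ext i
    simp only [Finset.mem_filter, Finset.mem_range]
    constructor
    · rintro ⟨hi, hij⟩
      by_contra hc
      have := h.le (i := k + 1) (k := i) (by omega) (by omega)
      omega
    · intro hi
      have := h.le (i := i) (k := k) (by omega) (by omega)
      exact ⟨by omega, by omega⟩
  rw [this, Finset.card_range]

theorem Ba2s100Pos.R_at (h : Ba2s100Pos m N X) {k : ℕ} (hk : k ≤ m) : ba2s100_R m X (X k) = k := by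
  cases k with
  | zero => exact h.R_before (le_refl _)
  | succ k => exact h.R_arc (by omega) (h.step k (by omega)) (le_refl _)

theorem Ba2s100Pos.E_arc (h : Ba2s100Pos m N X) {k j : ℕ} (hk : k ≤ m) (h1 : X k < j) (h2 : j < X (k + 1)) :
    ba2s100_E m X j = false := by
  unfold ba2s100_E
  rw [decide_eq_false_iff_not, Finset.mem_image]
  rintro ⟨i, hi, rfl⟩
  rw [Finset.mem_range] at hi
  rcases Nat.lt_or_ge k i with h3 | h3
  · have := h.le (i := k + 1) (k := i) (by omega) (by omega)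
    omega
  · have := h.le (i := i) (k := k) (by omega) h3
    omega

/-- the rank of section B is the rank by positions -/
theorem Ba2s100Pos.rk_eq (h : Ba2s100Pos m N X) (j : ℕ) :
    ba2s100_rk (fun i : Fin N => ba2s100_E m X i) j = ba2s100_R m X j := by
  unfold ba2s100_rk ba2s100_R
  symm
  refine Finset.card_bij (fun k hk => (⟨X k, h.lt_N (by
    have := Finset.mem_range.1 (Finset.mem_filter.1 hk).1; omega)⟩ : Fin N)) ?_ ?_ ?_
  · intro k hk
    rw [Finset.mem_filter] at hk
    simp only [Finset.mem_filter, Finset.mem_univ, true_and]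
    exact ⟨hk.2, h.E_at (by have := Finset.mem_range.1 hk.1; omega)⟩
  · intro k hk k' hk' e
    have e' : X k = X k' := congrArg Fin.val e
    have a1 := Finset.mem_range.1 (Finset.mem_filter.1 hk).1
    have a2 := Finset.mem_range.1 (Finset.mem_filter.1 hk').1
    rcases Nat.lt_trichotomy k k' with h3 | h3 | h3
    · have := h.mono k' (by omega) k h3; omega
    · exact h3
    · have := h.mono k (by omega) k' h3; omega
  · intro i hi
    simp only [Finset.mem_filter, Finset.mem_univ, true_and] at hi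
    obtain ⟨h1, h2⟩ := hi
    unfold ba2s100_E at h2
    rw [decide_eq_true_iff, Finset.mem_image] at h2
    obtain ⟨k, hk, e⟩ := h2
    exact ⟨k, Finset.mem_filter.2 ⟨hk, by omega⟩, Fin.ext e⟩

end pos

/-! ## D. the product of the site matrices, arc by arc -/

section arcs

variable {K : Type*} [CommRing K]

/-- geometric block `u^a + ... + u^(a+d-1)` -/
def ba2s100_g (u : K) (a d : ℕ) : K := ∑ i ∈ Finset.range d, u ^ (a + i)

def ba2s100_Low (c u : K) (a d : ℕ) : Matrix (Fin 2) (Fin 2) K := !![1, 0; c * ba2s100_g u a d, 1]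
def ba2s100_Dg (u : K) (x : ℕ) : Matrix (Fin 2) (Fin 2) K := !![1, 0; 0, u ^ x]
def ba2s100_Up (c u : K) (x : ℕ) : Matrix (Fin 2) (Fin 2) K := !![u ^ x, c; 0, 1]

/-- the matrix of the arc from the particle at `x` to the next particle at `x'` -/
def ba2s100_C (c u : K) (x x' : ℕ) : Matrix (Fin 2) (Fin 2) K :=
  ba2s100_Up c u x * ba2s100_Low c u (x + 1) (x' - x - 1) * ba2s100_Dg u x'

/-- the part of the last arc after the cut -/
def ba2s100_Tl (c u : K) (x₀ : ℕ) : Matrix (Fin 2) (Fin 2) K := ba2s100_Low c u 0 x₀ * ba2s100_Dg u x₀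

/-- the part of the last arc before the cut -/
def ba2s100_H (c u : K) (xm N : ℕ) : Matrix (Fin 2) (Fin 2) K :=
  ba2s100_Up c u xm * ba2s100_Low c u (xm + 1) (N - xm - 1)

/-- the product of all site matrices -/
def ba2s100_tot (c : K) (m N : ℕ) (X : ℕ → ℕ) (w : ℕ → K) : Matrix (Fin 2) (Fin 2) K :=
  ba2s100_Tl c (w m) (X 0) * ba2s100_P (fun i => ba2s100_C c (w i) (X i) (X (i + 1))) 0 m * ba2s100_H c (w m) (X m) N

theorem ba2s100_g_succ (u : K) (a d : ℕ) : ba2s100_g u a (d + 1) = ba2s100_g u a d + u ^ (a + d) := by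
  unfold ba2s100_g
  rw [Finset.sum_range_succ]

theorem ba2s100_g_add (u : K) (a d₁ d₂ : ℕ) :
    ba2s100_g u a (d₁ + d₂) = ba2s100_g u a d₁ + ba2s100_g u (a + d₁) d₂ := by
  unfold ba2s100_g
  rw [Finset.sum_range_add]
  simp only [add_assoc]

theorem ba2s100_g_shift (u : K) (a d : ℕ) : ba2s100_g u a d = u ^ a * ba2s100_g u 0 d := by
  unfold ba2s100_g
  rw [Finset.mul_sum]
  refine Finset.sum_congr rfl fun i _ => ?_
  rw [zero_add, pow_add]

theorem ba2s100_low_prod (c u : K) (τ : ℕ → Matrix (Fin 2) (Fin 2) K) (a d : ℕ)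
    (h : ∀ i, i < d → τ (a + i) = !![1, 0; c * u ^ (a + i), 1]) :
    ba2s100_P τ a d = ba2s100_Low c u a d := by
  induction d with
  | zero => simp [ba2s100_Low, ba2s100_g, Matrix.one_fin_two]
  | succ d ih =>
    rw [ba2s100_P_succ, ih (fun i hi => h i (by omega)), h d (by omega)]
    unfold ba2s100_Low
    rw [ba2s100_g_succ, Matrix.mul_fin_two]
    simp [mul_add]

/-- the site matrices of the column `X` -/
def ba2s100_tau (c : K) (w : ℕ → K) (m : ℕ) (X : ℕ → ℕ) (b : ℕ) (j : ℕ) : Matrix (Fin 2) (Fin 2) K :=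
  ba2s100_t c w (m + 1) b (ba2s100_E m X j) (ba2s100_R m X j) j

variable {m N : ℕ} {X : ℕ → ℕ}

theorem ba2s100_tau_at (c : K) (w : ℕ → K) (hw : ∀ k, w (k + (m + 1)) = w k) (h : Ba2s100Pos m N X) (b : ℕ)
    {k : ℕ} (hk : k ≤ m) :
    ba2s100_tau c w m X b (X k) = ba2s100_Dg (w (k + b + m)) (X k) * ba2s100_Up c (w (k + b)) (X k) := by
  unfold ba2s100_tau
  rw [h.E_at hk, h.R_at hk, ba2s100_t_true, hw]
  unfold ba2s100_Dg ba2s100_Up
  rw [Matrix.mul_fin_two]
  simp

theorem ba2s100_tau_arc (c : K) (w : ℕ → K) (hw : ∀ k, w (k + (m + 1)) = w k) (h : Ba2s100Pos m N X) (b : ℕ)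
    {k j : ℕ} (hk : k ≤ m) (h1 : X k < j) (h2 : j < X (k + 1)) :
    ba2s100_tau c w m X b j = !![1, 0; c * w (k + b) ^ j, 1] := by
  unfold ba2s100_tau
  rw [h.E_arc hk h1 h2, h.R_arc hk h1 h2.le, ba2s100_t_false]
  have : k + 1 + b + (m + 1 - 1) = k + b + (m + 1) := by omega
  rw [this, hw]

theorem ba2s100_tau_before (c : K) (w : ℕ → K) (h : Ba2s100Pos m N X) (b : ℕ) {j : ℕ} (hj : j < X 0) :
    ba2s100_tau c w m X b j = !![1, 0; c * w (m + b) ^ j, 1] := by
  unfold ba2s100_tau
  rw [h.E_before hj, h.R_before hj.le, ba2s100_t_false]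
  have : 0 + b + (m + 1 - 1) = m + b := by omega
  rw [this]

theorem ba2s100_P_one {S : Type*} [Fintype S] [DecidableEq S] (τ : ℕ → Matrix S S K) (a : ℕ) :
    ba2s100_P τ a 1 = τ a := by
  rw [ba2s100_P_succ]; simp

/-- the product over one arc, without the last diagonal factor -/
theorem ba2s100_arc (c : K) (w : ℕ → K) (hw : ∀ k, w (k + (m + 1)) = w k) (h : Ba2s100Pos m N X) (b : ℕ)
    {k y : ℕ} (hk : k ≤ m) (h1 : X k < y) (h2 : y ≤ X (k + 1)) :
    ba2s100_P (ba2s100_tau c w m X b) 0 y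
      = ba2s100_P (ba2s100_tau c w m X b) 0 (X k) * ba2s100_Dg (w (k + b + m)) (X k) *
          (ba2s100_Up c (w (k + b)) (X k) * ba2s100_Low c (w (k + b)) (X k + 1) (y - X k - 1)) := by
  have e : y = X k + (1 + (y - X k - 1)) := by omega
  conv_lhs => rw [e]
  rw [ba2s100_P_add, ba2s100_P_add, ba2s100_P_one, zero_add, ba2s100_tau_at c w hw h b hk,
    ba2s100_low_prod c (w (k + b)) _ (X k + 1) (y - X k - 1)
      (fun i hi => ba2s100_tau_arc c w hw h b hk (by omega) (by omega))]
  simp only [Matrix.mul_assoc]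

theorem ba2s100_inv (c : K) (w : ℕ → K) (hw : ∀ k, w (k + (m + 1)) = w k) (h : Ba2s100Pos m N X) (b : ℕ) :
    ∀ k, k ≤ m → ba2s100_P (ba2s100_tau c w m X b) 0 (X k) * ba2s100_Dg (w (k + b + m)) (X k)
      = ba2s100_Tl c (w (m + b)) (X 0) * ba2s100_P (fun i => ba2s100_C c (w (i + b)) (X i) (X (i + 1))) 0 k := by
  intro k
  induction k with
  | zero =>
    intro _
    rw [ba2s100_low_prod c (w (m + b)) _ 0 (X 0)
      (fun i hi => by rw [zero_add]; exact ba2s100_tau_before c w h b hi)]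
    have : 0 + b + m = m + b := by omega
    rw [this]
    simp [ba2s100_Tl]
  | succ k ih =>
    intro hk
    rw [ba2s100_arc c w hw h b (k := k) (by omega) (h.step k (by omega)) (le_refl _), ih (by omega),
      ba2s100_P_succ, zero_add]
    have : k + 1 + b + m = k + b + (m + 1) := by omega
    rw [this, hw]
    unfold ba2s100_C
    simp only [Matrix.mul_assoc]

/-- **the product of all the site matrices** -/
theorem ba2s100_prod_tau (c : K) (w : ℕ → K) (hw : ∀ k, w (k + (m + 1)) = w k) (h : Ba2s100Pos m N X) (b : ℕ) :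
    ba2s100_P (ba2s100_tau c w m X b) 0 N = ba2s100_tot c m N X (fun i => w (i + b)) := by
  rw [ba2s100_arc c w hw h b (k := m) (le_refl _) h.lt (by rw [h.per]; omega), ba2s100_inv c w hw h b m (le_refl _)]
  rfl

/-- the last arc is cut in two by the cut of the column -/
theorem ba2s100_C_last (c u : K) (h : Ba2s100Pos m N X) :
    ba2s100_C c u (X m) (X (m + 1)) = ba2s100_H c u (X m) N * (ba2s100_Dg u N * ba2s100_Tl c u (X 0)) := by
  have e : X (m + 1) - X m - 1 = (N - X m - 1) + X 0 := by have := h.per; have := h.lt; omega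
  have e2 : X m + 1 + (N - X m - 1) = N := by have := h.lt; omega
  unfold ba2s100_C ba2s100_H ba2s100_Tl
  rw [Matrix.mul_assoc, Matrix.mul_assoc]
  congr 1
  rw [e, h.per]
  unfold ba2s100_Low ba2s100_Dg
  rw [ba2s100_g_add, e2, ba2s100_g_shift u N]
  simp only [Matrix.mul_fin_two]
  ext i j
  fin_cases i <;> fin_cases j <;> simp <;> ring

/-- **the trace over the closed chain of arcs** -/
theorem ba2s100_trace_C (c : K) (w : ℕ → K) (h : Ba2s100Pos m N X) :
    Matrix.trace (ba2s100_P (fun i => ba2s100_C c (w i) (X i) (X (i + 1))) 0 (m + 1))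
      = ba2s100_tot c m N X w 0 0 + w m ^ N * ba2s100_tot c m N X w 1 1 := by
  rw [ba2s100_P_succ, zero_add, ba2s100_C_last c (w m) h]
  have : Matrix.trace (ba2s100_P (fun i => ba2s100_C c (w i) (X i) (X (i + 1))) 0 m *
      (ba2s100_H c (w m) (X m) N * (ba2s100_Dg (w m) N * ba2s100_Tl c (w m) (X 0))))
      = Matrix.trace (ba2s100_Dg (w m) N * ba2s100_tot c m N X w) := by
    unfold ba2s100_tot
    rw [← Matrix.mul_assoc, ← Matrix.mul_assoc, Matrix.trace_mul_comm, ← Matrix.mul_assoc, Matrix.trace_mul_comm]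
    simp only [Matrix.mul_assoc]
  rw [this, Matrix.trace_fin_two]
  unfold ba2s100_Dg
  simp [Matrix.mul_apply, Fin.sum_univ_two]

end arcs

/-! ## E. the gauge to the continuant matrices of `Ba2Core270`, the geometric sum -/

section gauge

variable {K : Type*} [Field K]

/-- `L (u) = 1 + c² u / (1 - u)` -/
def ba2s100_L (c u : K) : K := 1 + c ^ 2 * u / (1 - u)

/-- `M (u) = 1 - c² / (1 - u)` -/
def ba2s100_M (c u : K) : K := 1 - c ^ 2 / (1 - u)

def ba2s100_S (c : K) : Matrix (Fin 2) (Fin 2) K := !![c, 0; 1, 1]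
def ba2s100_S' (c : K) : Matrix (Fin 2) (Fin 2) K := !![c⁻¹, 0; -c⁻¹, 1]

theorem ba2s100_S_mul_S' {c : K} (hc : c ≠ 0) : ba2s100_S c * ba2s100_S' c = 1 := by
  unfold ba2s100_S ba2s100_S'
  rw [Matrix.mul_fin_two, Matrix.one_fin_two]
  simp [hc]

theorem ba2s100_geom (u : K) (a d : ℕ) : (1 - u) * ba2s100_g u a d = u ^ a - u ^ (a + d) := by
  induction d with
  | zero => simp [ba2s100_g]
  | succ d ih =>
    rw [ba2s100_g_succ, mul_add, ih, ← add_assoc, pow_succ]
    ring

theorem ba2s100_geom' (c : K) {u : K} (hu : u ≠ 1) {x x' : ℕ} (hx : x < x') :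
    u ^ x + u ^ x' + c ^ 2 * ba2s100_g u (x + 1) (x' - x - 1)
      = u ^ x * ba2s100_L c u + u ^ x' * ba2s100_M c u := by
  have h1 : (1 - u) ≠ 0 := sub_ne_zero.2 (Ne.symm hu)
  have h2 := ba2s100_geom u (x + 1) (x' - x - 1)
  have e : x + 1 + (x' - x - 1) = x' := by omega
  rw [e] at h2
  have h3 : ba2s100_g u (x + 1) (x' - x - 1) = (u ^ (x + 1) - u ^ x') / (1 - u) := by
    rw [eq_div_iff h1, mul_comm]; exact h2
  rw [h3]
  unfold ba2s100_L ba2s100_M
  field_simp
  ring

theorem ba2s100_C_S (c : K) {u : K} (hu : u ≠ 1) {x x' : ℕ} (hx : x < x') :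
    ba2s100_C c u x x' * ba2s100_S c
      = ba2s100_S c * !![u ^ x * ba2s100_L c u + u ^ x' * ba2s100_M c u, u ^ x'; -(u ^ x), 0] := by
  rw [← ba2s100_geom' c hu hx]
  unfold ba2s100_C ba2s100_S ba2s100_Up ba2s100_Low ba2s100_Dg
  simp only [Matrix.mul_fin_two]
  ext i j
  fin_cases i <;> fin_cases j <;> simp <;> ring

variable {m N : ℕ} {X : ℕ → ℕ}

theorem ba2s100_xp_eq (h : Ba2s100Pos m N X) {i : ℕ} (_hi : i ≤ m) : ba2c270_xp m N X i = X (i + 1) := by
  unfold ba2c270_xp
  split_ifs with h1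
  · subst h1; exact h.per.symm
  · rfl

theorem ba2s100_PC_S (c : K) (h : Ba2s100Pos m N X) (w w' : ℕ → K) (hw : ∀ i, i ≤ m → w i = w' i)
    (h1 : ∀ i, i ≤ m → w' i ≠ 1) :
    ∀ d, d ≤ m + 1 → ba2s100_P (fun i => ba2s100_C c (w i) (X i) (X (i + 1))) 0 d * ba2s100_S c
      = ba2s100_S c * ba2c270_op (ba2c270_Q (ba2s100_L c) (ba2s100_M c) X (ba2c270_xp m N X) w') 0 d := by
  intro d
  induction d with
  | zero => intro _; simp [ba2c270_op]
  | succ d ih =>
    intro hd
    rw [ba2s100_P_succ, ba2c270_op_succ _ (Nat.zero_le d), Matrix.mul_assoc, zero_add, hw d (by omega),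
      ba2s100_C_S c (h1 d (by omega)) (h.step d (by omega)), ← Matrix.mul_assoc, ih (by omega),
      ba2c270_Q_eq, ba2s100_xp_eq h (by omega), Matrix.mul_assoc]

theorem ba2s100_trace_gauge {c : K} (hc : c ≠ 0) (h : Ba2s100Pos m N X) (w w' : ℕ → K)
    (hw : ∀ i, i ≤ m → w i = w' i) (h1 : ∀ i, i ≤ m → w' i ≠ 1) :
    Matrix.trace (ba2s100_P (fun i => ba2s100_C c (w i) (X i) (X (i + 1))) 0 (m + 1))
      = Matrix.trace (ba2c270_op (ba2c270_Q (ba2s100_L c) (ba2s100_M c) X (ba2c270_xp m N X) w') 0 (m + 1)) := by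
  have e := ba2s100_PC_S c h w w' hw h1 (m + 1) (le_refl _)
  have e2 : ba2s100_P (fun i => ba2s100_C c (w i) (X i) (X (i + 1))) 0 (m + 1)
      = ba2s100_S c * ba2c270_op (ba2c270_Q (ba2s100_L c) (ba2s100_M c) X (ba2c270_xp m N X) w') 0 (m + 1)
          * ba2s100_S' c := by
    rw [← e, Matrix.mul_assoc, ba2s100_S_mul_S' hc, Matrix.mul_one]
  rw [e2, Matrix.trace_mul_comm, ← Matrix.mul_assoc]
  have e3 : ba2s100_S' c * ba2s100_S c = 1 := by
    unfold ba2s100_S ba2s100_S'
    rw [Matrix.mul_fin_two, Matrix.one_fin_two]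
    simp [hc]
  rw [e3, Matrix.one_mul]

end gauge

/-! ## F. the Bethe wave function: `T ψ = Λ ψ` -/

section bethe

variable {K : Type*} [Field K] {m N : ℕ} {X : ℕ → ℕ}

/-- the momenta in the order `σ`, continued periodically -/
def ba2s100_w (z : Fin (m + 1) → K) (σ : Equiv.Perm (Fin (m + 1))) (k : ℕ) : K :=
  z (σ ⟨k % (m + 1), Nat.mod_lt _ (Nat.succ_pos m)⟩)

theorem ba2s100_w_per (z : Fin (m + 1) → K) (σ : Equiv.Perm (Fin (m + 1))) (k : ℕ) :
    ba2s100_w z σ (k + (m + 1)) = ba2s100_w z σ k := by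
  unfold ba2s100_w
  congr 2
  apply Fin.ext
  simp

theorem ba2s100_w_of_le (z : Fin (m + 1) → K) (σ : Equiv.Perm (Fin (m + 1))) {k : ℕ} (hk : k ≤ m) :
    ba2s100_w z σ k = ba2c270_W z σ k := by
  rw [ba2c270_W_of_lt z σ (by omega : k < m + 1)]
  unfold ba2s100_w
  congr 2
  apply Fin.ext
  exact Nat.mod_eq_of_lt (by omega)

theorem ba2s100_w_fin (z : Fin (m + 1) → K) (σ : Equiv.Perm (Fin (m + 1))) (k : Fin (m + 1)) :
    ba2s100_w z σ k = z (σ k) := by
  rw [ba2s100_w_of_le z σ (by have := k.isLt; omega), ba2c270_W_fin]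

theorem ba2s100_w_shift (z : Fin (m + 1) → K) (σ : Equiv.Perm (Fin (m + 1))) (k : ℕ) :
    ba2s100_w z σ (k + 1) = ba2s100_w z (σ * finRotate (m + 1)) k := by
  unfold ba2s100_w
  rw [Equiv.Perm.mul_apply, finRotate_apply]
  congr 2
  apply Fin.ext
  rw [Fin.val_add]
  simp [Nat.add_mod]

theorem ba2s100_w_rot_last (z : Fin (m + 1) → K) (σ : Equiv.Perm (Fin (m + 1))) :
    ba2s100_w z (σ * finRotate (m + 1)) m = z (σ 0) := by
  rw [← ba2s100_w_shift]
  unfold ba2s100_w
  congr 2
  apply Fin.ext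
  simp

/-- the column with particles at `X 0, ..., X m` -/
def ba2s100_col (m N : ℕ) (X : ℕ → ℕ) : Fin N → Bool := fun j => ba2s100_E m X j

/-- the Bethe wave function on columns -/
def ba2s100_psi (A : Equiv.Perm (Fin (m + 1)) → K) (z : Fin (m + 1) → K) {N : ℕ} (e : Fin N → Bool) : K :=
  ∑ σ, A σ * ba2s100_phi (ba2s100_w z σ) e

/-- a plane wave on the column of the positions `X` -/
theorem ba2s100_phi_col (h : Ba2s100Pos m N X) (w : ℕ → K) :
    ba2s100_phi w (ba2s100_col m N X) = ∏ k : Fin (m + 1), w k ^ X k := by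
  unfold ba2s100_phi
  rw [← Finset.prod_filter]
  symm
  refine Finset.prod_bij (fun k _ => (⟨X k, h.lt_N (by have := k.isLt; omega)⟩ : Fin N)) ?_ ?_ ?_ ?_
  · intro k _
    simp only [Finset.mem_filter, Finset.mem_univ, true_and]
    exact h.E_at (by have := k.isLt; omega)
  · intro k _ k' _ e
    have e' : X k = X k' := congrArg Fin.val e
    have a1 := k.isLt
    have a2 := k'.isLt
    apply Fin.ext
    rcases Nat.lt_trichotomy (k : ℕ) k' with h3 | h3 | h3
    · have := h.mono k' (by omega) k h3; omega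
    · exact h3
    · have := h.mono k (by omega) k' h3; omega
  · intro i hi
    simp only [Finset.mem_filter, Finset.mem_univ, true_and] at hi
    unfold ba2s100_col ba2s100_E at hi
    rw [decide_eq_true_iff, Finset.mem_image] at hi
    obtain ⟨k, hk, e⟩ := hi
    exact ⟨⟨k, Finset.mem_range.1 hk⟩, Finset.mem_univ _, Fin.ext e⟩
  · intro k _
    have : ba2s100_rk (ba2s100_col m N X) (X k) = k := by
      unfold ba2s100_col
      rw [h.rk_eq, h.R_at (by have := k.isLt; omega)]
    simp only [this]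

theorem ba2s100_psi_col (h : Ba2s100Pos m N X) (A : Equiv.Perm (Fin (m + 1)) → K) (z : Fin (m + 1) → K) :
    ba2s100_psi A z (ba2s100_col m N X) = ba2c270_Psi A z X := by
  unfold ba2s100_psi ba2c270_Psi
  refine Finset.sum_congr rfl fun σ _ => ?_
  rw [ba2s100_phi_col h]
  congr 1
  exact Finset.prod_congr rfl fun k _ => by rw [ba2s100_w_fin]

/-- the transfer matrix applied to one plane wave, on the column of the positions `X` -/
theorem ba2s100_T_phi_col (c : K) (h : Ba2s100Pos m N X) (w : ℕ → K) (hw : ∀ k, w (k + (m + 1)) = w k) :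
    ∑ e' : Fin N → Bool, ba2s100_T c (ba2s100_col m N X) e' * ba2s100_phi w e'
      = ba2s100_tot c m N X w 0 0 + ba2s100_tot c m N X (fun i => w (i + 1)) 1 1 := by
  rw [ba2s100_T_phi c (m + 1) (by omega) w hw]
  have e : ∀ β : Fin 2, (List.ofFn fun j : Fin N =>
      ba2s100_t c w (m + 1) β (ba2s100_col m N X j) (ba2s100_rk (ba2s100_col m N X) j) j).prod
      = ba2s100_tot c m N X (fun i => w (i + (β : ℕ))) := by
    intro β
    rw [← ba2s100_prod_tau c w hw h, ← ba2s100_ofFn_prod]
    congr 2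
    funext j
    unfold ba2s100_tau ba2s100_col
    rw [h.rk_eq, zero_add]
  simp only [e, Fin.sum_univ_two]
  simp

/-- **the row sum of the transfer matrix against the Bethe wave function is the sum of the traces of the
continuants** (this replaces the sum over interlaced positions) -/
theorem ba2s100_T_psi {c : K} (hc : c ≠ 0) (h : Ba2s100Pos m N X) (A : Equiv.Perm (Fin (m + 1)) → K)
    (z : Fin (m + 1) → K) (hz : ∀ j, z j ≠ 1)
    (hR2 : ∀ τ, A τ = z (τ 0) ^ N * A (τ * finRotate (m + 1))) :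
    ∑ e' : Fin N → Bool, ba2s100_T c (ba2s100_col m N X) e' * ba2s100_psi A z e'
      = ∑ σ, A σ * Matrix.trace
          (ba2c270_op (ba2c270_Q (ba2s100_L c) (ba2s100_M c) X (ba2c270_xp m N X) (ba2c270_W z σ)) 0 (m + 1)) := by
  unfold ba2s100_psi
  simp only [Finset.mul_sum]
  rw [Finset.sum_comm]
  have e1 : ∀ σ : Equiv.Perm (Fin (m + 1)),
      ∑ e' : Fin N → Bool, ba2s100_T c (ba2s100_col m N X) e' * (A σ * ba2s100_phi (ba2s100_w z σ) e')
      = A σ * ba2s100_tot c m N X (ba2s100_w z σ) 0 0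
        + A (σ * finRotate (m + 1)) * (ba2s100_w z (σ * finRotate (m + 1)) m ^ N *
            ba2s100_tot c m N X (ba2s100_w z (σ * finRotate (m + 1))) 1 1) := by
    intro σ
    have : ∀ e' : Fin N → Bool, ba2s100_T c (ba2s100_col m N X) e' * (A σ * ba2s100_phi (ba2s100_w z σ) e')
        = A σ * (ba2s100_T c (ba2s100_col m N X) e' * ba2s100_phi (ba2s100_w z σ) e') := fun e' => by ring
    simp only [this]
    rw [← Finset.mul_sum, ba2s100_T_phi_col c h _ (ba2s100_w_per z σ), mul_add]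
    congr 1
    have e2 : (fun i => ba2s100_w z σ (i + 1)) = ba2s100_w z (σ * finRotate (m + 1)) :=
      funext fun i => ba2s100_w_shift z σ i
    rw [e2, ba2s100_w_rot_last]
    conv_lhs => rw [hR2 σ]
    ring
  simp only [e1]
  have e3 : ∑ σ : Equiv.Perm (Fin (m + 1)), A (σ * finRotate (m + 1)) *
        (ba2s100_w z (σ * finRotate (m + 1)) m ^ N * ba2s100_tot c m N X (ba2s100_w z (σ * finRotate (m + 1))) 1 1)
      = ∑ τ : Equiv.Perm (Fin (m + 1)), A τ * (ba2s100_w z τ m ^ N * ba2s100_tot c m N X (ba2s100_w z τ) 1 1) :=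
    Equiv.sum_comp (Equiv.mulRight (finRotate (m + 1))) (fun τ => A τ * (ba2s100_w z τ m ^ N *
      ba2s100_tot c m N X (ba2s100_w z τ) 1 1))
  rw [Finset.sum_add_distrib, e3, ← Finset.sum_add_distrib]
  refine Finset.sum_congr rfl fun σ _ => ?_
  rw [← ba2s100_trace_gauge hc h (ba2s100_w z σ) (ba2c270_W z σ) (fun i hi => ba2s100_w_of_le z σ hi)
    (fun i hi => by rw [ba2c270_W_of_lt z σ (by omega : i < m + 1)]; exact hz _), ba2s100_trace_C c _ h]
  ring

/-- **Coordinate Bethe ansatz, `a = b = 1`**: amplitudes with the exchange relation (R1) and the cyclic relation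
(R2) give an eigenfunction of the column transfer matrix, with eigenvalue `∏ L (z j) + ∏ M (z j)`. -/
theorem ba2s100_eigen {c : K} (hc : c ≠ 0) (h : Ba2s100Pos m N X) (A : Equiv.Perm (Fin (m + 1)) → K)
    (z : Fin (m + 1) → K) (hz : ∀ j, z j ≠ 1)
    (hR1 : ∀ (σ : Equiv.Perm (Fin (m + 1))) (a b : Fin (m + 1)), (b : ℕ) = a + 1 →
      A σ * (ba2s100_M c (z (σ a)) * ba2s100_L c (z (σ b)) - 1) +
        A (σ * Equiv.swap a b) * (ba2s100_M c (z (σ b)) * ba2s100_L c (z (σ a)) - 1) = 0)
    (hR2 : ∀ τ, A τ = z (τ 0) ^ N * A (τ * finRotate (m + 1))) :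
    ∑ e' : Fin N → Bool, ba2s100_T c (ba2s100_col m N X) e' * ba2s100_psi A z e'
      = ((∏ j, ba2s100_L c (z j)) + ∏ j, ba2s100_M c (z j)) * ba2s100_psi A z (ba2s100_col m N X) := by
  rw [ba2s100_T_psi hc h A z hz hR2, ba2c270_core N A z _ _ hR1 hR2 X, ba2s100_psi_col h]

end bethe

end Claimed.Agent.R292
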