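import Claimed.Agent.R292.Bethe.BA1x70
import Claimed.Agent.R292.Bethe.Ba2Amp270
import Claimed.Agent.R292.Bethe.Ba2Scan100
import Claimed.Agent.R292.Bethe.Ba2Dict160

/-!
# Row 292, unit BETHE, leaf B1c: the LINK between the coordinate Bethe ansatz and the matrix of BA1

* `b1c160_T_eq`: on the sector, `ba70T` (BA1x70, the matrix with `svZN = trace (T ^ M)` and top eigenvalue
  `ba70Lam`) is the cyclic matrix of local weights `ba2d160_T`, through any ring hom `φ : ℝ →+* K`;
* `b1c160_ada` (AD-a): the chain matrix `ba2s100_T` of the scan is the cyclic matrix;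
* `b1c160_pos`, `b1c160_col` (AD-b): every column of the sector is the column of its sorted positions;
* `b1c160_eigen`: roots `z j ≠ 1` of the Bethe equations `ba2a270_BE` give
  `(ba70T c N (m + 1)).map φ *ᵥ ψ = (∏ L (z j) + ∏ M (z j)) • ψ`, `ψ σ = Ψ (sorted positions of σ)`.
-/

namespace Claimed.Agent.R292

open Finset

section link

variable {L : ℕ}

theorem b1c160_in_iff (σ σ' v : ZMod L → Bool) (b : ZMod L) :
    ba70In σ σ' v b = 2 ↔ (σ b).toNat + (v (b - 1)).toNat = (σ' b).toNat + (v b).toNat := by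
  unfold ba70In
  cases σ b <;> cases σ' b <;> cases v (b - 1) <;> cases v b <;> simp

theorem b1c160_cnt_eq [NeZero L] (σ σ' v : ZMod L → Bool)
    (h : ∀ b, (σ b).toNat + (v (b - 1)).toNat = (σ' b).toNat + (v b).toNat) :
    ba70Cnt σ = ba70Cnt σ' := by
  have h1 : ∑ b, (v (b - 1)).toNat = ∑ b, (v b).toNat :=
    Equiv.sum_comp (Equiv.subRight (1 : ZMod L)) fun b => (v b).toNat
  have h2 : ∑ b, (σ b).toNat = ∑ b, (σ' b).toNat := by
    have := Finset.sum_congr (rfl : (Finset.univ : Finset (ZMod L)) = Finset.univ) fun b _ => h b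
    rw [Finset.sum_add_distrib, Finset.sum_add_distrib, h1] at this
    omega
  have h3 : ∀ τ : ZMod L → Bool, ba70Cnt τ = ∑ b, (τ b).toNat := by
    intro τ
    unfold ba70Cnt
    rw [Finset.card_filter]
    refine Finset.sum_congr rfl fun b _ => ?_
    cases τ b <;> simp
  rw [h3, h3, h2]

/-- **LINK**: on the sector, the column transfer matrix of BA1 is the cyclic matrix of local weights. -/
theorem b1c160_T_eq {K : Type*} [CommSemiring K] (φ : ℝ →+* K) (c : ℝ) (n : ℕ) [NeZero L]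
    (σ σ' : ZMod L → Bool) (hσ : ba70Cnt σ = n) :
    φ (ba70T c L n σ σ') = ba2d160_T (φ c) L σ σ' := by
  unfold ba70T ba2d160_T
  rw [map_sum]
  refine Finset.sum_congr rfl fun v _ => ?_
  unfold ba70W
  by_cases hice : ∀ b, (σ b).toNat + (v (b - 1)).toNat = (σ' b).toNat + (v b).toNat
  · rw [if_pos ⟨fun b => (b1c160_in_iff σ σ' v b).2 (hice b), hσ,
      by rw [← b1c160_cnt_eq σ σ' v hice]; exact hσ⟩]
    have h1 : ∀ b : ZMod L, ba2d160_wt (φ c) (σ b) (σ' b) (v (b - 1)) (v b) =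
        if σ b ≠ σ' b then φ c else 1 := by
      intro b
      unfold ba2d160_wt
      rw [if_pos (hice b)]
      by_cases h : σ b = σ' b <;> simp [h]
    simp_rw [h1]
    rw [Finset.prod_ite]
    simp only [Finset.prod_const, one_pow, mul_one, map_pow]
    rfl
  · rw [if_neg (fun h => hice fun b => (b1c160_in_iff σ σ' v b).1 (h.1 b)), map_zero]
    push Not at hice
    obtain ⟨b, hb⟩ := hice
    rw [Finset.prod_eq_zero (Finset.mem_univ b) (by unfold ba2d160_wt; rw [if_neg hb])]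

/-- Off the sector the rows of the matrix of BA1 vanish. -/
theorem b1c160_T_zero (c : ℝ) (n : ℕ) [NeZero L] (σ σ' : ZMod L → Bool) (hσ : ba70Cnt σ ≠ n) :
    ba70T c L n σ σ' = 0 := ba70T_row_zero c L n σ σ' hσ

/-- The cyclic matrix preserves the number of particles. -/
theorem b1c160_T_cnt {K : Type*} [CommSemiring K] (c : K) [NeZero L] (σ σ' : ZMod L → Bool)
    (h : ba70Cnt σ ≠ ba70Cnt σ') : ba2d160_T c L σ σ' = 0 := by
  unfold ba2d160_T
  refine Finset.sum_eq_zero fun v _ => ?_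
  by_cases hice : ∀ b, (σ b).toNat + (v (b - 1)).toNat = (σ' b).toNat + (v b).toNat
  · exact absurd (b1c160_cnt_eq σ σ' v hice) h
  · push Not at hice
    obtain ⟨b, hb⟩ := hice
    rw [Finset.prod_eq_zero (Finset.mem_univ b) (by unfold ba2d160_wt; rw [if_neg hb])]

end link

section ada

variable {N : ℕ}

/-- `Fin N ≃ ZMod N`, by the cast. -/
def b1c160_e (N : ℕ) [NeZero N] : Fin N ≃ ZMod N where
  toFun j := ((j : ℕ) : ZMod N)
  invFun b := ⟨b.val, ZMod.val_lt b⟩
  left_inv j := Fin.ext (ZMod.val_natCast_of_lt j.isLt)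
  right_inv b := ZMod.natCast_zmod_val b

/-- `Bool → Fin 2`. -/
def b1c160_β (b : Bool) : Fin 2 := if b then 1 else 0

theorem b1c160_β_val (b : Bool) : ((b1c160_β b : Fin 2) : ℕ) = b.toNat := by
  cases b <;> rfl

theorem b1c160_β_inj {a b : Bool} (h : b1c160_β a = b1c160_β b) : a = b := by
  cases a <;> cases b <;> simp_all [b1c160_β]

theorem b1c160_β_surj (i : Fin 2) : b1c160_β (decide (i = 1)) = i := by
  fin_cases i <;> simp [b1c160_β]

theorem b1c160_W_eq {K : Type*} [CommRing K] (c : K) (e e' vl vr : Bool) :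
    ba2s100_W c e (b1c160_β vl) e' (b1c160_β vr) = ba2d160_wt c e e' vl vr := by
  unfold ba2s100_W ba2d160_wt
  rw [b1c160_β_val, b1c160_β_val]

/-- the open chain of a cyclic configuration of vertical edges. -/
def b1c160_r [NeZero N] (v : ZMod N → Bool) (i : Fin (N + 1)) : Fin 2 :=
  b1c160_β (v (((i : ℕ) : ZMod N) - 1))

/-- **AD-a**: the open-chain matrix of the scan is the cyclic matrix. -/
theorem b1c160_ada {K : Type*} [CommRing K] (c : K) [NeZero N] (e e' : ZMod N → Bool) :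
    ba2s100_T c (fun j => e (b1c160_e N j)) (fun j => e' (b1c160_e N j)) = ba2d160_T c N e e' := by
  unfold ba2s100_T ba2d160_T
  rw [← Finset.sum_filter]
  symm
  refine Finset.sum_bij (fun v _ => b1c160_r v) ?_ ?_ ?_ ?_
  · intro v _
    rw [Finset.mem_filter]
    refine ⟨Finset.mem_univ _, ?_⟩
    unfold b1c160_r
    simp
  · intro v _ v' _ h
    funext b
    have h1 := congrFun h ((b1c160_e N).symm b).succ
    unfold b1c160_r at h1
    have h2 : (((((b1c160_e N).symm b).succ : Fin (N + 1)) : ℕ) : ZMod N) - 1 = b := by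
      rw [Fin.val_succ]
      push_cast
      have : ((((b1c160_e N).symm b : Fin N) : ℕ) : ZMod N) = b := (b1c160_e N).apply_symm_apply b
      rw [this]; ring
    rw [h2] at h1
    exact b1c160_β_inj h1
  · intro r hr
    have hr' := (Finset.mem_filter.1 hr).2
    refine ⟨fun b => decide (r ((b1c160_e N).symm b).succ = 1), Finset.mem_univ _, ?_⟩
    funext i
    unfold b1c160_r
    rw [b1c160_β_surj]
    refine Fin.cases ?_ (fun j => ?_) i
    · rw [hr']
      congr 1
      apply Fin.ext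
      rw [Fin.val_succ]
      show ((((0 : Fin (N + 1)) : ℕ) : ZMod N) - 1).val + 1 = _
      have hN : 1 ≤ N := Nat.one_le_iff_ne_zero.2 (NeZero.ne N)
      have : (((0 : Fin (N + 1)) : ℕ) : ZMod N) - 1 = ((N - 1 : ℕ) : ZMod N) := by
        rw [Nat.cast_sub hN]; simp
      rw [this, ZMod.val_natCast_of_lt (by omega)]
      simp; omega
    · congr 1
      apply Fin.ext
      rw [Fin.val_succ, Fin.val_succ]
      show ((((j.succ : Fin (N + 1)) : ℕ) : ZMod N) - 1).val + 1 = _
      have : (((j.succ : Fin (N + 1)) : ℕ) : ZMod N) - 1 = ((j : ℕ) : ZMod N) := by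
        rw [Fin.val_succ]; push_cast; ring
      rw [this, ZMod.val_natCast_of_lt j.isLt]
  · intro v _
    rw [← (b1c160_e N).prod_comp]
    refine Finset.prod_congr rfl fun j _ => ?_
    unfold b1c160_r
    rw [b1c160_W_eq]
    congr 2
    rw [Fin.val_succ]
    show b1c160_e N j = _
    show ((j : ℕ) : ZMod N) = _
    push_cast; ring

end ada

section adb

variable {N : ℕ}

/-- the positions (in `[0, N)`) of the particles of a column. -/
def b1c160_S [NeZero N] (σ : ZMod N → Bool) : Finset ℕ :=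
  (Finset.univ.filter fun b => σ b = true).image ZMod.val

theorem b1c160_S_card [NeZero N] (σ : ZMod N → Bool) : (b1c160_S σ).card = ba70Cnt σ := by
  unfold b1c160_S ba70Cnt
  exact Finset.card_image_of_injective _ (ZMod.val_injective N)

theorem b1c160_mem_S [NeZero N] (σ : ZMod N → Bool) (j : ℕ) :
    j ∈ b1c160_S σ ↔ j < N ∧ σ (j : ZMod N) = true := by
  unfold b1c160_S
  rw [Finset.mem_image]
  constructor
  · rintro ⟨b, hb, rfl⟩
    refine ⟨ZMod.val_lt b, ?_⟩
    rw [ZMod.natCast_zmod_val]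
    exact (Finset.mem_filter.1 hb).2
  · rintro ⟨h1, h2⟩
    exact ⟨(j : ZMod N), Finset.mem_filter.2 ⟨Finset.mem_univ _, h2⟩, ZMod.val_natCast_of_lt h1⟩

/-- the sorted positions of a column with `m + 1` particles, continued by `X (m + 1) = X 0 + N`
(junk `0` off the sector). -/
def b1c160_X [NeZero N] (m : ℕ) (σ : ZMod N → Bool) (k : ℕ) : ℕ :=
  if h : (b1c160_S σ).card = m + 1 then
    (if hk : k < m + 1 then (b1c160_S σ).orderEmbOfFin h ⟨k, hk⟩
      else (b1c160_S σ).orderEmbOfFin h 0 + N)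
  else 0

theorem b1c160_X_of_lt [NeZero N] {m : ℕ} {σ : ZMod N → Bool} (h : (b1c160_S σ).card = m + 1)
    {k : ℕ} (hk : k < m + 1) : b1c160_X m σ k = (b1c160_S σ).orderEmbOfFin h ⟨k, hk⟩ := by
  unfold b1c160_X
  rw [dif_pos h, dif_pos hk]

theorem b1c160_X_mem [NeZero N] {m : ℕ} {σ : ZMod N → Bool} (h : (b1c160_S σ).card = m + 1)
    {k : ℕ} (hk : k < m + 1) : b1c160_X m σ k ∈ b1c160_S σ := by
  rw [b1c160_X_of_lt h hk]
  exact Finset.orderEmbOfFin_mem _ h _

/-- **AD-b (1)**: the sorted positions are position data of the scan. -/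
theorem b1c160_pos [NeZero N] {m : ℕ} {σ : ZMod N → Bool} (hσ : ba70Cnt σ = m + 1) :
    Ba2s100Pos m N (b1c160_X m σ) := by
  have h : (b1c160_S σ).card = m + 1 := by rw [b1c160_S_card, hσ]
  have hper : b1c160_X m σ (m + 1) = b1c160_X m σ 0 + N := by
    rw [b1c160_X_of_lt h (Nat.succ_pos m)]
    unfold b1c160_X
    rw [dif_pos h, dif_neg (lt_irrefl _)]
    rfl
  have hlt : b1c160_X m σ m < N := ((b1c160_mem_S σ _).1 (b1c160_X_mem h (Nat.lt_succ_self m))).1
  refine ⟨fun k hk => ?_, hper, hlt⟩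
  rcases Nat.lt_or_ge k m with hkm | hkm
  · rw [b1c160_X_of_lt h (by omega : k < m + 1), b1c160_X_of_lt h (by omega : k + 1 < m + 1)]
    exact ((b1c160_S σ).orderEmbOfFin h).strictMono (by
      rw [Fin.lt_def]; exact Nat.lt_succ_self k)
  · have : k = m := le_antisymm hk hkm
    subst this
    rw [hper]; omega

/-- **AD-b (2)**: every column of the sector is the column of its sorted positions. -/
theorem b1c160_col [NeZero N] {m : ℕ} {σ : ZMod N → Bool} (hσ : ba70Cnt σ = m + 1) :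
    (fun j => σ (b1c160_e N j)) = ba2s100_col m N (b1c160_X m σ) := by
  have h : (b1c160_S σ).card = m + 1 := by rw [b1c160_S_card, hσ]
  funext j
  unfold ba2s100_col ba2s100_E
  have key : ((j : ℕ) ∈ (Finset.range (m + 1)).image (b1c160_X m σ)) ↔
      σ (b1c160_e N j) = true := by
    rw [Finset.mem_image]
    constructor
    · rintro ⟨k, hk, hkj⟩
      have := (b1c160_mem_S σ _).1 (b1c160_X_mem h (Finset.mem_range.1 hk))
      rw [hkj] at this
      exact this.2
    · intro hj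
      have hmem : (j : ℕ) ∈ b1c160_S σ := (b1c160_mem_S σ _).2 ⟨j.isLt, hj⟩
      have : (j : ℕ) ∈ Set.range ((b1c160_S σ).orderEmbOfFin h) := by
        rw [Finset.range_orderEmbOfFin]; exact hmem
      obtain ⟨k, hk⟩ := this
      exact ⟨k, Finset.mem_range.2 k.isLt, by rw [b1c160_X_of_lt h k.isLt]; exact hk⟩
  by_cases hj : σ (b1c160_e N j) = true
  · rw [hj, decide_eq_true (key.2 hj)]
  · rw [decide_eq_false (fun h' => hj (key.1 h'))]
    simpa using hj

end adb

section exit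

variable {N m : ℕ} {K : Type*} [Field K]

/-- The Bethe vector on the columns `ZMod N → Bool` (zero off the sector `m + 1`). -/
def b1c160_psi [NeZero N] (A : Equiv.Perm (Fin (m + 1)) → K) (z : Fin (m + 1) → K)
    (σ : ZMod N → Bool) : K :=
  if ba70Cnt σ = m + 1 then ba2c270_Psi A z (b1c160_X m σ) else 0

theorem b1c160_psi_eq [NeZero N] (A : Equiv.Perm (Fin (m + 1)) → K) (z : Fin (m + 1) → K)
    {σ : ZMod N → Bool} (hσ : ba70Cnt σ = m + 1) :
    b1c160_psi A z σ = ba2s100_psi A z (fun j => σ (b1c160_e N j)) := by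
  unfold b1c160_psi
  rw [if_pos hσ, b1c160_col hσ, ba2s100_psi_col (b1c160_pos hσ)]

/-- **EXIT of B1b + B1c (abstract amplitudes).** -/
theorem b1c160_eigen_abs [NeZero N] (φ : ℝ →+* K) {c : ℝ} (hc : c ≠ 0)
    (A : Equiv.Perm (Fin (m + 1)) → K) (z : Fin (m + 1) → K) (hz : ∀ j, z j ≠ 1)
    (hR1 : ∀ (σ : Equiv.Perm (Fin (m + 1))) (a b : Fin (m + 1)), (b : ℕ) = a + 1 →
      A σ * (ba2s100_M (φ c) (z (σ a)) * ba2s100_L (φ c) (z (σ b)) - 1) +
        A (σ * Equiv.swap a b) * (ba2s100_M (φ c) (z (σ b)) * ba2s100_L (φ c) (z (σ a)) - 1) = 0)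
    (hR2 : ∀ τ, A τ = z (τ 0) ^ N * A (τ * finRotate (m + 1))) :
    ((ba70T c N (m + 1)).map φ).mulVec (b1c160_psi A z) =
      ((∏ j, ba2s100_L (φ c) (z j)) + ∏ j, ba2s100_M (φ c) (z j)) • b1c160_psi A z := by
  funext σ
  rw [Matrix.mulVec, Pi.smul_apply, smul_eq_mul]
  unfold dotProduct
  simp only [Matrix.map_apply]
  by_cases hσ : ba70Cnt σ = m + 1
  · have hφc : φ c ≠ 0 := by
      intro h; exact hc ((map_eq_zero φ).1 h)
    have h1 : ∀ σ' : ZMod N → Bool, φ (ba70T c N (m + 1) σ σ') * b1c160_psi A z σ' =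
        ba2s100_T (φ c) (fun j => σ (b1c160_e N j)) (fun j => σ' (b1c160_e N j)) *
          ba2s100_psi A z (fun j => σ' (b1c160_e N j)) := by
      intro σ'
      rw [b1c160_T_eq φ c (m + 1) σ σ' hσ, b1c160_ada]
      by_cases hσ' : ba70Cnt σ' = m + 1
      · rw [b1c160_psi_eq A z hσ']
      · rw [b1c160_T_cnt (φ c) σ σ' (by rw [hσ]; exact fun h => hσ' h.symm), zero_mul, zero_mul]
    rw [Finset.sum_congr rfl fun σ' _ => h1 σ']
    have h2 := ((b1c160_e N).arrowCongr (Equiv.refl Bool)).symm.sum_comp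
      (fun e' : Fin N → Bool => ba2s100_T (φ c) (fun j => σ (b1c160_e N j)) e' * ba2s100_psi A z e')
    have h3 : ∀ σ' : ZMod N → Bool,
        ((b1c160_e N).arrowCongr (Equiv.refl Bool)).symm σ' = fun j => σ' (b1c160_e N j) := by
      intro σ'; funext j; rfl
    simp only [h3] at h2
    rw [h2, b1c160_psi_eq A z hσ, b1c160_col hσ]
    exact ba2s100_eigen hφc (b1c160_pos hσ) A z hz hR1 hR2
  · have h0 : b1c160_psi A z σ = 0 := by unfold b1c160_psi; rw [if_neg hσ]
    rw [h0, mul_zero]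
    refine Finset.sum_eq_zero fun σ' _ => ?_
    rw [ba70T_row_zero c N (m + 1) σ σ' hσ, map_zero, zero_mul]

/-- **EXIT of B1b + B1c.**  Roots `z j ≠ 1` of the Bethe equations give an eigenvector of the column
transfer matrix `ba70T` of BA1 (the matrix whose top eigenvalue is `ba70Lam`). -/
theorem b1c160_eigen [NeZero N] (φ : ℝ →+* K) {c : ℝ} (hc : c ≠ 0) (z : Fin (m + 1) → K)
    (hz : ∀ j, z j ≠ 1) (hBE : ba2a270_BE (2 - φ c ^ 2) N z) :
    ((ba70T c N (m + 1)).map φ).mulVec (b1c160_psi (ba2a270_A (2 - φ c ^ 2) z) z) =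
      ((∏ j, ba2a270_L (φ c) (z j)) + ∏ j, ba2a270_M (φ c) (z j)) •
        b1c160_psi (ba2a270_A (2 - φ c ^ 2) z) z :=
  b1c160_eigen_abs φ hc _ z hz (fun σ a b hab => ba2a270_R1' (φ c) z hz σ a b hab)
    (fun τ => ba2a270_R2 _ N z hBE τ)

end exit

end Claimed.Agent.R292
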