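import Claimed.Agent.R292.Defs.BETHE
import Claimed.Agent.R290.SvChain
import Claimed.Agent.R290.SvSpec

/-!
# Rows 292 + 290, unit BETHE, block BA1 (concrete): the dictionary Prelude -> linear algebra for the sector partition functions   (helper140; prefix `ba1`)

SORRY-FREE.  Over `R290/SvChain` (cyclic chain lemma) and `R290/SvSpec` (spectral lemma, Perron criterion).
* `ba1_sum_range`, `ba1_card_range` : sums over `range L` of functions of the cast `ℕ → ℤ → ZMod L` = sums over `ZMod L`.
* `ba1Ice x y z w` : the ice rule at a vertex (left, right, bottom, top); `ba1_sector_iff`, `ba1_numC` : `baSector`, `svNumC` column by column.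
* `ba1w c h v h'` : weight of a column; `ba1T0 c L h h' = ∑ v, ba1w c h v h'`; `ba1Sec L n` : the sector; **`ba1T c L n`** : the column transfer matrix.
* **`ba1_Z_eq_trace`** : `baZ c M L n = trace ((ba1T c L n) ^ M)` (`M L ≥ 1`).
* `ba1T_isSymm`, `ba1T0_nonneg`, `ba1T0_diag` (`≥ 1`), `ba1Sec_nonempty`, `ba1_Z_pos`.
* **`ba1T_isPrimitive`** : `(ba1T c L n).IsPrimitive` for `c > 0` (one particle may jump to any empty site: `ba1T0_jump_pos`).
* **`ba1_main`** : `∃ Λ > 0`, `log baZ(M) / M → log Λ`, `Λ` eigenvalue of `ba1T`, spectrum in `(-Λ, Λ]`, positive eigenvector ⇒ eigenvalue `Λ`.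
-/

set_option autoImplicit false

namespace Claimed.Agent.R292

open Claims.C0466 Claimed.Agent.R290 Filter Topology Matrix

/-! ## 1. sums over `range L` with casts -/

theorem ba1_sum_range {β : Type*} [AddCommMonoid β] (L : ℕ) [NeZero L] (g : ZMod L → β) :
    ∑ j ∈ Finset.range L, g ((j : ℤ) : ZMod L) = ∑ b : ZMod L, g b := by
  obtain ⟨k, rfl⟩ := Nat.exists_eq_succ_of_ne_zero (NeZero.ne L)
  refine (Fin.sum_univ_eq_sum_range (fun j => g ((j : ℤ) : ZMod (k + 1))) (k + 1)).symm.trans ?_
  apply Finset.sum_congr rfl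
  intro i _
  congr 1
  rw [Int.cast_natCast]
  exact Fin.cast_val_eq_self i

theorem ba1_card_range (L : ℕ) [NeZero L] (p : ZMod L → Prop) [DecidablePred p] :
    ((Finset.range L).filter (fun j : ℕ => p ((j : ℤ) : ZMod L))).card =
      (Finset.univ.filter p).card := by
  rw [Finset.card_filter, Finset.card_filter]
  exact ba1_sum_range L (fun b => if p b then 1 else 0)

/-! ## 2. the ice rule and the sector, column by column -/

/-- the ice rule at one vertex: left `x`, right `y`, bottom `z`, top `w` -/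
def ba1Ice (x y z w : Bool) : Prop :=
  (if x then 1 else 0) + (if y then 0 else 1) + (if z then 1 else 0) + (if w then 0 else 1) = 2

instance ba1Ice.instDecidable (x y z w : Bool) : Decidable (ba1Ice x y z w) := by
  unfold ba1Ice; infer_instance

theorem ba1_sector_iff {M L n : ℕ} [NeZero M] [NeZero L] (ω : ZMod M × ZMod L × Bool → Bool) :
    baSector n ω ↔ ∀ a : ZMod M,
      (∀ b : ZMod L, ba1Ice (ω (a - 1, b, false)) (ω (a, b, false)) (ω (a, b - 1, true))
        (ω (a, b, true))) ∧
      (Finset.univ.filter (fun b : ZMod L => ω (a, b, false) = true)).card = n := by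
  unfold baSector
  constructor
  · rintro ⟨h1, h2⟩ a
    obtain ⟨a', rfl⟩ := ZMod.intCast_surjective a
    refine ⟨fun b => ?_, ?_⟩
    · obtain ⟨b', rfl⟩ := ZMod.intCast_surjective b
      have := h1 a' b'
      unfold svInCount svH svV at this
      push_cast at this
      exact this
    · rw [← ba1_card_range]
      exact h2 a'
  · intro h
    refine ⟨fun a b => ?_, fun i => ?_⟩
    · have := (h (a : ZMod M)).1 (b : ZMod L)
      unfold svInCount svH svV
      push_cast
      exact this
    · have := (h (i : ZMod M)).2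
      rw [← ba1_card_range] at this
      exact this

theorem ba1_numC {M L : ℕ} [NeZero M] [NeZero L] (ω : ZMod M × ZMod L × Bool → Bool) :
    svNumC ω = ∑ a : ZMod M,
      (Finset.univ.filter (fun b : ZMod L => ω (a - 1, b, false) ≠ ω (a, b, false))).card := by
  classical
  unfold svNumC
  rw [Finset.card_filter, Finset.sum_product]
  have key : ∀ i j : ℕ, (if svIsC ω (i : ℤ) (j : ℤ) then 1 else 0) =
      (fun (a : ZMod M) (b : ZMod L) => if ω (a - 1, b, false) ≠ ω (a, b, false) then 1 else 0)
        ((i : ℤ) : ZMod M) ((j : ℤ) : ZMod L) := by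
    intro i j
    unfold svIsC svH
    push_cast
    cases ω ((i : ZMod M) - 1, (j : ZMod L), false) <;> cases ω ((i : ZMod M), (j : ZMod L), false) <;> simp
  simp only [key]
  rw [ba1_sum_range M (fun a => ∑ j ∈ Finset.range L,
    (fun (a : ZMod M) (b : ZMod L) => if ω (a - 1, b, false) ≠ ω (a, b, false) then 1 else 0) a
      ((j : ℤ) : ZMod L))]
  apply Finset.sum_congr rfl
  intro a _
  rw [Finset.card_filter]
  exact ba1_sum_range L (fun b => if ω (a - 1, b, false) ≠ ω (a, b, false) then 1 else 0)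

/-! ## 3. the column weight, the transfer matrix -/

/-- weight of one column of vertices: `h` = horizontal edges on the left, `h'` on the right, `v` = the vertical edges of the column -/
def ba1w (c : ℝ) {L : ℕ} [NeZero L] (h v h' : ZMod L → Bool) : ℝ :=
  if ∀ b : ZMod L, ba1Ice (h b) (h' b) (v (b - 1)) (v b) then
    c ^ (Finset.univ.filter (fun b : ZMod L => h b ≠ h' b)).card else 0

/-- the column transfer matrix on all states -/
def ba1T0 (c : ℝ) (L : ℕ) [NeZero L] (h h' : ZMod L → Bool) : ℝ :=
  ∑ v : ZMod L → Bool, ba1w c h v h'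

/-- `n` arrows `true` -/
def ba1P {L : ℕ} [NeZero L] (n : ℕ) (h : ZMod L → Bool) : Prop :=
  (Finset.univ.filter (fun b : ZMod L => h b = true)).card = n

instance ba1P.instDecidablePred {L : ℕ} [NeZero L] (n : ℕ) : DecidablePred (ba1P (L := L) n) := by
  intro h; unfold ba1P; infer_instance

/-- the sector `n` -/
abbrev ba1Sec (L : ℕ) [NeZero L] (n : ℕ) : Type := {h : ZMod L → Bool // ba1P n h}

/-- **the column transfer matrix of the sector `n`** -/
def ba1T (c : ℝ) (L : ℕ) [NeZero L] (n : ℕ) : Matrix (ba1Sec L n) (ba1Sec L n) ℝ :=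
  fun h h' => ba1T0 c L h.1 h'.1

/-- configurations = (horizontal columns, vertical columns) -/
def ba1E (M L : ℕ) : (ZMod M × ZMod L × Bool → Bool) ≃
    (ZMod M → ZMod L → Bool) × (ZMod M → ZMod L → Bool) where
  toFun ω := (fun a b => ω (a, b, false), fun a b => ω (a, b, true))
  invFun p := fun e => match e with
    | (a, b, false) => p.1 a b
    | (a, b, true) => p.2 a b
  left_inv ω := by
    funext ⟨a, b, d⟩
    cases d <;> rfl
  right_inv p := rfl

/-- the Boltzmann weight of the sector, column by column -/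
theorem ba1_weight {M L : ℕ} [NeZero M] [NeZero L] (c : ℝ) (n : ℕ)
    (ω : ZMod M × ZMod L × Bool → Bool) [Decidable (baSector n ω)] :
    (if baSector n ω then c ^ svNumC ω else 0) =
      ∏ a : ZMod M, (if ba1P n ((ba1E M L ω).1 a) then
        ba1w c ((ba1E M L ω).1 (a - 1)) ((ba1E M L ω).2 a) ((ba1E M L ω).1 a) else 0) := by
  have h1 : ∀ a : ZMod M, (if ba1P n ((ba1E M L ω).1 a) then
        ba1w c ((ba1E M L ω).1 (a - 1)) ((ba1E M L ω).2 a) ((ba1E M L ω).1 a) else 0) =
      if ((∀ b : ZMod L, ba1Ice (ω (a - 1, b, false)) (ω (a, b, false)) (ω (a, b - 1, true))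
        (ω (a, b, true))) ∧
        (Finset.univ.filter (fun b : ZMod L => ω (a, b, false) = true)).card = n) then
        c ^ (Finset.univ.filter (fun b : ZMod L => ω (a - 1, b, false) ≠ ω (a, b, false))).card
      else 0 := by
    intro a
    unfold ba1w ba1P ba1E
    simp only [Equiv.coe_fn_mk]
    split_ifs with h1 h2 h3 h3 h3 <;> first | rfl | (exfalso; tauto)
  simp only [h1]
  rw [Finset.prod_ite_zero, Finset.prod_pow_eq_pow_sum, ← ba1_numC]
  simp only [Finset.mem_univ, true_imp_iff, ← ba1_sector_iff]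

/-- **The sector partition function is the trace of the `M`-th power of the column transfer matrix.** -/
theorem ba1_Z_eq_trace (c : ℝ) (M L n : ℕ) [NeZero M] [NeZero L] :
    baZ c M L n = ((ba1T c L n) ^ M).trace := by
  classical
  unfold baZ
  rw [tsum_fintype]
  simp only [ba1_weight]
  rw [(ba1E M L).sum_comp (fun p : (ZMod M → ZMod L → Bool) × (ZMod M → ZMod L → Bool) =>
    ∏ a : ZMod M, (if ba1P n (p.1 a) then ba1w c (p.1 (a - 1)) (p.2 a) (p.1 a) else 0)),
    Fintype.sum_prod_type]
  -- sum out the vertical edges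
  have h1 : ∀ hh : ZMod M → ZMod L → Bool,
      ∑ vv : ZMod M → ZMod L → Bool,
        ∏ a : ZMod M, (if ba1P n (hh a) then ba1w c (hh (a - 1)) (vv a) (hh a) else 0) =
      if (∀ a, ba1P n (hh a)) then ∏ a : ZMod M, ba1T0 c L (hh (a - 1)) (hh a) else 0 := by
    intro hh
    have h2 := (Finset.prod_univ_sum (fun _ : ZMod M => (Finset.univ : Finset (ZMod L → Bool)))
      (fun a v => if ba1P n (hh a) then ba1w c (hh (a - 1)) v (hh a) else 0)).symm
    rw [Fintype.piFinset_univ] at h2
    rw [h2]
    have h3 : ∀ a : ZMod M, ∑ v : ZMod L → Bool,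
        (if ba1P n (hh a) then ba1w c (hh (a - 1)) v (hh a) else 0) =
        if ba1P n (hh a) then ba1T0 c L (hh (a - 1)) (hh a) else 0 := by
      intro a
      unfold ba1T0
      split_ifs <;> simp
    simp only [h3]
    rw [Finset.prod_ite_zero]
    simp
  simp only [h1]
  -- restrict to the sector
  rw [← Finset.sum_filter,
    Finset.sum_subtype (p := fun hh : ZMod M → ZMod L → Bool => ∀ a, ba1P n (hh a))
      (Finset.univ.filter fun hh : ZMod M → ZMod L → Bool => ∀ a, ba1P n (hh a)) (by simp),
    ← svch_trace (ba1T c L n) M,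
    ← (Equiv.subtypePiEquivPi (p := fun (_ : ZMod M) (h : ZMod L → Bool) => ba1P n h)).sum_comp]
  rfl

/-! ## 4. symmetry, positivity, the top eigenvalue -/

theorem ba1Ice_swap (x y z w : Bool) : ba1Ice y x (!z) (!w) ↔ ba1Ice x y z w := by
  unfold ba1Ice
  cases x <;> cases y <;> cases z <;> cases w <;> decide

theorem ba1w_swap (c : ℝ) {L : ℕ} [NeZero L] (h v h' : ZMod L → Bool) :
    ba1w c h' (fun b => !v b) h = ba1w c h v h' := by
  unfold ba1w
  simp only [ba1Ice_swap]
  have : (Finset.univ.filter (fun b : ZMod L => h' b ≠ h b)) =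
      (Finset.univ.filter (fun b : ZMod L => h b ≠ h' b)) := by
    apply Finset.filter_congr
    intro b _
    exact ne_comm
  rw [this]

/-- reversal of the vertical arrows -/
def ba1Not (L : ℕ) : (ZMod L → Bool) ≃ (ZMod L → Bool) where
  toFun v := fun b => !v b
  invFun v := fun b => !v b
  left_inv v := by funext b; simp
  right_inv v := by funext b; simp

theorem ba1T0_symm (c : ℝ) (L : ℕ) [NeZero L] (h h' : ZMod L → Bool) :
    ba1T0 c L h' h = ba1T0 c L h h' := by
  unfold ba1T0
  rw [← (ba1Not L).sum_comp (fun v => ba1w c h' v h)]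
  exact Finset.sum_congr rfl fun v _ => ba1w_swap c h v h'

theorem ba1w_nonneg {c : ℝ} (hc : 0 ≤ c) {L : ℕ} [NeZero L] (h v h' : ZMod L → Bool) :
    0 ≤ ba1w c h v h' := by
  unfold ba1w
  split_ifs
  · exact pow_nonneg hc _
  · exact le_rfl

theorem ba1T0_nonneg {c : ℝ} (hc : 0 ≤ c) (L : ℕ) [NeZero L] (h h' : ZMod L → Bool) :
    0 ≤ ba1T0 c L h h' :=
  Finset.sum_nonneg fun v _ => ba1w_nonneg hc h v h'

theorem ba1T0_diag {c : ℝ} (hc : 0 ≤ c) (L : ℕ) [NeZero L] (h : ZMod L → Bool) :
    1 ≤ ba1T0 c L h h := by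
  have h1 : ba1w c h (fun _ => true) h = 1 := by
    unfold ba1w
    rw [if_pos]
    · simp
    · intro b
      unfold ba1Ice
      cases h b <;> simp
  rw [← h1]
  exact Finset.single_le_sum (f := fun v => ba1w c h v h) (fun v _ => ba1w_nonneg hc h v h)
    (Finset.mem_univ _)

theorem ba1T_isSymm (c : ℝ) (L : ℕ) [NeZero L] (n : ℕ) : (ba1T c L n).IsSymm := by
  ext h h'
  exact ba1T0_symm c L h.1 h'.1

theorem ba1Sec_nonempty (L : ℕ) [NeZero L] (n : ℕ) (hn : n ≤ L) : Nonempty (ba1Sec L n) := by
  classical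
  have hcard : n ≤ (Finset.univ : Finset (ZMod L)).card := by
    rw [Finset.card_univ, ZMod.card]; exact hn
  obtain ⟨t, -, ht⟩ := Finset.exists_subset_card_eq hcard
  refine ⟨⟨fun b => decide (b ∈ t), ?_⟩⟩
  unfold ba1P
  rw [← ht]
  congr 1
  ext b
  simp

/-- **BA1.**  Growth rate of the sector partition function = top eigenvalue `Λ(L,n)` of the column transfer matrix `ba1T c L n`;
Perron criterion: an eigenvector of `ba1T c L n` with all entries `> 0` has eigenvalue `Λ(L,n)`. -/
theorem ba1_main (c : ℝ) (hc : 0 < c) (L n : ℕ) [NeZero L] (hn : n ≤ L) :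
    ∃ Λ : ℝ, 0 < Λ ∧
      Tendsto (fun M : ℕ => Real.log (baZ c M L n) / M) atTop (𝓝 (Real.log Λ)) ∧
      (∃ v : ba1Sec L n → ℝ, v ≠ 0 ∧ ba1T c L n *ᵥ v = Λ • v) ∧
      (∀ (v : ba1Sec L n → ℝ) (μ : ℝ), v ≠ 0 → ba1T c L n *ᵥ v = μ • v → -Λ < μ ∧ μ ≤ Λ) ∧
      (∀ (v : ba1Sec L n → ℝ) (μ : ℝ), (∀ i, 0 < v i) → ba1T c L n *ᵥ v = μ • v → μ = Λ) := by
  classical
  have := ba1Sec_nonempty L n hn
  obtain ⟨Λ, hΛ, hlim, h3, h4, h5⟩ := svsp_top_exists (ba1T c L n) (ba1T_isSymm c L n)
    (fun h h' => ba1T0_nonneg hc.le L h.1 h'.1)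
    (fun h => lt_of_lt_of_le one_pos (ba1T0_diag hc.le L h.1))
  refine ⟨Λ, hΛ, hlim.congr' ?_, h3, h4, h5⟩
  filter_upwards [eventually_ge_atTop 1] with M hM
  have : NeZero M := ⟨by omega⟩
  rw [ba1_Z_eq_trace]

/-- positivity of the sector partition function -/
theorem ba1_Z_pos (c : ℝ) (hc : 0 < c) (M L n : ℕ) [NeZero M] [NeZero L] (hn : n ≤ L) :
    0 < baZ c M L n := by
  classical
  have := ba1Sec_nonempty L n hn
  rw [ba1_Z_eq_trace]
  exact svsp_trace_pos (ba1T c L n) (fun h h' => ba1T0_nonneg hc.le L h.1 h'.1)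
    (fun h => lt_of_lt_of_le one_pos (ba1T0_diag hc.le L h.1)) M

/-! ## 5. the column transfer matrix of a sector is primitive (appended 19:00Z) -/

theorem ba1_val_sub_one {L : ℕ} [NeZero L] (hL : 1 < L) (t : ZMod L) (ht : t ≠ 0) :
    (t - 1).val = t.val - 1 := by
  have : Fact (1 < L) := ⟨hL⟩
  have h1 : (1 : ZMod L).val = 1 := ZMod.val_one L
  have h2 : 0 < t.val := Nat.pos_of_ne_zero (fun h0 => ht ((ZMod.val_eq_zero t).1 h0))
  rw [ZMod.val_sub (by omega), h1]

theorem ba1_val_zero_sub_one (L : ℕ) [NeZero L] : ((0 : ZMod L) - 1).val = L - 1 := by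
  obtain ⟨k, rfl⟩ := Nat.exists_eq_succ_of_ne_zero (NeZero.ne L)
  rw [zero_sub, ZMod.val_neg_one]; rfl

/-- move the particle at `b` to the site `b'` -/
def ba1Jump {L : ℕ} (h : ZMod L → Bool) (b b' : ZMod L) : ZMod L → Bool :=
  Function.update (Function.update h b false) b' true

theorem ba1Jump_at_b {L : ℕ} (h : ZMod L → Bool) {b b' : ZMod L} (hbb : b ≠ b') :
    ba1Jump h b b' b = false := by
  unfold ba1Jump
  rw [Function.update_of_ne hbb, Function.update_self]

theorem ba1Jump_at_b' {L : ℕ} (h : ZMod L → Bool) (b b' : ZMod L) :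
    ba1Jump h b b' b' = true := by
  unfold ba1Jump
  rw [Function.update_self]

theorem ba1Jump_else {L : ℕ} (h : ZMod L → Bool) {b b' x : ZMod L} (h1 : x ≠ b) (h2 : x ≠ b') :
    ba1Jump h b b' x = h x := by
  unfold ba1Jump
  rw [Function.update_of_ne h2, Function.update_of_ne h1]

theorem ba1Jump_sector {L : ℕ} [NeZero L] {n : ℕ} {h : ZMod L → Bool} (hP : ba1P n h)
    {b b' : ZMod L} (hb : h b = true) (hb' : h b' = false) : ba1P n (ba1Jump h b b') := by
  have hbb : b ≠ b' := by
    intro e; rw [e, hb'] at hb; exact Bool.noConfusion hb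
  unfold ba1P at hP ⊢
  have e : Finset.univ.filter (fun x : ZMod L => ba1Jump h b b' x = true) =
      insert b' ((Finset.univ.filter (fun x : ZMod L => h x = true)).erase b) := by
    ext x
    simp only [Finset.mem_filter, Finset.mem_univ, true_and, Finset.mem_insert, Finset.mem_erase]
    by_cases h2 : x = b'
    · subst h2; simp [ba1Jump_at_b']
    · by_cases h1 : x = b
      · subst h1; simp [ba1Jump_at_b h hbb, h2]
      · simp [ba1Jump_else h h1 h2, h1, h2]
  rw [e, Finset.card_insert_of_notMem, Finset.card_erase_of_mem, hP]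
  · have : 0 < n := by
      rw [← hP]
      exact Finset.card_pos.2 ⟨b, by simp [hb]⟩
    omega
  · simp [hb]
  · simp [hb']

/-- a single particle may jump to any empty site in one step -/
theorem ba1T0_jump_pos {c : ℝ} (hc : 0 < c) {L : ℕ} [NeZero L] {h : ZMod L → Bool}
    {b b' : ZMod L} (hb : h b = true) (hb' : h b' = false) :
    0 < ba1T0 c L h (ba1Jump h b b') := by
  have hbb : b ≠ b' := by
    intro e; rw [e, hb'] at hb; exact Bool.noConfusion hb
  have hL : 1 < L := by
    by_contra hcon
    have h1 : L = 1 := by have := NeZero.ne L; omega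
    subst h1
    exact hbb (Subsingleton.elim _ _)
  set D := (b' - b).val with hD
  have hD0 : 0 < D := Nat.pos_of_ne_zero (fun h0 => hbb
    ((sub_eq_zero.1 ((ZMod.val_eq_zero _).1 h0)).symm))
  have hDL : D < L := ZMod.val_lt _
  set v : ZMod L → Bool := fun x => decide ((x - b).val < D) with hv
  have hice : ∀ x : ZMod L, ba1Ice (h x) (ba1Jump h b b' x) (v (x - 1)) (v x) := by
    intro x
    by_cases h1 : x = b
    · subst h1
      have e1 : v (x - 1) = false := by
        simp only [hv, decide_eq_false_iff_not, not_lt]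
        have : x - 1 - x = 0 - 1 := by ring
        rw [this, ba1_val_zero_sub_one]
        omega
      have e2 : v x = true := by
        simp only [hv, decide_eq_true_eq, sub_self, ZMod.val_zero]
        exact hD0
      rw [hb, ba1Jump_at_b h hbb, e1, e2]
      decide
    · by_cases h2 : x = b'
      · subst h2
        have e1 : v (x - 1) = true := by
          simp only [hv, decide_eq_true_eq]
          have : x - 1 - b = (x - b) - 1 := by ring
          rw [this, ba1_val_sub_one hL _ (sub_ne_zero.2 h1)]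
          omega
        have e2 : v x = false := by
          simp only [hv, decide_eq_false_iff_not, not_lt]
          exact le_refl _
        rw [hb', ba1Jump_at_b', e1, e2]
        decide
      · have e : v (x - 1) = v x := by
          simp only [hv]
          have h3 : x - 1 - b = (x - b) - 1 := by ring
          have h4 : (x - b).val ≠ D := by
            intro h5
            apply h2
            have := ZMod.val_injective L h5
            exact sub_left_injective this
          have h5 : 0 < (x - b).val := Nat.pos_of_ne_zero (fun h0 => h1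
            (sub_eq_zero.1 ((ZMod.val_eq_zero _).1 h0)))
          rw [h3, ba1_val_sub_one hL _ (sub_ne_zero.2 h1)]
          apply decide_eq_decide.2
          omega
        rw [ba1Jump_else h h1 h2, e]
        unfold ba1Ice
        cases h x <;> cases v x <;> decide
  have hw : 0 < ba1w c h v (ba1Jump h b b') := by
    unfold ba1w
    rw [if_pos hice]
    exact pow_pos hc _
  exact lt_of_lt_of_le hw (Finset.single_le_sum (f := fun v => ba1w c h v (ba1Jump h b b'))
    (fun v _ => ba1w_nonneg hc.le h v _) (Finset.mem_univ v))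

/-- Hamming distance -/
def ba1Dist {L : ℕ} [NeZero L] (h h' : ZMod L → Bool) : ℕ :=
  (Finset.univ.filter (fun x : ZMod L => h x ≠ h' x)).card

theorem ba1Dist_jump {L : ℕ} [NeZero L] {h h' : ZMod L → Bool} {b b' : ZMod L}
    (hb : h b = true) (hb2 : h' b = false) (hb' : h b' = false) (hb2' : h' b' = true) :
    ba1Dist (ba1Jump h b b') h' + 2 = ba1Dist h h' := by
  have hbb : b ≠ b' := by
    intro e; rw [e, hb'] at hb; exact Bool.noConfusion hb
  unfold ba1Dist
  have e : Finset.univ.filter (fun x : ZMod L => ba1Jump h b b' x ≠ h' x) =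
      ((Finset.univ.filter (fun x : ZMod L => h x ≠ h' x)).erase b).erase b' := by
    ext x
    simp only [Finset.mem_filter, Finset.mem_univ, true_and, Finset.mem_erase]
    by_cases h2 : x = b'
    · subst h2; simp [ba1Jump_at_b', hb2']
    · by_cases h1 : x = b
      · subst h1; simp [ba1Jump_at_b h hbb, hb2]
      · simp [ba1Jump_else h h1 h2, h1, h2]
  have m1 : b ∈ Finset.univ.filter (fun x : ZMod L => h x ≠ h' x) := by simp [hb, hb2]
  have m2 : b' ∈ (Finset.univ.filter (fun x : ZMod L => h x ≠ h' x)).erase b := by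
    simp [hb', hb2', hbb.symm]
  rw [e, Finset.card_erase_of_mem m2, Finset.card_erase_of_mem m1]
  have h1 : 0 < ((Finset.univ.filter (fun x : ZMod L => h x ≠ h' x)).erase b).card :=
    Finset.card_pos.2 ⟨b', m2⟩
  rw [Finset.card_erase_of_mem m1] at h1
  omega

theorem ba1_exists_jump {L : ℕ} [NeZero L] {n : ℕ} {h h' : ZMod L → Bool} (hP : ba1P n h)
    (hP' : ba1P n h') (hne : h ≠ h') :
    ∃ b b' : ZMod L, h b = true ∧ h' b = false ∧ h b' = false ∧ h' b' = true := by
  unfold ba1P at hP hP'
  have key : ∀ g g' : ZMod L → Bool,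
      (Finset.univ.filter (fun x : ZMod L => g x = true)).card =
        (Finset.univ.filter (fun x : ZMod L => g' x = true)).card → g ≠ g' →
      ∃ b, g b = true ∧ g' b = false := by
    intro g g' hcard hgg
    by_contra hcon
    push Not at hcon
    have hsub : Finset.univ.filter (fun x : ZMod L => g x = true) ⊆
        Finset.univ.filter (fun x : ZMod L => g' x = true) := by
      intro x hx
      simp only [Finset.mem_filter, Finset.mem_univ, true_and] at hx ⊢
      have := hcon x hx
      simpa using this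
    have heq := Finset.eq_of_subset_of_card_le hsub hcard.symm.le
    apply hgg
    funext x
    have h1 : x ∈ Finset.univ.filter (fun x : ZMod L => g x = true) ↔
        x ∈ Finset.univ.filter (fun x : ZMod L => g' x = true) := by rw [heq]
    simp only [Finset.mem_filter, Finset.mem_univ, true_and] at h1
    cases hg : g x <;> cases hg' : g' x <;> simp_all
  obtain ⟨b, h1, h2⟩ := key h h' (hP.trans hP'.symm) hne
  obtain ⟨b', h3, h4⟩ := key h' h (hP'.trans hP.symm) hne.symm
  exact ⟨b, b', h1, h2, h4, h3⟩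

theorem ba1T_pow_pos {c : ℝ} (hc : 0 < c) (L : ℕ) [NeZero L] (n : ℕ) (m : ℕ) :
    ∀ h h' : ba1Sec L n, ba1Dist h.1 h'.1 ≤ 2 * m → 0 < ((ba1T c L n) ^ m) h h' := by
  have hnn : ∀ (k : ℕ) (x y : ba1Sec L n), 0 ≤ ((ba1T c L n) ^ k) x y :=
    fun k => svsp_pow_nonneg (ba1T c L n) (fun x y => ba1T0_nonneg hc.le L x.1 y.1) k
  induction m with
  | zero =>
    intro h h' hd
    have h0 : ba1Dist h.1 h'.1 = 0 := by omega
    unfold ba1Dist at h0
    rw [Finset.card_eq_zero, Finset.filter_eq_empty_iff] at h0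
    have : h = h' := by
      apply Subtype.ext
      funext x
      have := h0 (Finset.mem_univ x)
      simpa using this
    rw [this, pow_zero, Matrix.one_apply_eq]
    exact one_pos
  | succ m ih =>
    intro h h' hd
    rw [pow_succ', Matrix.mul_apply]
    by_cases hEq : h = h'
    · subst hEq
      have h1 : 0 < ba1T c L n h h * ((ba1T c L n) ^ m) h h := by
        apply mul_pos (lt_of_lt_of_le one_pos (ba1T0_diag hc.le L h.1))
        apply ih
        have : ba1Dist h.1 h.1 = 0 := by simp [ba1Dist]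
        omega
      exact lt_of_lt_of_le h1 (Finset.single_le_sum
        (f := fun k => ba1T c L n h k * ((ba1T c L n) ^ m) k h)
        (fun k _ => mul_nonneg (ba1T0_nonneg hc.le L h.1 k.1) (hnn m k h)) (Finset.mem_univ h))
    · have hne : h.1 ≠ h'.1 := fun e => hEq (Subtype.ext e)
      obtain ⟨b, b', e1, e2, e3, e4⟩ := ba1_exists_jump h.2 h'.2 hne
      set h'' : ba1Sec L n := ⟨ba1Jump h.1 b b', ba1Jump_sector h.2 e1 e3⟩ with hh''
      have hd' := ba1Dist_jump e1 e2 e3 e4
      have h1 : 0 < ba1T c L n h h'' * ((ba1T c L n) ^ m) h'' h' := by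
        apply mul_pos (ba1T0_jump_pos hc e1 e3)
        apply ih
        show ba1Dist (ba1Jump h.1 b b') h'.1 ≤ 2 * m
        omega
      exact lt_of_lt_of_le h1 (Finset.single_le_sum
        (f := fun k => ba1T c L n h k * ((ba1T c L n) ^ m) k h')
        (fun k _ => mul_nonneg (ba1T0_nonneg hc.le L h.1 k.1) (hnn m k h')) (Finset.mem_univ h''))

/-- **The column transfer matrix of every sector is primitive** (`c > 0`). -/
theorem ba1T_isPrimitive {c : ℝ} (hc : 0 < c) (L : ℕ) [NeZero L] (n : ℕ) :
    (ba1T c L n).IsPrimitive := by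
  refine ⟨fun h h' => ba1T0_nonneg hc.le L h.1 h'.1, L, Nat.pos_of_ne_zero (NeZero.ne L), ?_⟩
  intro h h'
  apply ba1T_pow_pos hc
  have : ba1Dist h.1 h'.1 ≤ L := by
    unfold ba1Dist
    calc _ ≤ (Finset.univ : Finset (ZMod L)).card := Finset.card_filter_le _ _
      _ = L := by rw [Finset.card_univ, ZMod.card]
  omega

end Claimed.Agent.R292
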