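import Mathlib

/-!
# Rows 290 / 292, cell C1, unit BETHE, block BA4 (base point)      (helper120; prefix `ba120_`)

The base point `Δ = 0` (`c = √2`, `μ = π / 2`) of the continuation "Bethe vector = Perron vector".

* `ba120Z0 N n j = exp (2 π i (j - (n - 1) / 2) / N)` : the free-fermion roots.
* `ba120_Z0_pow_N`   : `z_j ^ N = (-1) ^ (n - 1)`.
* **`ba120_seed_det`** : `∑ σ, sign σ * ∏ k, z (σ k) ^ y k = (∏_{k<l} i) * ∏_{k<l} 2 sin (π (y l - y k) / N)`.
* `ba120_seed_pos`   : the product of sines is positive for `y` strictly increasing with values in `[0, N)`.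
* `ba120_seed_amp_ne_zero` : `∏_{a<b} (1 + z_a z_b) ≠ 0` for `2 n ≤ N`.
-/

set_option autoImplicit false
set_option linter.unusedSectionVars false

namespace Claimed.Agent.R292

open Matrix Finset Complex

/-- the free-fermion roots -/
noncomputable def ba120Z0 (N n : ℕ) (j : Fin n) : ℂ :=
  Complex.exp (2 * Real.pi * I * (((j : ℕ) : ℂ) - ((n : ℂ) - 1) / 2) / N)

/-- `exp (2 π i y / N)` -/
noncomputable def ba120W (N : ℕ) (y : ℕ) : ℂ := Complex.exp (2 * Real.pi * I * (y : ℂ) / N)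

/-- `exp (- π i (n - 1) y / N)` -/
noncomputable def ba120U (N n : ℕ) (y : ℕ) : ℂ := Complex.exp (-(Real.pi * I * ((n : ℂ) - 1) * (y : ℂ) / N))

/-- `exp (π i s / N)` -/
noncomputable def ba120E (N : ℕ) (s : ℂ) : ℂ := Complex.exp (Real.pi * I * s / N)

theorem ba120_Z0_pow (N n : ℕ) (j : Fin n) (y : ℕ) :
    ba120Z0 N n j ^ y = ba120U N n y * ba120W N y ^ (j : ℕ) := by
  unfold ba120Z0 ba120U ba120W
  rw [← Complex.exp_nat_mul, ← Complex.exp_nat_mul, ← Complex.exp_add]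
  congr 1
  ring

theorem ba120_W_sub (N : ℕ) (a b : ℕ) :
    ba120W N b - ba120W N a
      = ba120E N ((a : ℂ) + b) * (I * (((2 * Real.sin (Real.pi * ((b : ℝ) - a) / N) : ℝ)) : ℂ)) := by
  have h : (((2 * Real.sin (Real.pi * ((b : ℝ) - a) / N) : ℝ)) : ℂ)
      = 2 * Complex.sin (Real.pi * ((b : ℂ) - a) / N) := by
    push_cast
    ring_nf
  rw [h, Complex.sin]
  have h2 : I * (2 * ((Complex.exp (-(↑Real.pi * ((b : ℂ) - a) / N) * I)
      - Complex.exp (↑Real.pi * ((b : ℂ) - a) / N * I)) * I / 2))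
      = Complex.exp (↑Real.pi * ((b : ℂ) - a) / N * I) - Complex.exp (-(↑Real.pi * ((b : ℂ) - a) / N) * I) := by
    have hI : I * I = -1 := Complex.I_mul_I
    linear_combination ((Complex.exp (-(↑Real.pi * ((b : ℂ) - a) / N) * I)
      - Complex.exp (↑Real.pi * ((b : ℂ) - a) / N * I))) * hI
  rw [h2]
  unfold ba120W ba120E
  rw [mul_sub, ← Complex.exp_add, ← Complex.exp_add]
  congr 2 <;> ring

/-- the combinatorial identity behind the cancellation of the phases -/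
theorem ba120_sum_pairs {n : ℕ} (a : Fin n → ℂ) :
    ∑ i : Fin n, ∑ j ∈ Ioi i, (a i + a j) = ((n : ℂ) - 1) * ∑ i, a i := by
  have h1 : ∑ i : Fin n, ∑ j ∈ Ioi i, a j = ∑ j : Fin n, ∑ i ∈ Iio j, a j := by
    refine Finset.sum_comm' ?_
    intro i j
    simp
  simp only [Finset.sum_add_distrib]
  rw [h1]
  simp only [Finset.sum_const, Fin.card_Ioi, Fin.card_Iio, nsmul_eq_mul]
  rw [← Finset.sum_add_distrib, Finset.mul_sum]
  refine Finset.sum_congr rfl fun i _ => ?_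
  have hi : (i : ℕ) + 1 ≤ n := i.2
  rw [Nat.cast_sub (by omega), Nat.cast_sub (by omega)]
  push_cast
  ring

theorem ba120_phase_cancel (N n : ℕ) (y : Fin n → ℕ) :
    (∏ k, ba120U N n (y k)) * ∏ i : Fin n, ∏ j ∈ Ioi i, ba120E N ((y i : ℂ) + y j) = 1 := by
  unfold ba120U ba120E
  simp only [← Complex.exp_sum]
  rw [← Complex.exp_add]
  have h := ba120_sum_pairs (fun i => (y i : ℂ))
  have h2 : ∑ i : Fin n, ∑ j ∈ Ioi i, (Real.pi * I * ((y i : ℂ) + y j) / N)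
      = Real.pi * I / N * ∑ i : Fin n, ∑ j ∈ Ioi i, ((y i : ℂ) + y j) := by
    rw [Finset.mul_sum]
    refine Finset.sum_congr rfl fun i _ => ?_
    rw [Finset.mul_sum]
    refine Finset.sum_congr rfl fun j _ => ?_
    ring
  have h3 : ∑ k : Fin n, -(Real.pi * I * ((n : ℂ) - 1) * (y k : ℂ) / N)
      = -(Real.pi * I / N * (((n : ℂ) - 1) * ∑ k : Fin n, (y k : ℂ))) := by
    rw [Finset.mul_sum, Finset.mul_sum, ← Finset.sum_neg_distrib]
    refine Finset.sum_congr rfl fun k _ => ?_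
    ring
  rw [h2, h3, h, neg_add_cancel, Complex.exp_zero]

/-- **THE SLATER DETERMINANT AT THE FREE-FERMION POINT.** -/
theorem ba120_seed_det (N n : ℕ) (y : Fin n → ℕ) :
    ∑ σ : Equiv.Perm (Fin n), ((Equiv.Perm.sign σ : ℤ) : ℂ) * ∏ k, ba120Z0 N n (σ k) ^ y k
      = (∏ i : Fin n, ∏ _j ∈ Ioi i, I) *
        (((∏ i : Fin n, ∏ j ∈ Ioi i, (2 * Real.sin (Real.pi * ((y j : ℝ) - y i) / N)) : ℝ)) : ℂ) := by
  have h1 : ∑ σ : Equiv.Perm (Fin n), ((Equiv.Perm.sign σ : ℤ) : ℂ) * ∏ k, ba120Z0 N n (σ k) ^ y k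
      = Matrix.det (Matrix.of fun j k : Fin n => ba120U N n (y k) * (Matrix.vandermonde fun k => ba120W N (y k))ᵀ j k) := by
    rw [Matrix.det_apply']
    refine Finset.sum_congr rfl fun σ _ => ?_
    congr 1
    refine Finset.prod_congr rfl fun k _ => ?_
    rw [Matrix.of_apply, Matrix.transpose_apply, Matrix.vandermonde_apply, ba120_Z0_pow]
  rw [h1, Matrix.det_mul_row, Matrix.det_transpose, Matrix.det_vandermonde]
  simp only [ba120_W_sub, Finset.prod_mul_distrib]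
  rw [← mul_assoc, ba120_phase_cancel, one_mul]
  push_cast
  simp only [Finset.prod_mul_distrib]

theorem ba120_seed_phase_ne_zero (n : ℕ) : (∏ i : Fin n, ∏ _j ∈ Ioi i, I) ≠ 0 :=
  Finset.prod_ne_zero_iff.mpr fun _ _ => Finset.prod_ne_zero_iff.mpr fun _ _ => Complex.I_ne_zero

theorem ba120_seed_pos {N n : ℕ} {y : Fin n → ℕ} (hy : StrictMono y) (hN : ∀ k, y k < N) :
    0 < ∏ i : Fin n, ∏ j ∈ Ioi i, (2 * Real.sin (Real.pi * ((y j : ℝ) - y i) / N)) := by
  refine Finset.prod_pos fun i _ => Finset.prod_pos fun j hj => ?_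
  have hij : i < j := Finset.mem_Ioi.mp hj
  have h1 : y i < y j := hy hij
  have h2 : y j < N := hN j
  have hN0 : (0 : ℝ) < N := by
    have : 0 < N := by omega
    exact_mod_cast this
  have h1' : (y i : ℝ) < y j := by exact_mod_cast h1
  have h2' : (y j : ℝ) < N := by exact_mod_cast h2
  have h3 : (0 : ℝ) ≤ y i := Nat.cast_nonneg _
  have hpos : 0 < Real.pi * ((y j : ℝ) - y i) / N := by
    have := Real.pi_pos
    have h4 : (0 : ℝ) < (y j : ℝ) - y i := by linarith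
    positivity
  have hlt : Real.pi * ((y j : ℝ) - y i) / N < Real.pi := by
    rw [div_lt_iff₀ hN0]
    have := Real.pi_pos
    nlinarith
  have := Real.sin_pos_of_pos_of_lt_pi hpos hlt
  linarith

/-- the Bethe equation at `Δ = 0` -/
theorem ba120_Z0_pow_N {N : ℕ} (hN : 0 < N) (n : ℕ) (hn : 0 < n) (j : Fin n) :
    ba120Z0 N n j ^ N = (-1) ^ (n - 1) := by
  unfold ba120Z0
  rw [← Complex.exp_nat_mul]
  have hN' : (N : ℂ) ≠ 0 := by exact_mod_cast hN.ne'
  have h1 : (N : ℂ) * (2 * Real.pi * I * (((j : ℕ) : ℂ) - ((n : ℂ) - 1) / 2) / N)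
      = ((n - 1 : ℕ) : ℂ) * (-(Real.pi * I)) + ((j : ℕ) : ℂ) * (2 * Real.pi * I) := by
    rw [Nat.cast_sub hn]
    field_simp
    push_cast
    ring
  rw [h1, Complex.exp_add, Complex.exp_nat_mul, Complex.exp_nat_mul, Complex.exp_two_pi_mul_I, one_pow, mul_one,
    Complex.exp_neg, Complex.exp_pi_mul_I]
  norm_num

theorem ba120_Z0_mul (N n : ℕ) (a b : Fin n) :
    ba120Z0 N n a * ba120Z0 N n b
      = Complex.exp (((2 * Real.pi * (((a : ℕ) : ℝ) + ((b : ℕ) : ℝ) - ((n : ℝ) - 1)) / N : ℝ) : ℂ) * I) := by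
  unfold ba120Z0
  rw [← Complex.exp_add]
  congr 1
  push_cast
  ring

/-- the amplitude at `Δ = 0` does not vanish -/
theorem ba120_seed_amp_ne_zero {N n : ℕ} (hnN : 2 * n ≤ N) :
    (∏ a : Fin n, ∏ b ∈ Ioi a, (1 + ba120Z0 N n a * ba120Z0 N n b)) ≠ 0 := by
  refine Finset.prod_ne_zero_iff.mpr fun a _ => Finset.prod_ne_zero_iff.mpr fun b hb => ?_
  have hab : a < b := Finset.mem_Ioi.mp hb
  have hab' : (a : ℕ) < (b : ℕ) := hab
  have hb' : (b : ℕ) < n := b.2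
  rw [ba120_Z0_mul]
  set θ : ℝ := 2 * Real.pi * (((a : ℕ) : ℝ) + ((b : ℕ) : ℝ) - ((n : ℝ) - 1)) / N with hθ
  intro h
  have hre := congrArg Complex.re h
  rw [Complex.add_re, Complex.one_re, Complex.exp_ofReal_mul_I_re, Complex.zero_re] at hre
  have hN0 : (0 : ℝ) < N := by
    have : 0 < N := by omega
    exact_mod_cast this
  have ha0 : (0 : ℝ) ≤ ((a : ℕ) : ℝ) := Nat.cast_nonneg _
  have hab'' : ((a : ℕ) : ℝ) + 1 ≤ ((b : ℕ) : ℝ) := by exact_mod_cast hab'
  have hb'' : ((b : ℕ) : ℝ) + 1 ≤ (n : ℝ) := by exact_mod_cast hb'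
  have hnN' : 2 * (n : ℝ) ≤ N := by exact_mod_cast hnN
  have hpi := Real.pi_pos
  have h1 : θ < Real.pi := by
    rw [hθ, div_lt_iff₀ hN0]
    nlinarith
  have h2 : -Real.pi < θ := by
    rw [hθ, lt_div_iff₀ hN0]
    nlinarith
  have h3 : 0 < Real.cos (θ / 2) := Real.cos_pos_of_mem_Ioo ⟨by linarith, by linarith⟩
  have h4 : Real.cos θ = 2 * Real.cos (θ / 2) ^ 2 - 1 := by
    rw [← Real.cos_two_mul]
    congr 1
    ring
  have h5 : 0 < Real.cos (θ / 2) ^ 2 := by positivity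
  linarith

end Claimed.Agent.R292
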