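import Mathlib
import Claimed.Agent.R292.Bethe.Ba2Amp270
import Claimed.Agent.R292.Bethe.BA4Seed120

/-!
# Rows 290 / 292, cell C1, unit BETHE, leaves B3a + B3b      (helper120; prefix `ba120_`)

* **`ba120_analytic_implicit`** : ANALYTIC IMPLICIT FUNCTION, in the form the roots need: `F` analytic at `(t, y t)`,
  `F (s, y s) = 0` for `s` near `t`, `y` continuous at `t`, the partial derivative in the second variable invertible
  `⟹ y` analytic at `t`.
* `ba120_Psi_analyticAt` : the Bethe vector of BA2 (`ba2c270_Psi (ba2a270_A d z) z y`) is analytic in the parameter.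
* `ba120_P_symm`  : a product over ordered pairs of a symmetric function does not see a permutation.
* **`ba120_seed_Psi`** : at `d = 0`, at the free-fermion roots, `Psi = z0 * (positive real)`, `z0 ≠ 0` independent of the positions.
-/

set_option autoImplicit false
set_option linter.unusedSectionVars false

namespace Claimed.Agent.R292

open Filter Topology Finset

section implicit

variable {E : Type*} [NormedAddCommGroup E] [NormedSpace ℝ E] [CompleteSpace E]

/-- the block-triangular equivalence `(τ, v) ↦ (τ, A τ + B v)` -/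
noncomputable def ba120Tri (A : ℝ →L[ℝ] E) (B : E ≃L[ℝ] E) : (ℝ × E) ≃L[ℝ] (ℝ × E) :=
  ContinuousLinearEquiv.equivOfInverse
    ((ContinuousLinearMap.fst ℝ ℝ E).prod
      (A.comp (ContinuousLinearMap.fst ℝ ℝ E) + (B : E →L[ℝ] E).comp (ContinuousLinearMap.snd ℝ ℝ E)))
    ((ContinuousLinearMap.fst ℝ ℝ E).prod
      ((B.symm : E →L[ℝ] E).comp (ContinuousLinearMap.snd ℝ ℝ E - A.comp (ContinuousLinearMap.fst ℝ ℝ E))))
    (fun p => by
      ext <;> simp)
    (fun p => by
      ext <;> simp)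

theorem ba120Tri_apply (A : ℝ →L[ℝ] E) (B : E ≃L[ℝ] E) (p : ℝ × E) :
    ba120Tri A B p = (p.1, A p.1 + B p.2) := rfl

/-- **ANALYTIC IMPLICIT FUNCTION THEOREM** for a continuous branch of zeros. -/
theorem ba120_analytic_implicit {F : ℝ × E → E} {y : ℝ → E} {t : ℝ}
    (hF : AnalyticAt ℝ F (t, y t)) (hy : ContinuousAt y t) (h0 : ∀ᶠ s in 𝓝 t, F (s, y s) = 0)
    (B : E ≃L[ℝ] E) (hB : ∀ v, fderiv ℝ F (t, y t) (0, v) = B v) :
    AnalyticAt ℝ y t := by
  set F' := fderiv ℝ F (t, y t) with hF'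
  set A : ℝ →L[ℝ] E := F'.comp (ContinuousLinearMap.inl ℝ ℝ E) with hA
  set G : ℝ × E → ℝ × E := fun p => (p.1, F p) with hG
  have hGan : AnalyticAt ℝ G (t, y t) := AnalyticAt.prod analyticAt_fst hF
  have hFd : HasFDerivAt F F' (t, y t) := hF.differentiableAt.hasFDerivAt
  have hGd : HasFDerivAt G ((ba120Tri A B : (ℝ × E) ≃L[ℝ] (ℝ × E)) : (ℝ × E) →L[ℝ] (ℝ × E)) (t, y t) := by
    have h1 : HasFDerivAt G ((ContinuousLinearMap.fst ℝ ℝ E).prod F') (t, y t) := hasFDerivAt_fst.prodMk hFd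
    convert h1 using 1
    refine ContinuousLinearMap.ext fun p => ?_
    refine Prod.ext rfl ?_
    change A p.1 + B p.2 = F' p
    rw [← hB, hA, ContinuousLinearMap.comp_apply, ContinuousLinearMap.inl_apply, ← map_add]
    simp
  have hGc : ContDiffAt ℝ ⊤ G (t, y t) := hGan.contDiffAt
  have hn : (⊤ : WithTop ℕ∞) ≠ 0 := by simp
  have hinv : ContDiffAt ℝ ⊤ (hGc.localInverse hGd hn) (G (t, y t)) := hGc.to_localInverse hGd hn
  have hinvA : AnalyticAt ℝ (hGc.localInverse hGd hn) (G (t, y t)) := hinv.analyticAt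
  have hleft : ∀ᶠ p in 𝓝 (t, y t), hGc.localInverse hGd hn (G p) = p :=
    (hGc.hasStrictFDerivAt' hGd hn).eventually_left_inverse
  have hcurve : Tendsto (fun s => (s, y s)) (𝓝 t) (𝓝 (t, y t)) := tendsto_id.prodMk_nhds hy
  have h00 : F (t, y t) = 0 := h0.self_of_nhds
  have hGt : G (t, y t) = (t, 0) := by simp [hG, h00]
  have hev : ∀ᶠ s in 𝓝 t, y s = (hGc.localInverse hGd hn (s, 0)).2 := by
    filter_upwards [hcurve.eventually hleft, h0] with s hs1 hs2
    have : G (s, y s) = (s, 0) := by simp [hG, hs2]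
    rw [this] at hs1
    rw [hs1]
  have hcomp : AnalyticAt ℝ (fun s : ℝ => (hGc.localInverse hGd hn (s, (0 : E))).2) t := by
    have h1 : AnalyticAt ℝ (fun s : ℝ => (s, (0 : E))) t := AnalyticAt.prod analyticAt_id analyticAt_const
    have h2 : AnalyticAt ℝ (hGc.localInverse hGd hn) ((fun s : ℝ => (s, (0 : E))) t) := by
      change AnalyticAt ℝ (hGc.localInverse hGd hn) (t, 0)
      rw [← hGt]; exact hinvA
    have h3 : AnalyticAt ℝ (fun s : ℝ => hGc.localInverse hGd hn (s, (0 : E))) t :=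
      AnalyticAt.comp (g := hGc.localInverse hGd hn) (f := fun s : ℝ => (s, (0 : E))) h2 h1
    exact AnalyticAt.comp (g := Prod.snd) (f := fun s : ℝ => hGc.localInverse hGd hn (s, (0 : E))) analyticAt_snd h3
  exact hcomp.congr (hev.mono fun s hs => hs.symm)

end implicit

section psi

/-- the Bethe vector of BA2 is analytic in the parameter -/
theorem ba120_Psi_analyticAt {n : ℕ} {d : ℝ → ℂ} {z : ℝ → Fin n → ℂ} {t : ℝ}
    (hd : AnalyticAt ℝ d t) (hz : ∀ j, AnalyticAt ℝ (fun s => z s j) t) (y : ℕ → ℕ) :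
    AnalyticAt ℝ (fun s => ba2c270_Psi (ba2a270_A (d s) (z s)) (z s) y) t := by
  unfold ba2c270_Psi ba2a270_A ba2a270_s
  refine Finset.analyticAt_fun_sum _ fun σ _ => ?_
  refine AnalyticAt.mul (AnalyticAt.mul analyticAt_const ?_) ?_
  · refine Finset.analyticAt_fun_prod _ fun k _ => ?_
    refine Finset.analyticAt_fun_prod _ fun l _ => ?_
    exact ((analyticAt_const.sub (hd.mul (hz _))).add ((hz _).mul (hz _)))
  · exact Finset.analyticAt_fun_prod _ fun k _ => (hz _).pow _

end psi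

section seed

variable {K : Type*} [CommRing K]

/-- a double product folded on the pairs `a < b` -/
theorem ba120_prod_fold {n : ℕ} (T : Fin n → Fin n → K) (hT : ∀ a, T a a = 1) :
    ∏ a : Fin n, ∏ b : Fin n, T a b = ∏ a : Fin n, ∏ b : Fin n, if a < b then T a b * T b a else 1 := by
  have h1 : ∀ a b : Fin n, T a b = (if a < b then T a b else 1) * (if b < a then T a b else 1) := by
    intro a b
    rcases lt_trichotomy a b with h | h | h
    · rw [if_pos h, if_neg (not_lt.mpr h.le), mul_one]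
    · subst h
      rw [if_neg (lt_irrefl _), hT, mul_one]
    · rw [if_neg (not_lt.mpr h.le), if_pos h, one_mul]
  have h2 : ∏ a : Fin n, ∏ b : Fin n, T a b
      = (∏ a : Fin n, ∏ b : Fin n, if a < b then T a b else 1) * ∏ a : Fin n, ∏ b : Fin n, if b < a then T a b else 1 := by
    rw [← Finset.prod_mul_distrib]
    refine Finset.prod_congr rfl fun a _ => ?_
    rw [← Finset.prod_mul_distrib]
    exact Finset.prod_congr rfl fun b _ => h1 a b
  rw [h2, Finset.prod_comm (f := fun a b => if b < a then T a b else 1), ← Finset.prod_mul_distrib]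
  refine Finset.prod_congr rfl fun a _ => ?_
  rw [← Finset.prod_mul_distrib]
  refine Finset.prod_congr rfl fun b _ => ?_
  by_cases h : a < b
  · simp [h]
  · simp [h]

/-- a product over ordered pairs of places of a SYMMETRIC function does not see a permutation of the word -/
theorem ba120_P_symm {n : ℕ} (f : K → K → K) (hf : ∀ u v, f u v = f v u) (w : Fin n → K)
    (σ : Equiv.Perm (Fin n)) : ba2a270_P f (fun k => w (σ k)) = ba2a270_P f w := by
  rw [ba2a270_P_ite, ba2a270_P_ite]
  -- reindex by `σ`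
  have h1 : ∏ k : Fin n, ∏ l : Fin n, (if k < l then f (w (σ k)) (w (σ l)) else 1)
      = ∏ a : Fin n, ∏ b : Fin n, if σ.symm a < σ.symm b then f (w a) (w b) else 1 := by
    rw [← Equiv.prod_comp σ (fun a => ∏ b : Fin n, if σ.symm a < σ.symm b then f (w a) (w b) else 1)]
    refine Finset.prod_congr rfl fun k _ => ?_
    rw [← Equiv.prod_comp σ (fun b => if σ.symm (σ k) < σ.symm b then f (w (σ k)) (w b) else 1)]
    refine Finset.prod_congr rfl fun l _ => ?_
    simp
  rw [h1, ba120_prod_fold _ (fun a => by simp)]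
  refine Finset.prod_congr rfl fun a _ => Finset.prod_congr rfl fun b _ => ?_
  by_cases h : a < b
  · rw [if_pos h, if_pos h]
    have hne : σ.symm a ≠ σ.symm b := fun e => h.ne (σ.symm.injective e)
    rcases lt_or_gt_of_ne hne with h' | h'
    · rw [if_pos h', if_neg (not_lt.mpr h'.le), mul_one]
    · rw [if_neg (not_lt.mpr h'.le), if_pos h', one_mul, hf]
  · rw [if_neg h, if_neg h]

/-- at `d = 0` the amplitudes are `sign σ` times a constant -/
theorem ba120_A_zero {n : ℕ} (z : Fin n → K) (σ : Equiv.Perm (Fin n)) :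
    ba2a270_A 0 z σ = ((Equiv.Perm.sign σ : ℤ) : K) * ∏ a : Fin n, ∏ b ∈ Ioi a, (1 + z a * z b) := by
  rw [ba2a270_A_eq, ba120_P_symm (ba2a270_s 0) (fun u v => by unfold ba2a270_s; ring) z σ]
  unfold ba2a270_P ba2a270_s
  simp

/-- **LEAF B3b**: the Bethe vector of BA2 at the free-fermion point is a nonzero constant times a positive real. -/
theorem ba120_seed_Psi (N n : ℕ) (y : ℕ → ℕ) :
    ba2c270_Psi (ba2a270_A 0 (ba120Z0 N n)) (ba120Z0 N n) y
      = ((∏ a : Fin n, ∏ b ∈ Ioi a, (1 + ba120Z0 N n a * ba120Z0 N n b)) * ∏ i : Fin n, ∏ _j ∈ Ioi i, Complex.I) *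
        (((∏ i : Fin n, ∏ j ∈ Ioi i, (2 * Real.sin (Real.pi * ((y j : ℝ) - y i) / N)) : ℝ)) : ℂ) := by
  unfold ba2c270_Psi
  simp only [ba120_A_zero]
  rw [mul_assoc, ← ba120_seed_det N n (fun k => y k), Finset.mul_sum]
  refine Finset.sum_congr rfl fun σ _ => ?_
  ring

theorem ba120_seed_const_ne_zero {N n : ℕ} (hnN : 2 * n ≤ N) :
    ((∏ a : Fin n, ∏ b ∈ Ioi a, (1 + ba120Z0 N n a * ba120Z0 N n b)) * ∏ i : Fin n, ∏ _j ∈ Ioi i, Complex.I) ≠ 0 :=
  mul_ne_zero (ba120_seed_amp_ne_zero hnN) (ba120_seed_phase_ne_zero n)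

/-- the free-fermion roots solve the Bethe equations of BA2 at `d = 0` -/
theorem ba120_seed_BE {N : ℕ} (hN : 0 < N) {n : ℕ} (hn : 0 < n) : ba2a270_BE 0 N (ba120Z0 N n) := by
  intro j
  rw [ba120_Z0_pow_N hN n hn j]
  congr 1
  refine Finset.prod_congr rfl fun l _ => ?_
  unfold ba2a270_s
  ring

end seed

end Claimed.Agent.R292
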