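import Mathlib
import Claimed.Agent.R290.PerronFrob

/-!
# Rows 290 / 292, cell C1, unit BETHE, block BA4 (abstract part)      (helper120; prefix `ba120_`)

"The Bethe vector is the Perron-Frobenius vector", model-free.

* `ba120_pos_of_nonneg`  : a nonnegative nonzero eigenvector of a primitive matrix is positive.
* `ba120_simple`         : the eigenspace of an eigenvalue with a positive eigenvector is a line.
* `ba120_eigenvalue_unique` : (symmetric case) two positive eigenvectors have the same eigenvalue.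
* `ba120_closed_eigen`   : "being an eigenvalue" passes to limits.
* **`ba120_continuation`** : on a preconnected set of parameters, a continuous branch of eigenvalues
  of a continuous family of symmetric primitive matrices which is the Perron eigenvalue at ONE
  parameter is the Perron eigenvalue at EVERY parameter.
-/

set_option autoImplicit false
set_option linter.unusedSectionVars false

namespace Claimed.Agent.R292

open Matrix Filter Topology Claimed.Agent.R290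

variable {n : Type*} [Fintype n] [DecidableEq n]

/-- `lam` is the Perron eigenvalue of `A`: it has a positive eigenvector -/
def Ba120Top (A : Matrix n n ℝ) (lam : ℝ) : Prop := ∃ u : n → ℝ, (∀ i, 0 < u i) ∧ A *ᵥ u = lam • u

/-- `lam` is an eigenvalue of `A` -/
def Ba120Eig (A : Matrix n n ℝ) (lam : ℝ) : Prop := ∃ u : n → ℝ, u ≠ 0 ∧ A *ᵥ u = lam • u

/-- a nonnegative nonzero eigenvector of a primitive matrix is positive -/
theorem ba120_pos_of_nonneg {A : Matrix n n ℝ} (hA : A.IsPrimitive) {v : n → ℝ} {lam : ℝ}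
    (hv : ∀ i, 0 ≤ v i) (hv0 : v ≠ 0) (he : A *ᵥ v = lam • v) : ∀ i, 0 < v i := by
  obtain ⟨k, _, hk⟩ := hA.exists_pos_pow
  have hj : ∃ j, 0 < v j := by
    by_contra hcon
    push Not at hcon
    exact hv0 (funext fun j => le_antisymm (hcon j) (hv j))
  obtain ⟨j0, hj0⟩ := hj
  intro i
  have h1 : 0 < ((A ^ k) *ᵥ v) i := svpf_mulVec_pos hk hv hj0 i
  rw [svpf_pow_mulVec he k] at h1
  simp only [Pi.smul_apply, smul_eq_mul] at h1
  rcases (hv i).lt_or_eq with h | h
  · exact h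
  · rw [← h, mul_zero] at h1
    exact absurd h1 (lt_irrefl _)

/-- the eigenspace of the Perron eigenvalue is a line -/
theorem ba120_simple {A : Matrix n n ℝ} (hA : A.IsPrimitive) {w u : n → ℝ} {lam : ℝ}
    (hw : ∀ i, 0 < w i) (hew : A *ᵥ w = lam • w) (heu : A *ᵥ u = lam • u) : ∃ t : ℝ, u = t • w := by
  rcases isEmpty_or_nonempty n with hn | hn
  · exact ⟨0, funext fun i => (hn.false i).elim⟩
  obtain ⟨i0, _, hi0⟩ := Finset.exists_min_image Finset.univ (fun i => u i / w i) Finset.univ_nonempty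
  refine ⟨u i0 / w i0, ?_⟩
  set t := u i0 / w i0 with ht
  by_contra hne
  have hz0 : u - t • w ≠ 0 := fun h => hne (sub_eq_zero.mp h)
  have hz : ∀ i, 0 ≤ (u - t • w) i := by
    intro i
    have h1 : t ≤ u i / w i := hi0 i (Finset.mem_univ i)
    have h2 : t * w i ≤ u i := (le_div_iff₀ (hw i)).mp h1
    simp only [Pi.sub_apply, Pi.smul_apply, smul_eq_mul]
    linarith
  have hez : A *ᵥ (u - t • w) = lam • (u - t • w) := by
    rw [Matrix.mulVec_sub, Matrix.mulVec_smul, heu, hew, smul_sub, smul_comm]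
  have h3 := ba120_pos_of_nonneg hA hz hz0 hez i0
  simp only [Pi.sub_apply, Pi.smul_apply, smul_eq_mul, ht] at h3
  rw [div_mul_cancel₀ _ (hw i0).ne', sub_self] at h3
  exact lt_irrefl _ h3

/-- eigenvectors of a symmetric matrix for different eigenvalues are orthogonal -/
theorem ba120_orth {A : Matrix n n ℝ} (hs : A.IsSymm) {u v : n → ℝ} {a b : ℝ}
    (hu : A *ᵥ u = a • u) (hv : A *ᵥ v = b • v) (hab : a ≠ b) : u ⬝ᵥ v = 0 := by
  have h1 : u ⬝ᵥ (A *ᵥ v) = (u ᵥ* A) ⬝ᵥ v := Matrix.dotProduct_mulVec u A v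
  have h2 : u ᵥ* A = A *ᵥ u := by
    conv_lhs => rw [← hs.eq]
    rw [Matrix.vecMul_transpose]
  rw [h2, hu, hv, dotProduct_smul, smul_dotProduct, smul_eq_mul, smul_eq_mul] at h1
  have h3 : (a - b) * (u ⬝ᵥ v) = 0 := by linarith
  rcases mul_eq_zero.mp h3 with h | h
  · exact absurd (sub_eq_zero.mp h) hab
  · exact h

/-- a nonnegative nonzero eigenvector has the eigenvalue of any positive eigenvector (symmetric case) -/
theorem ba120_eigenvalue_unique {A : Matrix n n ℝ} (hs : A.IsSymm) {u v : n → ℝ} {a b : ℝ}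
    (hu0 : ∀ i, 0 < u i) (hu : A *ᵥ u = a • u) (hv0 : ∀ i, 0 ≤ v i) (hvne : v ≠ 0)
    (hv : A *ᵥ v = b • v) : a = b := by
  by_contra hab
  have h := ba120_orth hs hu hv hab
  have hj : ∃ j, 0 < v j := by
    by_contra hcon
    push Not at hcon
    exact hvne (funext fun j => le_antisymm (hcon j) (hv0 j))
  obtain ⟨j0, hj0⟩ := hj
  have hpos : 0 < u ⬝ᵥ v :=
    Finset.sum_pos' (fun j _ => mul_nonneg (hu0 j).le (hv0 j)) ⟨j0, Finset.mem_univ _, mul_pos (hu0 j0) hj0⟩
  exact absurd h hpos.ne'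

/-- the Euclidean unit sphere of `n → ℝ` -/
def ba120Sph (n : Type*) [Fintype n] : Set (n → ℝ) := {u | u ⬝ᵥ u = 1}

theorem ba120_continuous_dot : Continuous fun p : (n → ℝ) × (n → ℝ) => p.1 ⬝ᵥ p.2 := by
  unfold dotProduct
  exact continuous_finsetSum _ fun i _ =>
    ((continuous_apply i).comp continuous_fst).mul ((continuous_apply i).comp continuous_snd)

theorem ba120_isCompact_sph : IsCompact (ba120Sph n) := by
  refine Metric.isCompact_of_isClosed_isBounded ?_ ?_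
  · exact isClosed_eq (ba120_continuous_dot.comp (continuous_id.prodMk continuous_id)) continuous_const
  · refine (Metric.isBounded_closedBall (x := (0 : n → ℝ)) (r := 1)).subset ?_
    intro u hu
    rw [mem_closedBall_zero_iff, pi_norm_le_iff_of_nonneg zero_le_one]
    intro i
    have h1 : u i * u i ≤ u ⬝ᵥ u :=
      Finset.single_le_sum (f := fun j => u j * u j) (fun j _ => mul_self_nonneg (u j)) (Finset.mem_univ i)
    have hu' : u ⬝ᵥ u = 1 := hu
    rw [hu'] at h1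
    rw [Real.norm_eq_abs]
    exact abs_le_one_iff_mul_self_le_one.mpr h1

theorem ba120_dot_self_pos {u : n → ℝ} (hu : u ≠ 0) : 0 < u ⬝ᵥ u := by
  have hj : ∃ j, u j ≠ 0 := by
    by_contra hcon
    push Not at hcon
    exact hu (funext hcon)
  obtain ⟨j0, hj0⟩ := hj
  exact Finset.sum_pos' (fun j _ => mul_self_nonneg (u j)) ⟨j0, Finset.mem_univ _, mul_self_pos.mpr hj0⟩

/-- normalisation of an eigenvector -/
theorem ba120_normalise {A : Matrix n n ℝ} {lam : ℝ} {u : n → ℝ} (hu : u ≠ 0) (he : A *ᵥ u = lam • u) :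
    ∃ s : ℝ, 0 < s ∧ s • u ∈ ba120Sph n ∧ A *ᵥ (s • u) = lam • (s • u) := by
  have hp := ba120_dot_self_pos hu
  refine ⟨(Real.sqrt (u ⬝ᵥ u))⁻¹, inv_pos.mpr (Real.sqrt_pos.mpr hp), ?_, ?_⟩
  · change _ ⬝ᵥ _ = 1
    rw [smul_dotProduct, dotProduct_smul, smul_eq_mul, smul_eq_mul, ← mul_assoc, ← mul_inv,
      Real.mul_self_sqrt hp.le, inv_mul_cancel₀ hp.ne']
  · rw [Matrix.mulVec_smul, he, smul_comm]

theorem ba120_sph_ne_zero {u : n → ℝ} (hu : u ∈ ba120Sph n) : u ≠ 0 := by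
  rintro rfl
  have h : (0 : n → ℝ) ⬝ᵥ 0 = 1 := hu
  simp at h

theorem ba120_continuous_mulVec : Continuous fun p : Matrix n n ℝ × (n → ℝ) => p.1 *ᵥ p.2 :=
  Continuous.matrix_mulVec continuous_fst continuous_snd

/-- limits of eigen relations -/
theorem ba120_limit_eigen {A : ℕ → Matrix n n ℝ} {A0 : Matrix n n ℝ} {l : ℕ → ℝ} {l0 : ℝ}
    {u : ℕ → n → ℝ} {u0 : n → ℝ} (hA : Tendsto A atTop (𝓝 A0)) (hl : Tendsto l atTop (𝓝 l0))
    (hu : Tendsto u atTop (𝓝 u0)) (he : ∀ k, A k *ᵥ u k = l k • u k) : A0 *ᵥ u0 = l0 • u0 := by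
  have h1 : Tendsto (fun k => A k *ᵥ u k) atTop (𝓝 (A0 *ᵥ u0)) :=
    (ba120_continuous_mulVec.tendsto (A0, u0)).comp (hA.prodMk_nhds hu)
  have h2 : Tendsto (fun k => l k • u k) atTop (𝓝 (l0 • u0)) := hl.smul hu
  exact tendsto_nhds_unique h1 (by simpa only [he] using h2)

/-- "being an eigenvalue" is a closed condition -/
theorem ba120_closed_eigen {A : ℕ → Matrix n n ℝ} {A0 : Matrix n n ℝ} {l : ℕ → ℝ} {l0 : ℝ}
    (hA : Tendsto A atTop (𝓝 A0)) (hl : Tendsto l atTop (𝓝 l0)) (he : ∀ k, Ba120Eig (A k) (l k)) :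
    Ba120Eig A0 l0 := by
  choose u hu0 hu using he
  choose s _ hs1 hs2 using fun k => ba120_normalise (hu0 k) (hu k)
  obtain ⟨v, hv, φ, hφ, hlim⟩ := ba120_isCompact_sph.tendsto_subseq hs1
  exact ⟨v, ba120_sph_ne_zero hv,
    ba120_limit_eigen (hA.comp hφ.tendsto_atTop) (hl.comp hφ.tendsto_atTop) hlim fun k => hs2 (φ k)⟩

/-- "being the Perron eigenvalue" is a closed condition among primitive matrices -/
theorem ba120_closed_top {A : ℕ → Matrix n n ℝ} {A0 : Matrix n n ℝ} {l : ℕ → ℝ} {l0 : ℝ}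
    (hA0 : A0.IsPrimitive)
    (hA : Tendsto A atTop (𝓝 A0)) (hl : Tendsto l atTop (𝓝 l0)) (he : ∀ k, Ba120Top (A k) (l k)) :
    Ba120Top A0 l0 := by
  rcases isEmpty_or_nonempty n with hn | hn
  · exact ⟨0, fun i => (hn.false i).elim, funext fun i => (hn.false i).elim⟩
  choose u hu0 hu using he
  have hne : ∀ k, u k ≠ 0 := fun k h => by
    have := hu0 k (Classical.arbitrary n)
    rw [h] at this
    exact lt_irrefl _ this
  choose s hs0 hs1 hs2 using fun k => ba120_normalise (hne k) (hu k)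
  obtain ⟨v, hv, φ, hφ, hlim⟩ := ba120_isCompact_sph.tendsto_subseq hs1
  have hev := ba120_limit_eigen (hA.comp hφ.tendsto_atTop) (hl.comp hφ.tendsto_atTop) hlim
    fun k => hs2 (φ k)
  have hv0 : ∀ i, 0 ≤ v i := by
    intro i
    have h1 : Tendsto (fun k => (s (φ k) • u (φ k)) i) atTop (𝓝 (v i)) :=
      ((continuous_apply i).tendsto v).comp hlim
    refine ge_of_tendsto' h1 fun k => ?_
    simp only [Pi.smul_apply, smul_eq_mul]
    exact (mul_pos (hs0 _) (hu0 _ i)).le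
  exact ⟨v, ba120_pos_of_nonneg hA0 hv0 (ba120_sph_ne_zero hv) hev, hev⟩

/-- "being an eigenvalue other than the Perron eigenvalue" is a closed condition among symmetric
primitive matrices -/
theorem ba120_closed_not_top {A : ℕ → Matrix n n ℝ} {A0 : Matrix n n ℝ} {l : ℕ → ℝ} {l0 : ℝ}
    (hA0 : A0.IsPrimitive) (hs0 : A0.IsSymm) (hAp : ∀ k, (A k).IsPrimitive) (hAs : ∀ k, (A k).IsSymm)
    (hA : Tendsto A atTop (𝓝 A0)) (hl : Tendsto l atTop (𝓝 l0)) (he : ∀ k, Ba120Eig (A k) (l k))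
    (hnt : ∀ k, ¬ Ba120Top (A k) (l k)) : ¬ Ba120Top A0 l0 := by
  rintro ⟨w, hw0, hw⟩
  rcases isEmpty_or_nonempty n with hn | hn
  · exact hnt 0 ⟨0, fun i => (hn.false i).elim, funext fun i => (hn.false i).elim⟩
  -- the eigenvectors of the branch
  choose u hu0 hu using he
  choose s _ hs1 hs2 using fun k => ba120_normalise (hu0 k) (hu k)
  -- the Perron vectors
  have hP : ∀ k, ∃ (r : ℝ) (v : n → ℝ), 0 < r ∧ (∀ i, 0 < v i) ∧ A k *ᵥ v = r • v := fun k => by
    obtain ⟨m, hm0, hm⟩ := (hAp k).exists_pos_pow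
    exact svpf_exists_right (A k) (hAp k).nonneg hm0 hm
  choose r v _ hv0 hv using hP
  have hvne : ∀ k, v k ≠ 0 := fun k h => by
    have := hv0 k (Classical.arbitrary n)
    rw [h] at this
    exact lt_irrefl _ this
  choose t ht0 ht1 ht2 using fun k => ba120_normalise (hvne k) (hv k)
  have hrl : ∀ k, l k ≠ r k := fun k h => hnt k ⟨v k, hv0 k, by rw [h]; exact hv k⟩
  have horth : ∀ k, (s k • u k) ⬝ᵥ (t k • v k) = 0 := fun k => ba120_orth (hAs k) (hs2 k) (ht2 k) (hrl k)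
  -- the Perron eigenvalue as a Rayleigh quotient
  have hray : ∀ k, r k = (t k • v k) ⬝ᵥ (A k *ᵥ (t k • v k)) := fun k => by
    have h1 : (t k • v k) ⬝ᵥ (t k • v k) = 1 := ht1 k
    rw [ht2 k, dotProduct_smul, h1, smul_eq_mul, mul_one]
  -- two successive extractions
  obtain ⟨u', hu', φ, hφ, hlimu⟩ := ba120_isCompact_sph.tendsto_subseq hs1
  obtain ⟨v', hv', χ, hχ, hlimv⟩ := ba120_isCompact_sph.tendsto_subseq fun k => ht1 (φ k)
  have hφχ : Tendsto (fun k => φ (χ k)) atTop atTop := hφ.tendsto_atTop.comp hχ.tendsto_atTop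
  have hlimu' : Tendsto (fun k => s (φ (χ k)) • u (φ (χ k))) atTop (𝓝 u') := hlimu.comp hχ.tendsto_atTop
  have hlimv' : Tendsto (fun k => t (φ (χ k)) • v (φ (χ k))) atTop (𝓝 v') := hlimv
  have hA' : Tendsto (fun k => A (φ (χ k))) atTop (𝓝 A0) := hA.comp hφχ
  have hl' : Tendsto (fun k => l (φ (χ k))) atTop (𝓝 l0) := hl.comp hφχ
  have hr' : Tendsto (fun k => r (φ (χ k))) atTop (𝓝 (v' ⬝ᵥ (A0 *ᵥ v'))) := by
    have h1 : Tendsto (fun k => A (φ (χ k)) *ᵥ (t (φ (χ k)) • v (φ (χ k)))) atTop (𝓝 (A0 *ᵥ v')) :=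
      (ba120_continuous_mulVec.tendsto (A0, v')).comp (hA'.prodMk_nhds hlimv')
    have h2 := (ba120_continuous_dot.tendsto (v', A0 *ᵥ v')).comp (hlimv'.prodMk_nhds h1)
    refine h2.congr fun k => ?_
    exact (hray (φ (χ k))).symm
  have heu : A0 *ᵥ u' = l0 • u' := ba120_limit_eigen hA' hl' hlimu' fun k => hs2 _
  have hev : A0 *ᵥ v' = (v' ⬝ᵥ (A0 *ᵥ v')) • v' := ba120_limit_eigen hA' hr' hlimv' fun k => ht2 _
  have hv'0 : ∀ i, 0 ≤ v' i := by
    intro i
    have h1 : Tendsto (fun k => (t (φ (χ k)) • v (φ (χ k))) i) atTop (𝓝 (v' i)) :=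
      ((continuous_apply i).tendsto v').comp hlimv'
    refine ge_of_tendsto' h1 fun k => ?_
    simp only [Pi.smul_apply, smul_eq_mul]
    exact (mul_pos (ht0 _) (hv0 _ i)).le
  have hsame : l0 = v' ⬝ᵥ (A0 *ᵥ v') :=
    ba120_eigenvalue_unique hs0 hw0 hw hv'0 (ba120_sph_ne_zero hv') hev
  rw [← hsame] at hev
  have horth' : u' ⬝ᵥ v' = 0 := by
    have h2 := (ba120_continuous_dot.tendsto (u', v')).comp (hlimu'.prodMk_nhds hlimv')
    refine tendsto_nhds_unique h2 ?_
    refine tendsto_const_nhds.congr fun k => ?_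
    exact (horth (φ (χ k))).symm
  obtain ⟨a, ha⟩ := ba120_simple hA0 hw0 hw heu
  obtain ⟨b, hb⟩ := ba120_simple hA0 hw0 hw hev
  have hww : 0 < w ⬝ᵥ w := Finset.sum_pos (fun i _ => mul_pos (hw0 i) (hw0 i)) Finset.univ_nonempty
  rw [ha, hb, smul_dotProduct, dotProduct_smul, smul_eq_mul, smul_eq_mul] at horth'
  rcases mul_eq_zero.mp horth' with h | h
  · exact ba120_sph_ne_zero hu' (by rw [ha, h, zero_smul])
  · rcases mul_eq_zero.mp h with h | h
    · exact ba120_sph_ne_zero hv' (by rw [hb, h, zero_smul])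
    · exact hww.ne' h

/-- **THE CONTINUATION LEMMA.**  `I` preconnected; `V` a continuous family of symmetric primitive
matrices on `I`; `Lam` continuous on `I`, an eigenvalue of `V D` for every `D ∈ I`, the Perron
eigenvalue at one `D0 ∈ I`.  Then `Lam D` is the Perron eigenvalue of `V D` for every `D ∈ I`. -/
theorem ba120_continuation {X : Type*} [TopologicalSpace X] [FirstCountableTopology X]
    {I : Set X} (hI : IsPreconnected I) {V : X → Matrix n n ℝ}
    (hV : ContinuousOn V I) (hp : ∀ D ∈ I, (V D).IsPrimitive) (hs : ∀ D ∈ I, (V D).IsSymm)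
    {Lam : X → ℝ} (hL : ContinuousOn Lam I) (he : ∀ D ∈ I, Ba120Eig (V D) (Lam D))
    {D0 : X} (hD0 : D0 ∈ I) (h0 : Ba120Top (V D0) (Lam D0)) :
    ∀ D ∈ I, Ba120Top (V D) (Lam D) := by
  intro D1 hD1
  by_contra hcon
  set SA : Set X := {D | D ∈ I ∧ Ba120Top (V D) (Lam D)} with hSA
  set SB : Set X := {D | D ∈ I ∧ ¬ Ba120Top (V D) (Lam D)} with hSB
  have hcov : I ⊆ closure SA ∪ closure SB := by
    intro D hD
    by_cases h : Ba120Top (V D) (Lam D)
    · exact Or.inl (subset_closure ⟨hD, h⟩)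
    · exact Or.inr (subset_closure ⟨hD, h⟩)
  obtain ⟨D, hD, hDA, hDB⟩ := (isPreconnected_closed_iff.mp hI) (closure SA) (closure SB) isClosed_closure
    isClosed_closure hcov ⟨D0, hD0, subset_closure ⟨hD0, h0⟩⟩ ⟨D1, hD1, subset_closure ⟨hD1, hcon⟩⟩
  have hlim : ∀ x : ℕ → X, (∀ k, x k ∈ I) → Tendsto x atTop (𝓝 D) →
      Tendsto (fun k => V (x k)) atTop (𝓝 (V D)) ∧ Tendsto (fun k => Lam (x k)) atTop (𝓝 (Lam D)) := by
    intro x hx hxl
    have h1 : Tendsto x atTop (𝓝[I] D) := tendsto_nhdsWithin_iff.mpr ⟨hxl, Eventually.of_forall hx⟩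
    exact ⟨(hV D hD).tendsto.comp h1, (hL D hD).tendsto.comp h1⟩
  obtain ⟨x, hx, hxl⟩ := mem_closure_iff_seq_limit.mp hDA
  obtain ⟨y, hy, hyl⟩ := mem_closure_iff_seq_limit.mp hDB
  obtain ⟨hx1, hx2⟩ := hlim x (fun k => (hx k).1) hxl
  obtain ⟨hy1, hy2⟩ := hlim y (fun k => (hy k).1) hyl
  exact ba120_closed_not_top (hp D hD) (hs D hD) (fun k => hp _ (hy k).1) (fun k => hs _ (hy k).1) hy1 hy2
    (fun k => he _ (hy k).1) (fun k => (hy k).2) (ba120_closed_top (hp D hD) hx1 hx2 fun k => (hx k).2)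

/-! ## complex eigenvectors, dense sets of parameters, analytic families -/

/-- the real matrix read over `ℂ` -/
def ba120C (A : Matrix n n ℝ) : Matrix n n ℂ := A.map (fun r : ℝ => (r : ℂ))

theorem ba120_re_mulVec (A : Matrix n n ℝ) (ψ : n → ℂ) :
    (fun i => ((ba120C A) *ᵥ ψ) i |>.re) = A *ᵥ fun i => (ψ i).re := by
  funext i
  simp only [ba120C, Matrix.mulVec, dotProduct, Matrix.map_apply, Complex.re_sum, Complex.re_ofReal_mul]

theorem ba120_im_mulVec (A : Matrix n n ℝ) (ψ : n → ℂ) :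
    (fun i => ((ba120C A) *ᵥ ψ) i |>.im) = A *ᵥ fun i => (ψ i).im := by
  funext i
  simp only [ba120C, Matrix.mulVec, dotProduct, Matrix.map_apply, Complex.im_sum, Complex.im_ofReal_mul]

/-- a complex eigenvector of a real symmetric matrix: the eigenvalue is real and is an eigenvalue over `ℝ` -/
theorem ba120_real_of_complex {A : Matrix n n ℝ} (hs : A.IsSymm) {ψ : n → ℂ} {L : ℂ} (hψ : ψ ≠ 0)
    (he : (ba120C A) *ᵥ ψ = L • ψ) : L.im = 0 ∧ Ba120Eig A L.re := by
  set x : n → ℝ := fun i => (ψ i).re with hx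
  set y : n → ℝ := fun i => (ψ i).im with hy
  have h1 : A *ᵥ x = L.re • x - L.im • y := by
    rw [hx, ← ba120_re_mulVec, he]
    funext i
    simp [Complex.mul_re, hy]
  have h2 : A *ᵥ y = L.re • y + L.im • x := by
    rw [hy, ← ba120_im_mulVec, he]
    funext i
    simp [Complex.mul_im, hx]
  have h3 : x ⬝ᵥ (A *ᵥ y) = (A *ᵥ x) ⬝ᵥ y := by
    rw [Matrix.dotProduct_mulVec]
    congr 1
    conv_lhs => rw [← hs.eq]
    rw [Matrix.vecMul_transpose]
  rw [h1, h2, dotProduct_add, sub_dotProduct, dotProduct_smul, dotProduct_smul, smul_dotProduct,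
    smul_dotProduct] at h3
  simp only [smul_eq_mul] at h3
  have h4 : L.im * (x ⬝ᵥ x + y ⬝ᵥ y) = 0 := by linarith
  have hxy : x ≠ 0 ∨ y ≠ 0 := by
    by_contra hcon
    push Not at hcon
    refine hψ (funext fun i => Complex.ext ?_ ?_)
    · exact congrFun hcon.1 i
    · exact congrFun hcon.2 i
  have hx0 : 0 ≤ x ⬝ᵥ x := Finset.sum_nonneg fun j _ => mul_self_nonneg (x j)
  have hy0 : 0 ≤ y ⬝ᵥ y := Finset.sum_nonneg fun j _ => mul_self_nonneg (y j)
  have hpos : 0 < x ⬝ᵥ x + y ⬝ᵥ y := by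
    rcases hxy with h | h
    · have := ba120_dot_self_pos h
      linarith
    · have := ba120_dot_self_pos h
      linarith
  have him : L.im = 0 := by
    rcases mul_eq_zero.mp h4 with h | h
    · exact h
    · exact absurd h hpos.ne'
  refine ⟨him, ?_⟩
  rw [him, zero_smul] at h1 h2
  rcases hxy with h | h
  · exact ⟨x, h, by rw [h1, sub_zero]⟩
  · exact ⟨y, h, by rw [h2, add_zero]⟩

/-- a complex eigenvector which is a phase times a positive vector -/
theorem ba120_top_of_phase {A : Matrix n n ℝ} {ψ : n → ℂ} {L : ℂ} {z : ℂ} (hz : z ≠ 0) {r : n → ℝ}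
    (hr : ∀ i, 0 < r i) (hψ : ∀ i, ψ i = z * (r i : ℂ)) (he : (ba120C A) *ᵥ ψ = L • ψ) :
    Ba120Top A L.re := by
  have hψ' : ψ = z • fun i => (r i : ℂ) := funext fun i => by simp [hψ i]
  have h1 : (ba120C A) *ᵥ (fun i => (r i : ℂ)) = L • fun i => (r i : ℂ) := by
    rw [hψ', Matrix.mulVec_smul, smul_comm] at he
    exact smul_right_injective _ hz he
  refine ⟨r, hr, ?_⟩
  have h2 := ba120_re_mulVec A (fun i => (r i : ℂ))
  rw [h1] at h2
  simp only [Complex.ofReal_re] at h2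
  rw [← h2]
  funext i
  simp [Complex.mul_re]

/-- **BETHE VECTOR = PERRON VECTOR, dense form.**  `ψ D` satisfies the eigen relation for every `D ∈ I`,
is nonzero on a dense subset of `I`, and is a phase times a positive vector at one `D0 ∈ I`. -/
theorem ba120_bethe_is_perron_of_dense {X : Type*} [TopologicalSpace X] [FirstCountableTopology X]
    {I : Set X} (hI : IsPreconnected I) {V : X → Matrix n n ℝ}
    (hV : ContinuousOn V I) (hp : ∀ D ∈ I, (V D).IsPrimitive) (hs : ∀ D ∈ I, (V D).IsSymm)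
    {ψ : X → n → ℂ} {Lam : X → ℂ} (hL : ContinuousOn Lam I)
    (he : ∀ D ∈ I, (ba120C (V D)) *ᵥ ψ D = Lam D • ψ D)
    (hdense : I ⊆ closure {D | D ∈ I ∧ ψ D ≠ 0})
    {D0 : X} (hD0 : D0 ∈ I) {z : ℂ} (hz : z ≠ 0) {r : n → ℝ} (hr : ∀ i, 0 < r i)
    (h0 : ∀ i, ψ D0 i = z * (r i : ℂ)) :
    ∀ D ∈ I, (Lam D).im = 0 ∧ Ba120Top (V D) (Lam D).re := by
  have hLre : ContinuousOn (fun D => (Lam D).re) I := Complex.continuous_re.comp_continuousOn hL
  have hLim : ContinuousOn (fun D => (Lam D).im) I := Complex.continuous_im.comp_continuousOn hL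
  have key : ∀ D ∈ I, (Lam D).im = 0 ∧ Ba120Eig (V D) (Lam D).re := by
    intro D hD
    obtain ⟨x, hx, hxl⟩ := mem_closure_iff_seq_limit.mp (hdense hD)
    have h1 : Tendsto x atTop (𝓝[I] D) :=
      tendsto_nhdsWithin_iff.mpr ⟨hxl, Eventually.of_forall fun k => (hx k).1⟩
    have h2 : ∀ k, (Lam (x k)).im = 0 ∧ Ba120Eig (V (x k)) (Lam (x k)).re := fun k =>
      ba120_real_of_complex (hs _ (hx k).1) (hx k).2 (he _ (hx k).1)
    refine ⟨?_, ba120_closed_eigen ((hV D hD).tendsto.comp h1) ((hLre D hD).tendsto.comp h1) fun k => (h2 k).2⟩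
    refine tendsto_nhds_unique ((hLim D hD).tendsto.comp h1) ?_
    exact tendsto_const_nhds.congr fun k => (h2 k).1.symm
  have hcont := ba120_continuation hI hV hp hs hLre (fun D hD => (key D hD).2) hD0
    (ba120_top_of_phase hz hr h0 (he D0 hD0))
  exact fun D hD => ⟨(key D hD).1, hcont D hD⟩

/-- **BETHE VECTOR = PERRON VECTOR, analytic form.**  `I` an interval-like (preconnected) set of real
parameters on a neighbourhood of which the entries of `ψ` are real-analytic. -/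
theorem ba120_bethe_is_perron [Nonempty n] {I : Set ℝ} (hI : IsPreconnected I) {V : ℝ → Matrix n n ℝ}
    (hV : ContinuousOn V I) (hp : ∀ D ∈ I, (V D).IsPrimitive) (hs : ∀ D ∈ I, (V D).IsSymm)
    {ψ : ℝ → n → ℂ} (hψ : ∀ i, AnalyticOnNhd ℝ (fun D => ψ D i) I) {Lam : ℝ → ℂ} (hL : ContinuousOn Lam I)
    (he : ∀ D ∈ I, (ba120C (V D)) *ᵥ ψ D = Lam D • ψ D)
    {D0 : ℝ} (hD0 : D0 ∈ I) {z : ℂ} (hz : z ≠ 0) {r : n → ℝ} (hr : ∀ i, 0 < r i)
    (h0 : ∀ i, ψ D0 i = z * (r i : ℂ)) :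
    ∀ D ∈ I, (Lam D).im = 0 ∧ Ba120Top (V D) (Lam D).re := by
  refine ba120_bethe_is_perron_of_dense hI hV hp hs hL he ?_ hD0 hz hr h0
  intro D hD
  set i0 : n := Classical.arbitrary n
  have hf0 : ψ D0 i0 ≠ 0 := by
    rw [h0 i0]
    exact mul_ne_zero hz (Complex.ofReal_ne_zero.mpr (hr i0).ne')
  by_cases hfD : ψ D i0 = 0
  · have hne : D ≠ D0 := fun h => hf0 (h ▸ hfD)
    have hnt : I.Nontrivial := ⟨D, hD, D0, hD0, hne⟩
    have hacc : ∃ᶠ y in 𝓝[≠] D, y ∈ I :=
      accPt_iff_frequently_nhdsNE.mp (hI.preperfect_of_nontrivial hnt D hD)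
    rcases (hψ i0 D hD).eventually_eq_zero_or_eventually_ne_zero with h | h
    · exact absurd ((hψ i0).eqOn_zero_of_preconnected_of_eventuallyEq_zero hI hD h hD0) hf0
    · rw [mem_closure_iff_frequently]
      refine Frequently.filter_mono (hacc.and_eventually h) nhdsWithin_le_nhds |>.mono ?_
      rintro y ⟨hy1, hy2⟩
      exact ⟨hy1, fun h => hy2 (congrFun h i0)⟩
  · exact subset_closure ⟨hD, fun h => hfD (congrFun h i0)⟩

end Claimed.Agent.R292
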