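import Mathlib
import Claimed.Agent.R292.Bethe.BA1x140
import Claimed.Agent.R292.Bethe.BA4x120
import Claimed.Agent.R292.Bethe.BA4Ana120

/-!
# Rows 290 / 292, cell C1, unit BETHE, leaf B3c (wiring)      (helper120; prefix `ba120_`)

**`ba120_wiring`** : THE BETHE EIGENVALUE IS THE TOP EIGENVALUE OF THE SECTOR TRANSFER MATRIX `ba1T` (of BA1x140) on a whole
segment of parameters `lam` (`c = 2 cos (lam / 2)`, `d = 2 Δ = 2 - c ²`) containing the free-fermion point `lam = π / 2`.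

Inputs (hypotheses): the roots `z lam j` analytic in `lam` (B3a), `≠ 1`, equal to the free-fermion roots at `π / 2`; the eigen relation
`ba1T ψ = Λ ψ` for the Bethe vector `ψ e = Psi (positions of e)` (B1b + B1c).
Output: `Λ lam` is real and has a positive eigenvector; `ba120_wiring_log` : `log baZ / M → log Λ`.
-/

set_option autoImplicit false
set_option linter.unusedSectionVars false

namespace Claimed.Agent.R292

open Matrix Filter Topology Finset

/-- the weight `c` as a function of the parameter -/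
noncomputable def ba120c (lam : ℝ) : ℝ := 2 * Real.cos (lam / 2)

/-- `d = 2 Δ = 2 - c²`, over `ℂ` -/
noncomputable def ba120d (lam : ℝ) : ℂ := 2 - ((ba120c lam : ℝ) : ℂ) ^ 2

/-- the Bethe eigenvalue -/
noncomputable def ba120Lam {n : ℕ} (c : ℂ) (z : Fin n → ℂ) : ℂ :=
  (∏ j, ba2a270_L c (z j)) + ∏ j, ba2a270_M c (z j)

/-- the Bethe vector on a set of states with positions `pos` -/
noncomputable def ba120Vec {S : Type*} {n : ℕ} (pos : S → ℕ → ℕ) (d : ℂ) (z : Fin n → ℂ) (e : S) : ℂ :=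
  ba2c270_Psi (ba2a270_A d z) z (pos e)

theorem ba120_continuous_ba1T (L : ℕ) [NeZero L] (n : ℕ) : Continuous fun c : ℝ => ba1T c L n := by
  refine continuous_matrix fun h h' => ?_
  unfold ba1T ba1T0 ba1w
  refine continuous_finsetSum _ fun v _ => ?_
  split_ifs
  · exact continuous_pow _
  · exact continuous_const

theorem ba120_continuous_c : Continuous ba120c := by
  unfold ba120c
  fun_prop

theorem ba120_analyticAt_c (t : ℝ) : AnalyticAt ℝ (fun lam => ((ba120c lam : ℝ) : ℂ)) t := by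
  have h1 : AnalyticAt ℝ ba120c t := by
    unfold ba120c
    have h2 : AnalyticAt ℝ (fun lam : ℝ => lam / 2) t := analyticAt_id.div analyticAt_const (by norm_num)
    exact analyticAt_const.mul (AnalyticAt.comp (g := Real.cos) (f := fun lam : ℝ => lam / 2) Real.analyticAt_cos h2)
  exact AnalyticAt.comp (g := fun r : ℝ => (r : ℂ)) (f := ba120c) (Complex.ofRealCLM.analyticAt _) h1

theorem ba120_analyticAt_d (t : ℝ) : AnalyticAt ℝ ba120d t := by
  unfold ba120d
  exact analyticAt_const.sub ((ba120_analyticAt_c t).pow 2)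

theorem ba120_d_seed : ba120d (Real.pi / 2) = 0 := by
  unfold ba120d ba120c
  have h : Real.pi / 2 / 2 = Real.pi / 4 := by ring
  rw [h, Real.cos_pi_div_four]
  have h2 : ((2 * (Real.sqrt 2 / 2) : ℝ) : ℂ) ^ 2 = (((2 * (Real.sqrt 2 / 2)) ^ 2 : ℝ) : ℂ) := by push_cast; ring
  rw [h2]
  have h3 : (2 * (Real.sqrt 2 / 2)) ^ 2 = (2 : ℝ) := by
    have := Real.sq_sqrt (show (0 : ℝ) ≤ 2 by norm_num)
    nlinarith
  rw [h3]
  norm_num

theorem ba120_continuousOn_Lam {n : ℕ} {I : Set ℝ} {z : ℝ → Fin n → ℂ}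
    (hz : ∀ j, ContinuousOn (fun lam => z lam j) I) (hz1 : ∀ lam ∈ I, ∀ j, z lam j ≠ 1) :
    ContinuousOn (fun lam => ba120Lam ((ba120c lam : ℝ) : ℂ) (z lam)) I := by
  have hc : ContinuousOn (fun lam => ((ba120c lam : ℝ) : ℂ)) I :=
    (Complex.continuous_ofReal.comp ba120_continuous_c).continuousOn
  have hden : ∀ j, ∀ lam ∈ I, (1 : ℂ) - z lam j ≠ 0 := fun j lam hl => sub_ne_zero.mpr (Ne.symm (hz1 lam hl j))
  unfold ba120Lam ba2a270_L ba2a270_M
  refine ContinuousOn.add ?_ ?_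
  · refine continuousOn_finsetProd _ fun j _ => ?_
    exact continuousOn_const.add (((hc.pow 2).mul (hz j)).div (continuousOn_const.sub (hz j)) (hden j))
  · refine continuousOn_finsetProd _ fun j _ => ?_
    exact continuousOn_const.sub ((hc.pow 2).div (continuousOn_const.sub (hz j)) (hden j))

/-- **LEAF B3c, WIRING.** -/
theorem ba120_wiring {L : ℕ} [NeZero L] {m : ℕ} (h2 : 2 * (m + 1) ≤ L)
    (pos : ba1Sec L (m + 1) → ℕ → ℕ)
    (hpos : ∀ e, StrictMono fun k : Fin (m + 1) => pos e k) (hposL : ∀ e (k : Fin (m + 1)), pos e k < L)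
    {I : Set ℝ} (hI : IsPreconnected I) (hπ : Real.pi / 2 ∈ I) (hc : ∀ lam ∈ I, 0 < ba120c lam)
    {z : ℝ → Fin (m + 1) → ℂ} (hz : ∀ j, AnalyticOnNhd ℝ (fun lam => z lam j) I)
    (hz1 : ∀ lam ∈ I, ∀ j, z lam j ≠ 1) (hseed : z (Real.pi / 2) = ba120Z0 L (m + 1))
    (hB : ∀ lam ∈ I, ba120C (ba1T (ba120c lam) L (m + 1)) *ᵥ ba120Vec pos (ba120d lam) (z lam)
      = ba120Lam ((ba120c lam : ℝ) : ℂ) (z lam) • ba120Vec pos (ba120d lam) (z lam)) :
    ∀ lam ∈ I, (ba120Lam ((ba120c lam : ℝ) : ℂ) (z lam)).im = 0 ∧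
      Ba120Top (ba1T (ba120c lam) L (m + 1)) (ba120Lam ((ba120c lam : ℝ) : ℂ) (z lam)).re := by
  classical
  have hne : Nonempty (ba1Sec L (m + 1)) := ba1Sec_nonempty L (m + 1) (by omega)
  refine ba120_bethe_is_perron (n := ba1Sec L (m + 1)) hI
    (V := fun lam => ba1T (ba120c lam) L (m + 1))
    (ψ := fun lam => ba120Vec pos (ba120d lam) (z lam))
    (Lam := fun lam => ba120Lam ((ba120c lam : ℝ) : ℂ) (z lam))
    (((ba120_continuous_ba1T L (m + 1)).comp ba120_continuous_c).continuousOn)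
    (fun lam hl => ba1T_isPrimitive (hc lam hl) L (m + 1))
    (fun lam _ => ba1T_isSymm _ L (m + 1))
    (fun e lam hl => ba120_Psi_analyticAt (ba120_analyticAt_d lam) (fun j => hz j lam hl) (pos e))
    (ba120_continuousOn_Lam (fun j => (hz j).continuousOn) hz1) hB hπ
    (z := (∏ a : Fin (m + 1), ∏ b ∈ Ioi a, (1 + ba120Z0 L (m + 1) a * ba120Z0 L (m + 1) b)) *
      ∏ i : Fin (m + 1), ∏ _j ∈ Ioi i, Complex.I)
    (ba120_seed_const_ne_zero h2)
    (r := fun e => ∏ i : Fin (m + 1), ∏ j ∈ Ioi i, (2 * Real.sin (Real.pi * ((pos e j : ℝ) - pos e i) / L)))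
    (fun e => ba120_seed_pos (hpos e) (hposL e)) ?_
  intro e
  unfold ba120Vec
  rw [ba120_d_seed, hseed, ba120_seed_Psi]

/-- the growth rate of the sector partition function is the Bethe eigenvalue -/
theorem ba120_wiring_log {L : ℕ} [NeZero L] {m : ℕ} (h2 : 2 * (m + 1) ≤ L)
    (pos : ba1Sec L (m + 1) → ℕ → ℕ)
    (hpos : ∀ e, StrictMono fun k : Fin (m + 1) => pos e k) (hposL : ∀ e (k : Fin (m + 1)), pos e k < L)
    {I : Set ℝ} (hI : IsPreconnected I) (hπ : Real.pi / 2 ∈ I) (hc : ∀ lam ∈ I, 0 < ba120c lam)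
    {z : ℝ → Fin (m + 1) → ℂ} (hz : ∀ j, AnalyticOnNhd ℝ (fun lam => z lam j) I)
    (hz1 : ∀ lam ∈ I, ∀ j, z lam j ≠ 1) (hseed : z (Real.pi / 2) = ba120Z0 L (m + 1))
    (hB : ∀ lam ∈ I, ba120C (ba1T (ba120c lam) L (m + 1)) *ᵥ ba120Vec pos (ba120d lam) (z lam)
      = ba120Lam ((ba120c lam : ℝ) : ℂ) (z lam) • ba120Vec pos (ba120d lam) (z lam)) :
    ∀ lam ∈ I, 0 < (ba120Lam ((ba120c lam : ℝ) : ℂ) (z lam)).re ∧
      Tendsto (fun M : ℕ => Real.log (baZ (ba120c lam) M L (m + 1)) / M) atTop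
        (𝓝 (Real.log (ba120Lam ((ba120c lam : ℝ) : ℂ) (z lam)).re)) := by
  intro lam hl
  obtain ⟨_, u, hu0, hu⟩ := ba120_wiring h2 pos hpos hposL hI hπ hc hz hz1 hseed hB lam hl
  obtain ⟨Λ, hΛ, hlim, _, _, h5⟩ := ba1_main (ba120c lam) (hc lam hl) L (m + 1) (by omega)
  have := h5 u _ hu0 hu
  rw [this]
  exact ⟨hΛ, hlim⟩

end Claimed.Agent.R292
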