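import Claimed.Agent.R292.Defs.Top

/-!
# Row 292 (S0540), Bethe/Hub : VOCABULARY OF THE TOP CUT OF UNIT BETHE      (owner helper116, head of unit BETHE; prefix `ba`)

`sv_bethe ⇐ ba_stiffness (Exit/BETHE) ⇐ ba_top (Bethe/Top) ⇐ ins260_hub (260) + b1w160_lim (160, 70) + ba_thermo (Bethe/Thermo)`.

* `baF c N n`    `lim_M log Z(M,N,n) / M` = log of the top eigenvalue of the column transfer matrix on the sector `n`
                 of a column of `N` horizontal edges  (`b1w160_baF : baF c N n = log (ba70Lam c N n)`).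
* `BaThermo c`   thermodynamics at regular filling, parametrised by the Fermi point `Q`: density `Dq Q`, free energy `Eq Q`,
                 condensation uniform on compacts of `Q` (EVEN sectors only), and `(Einf - Eq Q) / (1/2 - Dq Q)^2 → 2 arcsin (c/2)`.
                 Odd sectors, floors and the balanced sector follow by ROW INSERTION (`Ins260.lean`).
-/

set_option autoImplicit false

namespace Claimed.Agent.R292

open Filter Topology

/-- `log` of the top eigenvalue of the column transfer matrix, sector `n`, column of `N` edges. -/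
noncomputable def baF (c : ℝ) (N n : ℕ) : ℝ :=
  limUnder atTop (fun M : ℕ => Real.log (svZN c M N n) / M)

/-- thermodynamics at regular filling (the hypothesis `hth` of `ins260_hub` with `F = baF c`, `A = arcsin (c/2)`). -/
def BaThermo (c : ℝ) : Prop :=
  ∃ (Dq Eq : ℝ → ℝ) (Einf : ℝ),
    ContinuousOn Dq (Set.Ioi 0) ∧ ContinuousOn Eq (Set.Ioi 0) ∧ StrictMonoOn Dq (Set.Ioi 0) ∧
    (∀ Q, 0 < Q → 0 < Dq Q ∧ Dq Q < 1 / 2) ∧ Tendsto Dq atTop (𝓝 (1 / 2)) ∧
    (∀ Q₁ Q₂ : ℝ, 0 < Q₁ → Q₁ ≤ Q₂ → ∀ ε : ℝ, 0 < ε → ∃ N₀ : ℕ, ∀ N n : ℕ, N₀ ≤ N → Even n →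
      ∀ Q ∈ Set.Icc Q₁ Q₂, (n : ℝ) = N * Dq Q → |baF c N n / N - Eq Q| ≤ ε) ∧
    Tendsto (fun Q => (Einf - Eq Q) / (1 / 2 - Dq Q) ^ 2) atTop (𝓝 (2 * Real.arcsin (c / 2)))

end Claimed.Agent.R292
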