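import Claimed.Agent.R292.Bethe.B1c160
import Claimed.Agent.R292.Bethe.BA4Wire120
import Claimed.Agent.R292.Bethe.Hub

/-!
# Row 292, unit BETHE: WIRING  B1c (160) → B3c (120) → BA1 (70, 140) → `baF` of `Bethe/Hub.lean`

* `b1w160_T_eq`: on the sector the matrix `ba70T` (70) is the matrix `ba1T0` (140);
* `b1w160_hB`: the hypothesis `hB` of `ba120_wiring` from the Bethe equations;
* `b1w160_baF`: `baF c N n = log (ba70Lam c N n)`  (closes the type of `ba_lim`: `b1w160_lim`);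
* `b1w160_wired`: an analytic family of roots of the Bethe equations through the free-fermion roots gives
  `ba70Lam = Re Λ`, `baF = log (Re Λ)` on the whole segment of parameters.
-/

namespace Claimed.Agent.R292

open Finset Filter Topology Matrix

section wire

variable {L : ℕ}

theorem b1w160_T_eq [NeZero L] (c : ℝ) (n : ℕ) (σ σ' : ZMod L → Bool) (hσ : ba70Cnt σ = n)
    (hσ' : ba70Cnt σ' = n) : ba70T c L n σ σ' = ba1T0 c L σ σ' := by
  unfold ba70T ba1T0
  refine Finset.sum_congr rfl fun v _ => ?_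
  unfold ba70W ba1w
  by_cases h : ∀ b : ZMod L, ba1Ice (σ b) (σ' b) (v (b - 1)) (v b)
  · rw [if_pos h, if_pos ⟨h, hσ, hσ'⟩]
    rfl
  · rw [if_neg h, if_neg (fun h' => h h'.1)]

/-- the positions of a state of the sector. -/
def b1w160_pos [NeZero L] (m : ℕ) (e : ba1Sec L (m + 1)) : ℕ → ℕ := b1c160_X m e.1

theorem b1w160_pos_strictMono [NeZero L] (m : ℕ) (e : ba1Sec L (m + 1)) :
    StrictMono fun k : Fin (m + 1) => b1w160_pos m e k := by
  have h : Ba2s100Pos m L (b1c160_X m e.1) := b1c160_pos e.2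
  intro a b hab
  exact h.mono b (by have := b.isLt; omega) a hab

theorem b1w160_pos_lt [NeZero L] (m : ℕ) (e : ba1Sec L (m + 1)) (k : Fin (m + 1)) :
    b1w160_pos m e k < L := by
  have h : Ba2s100Pos m L (b1c160_X m e.1) := b1c160_pos e.2
  exact h.lt_N (by have := k.isLt; omega)

theorem b1w160_sum_sector {α : Type*} [Fintype α] (p : α → Prop) [DecidablePred p] (f : α → ℂ)
    (h : ∀ a, ¬ p a → f a = 0) : ∑ a, f a = ∑ a : Subtype p, f a.1 := by
  rw [← Finset.sum_subtype (Finset.univ.filter p) (by simp) f]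
  symm
  apply Finset.sum_subset (Finset.filter_subset _ _)
  intro a _ ha
  exact h a (by simpa using ha)

theorem b1w160_psi_eq [NeZero L] {m : ℕ} (d : ℂ) (z : Fin (m + 1) → ℂ) (e : ba1Sec L (m + 1)) :
    b1c160_psi (ba2a270_A d z) z e.1 = ba120Vec (b1w160_pos m) d z e := by
  unfold b1c160_psi ba120Vec b1w160_pos
  exact if_pos e.2

/-- **the hypothesis `hB` of `ba120_wiring`** from the Bethe equations. -/
theorem b1w160_hB [NeZero L] {m : ℕ} {c : ℝ} (hc : c ≠ 0) (z : Fin (m + 1) → ℂ)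
    (hz : ∀ j, z j ≠ 1) (hBE : ba2a270_BE (2 - (c : ℂ) ^ 2) L z) :
    ba120C (ba1T c L (m + 1)) *ᵥ ba120Vec (b1w160_pos m) (2 - (c : ℂ) ^ 2) z =
      ba120Lam (c : ℂ) z • ba120Vec (b1w160_pos m) (2 - (c : ℂ) ^ 2) z := by
  have key := b1c160_eigen (N := L) (m := m) Complex.ofRealHom hc z hz hBE
  funext e
  have h1 := congrFun key e.1
  rw [Pi.smul_apply, smul_eq_mul] at h1 ⊢
  have h3 : ((ba70T c L (m + 1)).map Complex.ofRealHom).mulVec
      (b1c160_psi (ba2a270_A (2 - (c : ℂ) ^ 2) z) z) e.1 =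
      (ba120C (ba1T c L (m + 1)) *ᵥ ba120Vec (b1w160_pos m) (2 - (c : ℂ) ^ 2) z) e := by
    show ∑ σ' : ZMod L → Bool, ((ba70T c L (m + 1) e.1 σ' : ℝ) : ℂ) *
        b1c160_psi (ba2a270_A (2 - (c : ℂ) ^ 2) z) z σ' =
      ∑ e' : ba1Sec L (m + 1), ((ba1T0 c L e.1 e'.1 : ℝ) : ℂ) *
        ba120Vec (b1w160_pos m) (2 - (c : ℂ) ^ 2) z e'
    rw [b1w160_sum_sector (fun σ : ZMod L → Bool => ba1P (m + 1) σ)]
    · refine Finset.sum_congr rfl fun e' _ => ?_
      rw [b1w160_psi_eq, b1w160_T_eq c (m + 1) e.1 e'.1 e.2 e'.2]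
    · intro σ' hσ'
      have : b1c160_psi (ba2a270_A (2 - (c : ℂ) ^ 2) z) z σ' = 0 := by
        unfold b1c160_psi
        exact if_neg hσ'
      rw [this, mul_zero]
  rw [← h3, ← b1w160_psi_eq]
  exact h1

/-- `baF` of the hub is the logarithm of the top eigenvalue of BA1. -/
theorem b1w160_baF [NeZero L] {c : ℝ} (hc : 0 ≤ c) {n : ℕ} (hn : n ≤ L) :
    baF c L n = Real.log (ba70Lam c L n) :=
  (ba70_log_svZN_tendsto hc L n hn).limUnder_eq

/-- the type of `ba_lim` (H1 of the hub). -/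
theorem b1w160_lim (c : ℝ) (hc : 0 < c) (N n : ℕ) (hN : 2 ≤ N) (hn : n ≤ N) :
    Tendsto (fun M : ℕ => Real.log (svZN c M N n) / M) atTop (𝓝 (baF c N n)) := by
  have : NeZero N := ⟨by omega⟩
  rw [b1w160_baF hc.le hn]
  exact ba70_log_svZN_tendsto hc.le N n hn

/-- A positive eigenvector of the sector matrix of 140 identifies the top eigenvalue of 70. -/
theorem b1w160_lam_of_top [NeZero L] {c : ℝ} (hc : 0 ≤ c) {n : ℕ} (hn : n ≤ L) {μ : ℝ}
    (h : Ba120Top (ba1T c L n) μ) : ba70Lam c L n = μ := by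
  classical
  obtain ⟨u, hu0, hu⟩ := h
  let ψ : (ZMod L → Bool) → ℝ := fun σ => if hσ : ba1P n σ then u ⟨σ, hσ⟩ else 0
  refine ba70Lam_eq_of_pos hc L n hn ψ μ ?_ ?_ ?_
  · intro σ
    by_cases hσ : ba1P n σ
    · simp only [ψ, dif_pos hσ]; exact (hu0 _).le
    · simp only [ψ, dif_neg hσ]; exact le_rfl
  · intro σ hσ
    have hσ' : ba1P n σ := hσ
    simp only [ψ, dif_pos hσ']; exact hu0 _
  · funext σ
    rw [Pi.smul_apply, smul_eq_mul]
    by_cases hσ : ba1P n σ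
    · have h1 := congrFun hu ⟨σ, hσ⟩
      rw [Pi.smul_apply, smul_eq_mul] at h1
      have h2 : ψ σ = u ⟨σ, hσ⟩ := by simp only [ψ, dif_pos hσ]
      rw [h2, ← h1]
      show ∑ σ' : ZMod L → Bool, ba70T c L n σ σ' * ψ σ' =
        ∑ e' : ba1Sec L n, ba1T0 c L σ e'.1 * u e'
      have h3 : ∑ σ' : ZMod L → Bool, ba70T c L n σ σ' * ψ σ' =
          ∑ e' : ba1Sec L n, ba70T c L n σ e'.1 * ψ e'.1 := by
        rw [← Finset.sum_subtype (Finset.univ.filter fun σ : ZMod L → Bool => ba1P n σ) (by simp)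
          (fun σ' => ba70T c L n σ σ' * ψ σ')]
        symm
        apply Finset.sum_subset (Finset.filter_subset _ _)
        intro a _ ha
        have ha' : ¬ ba1P n a := by simpa using ha
        simp only [ψ, dif_neg ha', mul_zero]
      rw [h3]
      refine Finset.sum_congr rfl fun e' _ => ?_
      rw [b1w160_T_eq c n σ e'.1 hσ e'.2]
      simp only [ψ, dif_pos e'.2]
    · have h2 : ψ σ = 0 := by simp only [ψ, dif_neg hσ]
      rw [h2, mul_zero]
      show ∑ σ' : ZMod L → Bool, ba70T c L n σ σ' * ψ σ' = 0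
      refine Finset.sum_eq_zero fun σ' _ => ?_
      rw [ba70T_row_zero c L n σ σ' hσ, zero_mul]

/-- **WIRED.**  An analytic family of roots of the Bethe equations (none equal to `1`) through the
free-fermion roots at `lam = π / 2`: the Bethe eigenvalue is real, positive, it is the top eigenvalue
`ba70Lam`, and its logarithm is `baF` of the hub. -/
theorem b1w160_wired [NeZero L] {m : ℕ} (h2 : 2 * (m + 1) ≤ L)
    {I : Set ℝ} (hI : IsPreconnected I) (hπ : Real.pi / 2 ∈ I) (hc : ∀ lam ∈ I, 0 < ba120c lam)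
    {z : ℝ → Fin (m + 1) → ℂ} (hz : ∀ j, AnalyticOnNhd ℝ (fun lam => z lam j) I)
    (hz1 : ∀ lam ∈ I, ∀ j, z lam j ≠ 1) (hseed : z (Real.pi / 2) = ba120Z0 L (m + 1))
    (hBE : ∀ lam ∈ I, ba2a270_BE (ba120d lam) L (z lam)) :
    ∀ lam ∈ I, (ba120Lam ((ba120c lam : ℝ) : ℂ) (z lam)).im = 0 ∧
      ba70Lam (ba120c lam) L (m + 1) = (ba120Lam ((ba120c lam : ℝ) : ℂ) (z lam)).re ∧
      baF (ba120c lam) L (m + 1) = Real.log (ba120Lam ((ba120c lam : ℝ) : ℂ) (z lam)).re := by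
  intro lam hl
  obtain ⟨him, htop⟩ := ba120_wiring h2 (b1w160_pos m) (b1w160_pos_strictMono m) (b1w160_pos_lt m)
    hI hπ hc hz hz1 hseed
    (fun lam hl => b1w160_hB (hc lam hl).ne' (z lam) (hz1 lam hl) (hBE lam hl)) lam hl
  have h3 := b1w160_lam_of_top (hc lam hl).le (by omega : m + 1 ≤ L) htop
  exact ⟨him, h3, by rw [b1w160_baF (hc lam hl).le (by omega : m + 1 ≤ L), h3]⟩

end wire

end Claimed.Agent.R292
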