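import Mathlib

/-!
# Row 292, unit BETHE, leaf B2a: frozen Newton iteration around the mid-quantiles (abstract)      (helper287; prefix `b2a287`)

The logarithmic Bethe equations `k (y j) - N⁻¹ ∑ l, θ (y j - y l) = a j` with `k θ` (and later the continuum density `ρ`) as HYPOTHESES.

Layer 1 (finite dimensional, no integrals): `b2a287_newton`, `b2a287_jac`, `b2a287_strictMono`, `b2a287_symm`.
-/

set_option autoImplicit false

namespace Claimed.Agent.R292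

open Finset

/-- the Bethe map. -/
noncomputable def b2a287G (k θ : ℝ → ℝ) (N : ℝ) {n : ℕ} (a y : Fin n → ℝ) (j : Fin n) : ℝ :=
  k (y j) - N⁻¹ * ∑ l, θ (y j - y l) - a j

/-- the derivative of the counting function of the configuration `y` at the point `x`. -/
noncomputable def b2a287X (kd Kd : ℝ → ℝ) (N : ℝ) {n : ℕ} (y : Fin n → ℝ) (x : ℝ) : ℝ :=
  kd x - N⁻¹ * ∑ l, Kd (x - y l)

/-- the Jacobian of the Bethe map at `y`, applied to `v`. -/
noncomputable def b2a287J (kd Kd : ℝ → ℝ) (N : ℝ) {n : ℕ} (y v : Fin n → ℝ) (j : Fin n) : ℝ :=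
  b2a287X kd Kd N y (y j) * v j + N⁻¹ * ∑ l, Kd (y j - y l) * v l

theorem b2a287_lip_nonneg {g : ℝ → ℝ} {L : ℝ} (hL : ∀ x y, |g x - g y| ≤ L * |x - y|) : 0 ≤ L := by
  have := (abs_nonneg _).trans (hL 1 0)
  simpa using this

/-- first order Taylor bound with a frozen slope. -/
theorem b2a287_taylor {f f' : ℝ → ℝ} {L : ℝ} (hf : ∀ x, HasDerivAt f (f' x) x)
    (hL : ∀ x y, |f' x - f' y| ≤ L * |x - y|) {a b c r : ℝ} (ha : |a - c| ≤ r) (hb : |b - c| ≤ r) :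
    |f a - f b - f' c * (a - b)| ≤ L * r * |a - b| := by
  have hL0 := b2a287_lip_nonneg hL
  have hg : ∀ x ∈ Set.Icc (c - r) (c + r),
      HasDerivWithinAt (fun x => f x - f' c * x) (f' x - f' c) (Set.Icc (c - r) (c + r)) x := by
    intro x _
    have h1 : HasDerivAt (fun x => f' c * x) (f' c) x := by
      simpa using (hasDerivAt_id x).const_mul (f' c)
    exact ((hf x).sub h1).hasDerivWithinAt
  have hb' : ∀ x ∈ Set.Icc (c - r) (c + r), ‖f' x - f' c‖ ≤ L * r := by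
    intro x hx
    rw [Real.norm_eq_abs]
    refine (hL x c).trans (mul_le_mul_of_nonneg_left ?_ hL0)
    rw [abs_le]; constructor <;> linarith [hx.1, hx.2]
  have ma : a ∈ Set.Icc (c - r) (c + r) := by
    rw [abs_le] at ha; constructor <;> linarith [ha.1, ha.2]
  have mb : b ∈ Set.Icc (c - r) (c + r) := by
    rw [abs_le] at hb; constructor <;> linarith [hb.1, hb.2]
  have := Convex.norm_image_sub_le_of_norm_hasDerivWithin_le hg hb' (convex_Icc _ _) mb ma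
  rw [Real.norm_eq_abs, Real.norm_eq_abs] at this
  have e : f a - f b - f' c * (a - b) = f a - f' c * a - (f b - f' c * b) := by ring
  rw [e]; exact this

section layer1

variable {n : ℕ} {N : ℝ} {k kd θ Kd : ℝ → ℝ} {Lk LK : ℝ}

/-- the Bethe map minus its frozen linearisation is a small Lipschitz map near `y0`. -/
theorem b2a287_rem (hN : 0 < N) (hnN : (n : ℝ) ≤ N)
    (hk : ∀ x, HasDerivAt k (kd x) x) (hθ : ∀ x, HasDerivAt θ (Kd x) x)
    (hLk : ∀ x y, |kd x - kd y| ≤ Lk * |x - y|) (hLK : ∀ x y, |Kd x - Kd y| ≤ LK * |x - y|)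
    (a y0 y z : Fin n → ℝ) {r t : ℝ}
    (hy : ∀ j, |y j - y0 j| ≤ r) (hz : ∀ j, |z j - y0 j| ≤ r) (ht : ∀ j, |y j - z j| ≤ t) (j : Fin n) :
    |b2a287G k θ N a y j - b2a287G k θ N a z j - b2a287J kd Kd N y0 (fun i => y i - z i) j|
      ≤ (Lk + 4 * LK) * r * t := by
  have hLk0 := b2a287_lip_nonneg hLk
  have hLK0 := b2a287_lip_nonneg hLK
  have hr : 0 ≤ r := (abs_nonneg _).trans (hy j)
  have ht0 : 0 ≤ t := (abs_nonneg _).trans (ht j)
  set A := k (y j) - k (z j) - kd (y0 j) * (y j - z j) with hA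
  set B : Fin n → ℝ := fun l => θ (y j - y l) - θ (z j - z l)
    - Kd (y0 j - y0 l) * ((y j - y l) - (z j - z l)) with hB
  have key : b2a287G k θ N a y j - b2a287G k θ N a z j - b2a287J kd Kd N y0 (fun i => y i - z i) j
      = A - N⁻¹ * ∑ l, B l := by
    have e : ∀ l, B l = θ (y j - y l) - θ (z j - z l) - Kd (y0 j - y0 l) * (y j - z j)
        + Kd (y0 j - y0 l) * (y l - z l) := by intro l; simp only [hB]; ring
    simp_rw [e]
    rw [sum_add_distrib, sum_sub_distrib, sum_sub_distrib, ← sum_mul]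
    simp only [b2a287G, b2a287J, b2a287X, hA]
    ring
  rw [key]
  have bA : |A| ≤ Lk * r * t :=
    (b2a287_taylor hk hLk (hy j) (hz j)).trans (mul_le_mul_of_nonneg_left (ht j) (by positivity))
  have bB : ∀ l, |B l| ≤ 4 * LK * r * t := by
    intro l
    have h1 : |(y j - y l) - (y0 j - y0 l)| ≤ 2 * r := by
      have : (y j - y l) - (y0 j - y0 l) = (y j - y0 j) - (y l - y0 l) := by ring
      rw [this]; exact (abs_sub _ _).trans (by linarith [hy j, hy l])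
    have h2 : |(z j - z l) - (y0 j - y0 l)| ≤ 2 * r := by
      have : (z j - z l) - (y0 j - y0 l) = (z j - y0 j) - (z l - y0 l) := by ring
      rw [this]; exact (abs_sub _ _).trans (by linarith [hz j, hz l])
    have h3 : |(y j - y l) - (z j - z l)| ≤ 2 * t := by
      have : (y j - y l) - (z j - z l) = (y j - z j) - (y l - z l) := by ring
      rw [this]; exact (abs_sub _ _).trans (by linarith [ht j, ht l])
    calc |B l| ≤ LK * (2 * r) * |(y j - y l) - (z j - z l)| := b2a287_taylor hθ hLK h1 h2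
      _ ≤ LK * (2 * r) * (2 * t) := mul_le_mul_of_nonneg_left h3 (by positivity)
      _ = 4 * LK * r * t := by ring
  have bS : |N⁻¹ * ∑ l, B l| ≤ 4 * LK * r * t := by
    rw [abs_mul, abs_of_pos (inv_pos.2 hN)]
    have h1 : |∑ l, B l| ≤ n * (4 * LK * r * t) := by
      refine (abs_sum_le_sum_abs _ _).trans ?_
      refine (sum_le_sum fun l _ => bB l).trans ?_
      simp
    have h0 : 0 ≤ 4 * LK * r * t := by positivity
    calc N⁻¹ * |∑ l, B l| ≤ N⁻¹ * (n * (4 * LK * r * t)) :=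
          mul_le_mul_of_nonneg_left h1 (inv_pos.2 hN).le
      _ = (n / N) * (4 * LK * r * t) := by field_simp
      _ ≤ 1 * (4 * LK * r * t) := mul_le_mul_of_nonneg_right ((div_le_one hN).2 hnN) h0
      _ = 4 * LK * r * t := one_mul _
  calc |A - N⁻¹ * ∑ l, B l| ≤ |A| + |N⁻¹ * ∑ l, B l| := abs_sub _ _
    _ ≤ Lk * r * t + 4 * LK * r * t := add_le_add bA bS
    _ = (Lk + 4 * LK) * r * t := by ring

/-- the frozen Newton map in the variables `u j = W j * (y j - y0 j)`, `W j` = frozen diagonal. -/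
noncomputable def b2a287Psi (k θ kd Kd : ℝ → ℝ) (N : ℝ) {n : ℕ} (a y0 u : Fin n → ℝ) (j : Fin n) : ℝ :=
  u j - b2a287G k θ N a (fun i => y0 i + u i / b2a287X kd Kd N y0 (y0 i)) j

/-- the frozen Newton map is a contraction for the sup norm. -/
theorem b2a287_psi_lip (hN : 0 < N) (hnN : (n : ℝ) ≤ N)
    (hk : ∀ x, HasDerivAt k (kd x) x) (hθ : ∀ x, HasDerivAt θ (Kd x) x)
    (hLk : ∀ x y, |kd x - kd y| ≤ Lk * |x - y|) (hLK : ∀ x y, |Kd x - Kd y| ≤ LK * |x - y|)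
    (a y0 : Fin n → ℝ) {dmin κ' R : ℝ} (hd : 0 < dmin)
    (hD : ∀ j, dmin ≤ b2a287X kd Kd N y0 (y0 j))
    (hrow : ∀ j, ∑ l, |Kd (y0 j - y0 l)| / (N * b2a287X kd Kd N y0 (y0 l)) ≤ κ')
    (u u' : Fin n → ℝ) {t : ℝ} (hu : ∀ j, |u j| ≤ R) (hu' : ∀ j, |u' j| ≤ R)
    (ht : ∀ j, |u j - u' j| ≤ t) (j : Fin n) :
    |b2a287Psi k θ kd Kd N a y0 u j - b2a287Psi k θ kd Kd N a y0 u' j|
      ≤ (κ' + (Lk + 4 * LK) * R / dmin ^ 2) * t := by
  have hLk0 := b2a287_lip_nonneg hLk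
  have hLK0 := b2a287_lip_nonneg hLK
  have hR : 0 ≤ R := (abs_nonneg _).trans (hu j)
  have ht0 : 0 ≤ t := (abs_nonneg _).trans (ht j)
  set W : Fin n → ℝ := fun i => b2a287X kd Kd N y0 (y0 i) with hW
  have hWpos : ∀ i, 0 < W i := fun i => hd.trans_le (hD i)
  set y : Fin n → ℝ := fun i => y0 i + u i / W i with hy
  set z : Fin n → ℝ := fun i => y0 i + u' i / W i with hz
  have div_le : ∀ (x : ℝ) (i : Fin n) (c : ℝ), |x| ≤ c → |x / W i| ≤ c / dmin := by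
    intro x i c hx
    rw [abs_div, abs_of_pos (hWpos i)]
    have hc : 0 ≤ c := (abs_nonneg _).trans hx
    calc |x| / W i ≤ c / W i := div_le_div_of_nonneg_right hx (hWpos i).le
      _ ≤ c / dmin := div_le_div_of_nonneg_left hc hd (hD i)
  have by0 : ∀ i, |y i - y0 i| ≤ R / dmin := by
    intro i; simp only [hy, add_sub_cancel_left]; exact div_le _ _ _ (hu i)
  have bz0 : ∀ i, |z i - y0 i| ≤ R / dmin := by
    intro i; simp only [hz, add_sub_cancel_left]; exact div_le _ _ _ (hu' i)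
  have eyz : ∀ i, y i - z i = (u i - u' i) / W i := by
    intro i; simp only [hy, hz]; ring
  have byz : ∀ i, |y i - z i| ≤ t / dmin := by
    intro i; rw [eyz]; exact div_le _ _ _ (ht i)
  have rem := b2a287_rem hN hnN hk hθ hLk hLK a y0 y z by0 bz0 byz j
  set Rm := b2a287G k θ N a y j - b2a287G k θ N a z j - b2a287J kd Kd N y0 (fun i => y i - z i) j
    with hRm
  have eJ : b2a287J kd Kd N y0 (fun i => y i - z i) j
      = (u j - u' j) + N⁻¹ * ∑ l, Kd (y0 j - y0 l) * ((u l - u' l) / W l) := by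
    simp only [b2a287J]
    simp_rw [eyz]
    have : b2a287X kd Kd N y0 (y0 j) = W j := rfl
    rw [this, mul_div_cancel₀ _ (hWpos j).ne']
  have e : b2a287Psi k θ kd Kd N a y0 u j - b2a287Psi k θ kd Kd N a y0 u' j
      = -(N⁻¹ * ∑ l, Kd (y0 j - y0 l) * ((u l - u' l) / W l)) - Rm := by
    have h1 : b2a287Psi k θ kd Kd N a y0 u j = u j - b2a287G k θ N a y j := rfl
    have h2 : b2a287Psi k θ kd Kd N a y0 u' j = u' j - b2a287G k θ N a z j := rfl
    rw [h1, h2, hRm, eJ]; ring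
  rw [e]
  have b1 : |N⁻¹ * ∑ l, Kd (y0 j - y0 l) * ((u l - u' l) / W l)| ≤ κ' * t := by
    rw [mul_sum]
    refine (abs_sum_le_sum_abs _ _).trans ?_
    calc ∑ l, |N⁻¹ * (Kd (y0 j - y0 l) * ((u l - u' l) / W l))|
        ≤ ∑ l, |Kd (y0 j - y0 l)| / (N * W l) * t := by
          refine sum_le_sum fun l _ => ?_
          rw [abs_mul, abs_mul, abs_div, abs_of_pos (inv_pos.2 hN), abs_of_pos (hWpos l)]
          have h0 : 0 ≤ |Kd (y0 j - y0 l)| / (N * W l) :=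
            div_nonneg (abs_nonneg _) (mul_pos hN (hWpos l)).le
          calc N⁻¹ * (|Kd (y0 j - y0 l)| * (|u l - u' l| / W l))
              = |Kd (y0 j - y0 l)| / (N * W l) * |u l - u' l| := by
                have := (hWpos l).ne'
                field_simp
            _ ≤ |Kd (y0 j - y0 l)| / (N * W l) * t := mul_le_mul_of_nonneg_left (ht l) h0
      _ = (∑ l, |Kd (y0 j - y0 l)| / (N * W l)) * t := by rw [sum_mul]
      _ ≤ κ' * t := mul_le_mul_of_nonneg_right (hrow j) ht0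
  calc |-(N⁻¹ * ∑ l, Kd (y0 j - y0 l) * ((u l - u' l) / W l)) - Rm|
      ≤ |N⁻¹ * ∑ l, Kd (y0 j - y0 l) * ((u l - u' l) / W l)| + |Rm| := by
        have := abs_sub (-(N⁻¹ * ∑ l, Kd (y0 j - y0 l) * ((u l - u' l) / W l))) Rm
        rwa [abs_neg] at this
    _ ≤ κ' * t + (Lk + 4 * LK) * (R / dmin) * (t / dmin) := add_le_add b1 rem
    _ = (κ' + (Lk + 4 * LK) * R / dmin ^ 2) * t := by field_simp

/-- **Layer 1: frozen Newton.**  A small residual at `y0`, a diagonal bounded below and a column-weighted row sum `κ' < 1`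
give exactly one zero of the Bethe map in the weighted ball of radius `R`, and it is within `e0 / (1 - q)` of `y0`. -/
theorem b2a287_newton (hN : 0 < N) (hnN : (n : ℝ) ≤ N)
    (hk : ∀ x, HasDerivAt k (kd x) x) (hθ : ∀ x, HasDerivAt θ (Kd x) x)
    (hLk : ∀ x y, |kd x - kd y| ≤ Lk * |x - y|) (hLK : ∀ x y, |Kd x - Kd y| ≤ LK * |x - y|)
    (a y0 : Fin n → ℝ) {dmin κ' R e0 q : ℝ} (hd : 0 < dmin)
    (hD : ∀ j, dmin ≤ b2a287X kd Kd N y0 (y0 j))
    (hrow : ∀ j, ∑ l, |Kd (y0 j - y0 l)| / (N * b2a287X kd Kd N y0 (y0 l)) ≤ κ')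
    (hR : 0 ≤ R) (hq : κ' + (Lk + 4 * LK) * R / dmin ^ 2 ≤ q) (hq0 : 0 ≤ q) (hq1 : q < 1)
    (hres : ∀ j, |b2a287G k θ N a y0 j| ≤ e0) (he0 : e0 ≤ (1 - q) * R) :
    ∃ y : Fin n → ℝ, (∀ j, b2a287G k θ N a y j = 0) ∧
      (∀ j, b2a287X kd Kd N y0 (y0 j) * |y j - y0 j| ≤ e0 / (1 - q)) ∧
      ∀ y' : Fin n → ℝ, (∀ j, b2a287G k θ N a y' j = 0) →
        (∀ j, b2a287X kd Kd N y0 (y0 j) * |y' j - y0 j| ≤ R) → y' = y := by
  set W : Fin n → ℝ := fun i => b2a287X kd Kd N y0 (y0 i) with hW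
  have hWpos : ∀ i, 0 < W i := fun i => hd.trans_le (hD i)
  set Ψ : (Fin n → ℝ) → (Fin n → ℝ) := fun u => b2a287Psi k θ kd Kd N a y0 u with hΨ
  have lip : ∀ (u u' : Fin n → ℝ) (t : ℝ), (∀ j, |u j| ≤ R) → (∀ j, |u' j| ≤ R) →
      (∀ j, |u j - u' j| ≤ t) → ∀ j, |Ψ u j - Ψ u' j| ≤ q * t := by
    intro u u' t hu hu' ht j
    have ht0 : 0 ≤ t := (abs_nonneg _).trans (ht j)
    exact (b2a287_psi_lip hN hnN hk hθ hLk hLK a y0 hd hD hrow u u' hu hu' ht j).trans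
      (mul_le_mul_of_nonneg_right hq ht0)
  have Ψ0 : ∀ j, Ψ 0 j = - b2a287G k θ N a y0 j := by
    intro j
    simp [hΨ, b2a287Psi]
  have mem : ∀ u : Fin n → ℝ, u ∈ Metric.closedBall (0 : Fin n → ℝ) R ↔ ∀ j, |u j| ≤ R := by
    intro u
    rw [mem_closedBall_zero_iff, pi_norm_le_iff_of_nonneg hR]
    simp [Real.norm_eq_abs]
  have bound : ∀ (u : Fin n → ℝ) (c : ℝ), (∀ j, |u j| ≤ R) → (∀ j, |u j| ≤ c) → ∀ j, |Ψ u j| ≤ e0 + q * c := by
    intro u c hu hc j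
    have h1 := lip u 0 c hu (fun _ => by simpa using hR) (fun i => by simpa using hc i) j
    have h2 : |Ψ 0 j| ≤ e0 := by rw [Ψ0, abs_neg]; exact hres j
    calc |Ψ u j| = |(Ψ u j - Ψ 0 j) + Ψ 0 j| := by ring_nf
      _ ≤ |Ψ u j - Ψ 0 j| + |Ψ 0 j| := abs_add_le _ _
      _ ≤ e0 + q * c := by linarith
  have maps : Set.MapsTo Ψ (Metric.closedBall (0 : Fin n → ℝ) R) (Metric.closedBall (0 : Fin n → ℝ) R) := by
    intro u hu
    rw [mem] at hu ⊢
    intro j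
    have := bound u R hu hu j
    nlinarith
  have contr : ContractingWith ⟨q, hq0⟩ (maps.restrict Ψ _ _) := by
    refine ⟨by exact_mod_cast hq1, LipschitzWith.of_dist_le_mul fun u u' => ?_⟩
    have hu := (mem _).1 u.2
    have hu' := (mem _).1 u'.2
    change dist (Ψ u.1) (Ψ u'.1) ≤ q * dist u.1 u'.1
    rw [dist_pi_le_iff (mul_nonneg hq0 dist_nonneg)]
    intro j
    rw [Real.dist_eq]
    refine lip u.1 u'.1 _ hu hu' (fun i => ?_) j
    rw [← Real.dist_eq]; exact dist_le_pi_dist _ _ i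
  obtain ⟨u, hus, hfix, -, -⟩ := contr.exists_fixedPoint' (Metric.isClosed_closedBall.isComplete) maps
    (x := 0) (Metric.mem_closedBall_self hR) (edist_ne_top _ _)
  have hu := (mem _).1 hus
  have hfix' : ∀ j, Ψ u j = u j := fun j => congrFun hfix j
  -- fixed points are zeros
  have zero_of_fix : ∀ v : Fin n → ℝ, (∀ j, Ψ v j = v j) →
      ∀ j, b2a287G k θ N a (fun i => y0 i + v i / W i) j = 0 := by
    intro v hv j
    have := hv j
    simp only [hΨ, b2a287Psi] at this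
    linarith
  refine ⟨fun i => y0 i + u i / W i, zero_of_fix u hfix', ?_, ?_⟩
  · -- the error bound
    intro j
    have hn : ∀ j, |u j| ≤ ‖u‖ := fun j => by rw [← Real.norm_eq_abs]; exact norm_le_pi_norm u j
    have h1 : ‖u‖ ≤ e0 + q * ‖u‖ := by
      have he : 0 ≤ e0 + q * ‖u‖ := (abs_nonneg _).trans (bound u ‖u‖ hu hn j)
      rw [pi_norm_le_iff_of_nonneg he]
      intro j
      rw [Real.norm_eq_abs, ← hfix' j]
      exact bound u ‖u‖ hu hn j
    have h2 : ‖u‖ ≤ e0 / (1 - q) := by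
      rw [le_div_iff₀ (by linarith)]; nlinarith
    have : W j * |y0 j + u j / W j - y0 j| = |u j| := by
      rw [add_sub_cancel_left, abs_div, abs_of_pos (hWpos j), mul_div_cancel₀ _ (hWpos j).ne']
    change W j * |y0 j + u j / W j - y0 j| ≤ _
    rw [this]; exact (hn j).trans h2
  · intro y' hy' hb
    set u' : Fin n → ℝ := fun i => W i * (y' i - y0 i) with hu'def
    have hu'R : ∀ j, |u' j| ≤ R := by
      intro j; simp only [hu'def]; rw [abs_mul, abs_of_pos (hWpos j)]; exact hb j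
    have ey' : (fun i => y0 i + u' i / W i) = y' := by
      funext i; simp only [hu'def]; rw [mul_div_cancel_left₀ _ (hWpos i).ne']; ring
    have hfixu' : ∀ j, Ψ u' j = u' j := by
      intro j
      have : Ψ u' j = u' j - b2a287G k θ N a (fun i => y0 i + u' i / W i) j := rfl
      rw [this, ey', hy' j, sub_zero]
    have hd0 : dist u' u ≤ q * dist u' u := by
      rw [dist_pi_le_iff (mul_nonneg hq0 dist_nonneg)]
      intro j
      rw [Real.dist_eq, ← hfixu' j, ← hfix' j]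
      refine lip u' u _ hu'R hu (fun i => ?_) j
      rw [← Real.dist_eq]; exact dist_le_pi_dist _ _ i
    have hd1 : dist u' u = 0 := by
      have := dist_nonneg (x := u') (y := u)
      nlinarith
    have : u' = u := dist_eq_zero.1 hd1
    rw [← ey', this]

end layer1

section layer1b

variable {n : ℕ} {N : ℝ} {k kd θ Kd : ℝ → ℝ} {Lk LK : ℝ}

/-- the Jacobian is injective on the whole ball. -/
theorem b2a287_jac (hN : 0 < N) (hnN : (n : ℝ) ≤ N)
    (hLk : ∀ x y, |kd x - kd y| ≤ Lk * |x - y|) (hLK : ∀ x y, |Kd x - Kd y| ≤ LK * |x - y|)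
    (y0 y' v : Fin n → ℝ) {dmin κ' R q : ℝ} (hd : 0 < dmin)
    (hD : ∀ j, dmin ≤ b2a287X kd Kd N y0 (y0 j))
    (hrow : ∀ j, ∑ l, |Kd (y0 j - y0 l)| / (N * b2a287X kd Kd N y0 (y0 l)) ≤ κ')
    (hr : ∀ j, |y' j - y0 j| ≤ R / dmin)
    (hq : κ' + (Lk + 4 * LK) * R / dmin ^ 2 ≤ q) (hq1 : q < 1)
    (hJ : ∀ j, b2a287J kd Kd N y' v j = 0) : v = 0 := by
  have hLk0 := b2a287_lip_nonneg hLk
  have hLK0 := b2a287_lip_nonneg hLK
  set W : Fin n → ℝ := fun i => b2a287X kd Kd N y0 (y0 i) with hW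
  have hWpos : ∀ i, 0 < W i := fun i => hd.trans_le (hD i)
  set w : Fin n → ℝ := fun i => W i * v i with hw
  set m := ‖w‖ with hm
  have hm0 : 0 ≤ m := norm_nonneg _
  have hwm : ∀ j, |w j| ≤ m := fun j => by rw [← Real.norm_eq_abs]; exact norm_le_pi_norm w j
  have hv : ∀ j, |v j| ≤ m / dmin := by
    intro j
    have e : v j = w j / W j := by simp only [hw]; rw [mul_div_cancel_left₀ _ (hWpos j).ne']
    rw [e, abs_div, abs_of_pos (hWpos j)]
    calc |w j| / W j ≤ m / W j := div_le_div_of_nonneg_right (hwm j) (hWpos j).le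
      _ ≤ m / dmin := div_le_div_of_nonneg_left hm0 hd (hD j)
  have step : ∀ j, |w j| ≤ q * m := by
    intro j
    have hr0 : 0 ≤ R / dmin := (abs_nonneg _).trans (hr j)
    set Δ : Fin n → ℝ := fun l => Kd (y' j - y' l) - Kd (y0 j - y0 l) with hΔ
    have bΔ : ∀ l, |Δ l| ≤ LK * (2 * (R / dmin)) := by
      intro l
      refine (hLK _ _).trans (mul_le_mul_of_nonneg_left ?_ hLK0)
      have : y' j - y' l - (y0 j - y0 l) = (y' j - y0 j) - (y' l - y0 l) := by ring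
      rw [this]; exact (abs_sub _ _).trans (by linarith [hr j, hr l])
    have e : w j = b2a287J kd Kd N y' v j - N⁻¹ * ∑ l, Kd (y0 j - y0 l) * (w l / W l)
        - ((kd (y' j) - kd (y0 j)) * v j - N⁻¹ * ∑ l, Δ l * (v j - v l)) := by
      have e1 : ∀ l, w l / W l = v l := fun l => by
        simp only [hw]; rw [mul_div_cancel_left₀ _ (hWpos l).ne']
      simp_rw [e1]
      have e2 : ∀ l, Δ l * (v j - v l) = Kd (y' j - y' l) * v j - Kd (y0 j - y0 l) * v j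
          - Kd (y' j - y' l) * v l + Kd (y0 j - y0 l) * v l := by intro l; simp only [hΔ]; ring
      simp_rw [e2]
      rw [sum_add_distrib, sum_sub_distrib, sum_sub_distrib, ← sum_mul, ← sum_mul]
      simp only [hw, hW, b2a287J, b2a287X]
      ring
    rw [hJ j, zero_sub] at e
    have b1 : |N⁻¹ * ∑ l, Kd (y0 j - y0 l) * (w l / W l)| ≤ κ' * m := by
      rw [mul_sum]
      refine (abs_sum_le_sum_abs _ _).trans ?_
      calc ∑ l, |N⁻¹ * (Kd (y0 j - y0 l) * (w l / W l))|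
          ≤ ∑ l, |Kd (y0 j - y0 l)| / (N * W l) * m := by
            refine sum_le_sum fun l _ => ?_
            rw [abs_mul, abs_mul, abs_div, abs_of_pos (inv_pos.2 hN), abs_of_pos (hWpos l)]
            have h0 : 0 ≤ |Kd (y0 j - y0 l)| / (N * W l) :=
              div_nonneg (abs_nonneg _) (mul_pos hN (hWpos l)).le
            calc N⁻¹ * (|Kd (y0 j - y0 l)| * (|w l| / W l))
                = |Kd (y0 j - y0 l)| / (N * W l) * |w l| := by
                  have := (hWpos l).ne'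
                  field_simp
              _ ≤ |Kd (y0 j - y0 l)| / (N * W l) * m := mul_le_mul_of_nonneg_left (hwm l) h0
        _ = (∑ l, |Kd (y0 j - y0 l)| / (N * W l)) * m := by rw [sum_mul]
        _ ≤ κ' * m := mul_le_mul_of_nonneg_right (hrow j) hm0
    have b2 : |(kd (y' j) - kd (y0 j)) * v j| ≤ Lk * (R / dmin) * (m / dmin) := by
      rw [abs_mul]
      exact mul_le_mul ((hLk _ _).trans (mul_le_mul_of_nonneg_left (hr j) hLk0)) (hv j)
        (abs_nonneg _) (by positivity)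
    have b3 : |N⁻¹ * ∑ l, Δ l * (v j - v l)| ≤ 4 * LK * (R / dmin) * (m / dmin) := by
      rw [abs_mul, abs_of_pos (inv_pos.2 hN)]
      have hc : 0 ≤ 4 * LK * (R / dmin) * (m / dmin) := by positivity
      have h1 : |∑ l, Δ l * (v j - v l)| ≤ n * (4 * LK * (R / dmin) * (m / dmin)) := by
        refine (abs_sum_le_sum_abs _ _).trans ?_
        have : ∀ l ∈ (univ : Finset (Fin n)), |Δ l * (v j - v l)| ≤ 4 * LK * (R / dmin) * (m / dmin) := by
          intro l _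
          rw [abs_mul]
          have h2 : |v j - v l| ≤ 2 * (m / dmin) := (abs_sub _ _).trans (by linarith [hv j, hv l])
          calc |Δ l| * |v j - v l| ≤ (LK * (2 * (R / dmin))) * (2 * (m / dmin)) :=
                mul_le_mul (bΔ l) h2 (abs_nonneg _) (by positivity)
            _ = 4 * LK * (R / dmin) * (m / dmin) := by ring
        refine (sum_le_sum this).trans ?_
        simp
      calc N⁻¹ * |∑ l, Δ l * (v j - v l)| ≤ N⁻¹ * (n * (4 * LK * (R / dmin) * (m / dmin))) :=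
            mul_le_mul_of_nonneg_left h1 (inv_pos.2 hN).le
        _ = (n / N) * (4 * LK * (R / dmin) * (m / dmin)) := by field_simp
        _ ≤ 1 * (4 * LK * (R / dmin) * (m / dmin)) :=
            mul_le_mul_of_nonneg_right ((div_le_one hN).2 hnN) hc
        _ = 4 * LK * (R / dmin) * (m / dmin) := one_mul _
    have b4 : |w j| ≤ κ' * m + (Lk * (R / dmin) * (m / dmin) + 4 * LK * (R / dmin) * (m / dmin)) := by
      rw [e]
      refine (abs_sub _ _).trans (add_le_add (by rwa [abs_neg]) ?_)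
      exact (abs_sub _ _).trans (add_le_add b2 b3)
    calc |w j| ≤ κ' * m + (Lk * (R / dmin) * (m / dmin) + 4 * LK * (R / dmin) * (m / dmin)) := b4
      _ = (κ' + (Lk + 4 * LK) * R / dmin ^ 2) * m := by field_simp
      _ ≤ q * m := mul_le_mul_of_nonneg_right hq hm0
  have hmle : m ≤ q * m := by
    rcases isEmpty_or_nonempty (Fin n) with h | ⟨⟨j⟩⟩
    · have : w = 0 := Subsingleton.elim _ _
      simp [hm, this]
    · have h0 : 0 ≤ q * m := (abs_nonneg _).trans (step j)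
      rw [hm, pi_norm_le_iff_of_nonneg (by rw [← hm]; exact h0)]
      intro i; rw [Real.norm_eq_abs, ← hm]; exact step i
  have hm00 : m = 0 := by nlinarith
  funext j
  have : |w j| ≤ 0 := hm00 ▸ hwm j
  have hwj : w j = 0 := abs_nonpos_iff.1 this
  simp only [hw] at hwj
  exact (mul_eq_zero.1 hwj).resolve_left (hWpos j).ne'

/-- the solutions near `y0` are strictly increasing. -/
theorem b2a287_order (hN : 0 < N) (hnN : (n : ℝ) ≤ N)
    (hk : ∀ x, HasDerivAt k (kd x) x) (hθ : ∀ x, HasDerivAt θ (Kd x) x)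
    (hLk : ∀ x y, |kd x - kd y| ≤ Lk * |x - y|) (hLK : ∀ x y, |Kd x - Kd y| ≤ LK * |x - y|)
    {α β : ℝ} (a y0 y : Fin n → ℝ) {dmin r : ℝ} (hy0 : ∀ j, y0 j ∈ Set.Icc α β)
    (hX : ∀ x ∈ Set.Icc α β, dmin ≤ b2a287X kd Kd N y0 x) (hr : ∀ j, |y j - y0 j| ≤ r)
    (hsmall : (Lk + 2 * LK) * r < dmin) (ha : StrictMono a) (hG : ∀ j, b2a287G k θ N a y j = 0) :
    StrictMono y := by
  have hLk0 := b2a287_lip_nonneg hLk
  have hLK0 := b2a287_lip_nonneg hLK
  intro i j hij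
  have hr0 : 0 ≤ r := (abs_nonneg _).trans (hr i)
  have hαβ : α ≤ β := (hy0 i).1.trans (hy0 i).2
  set F : ℝ → ℝ := fun x => k x - N⁻¹ * ∑ l, θ (x - y l) with hF
  have hFd : ∀ x, HasDerivAt F (b2a287X kd Kd N y x) x := by
    intro x
    have h1 : HasDerivAt (fun x => ∑ l, θ (x - y l)) (∑ l, Kd (x - y l)) x :=
      HasDerivAt.fun_sum fun l _ => (hθ (x - y l)).comp_sub_const x (y l)
    exact (hk x).sub (h1.const_mul N⁻¹)
  have hpos : ∀ x ∈ Set.Icc (α - r) (β + r), 0 < b2a287X kd Kd N y x := by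
    intro x hx
    set x' := max α (min x β) with hx'
    have hx'm : x' ∈ Set.Icc α β := ⟨le_max_left _ _, max_le hαβ (min_le_right _ _)⟩
    have hxx : |x - x'| ≤ r := by
      rw [abs_le, hx']
      constructor
      · rcases le_total α (min x β) with h | h
        · rw [max_eq_right h]; linarith [min_le_left x β]
        · rw [max_eq_left h]; linarith [hx.1]
      · rcases le_total x β with h | h
        · rw [min_eq_left h]; linarith [le_max_right α x]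
        · rw [min_eq_right h, max_eq_right hαβ]; linarith [hx.2]
    have e : b2a287X kd Kd N y x = b2a287X kd Kd N y0 x' + (kd x - kd x')
        - N⁻¹ * ∑ l, (Kd (x - y l) - Kd (x' - y0 l)) := by
      rw [sum_sub_distrib]; simp only [b2a287X]; ring
    have b1 : |kd x - kd x'| ≤ Lk * r := (hLk _ _).trans (mul_le_mul_of_nonneg_left hxx hLk0)
    have b2 : |N⁻¹ * ∑ l, (Kd (x - y l) - Kd (x' - y0 l))| ≤ 2 * LK * r := by
      rw [abs_mul, abs_of_pos (inv_pos.2 hN)]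
      have hc : 0 ≤ 2 * LK * r := by positivity
      have h1 : |∑ l, (Kd (x - y l) - Kd (x' - y0 l))| ≤ n * (2 * LK * r) := by
        refine (abs_sum_le_sum_abs _ _).trans ?_
        have : ∀ l ∈ (univ : Finset (Fin n)), |Kd (x - y l) - Kd (x' - y0 l)| ≤ 2 * LK * r := by
          intro l _
          refine (hLK _ _).trans ?_
          have h2 : |x - y l - (x' - y0 l)| ≤ 2 * r := by
            have : x - y l - (x' - y0 l) = (x - x') - (y l - y0 l) := by ring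
            rw [this]; exact (abs_sub _ _).trans (by linarith [hr l])
          calc LK * |x - y l - (x' - y0 l)| ≤ LK * (2 * r) := mul_le_mul_of_nonneg_left h2 hLK0
            _ = 2 * LK * r := by ring
        refine (sum_le_sum this).trans ?_
        simp
      calc N⁻¹ * |∑ l, (Kd (x - y l) - Kd (x' - y0 l))| ≤ N⁻¹ * (n * (2 * LK * r)) :=
            mul_le_mul_of_nonneg_left h1 (inv_pos.2 hN).le
        _ = (n / N) * (2 * LK * r) := by field_simp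
        _ ≤ 1 * (2 * LK * r) := mul_le_mul_of_nonneg_right ((div_le_one hN).2 hnN) hc
        _ = 2 * LK * r := one_mul _
    have := hX x' hx'm
    rw [e]
    linarith [(abs_le.1 b1).1, (abs_le.1 b2).2]
  have hmono : StrictMonoOn F (Set.Icc (α - r) (β + r)) := by
    apply strictMonoOn_of_deriv_pos (convex_Icc _ _)
    · exact fun x _ => (hFd x).continuousAt.continuousWithinAt
    · intro x hx
      rw [(hFd x).deriv]
      exact hpos x (interior_subset hx)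
  have mem : ∀ l, y l ∈ Set.Icc (α - r) (β + r) := by
    intro l
    have h1 := abs_le.1 (hr l)
    constructor <;> linarith [(hy0 l).1, (hy0 l).2, h1.1, h1.2]
  have val : ∀ l, F (y l) = a l := by
    intro l
    have := hG l
    simp only [b2a287G] at this
    simp only [hF]; linarith
  rw [← hmono.lt_iff_lt (mem i) (mem j), val, val]
  exact ha hij

end layer1b

/-! ## Layer 2: the continuum density as a hypothesis (normalisation of paper 290: `ρ + K_Q ρ = s`, `k = S`, `θ = Θ`, no `2π`) -/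

open MeasureTheory intervalIntegral

/-! ### the measure part: cells of equal mass, quadrature -/

theorem b2a287_lip_cont {g : ℝ → ℝ} {L : ℝ} (hL : ∀ x y, |g x - g y| ≤ L * |x - y|) : Continuous g := by
  have h0 := b2a287_lip_nonneg hL
  have : LipschitzWith ⟨L, h0⟩ g := LipschitzWith.of_dist_le_mul fun x y => by
    rw [Real.dist_eq, Real.dist_eq]; exact hL x y
  exact this.continuous

section meas

variable {Q ρmin ρmax : ℝ} {ρ : ℝ → ℝ}

theorem b2a287_ii (hρc : ContinuousOn ρ (Set.Icc (-Q) Q)) {x y : ℝ} (hx : x ∈ Set.Icc (-Q) Q)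
    (hy : y ∈ Set.Icc (-Q) Q) : IntervalIntegrable ρ volume x y :=
  (hρc.mono (Set.uIcc_subset_Icc hx hy)).intervalIntegrable

theorem b2a287_int_lower (hρc : ContinuousOn ρ (Set.Icc (-Q) Q)) (hmin : ∀ x ∈ Set.Icc (-Q) Q, ρmin ≤ ρ x)
    {x y : ℝ} (hx : x ∈ Set.Icc (-Q) Q) (hy : y ∈ Set.Icc (-Q) Q) (hxy : x ≤ y) :
    ρmin * (y - x) ≤ ∫ t in x..y, ρ t := by
  have h := intervalIntegral.integral_mono_on (f := fun _ => ρmin) (g := ρ) hxy
    intervalIntegrable_const (b2a287_ii hρc hx hy) (fun t ht => hmin t ⟨hx.1.trans ht.1, ht.2.trans hy.2⟩)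
  simpa [mul_comm] using h

theorem b2a287_int_upper (hρc : ContinuousOn ρ (Set.Icc (-Q) Q)) (hmax : ∀ x ∈ Set.Icc (-Q) Q, ρ x ≤ ρmax)
    {x y : ℝ} (hx : x ∈ Set.Icc (-Q) Q) (hy : y ∈ Set.Icc (-Q) Q) (hxy : x ≤ y) :
    ∫ t in x..y, ρ t ≤ ρmax * (y - x) := by
  have h := intervalIntegral.integral_mono_on (f := ρ) (g := fun _ => ρmax) hxy
    (b2a287_ii hρc hx hy) intervalIntegrable_const (fun t ht => hmax t ⟨hx.1.trans ht.1, ht.2.trans hy.2⟩)
  simpa [mul_comm] using h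

/-- the primitive orders the points. -/
theorem b2a287_le_of_prim_le (hQ : 0 < Q) (hρmin : 0 < ρmin) (hρc : ContinuousOn ρ (Set.Icc (-Q) Q))
    (hmin : ∀ x ∈ Set.Icc (-Q) Q, ρmin ≤ ρ x)
    {x y : ℝ} (hx : x ∈ Set.Icc (-Q) Q) (hy : y ∈ Set.Icc (-Q) Q)
    (h : ∫ t in (0 : ℝ)..x, ρ t ≤ ∫ t in (0 : ℝ)..y, ρ t) : x ≤ y := by
  by_contra hlt
  rw [not_le] at hlt
  have h0 : (0 : ℝ) ∈ Set.Icc (-Q) Q := ⟨by linarith, hQ.le⟩
  have e : (∫ t in (0 : ℝ)..y, ρ t) + ∫ t in y..x, ρ t = ∫ t in (0 : ℝ)..x, ρ t :=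
    intervalIntegral.integral_add_adjacent_intervals (b2a287_ii hρc h0 hy) (b2a287_ii hρc hy hx)
  have := b2a287_int_lower hρc hmin hy hx hlt.le
  nlinarith

theorem b2a287_half (hQ : 0 < Q) (hρc : ContinuousOn ρ (Set.Icc (-Q) Q)) (hρev : ∀ x, ρ (-x) = ρ x) :
    (∫ t in (0 : ℝ)..Q, ρ t = (∫ t in (-Q)..Q, ρ t) / 2) ∧
      ∫ t in (0 : ℝ)..(-Q), ρ t = -((∫ t in (-Q)..Q, ρ t) / 2) := by
  have h0 : (0 : ℝ) ∈ Set.Icc (-Q) Q := ⟨by linarith, hQ.le⟩
  have hm : (-Q) ∈ Set.Icc (-Q) Q := ⟨le_rfl, by linarith⟩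
  have hp : Q ∈ Set.Icc (-Q) Q := ⟨by linarith, le_rfl⟩
  have e1 : (∫ t in (-Q)..(0 : ℝ), ρ t) + ∫ t in (0 : ℝ)..Q, ρ t = ∫ t in (-Q)..Q, ρ t :=
    intervalIntegral.integral_add_adjacent_intervals (b2a287_ii hρc hm h0) (b2a287_ii hρc h0 hp)
  have e2 : ∫ t in (-Q)..(0 : ℝ), ρ t = ∫ t in (0 : ℝ)..Q, ρ t := by
    have := intervalIntegral.integral_comp_neg (a := 0) (b := Q) ρ
    simp only [hρev, neg_zero] at this
    exact this.symm
  have e3 : ∫ t in (0 : ℝ)..(-Q), ρ t = - ∫ t in (-Q)..(0 : ℝ), ρ t := intervalIntegral.integral_symm _ _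
  constructor
  · linarith
  · rw [e3, e2]; linarith

/-- every level in `[-D/2, D/2]` is attained by the primitive. -/
theorem b2a287_level (hQ : 0 < Q) (hρc : ContinuousOn ρ (Set.Icc (-Q) Q)) (hρev : ∀ x, ρ (-x) = ρ x)
    {c : ℝ} (hc1 : -((∫ t in (-Q)..Q, ρ t) / 2) ≤ c) (hc2 : c ≤ (∫ t in (-Q)..Q, ρ t) / 2) :
    ∃ x ∈ Set.Icc (-Q) Q, ∫ t in (0 : ℝ)..x, ρ t = c := by
  have hm : (-Q) ∈ Set.Icc (-Q) Q := ⟨le_rfl, by linarith⟩
  have hp : Q ∈ Set.Icc (-Q) Q := ⟨by linarith, le_rfl⟩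
  have hle : -Q ≤ Q := by linarith
  have hcont : ContinuousOn (fun x => ∫ t in (0 : ℝ)..x, ρ t) (Set.Icc (-Q) Q) := by
    have := intervalIntegral.continuousOn_primitive_interval' (μ := volume) (a := 0)
      (b2a287_ii hρc hm hp) (by rw [Set.uIcc_of_le hle]; exact ⟨by linarith, hQ.le⟩)
    rwa [Set.uIcc_of_le hle] at this
  obtain ⟨h1, h2⟩ := b2a287_half hQ hρc hρev
  have := intermediate_value_Icc hle hcont
  have hc : c ∈ Set.Icc (∫ t in (0 : ℝ)..(-Q), ρ t) (∫ t in (0 : ℝ)..Q, ρ t) := by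
    rw [h1, h2]; exact ⟨hc1, hc2⟩
  obtain ⟨x, hx, e⟩ := this hc
  exact ⟨x, hx, e⟩

/-- the quantum numbers `I_j = j - (n - 1) / 2`, `j = 0, …, n - 1`. -/
noncomputable def b2a287I (n : ℕ) (j : Fin n) : ℝ := ((j : ℕ) : ℝ) - ((n : ℝ) - 1) / 2

/-- mid-quantiles of `ρ` on `[-Q, Q]` (`n` cells of equal `ρ`-mass). -/
def B2a287Quant (Q : ℝ) (ρ : ℝ → ℝ) (n : ℕ) (y0 : Fin n → ℝ) : Prop :=
  ∀ j : Fin n, y0 j ∈ Set.Icc (-Q) Q ∧
    ∫ x in (0 : ℝ)..(y0 j), ρ x = (∫ x in (-Q)..Q, ρ x) * b2a287I n j / n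

/-- the cells of the mid-quantiles: `n` adjacent intervals of equal `ρ`-mass, of length `≤ h`. -/
structure B2a287Part (Q : ℝ) (ρ : ℝ → ℝ) (n : ℕ) (y0 : Fin n → ℝ) (b : ℕ → ℝ) (h : ℝ) : Prop where
  b0 : b 0 = -Q
  bn : b n = Q
  mem : ∀ i ≤ n, b i ∈ Set.Icc (-Q) Q
  mono : ∀ i < n, b i ≤ b (i + 1)
  mass : ∀ i < n, ∫ t in b i..b (i + 1), ρ t = (∫ t in (-Q)..Q, ρ t) / n
  y0mem : ∀ j : Fin n, y0 j ∈ Set.Icc (b j) (b (j + 1))
  len : ∀ i < n, b (i + 1) - b i ≤ h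

theorem b2a287_D_pos (hQ : 0 < Q) (hρc : ContinuousOn ρ (Set.Icc (-Q) Q))
    (hmin : ∀ x ∈ Set.Icc (-Q) Q, ρmin ≤ ρ x) : ρmin * (2 * Q) ≤ ∫ t in (-Q)..Q, ρ t := by
  have := b2a287_int_lower hρc hmin (x := -Q) (y := Q) ⟨le_rfl, by linarith⟩ ⟨by linarith, le_rfl⟩
    (by linarith)
  linarith

/-- **the cells exist.** -/
theorem b2a287_part (hQ : 0 < Q) (hρmin : 0 < ρmin) (hρc : ContinuousOn ρ (Set.Icc (-Q) Q))
    (hρev : ∀ x, ρ (-x) = ρ x) (hmin : ∀ x ∈ Set.Icc (-Q) Q, ρmin ≤ ρ x)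
    {n : ℕ} (hn : 0 < n) {y0 : Fin n → ℝ} (h0 : B2a287Quant Q ρ n y0) :
    ∃ b : ℕ → ℝ, B2a287Part Q ρ n y0 b ((∫ t in (-Q)..Q, ρ t) / (n * ρmin)) := by
  set D := ∫ t in (-Q)..Q, ρ t with hD
  have hDpos : 0 < D := lt_of_lt_of_le (by positivity) (b2a287_D_pos hQ hρc hmin)
  have hn' : (0 : ℝ) < n := by exact_mod_cast hn
  have hz : (0 : ℝ) ∈ Set.Icc (-Q) Q := ⟨by linarith, hQ.le⟩
  have hm : (-Q) ∈ Set.Icc (-Q) Q := ⟨le_rfl, by linarith⟩
  have hp : Q ∈ Set.Icc (-Q) Q := ⟨by linarith, le_rfl⟩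
  obtain ⟨hh1, hh2⟩ := b2a287_half hQ hρc hρev
  have ex : ∀ i : ℕ, ∃ x ∈ Set.Icc (-Q) Q, i ≤ n → ∫ t in (0 : ℝ)..x, ρ t = D * ((i : ℝ) / n - 1 / 2) := by
    intro i
    by_cases hi : i ≤ n
    · have hi' : (i : ℝ) / n ≤ 1 := (div_le_one hn').2 (by exact_mod_cast hi)
      have hi0 : 0 ≤ (i : ℝ) / n := by positivity
      obtain ⟨x, hx, e⟩ := b2a287_level hQ hρc hρev (c := D * ((i : ℝ) / n - 1 / 2))
        (by nlinarith) (by nlinarith)
      exact ⟨x, hx, fun _ => e⟩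
    · exact ⟨Q, hp, fun h => absurd h hi⟩
  choose b hb hP using ex
  have ord := fun {x y : ℝ} (hx : x ∈ Set.Icc (-Q) Q) (hy : y ∈ Set.Icc (-Q) Q) =>
    b2a287_le_of_prim_le hQ hρmin hρc hmin hx hy
  have mono : ∀ i < n, b i ≤ b (i + 1) := by
    intro i hi
    apply ord (hb i) (hb (i + 1))
    rw [hP i hi.le, hP (i + 1) hi]
    apply mul_le_mul_of_nonneg_left _ hDpos.le
    have : (i : ℝ) / n ≤ ((i + 1 : ℕ) : ℝ) / n := by
      apply div_le_div_of_nonneg_right _ hn'.le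
      push_cast; linarith
    linarith
  have mass : ∀ i < n, ∫ t in b i..b (i + 1), ρ t = D / n := by
    intro i hi
    rw [← intervalIntegral.integral_interval_sub_left (b2a287_ii hρc hz (hb (i + 1)))
      (b2a287_ii hρc hz (hb i)), hP i hi.le, hP (i + 1) hi]
    push_cast
    field_simp
    ring
  refine ⟨b, ?_, ?_, fun i _ => hb i, mono, mass, ?_, ?_⟩
  · apply le_antisymm
    · apply ord (hb 0) hm
      rw [hP 0 (Nat.zero_le _), hh2]; simp; linarith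
    · exact (hb 0).1
  · apply le_antisymm
    · exact (hb n).2
    · apply ord hp (hb n)
      rw [hP n le_rfl, hh1, div_self hn'.ne']; linarith
  · intro j
    obtain ⟨hj1, hj2⟩ := h0 j
    have hjn : (j : ℕ) < n := j.2
    constructor
    · apply ord (hb j) hj1
      rw [hP j hjn.le, hj2, b2a287I, mul_div_assoc]
      apply mul_le_mul_of_nonneg_left _ hDpos.le
      rw [le_div_iff₀ hn']
      have : ((j : ℕ) : ℝ) / n * n = (j : ℕ) := div_mul_cancel₀ _ hn'.ne'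
      nlinarith
    · apply ord hj1 (hb (j + 1))
      rw [hP (j + 1) hjn, hj2, b2a287I, mul_div_assoc]
      apply mul_le_mul_of_nonneg_left _ hDpos.le
      rw [div_le_iff₀ hn']
      have : (((j : ℕ) + 1 : ℕ) : ℝ) / n * n = ((j : ℕ) + 1 : ℕ) := div_mul_cancel₀ _ hn'.ne'
      push_cast at this ⊢
      nlinarith
  · intro i hi
    have := b2a287_int_lower hρc hmin (hb i) (hb (i + 1)) (mono i hi)
    rw [mass i hi] at this
    rw [le_div_iff₀ (by positivity)]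
    have e : D / n * n = D := div_mul_cancel₀ _ hn'.ne'
    nlinarith

/-- quadrature on one cell. -/
theorem b2a287_cell {α β p w : ℝ} (hαβ : α ≤ β) (hρc : ContinuousOn ρ (Set.Icc α β))
    (hρ0 : ∀ x ∈ Set.Icc α β, 0 ≤ ρ x) {g : ℝ → ℝ} (hg : Continuous g)
    (hw : ∀ x ∈ Set.Icc α β, |g x - g p| ≤ w) :
    |(∫ t in α..β, g t * ρ t) - g p * ∫ t in α..β, ρ t| ≤ w * ∫ t in α..β, ρ t := by
  have iρ : IntervalIntegrable ρ volume α β := hρc.intervalIntegrable_of_Icc hαβ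
  have igρ : IntervalIntegrable (fun t => g t * ρ t) volume α β :=
    (hg.continuousOn.mul hρc).intervalIntegrable_of_Icc hαβ
  have e1 : (∫ t in α..β, g t * ρ t) - g p * ∫ t in α..β, ρ t = ∫ t in α..β, (g t - g p) * ρ t := by
    rw [← intervalIntegral.integral_const_mul, ← intervalIntegral.integral_sub igρ (iρ.const_mul _)]
    apply intervalIntegral.integral_congr; intro x _; simp only; ring
  rw [e1, ← intervalIntegral.integral_const_mul]
  have cont : ContinuousOn (fun t => (g t - g p) * ρ t) (Set.Icc α β) :=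
    ((hg.sub continuous_const).continuousOn).mul hρc
  calc |∫ t in α..β, (g t - g p) * ρ t| ≤ ∫ t in α..β, |(g t - g p) * ρ t| := by
        have := intervalIntegral.norm_integral_le_integral_norm (f := fun t => (g t - g p) * ρ t)
          (μ := volume) hαβ
        simpa [Real.norm_eq_abs] using this
    _ ≤ ∫ t in α..β, w * ρ t := by
        apply intervalIntegral.integral_mono_on hαβ
          (cont.abs.intervalIntegrable_of_Icc hαβ) (iρ.const_mul _)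
        intro x hx
        rw [abs_mul, abs_of_nonneg (hρ0 x hx)]
        exact mul_le_mul_of_nonneg_right (hw x hx) (hρ0 x hx)

theorem B2a287Part.sub {n : ℕ} {y0 : Fin n → ℝ} {b : ℕ → ℝ} {h : ℝ} (hp : B2a287Part Q ρ n y0 b h)
    {i : ℕ} (hi : i < n) : Set.Icc (b i) (b (i + 1)) ⊆ Set.Icc (-Q) Q :=
  Set.Icc_subset_Icc (hp.mem i hi.le).1 (hp.mem (i + 1) hi).2

theorem B2a287Part.dist {n : ℕ} {y0 : Fin n → ℝ} {b : ℕ → ℝ} {h : ℝ} (hp : B2a287Part Q ρ n y0 b h)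
    (j : Fin n) {x : ℝ} (hx : x ∈ Set.Icc (b j) (b (j + 1))) : |x - y0 j| ≤ h := by
  have h1 := hp.y0mem j
  have h2 := hp.len j j.2
  rw [abs_le]; constructor <;> linarith [h1.1, h1.2, hx.1, hx.2]

/-- **`ρ`-weighted quadrature at the mid-quantiles.** -/
theorem b2a287_quad_rho (hρc : ContinuousOn ρ (Set.Icc (-Q) Q)) (hρ0 : ∀ x ∈ Set.Icc (-Q) Q, 0 ≤ ρ x)
    {n : ℕ} (hn : 0 < n) {y0 : Fin n → ℝ} {b : ℕ → ℝ} {h : ℝ} (hp : B2a287Part Q ρ n y0 b h)
    {g : ℝ → ℝ} {L : ℝ} (hg : ∀ x y, |g x - g y| ≤ L * |x - y|) :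
    |(∫ t in (-Q)..Q, g t * ρ t) - (∫ t in (-Q)..Q, ρ t) / n * ∑ j, g (y0 j)|
      ≤ L * h * ∫ t in (-Q)..Q, ρ t := by
  set D := ∫ t in (-Q)..Q, ρ t with hD
  have hL0 := b2a287_lip_nonneg hg
  have hgc := b2a287_lip_cont hg
  have hn' : (0 : ℝ) < n := by exact_mod_cast hn
  have ii : ∀ i < n, IntervalIntegrable (fun t => g t * ρ t) volume (b i) (b (i + 1)) := fun i hi =>
    (hgc.continuousOn.mul (hρc.mono (hp.sub hi))).intervalIntegrable_of_Icc (hp.mono i hi)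
  have e1 : ∫ t in (-Q)..Q, g t * ρ t = ∑ j : Fin n, ∫ t in b j..b (j + 1), g t * ρ t := by
    rw [← hp.b0, ← hp.bn, ← intervalIntegral.sum_integral_adjacent_intervals ii, Finset.sum_range]
  rw [e1, mul_sum, ← sum_sub_distrib]
  refine (abs_sum_le_sum_abs _ _).trans ?_
  have cell : ∀ j : Fin n, |(∫ t in b j..b (j + 1), g t * ρ t) - D / n * g (y0 j)| ≤ L * h * (D / n) := by
    intro j
    have := b2a287_cell (p := y0 j) (w := L * h) (hp.mono j j.2) (hρc.mono (hp.sub j.2))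
      (fun x hx => hρ0 x (hp.sub j.2 hx)) hgc
      (fun x hx => (hg x (y0 j)).trans (mul_le_mul_of_nonneg_left (hp.dist j hx) hL0))
    rw [hp.mass j j.2] at this
    rwa [mul_comm (D / n)]
  refine (sum_le_sum fun j _ => cell j).trans ?_
  simp only [sum_const, card_univ, Fintype.card_fin, nsmul_eq_mul]
  apply le_of_eq
  field_simp

/-- **Lebesgue quadrature at the mid-quantiles** (one sided). -/
theorem b2a287_quad_leb {n : ℕ} {y0 : Fin n → ℝ} {b : ℕ → ℝ} {h : ℝ} (hp : B2a287Part Q ρ n y0 b h)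
    {g : ℝ → ℝ} {L : ℝ} (hg : ∀ x y, |g x - g y| ≤ L * |x - y|) :
    ∑ j : Fin n, |g (y0 j)| * (b (j + 1) - b j) ≤ (∫ t in (-Q)..Q, |g t|) + L * h * (2 * Q) := by
  have hL0 := b2a287_lip_nonneg hg
  have hgc := b2a287_lip_cont hg
  have ii : ∀ i < n, IntervalIntegrable (fun t => |g t|) volume (b i) (b (i + 1)) := fun i _ =>
    hgc.abs.intervalIntegrable _ _
  have e1 : ∫ t in (-Q)..Q, |g t| = ∑ j : Fin n, ∫ t in b j..b (j + 1), |g t| := by
    rw [← hp.b0, ← hp.bn, ← intervalIntegral.sum_integral_adjacent_intervals ii, Finset.sum_range]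
  have e2 : 2 * Q = ∑ j : Fin n, (b (j + 1) - b j) := by
    rw [← Finset.sum_range (fun i => b (i + 1) - b i), Finset.sum_range_sub, hp.b0, hp.bn]; ring
  rw [e1, e2, mul_sum, ← sum_add_distrib]
  refine sum_le_sum fun j _ => ?_
  have hm := hp.mono j j.2
  have h1 : ∫ t in b j..b (j + 1), (|g (y0 j)| - L * h) ≤ ∫ t in b j..b (j + 1), |g t| := by
    apply intervalIntegral.integral_mono_on hm intervalIntegrable_const (ii j j.2)
    intro x hx
    have h2 := (hg x (y0 j)).trans (mul_le_mul_of_nonneg_left (hp.dist j hx) hL0)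
    have h3 : |g (y0 j)| - |g x| ≤ |g (y0 j) - g x| := abs_sub_abs_le_abs_sub _ _
    rw [abs_sub_comm] at h3
    linarith
  rw [intervalIntegral.integral_const, smul_eq_mul] at h1
  nlinarith

/-- lower bound for the length of a cell. -/
theorem b2a287_len_lower (hρc : ContinuousOn ρ (Set.Icc (-Q) Q))
    {n : ℕ} {y0 : Fin n → ℝ} {b : ℕ → ℝ} {h : ℝ} (hp : B2a287Part Q ρ n y0 b h) {Lρ : ℝ} (hLρ0 : 0 ≤ Lρ)
    (hLρ : ∀ x ∈ Set.Icc (-Q) Q, ∀ y ∈ Set.Icc (-Q) Q, |ρ x - ρ y| ≤ Lρ * |x - y|) (j : Fin n) :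
    (∫ t in (-Q)..Q, ρ t) / n ≤ (ρ (y0 j) + Lρ * h) * (b (j + 1) - b j) := by
  rw [← hp.mass j j.2]
  have hm := hp.mono j j.2
  have h1 : ∫ t in b j..b (j + 1), ρ t ≤ ∫ t in b j..b (j + 1), (ρ (y0 j) + Lρ * h) := by
    apply intervalIntegral.integral_mono_on hm
      ((hρc.mono (hp.sub j.2)).intervalIntegrable_of_Icc hm) intervalIntegrable_const
    intro x hx
    have h2 := (hLρ x (hp.sub j.2 hx) (y0 j) (hp.sub j.2 (hp.y0mem j))).trans
      (mul_le_mul_of_nonneg_left (hp.dist j hx) hLρ0)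
    linarith [le_abs_self (ρ x - ρ (y0 j))]
  rw [intervalIntegral.integral_const, smul_eq_mul] at h1
  linarith

end meas


/-- hypotheses on the continuum data; ALL constants are explicit parameters. -/
structure B2a287Hyp (Q ρmin ρmax κ B0 Θ0 Lk LK : ℝ) (k kd θ Kd ρ : ℝ → ℝ) : Prop where
  hk : ∀ x, HasDerivAt k (kd x) x
  hθ : ∀ x, HasDerivAt θ (Kd x) x
  hLk : ∀ x y, |kd x - kd y| ≤ Lk * |x - y|
  hLK : ∀ x y, |Kd x - Kd y| ≤ LK * |x - y|
  hB0 : ∀ x, |Kd x| ≤ B0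
  hΘ0 : ∀ x, |θ x| ≤ Θ0
  hρc : ContinuousOn ρ (Set.Icc (-Q) Q)
  hρev : ∀ x, ρ (-x) = ρ x
  hρmin : ∀ x ∈ Set.Icc (-Q) Q, ρmin ≤ ρ x
  hρmax : ∀ x ∈ Set.Icc (-Q) Q, ρ x ≤ ρmax
  heq : ∀ x ∈ Set.Icc (-Q) Q, ρ x = kd x - ∫ y in (-Q)..Q, Kd (x - y) * ρ y
  hcount : ∀ x ∈ Set.Icc (-Q) Q, k x - ∫ y in (-Q)..Q, θ (x - y) * ρ y = ∫ y in (0 : ℝ)..x, ρ y
  hκ : ∀ x ∈ Set.Icc (-Q) Q, ∫ y in (-Q)..Q, |Kd (x - y)| ≤ κ

/-- the mid-quantiles exist. -/
theorem b2a287_quant_exists {Q ρmin : ℝ} (hQ : 0 < Q) (hρmin : 0 < ρmin) {ρ : ℝ → ℝ}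
    (hρc : ContinuousOn ρ (Set.Icc (-Q) Q)) (hρev : ∀ x, ρ (-x) = ρ x)
    (hmin : ∀ x ∈ Set.Icc (-Q) Q, ρmin ≤ ρ x) (n : ℕ) :
    ∃ y0 : Fin n → ℝ, B2a287Quant Q ρ n y0 := by
  have hDpos : 0 < ∫ t in (-Q)..Q, ρ t := lt_of_lt_of_le (by positivity) (b2a287_D_pos hQ hρc hmin)
  have ex : ∀ j : Fin n, ∃ x ∈ Set.Icc (-Q) Q,
      ∫ t in (0 : ℝ)..x, ρ t = (∫ x in (-Q)..Q, ρ x) * b2a287I n j / n := by
    intro j
    have hn' : (0 : ℝ) < n := by exact_mod_cast (Nat.zero_le _).trans_lt j.2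
    have hj : ((j : ℕ) : ℝ) + 1 ≤ n := by exact_mod_cast j.2
    have hj0 : (0 : ℝ) ≤ ((j : ℕ) : ℝ) := by positivity
    apply b2a287_level hQ hρc hρev
    · have e : -((∫ t in (-Q)..Q, ρ t) / 2) = (∫ t in (-Q)..Q, ρ t) * (-(1 / 2)) := by ring
      rw [mul_div_assoc, e]
      apply mul_le_mul_of_nonneg_left _ hDpos.le
      rw [le_div_iff₀ hn', b2a287I]; nlinarith
    · rw [mul_div_assoc, div_eq_mul_inv _ (2 : ℝ)]
      apply mul_le_mul_of_nonneg_left _ hDpos.le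
      rw [div_le_iff₀ hn', b2a287I]; nlinarith
  choose y0 h1 h2 using ex
  exact ⟨y0, fun j => ⟨h1 j, h2 j⟩⟩

/-- the mid-quantiles are unique, and symmetric. -/
theorem b2a287_quant_unique {Q ρmin : ℝ} (hQ : 0 < Q) (hρmin : 0 < ρmin) {ρ : ℝ → ℝ}
    (hρc : ContinuousOn ρ (Set.Icc (-Q) Q))
    (hmin : ∀ x ∈ Set.Icc (-Q) Q, ρmin ≤ ρ x) {n : ℕ} {y0 y1 : Fin n → ℝ}
    (h0 : B2a287Quant Q ρ n y0) (h1 : B2a287Quant Q ρ n y1) : y0 = y1 := by
  funext j
  apply le_antisymm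
  · exact b2a287_le_of_prim_le hQ hρmin hρc hmin (h0 j).1 (h1 j).1 (by rw [(h0 j).2, (h1 j).2])
  · exact b2a287_le_of_prim_le hQ hρmin hρc hmin (h1 j).1 (h0 j).1 (by rw [(h0 j).2, (h1 j).2])

section asm

variable {Q ρmin ρmax κ B0 Θ0 Lk LK : ℝ} {k kd θ Kd ρ : ℝ → ℝ}

theorem B2a287Hyp.θlip (H : B2a287Hyp Q ρmin ρmax κ B0 Θ0 Lk LK k kd θ Kd ρ) :
    ∀ x y, |θ x - θ y| ≤ B0 * |x - y| := by
  intro x y
  have := Convex.norm_image_sub_le_of_norm_hasDerivWithin_le (f := θ) (f' := Kd) (s := Set.univ) (C := B0)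
    (fun x _ => (H.hθ x).hasDerivWithinAt) (fun x _ => by rw [Real.norm_eq_abs]; exact H.hB0 x)
    convex_univ (Set.mem_univ y) (Set.mem_univ x)
  simpa [Real.norm_eq_abs] using this

theorem B2a287Hyp.ρ0 (H : B2a287Hyp Q ρmin ρmax κ B0 Θ0 Lk LK k kd θ Kd ρ) (hρmin : 0 < ρmin) :
    ∀ x ∈ Set.Icc (-Q) Q, 0 ≤ ρ x := fun x hx => hρmin.le.trans (H.hρmin x hx)

/-- quadrature with the weight `1 / N` instead of `D / n`. -/
theorem b2a287_quad_N (hρc : ContinuousOn ρ (Set.Icc (-Q) Q)) (hρ0 : ∀ x ∈ Set.Icc (-Q) Q, 0 ≤ ρ x)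
    {n : ℕ} (hn : 0 < n) {N : ℝ} (hN : 0 < N) {y0 : Fin n → ℝ} {b : ℕ → ℝ} {h : ℝ}
    (hp : B2a287Part Q ρ n y0 b h)
    {g : ℝ → ℝ} {L M : ℝ} (hg : ∀ x y, |g x - g y| ≤ L * |x - y|) (hM : ∀ x, |g x| ≤ M) :
    |(∫ t in (-Q)..Q, g t * ρ t) - N⁻¹ * ∑ j, g (y0 j)|
      ≤ L * h * (∫ t in (-Q)..Q, ρ t) + M * |(∫ t in (-Q)..Q, ρ t) - n / N| := by
  set D := ∫ t in (-Q)..Q, ρ t with hD
  have hn' : (0 : ℝ) < n := by exact_mod_cast hn
  have h1 := b2a287_quad_rho hρc hρ0 hn hp hg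
  have hM0 : 0 ≤ M := (abs_nonneg _).trans (hM 0)
  have h2 : |(D / n - N⁻¹) * ∑ j, g (y0 j)| ≤ M * |D - n / N| := by
    have e : D / n - N⁻¹ = (D - n / N) / n := by field_simp
    rw [e, abs_mul, abs_div, abs_of_pos hn']
    have h3 : |∑ j, g (y0 j)| ≤ n * M := by
      refine (abs_sum_le_sum_abs _ _).trans ((sum_le_sum fun j _ => hM (y0 j)).trans ?_)
      simp
    calc |D - n / N| / n * |∑ j, g (y0 j)| ≤ |D - n / N| / n * (n * M) :=
          mul_le_mul_of_nonneg_left h3 (by positivity)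
      _ = M * |D - n / N| := by field_simp
  have e : (∫ t in (-Q)..Q, g t * ρ t) - N⁻¹ * ∑ j, g (y0 j)
      = ((∫ t in (-Q)..Q, g t * ρ t) - D / n * ∑ j, g (y0 j)) + (D / n - N⁻¹) * ∑ j, g (y0 j) := by ring
  rw [e]
  exact (abs_add_le _ _).trans (add_le_add h1 h2)

theorem b2a287_I_abs (n : ℕ) (j : Fin n) : |b2a287I n j| ≤ n / 2 := by
  have hj : ((j : ℕ) : ℝ) + 1 ≤ n := by exact_mod_cast j.2
  have hj0 : (0 : ℝ) ≤ ((j : ℕ) : ℝ) := by positivity
  rw [b2a287I, abs_le]; constructor <;> linarith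

/-- E1: the residual at the mid-quantiles. -/
theorem b2a287_E1 (H : B2a287Hyp Q ρmin ρmax κ B0 Θ0 Lk LK k kd θ Kd ρ) (hρmin : 0 < ρmin)
    {n : ℕ} (hn : 0 < n) {N : ℝ} (hN : 0 < N) {y0 : Fin n → ℝ} {b : ℕ → ℝ} {h : ℝ}
    (hq : B2a287Quant Q ρ n y0) (hp : B2a287Part Q ρ n y0 b h) (j : Fin n) :
    |b2a287G k θ N (fun j => b2a287I n j / N) y0 j|
      ≤ B0 * h * (∫ t in (-Q)..Q, ρ t) + (Θ0 + 1 / 2) * |(∫ t in (-Q)..Q, ρ t) - n / N| := by
  set D := ∫ t in (-Q)..Q, ρ t with hD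
  have hn' : (0 : ℝ) < n := by exact_mod_cast hn
  have hg : ∀ x y, |θ (y0 j - x) - θ (y0 j - y)| ≤ B0 * |x - y| := by
    intro x y
    have := H.θlip (y0 j - x) (y0 j - y)
    have e : y0 j - x - (y0 j - y) = -(x - y) := by ring
    rwa [e, abs_neg] at this
  have h1 := b2a287_quad_N H.hρc (H.ρ0 hρmin) hn hN hp hg (fun x => H.hΘ0 _)
  have h2 := H.hcount (y0 j) (hq j).1
  rw [(hq j).2] at h2
  have e : b2a287G k θ N (fun j => b2a287I n j / N) y0 j
      = ((∫ t in (-Q)..Q, θ (y0 j - t) * ρ t) - N⁻¹ * ∑ l, θ (y0 j - y0 l))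
        + b2a287I n j * ((D - n / N) / n) := by
    simp only [b2a287G]
    have : k (y0 j) = (∫ t in (-Q)..Q, θ (y0 j - t) * ρ t) + D * b2a287I n j / n := by linarith
    rw [this]; field_simp; ring
  rw [e]
  have h3 : |b2a287I n j * ((D - n / N) / n)| ≤ 1 / 2 * |D - n / N| := by
    rw [abs_mul, abs_div, abs_of_pos hn']
    calc |b2a287I n j| * (|D - n / N| / n) ≤ (n / 2) * (|D - n / N| / n) :=
          mul_le_mul_of_nonneg_right (b2a287_I_abs n j) (by positivity)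
      _ = 1 / 2 * |D - n / N| := by field_simp
  refine (abs_add_le _ _).trans ?_
  linarith

/-- E2: the derivative of the counting function of the mid-quantiles is close to `ρ` on the whole of `[-Q, Q]`. -/
theorem b2a287_E2 (H : B2a287Hyp Q ρmin ρmax κ B0 Θ0 Lk LK k kd θ Kd ρ) (hρmin : 0 < ρmin)
    {n : ℕ} (hn : 0 < n) {N : ℝ} (hN : 0 < N) {y0 : Fin n → ℝ} {b : ℕ → ℝ} {h : ℝ}
    (hp : B2a287Part Q ρ n y0 b h) {x : ℝ} (hx : x ∈ Set.Icc (-Q) Q) :
    |b2a287X kd Kd N y0 x - ρ x|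
      ≤ LK * h * (∫ t in (-Q)..Q, ρ t) + B0 * |(∫ t in (-Q)..Q, ρ t) - n / N| := by
  have hg : ∀ s t, |Kd (x - s) - Kd (x - t)| ≤ LK * |s - t| := by
    intro s t
    have := H.hLK (x - s) (x - t)
    have e : x - s - (x - t) = -(s - t) := by ring
    rwa [e, abs_neg] at this
  have h1 := b2a287_quad_N H.hρc (H.ρ0 hρmin) hn hN hp hg (fun s => H.hB0 _)
  have e : b2a287X kd Kd N y0 x - ρ x
      = (∫ t in (-Q)..Q, Kd (x - t) * ρ t) - N⁻¹ * ∑ l, Kd (x - y0 l) := by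
    rw [H.heq x hx, b2a287X]; ring
  rw [e]; exact h1

/-- the density is Lipschitz. -/
theorem b2a287_rho_lip (H : B2a287Hyp Q ρmin ρmax κ B0 Θ0 Lk LK k kd θ Kd ρ) (hQ : 0 < Q)
    (hρmin : 0 < ρmin) :
    ∀ x ∈ Set.Icc (-Q) Q, ∀ y ∈ Set.Icc (-Q) Q,
      |ρ x - ρ y| ≤ (Lk + LK * ∫ t in (-Q)..Q, ρ t) * |x - y| := by
  intro x hx y hy
  have hle : -Q ≤ Q := by linarith
  have hKc := b2a287_lip_cont H.hLK
  have ii : ∀ z : ℝ, IntervalIntegrable (fun t => Kd (z - t) * ρ t) volume (-Q) Q := fun z =>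
    (((hKc.comp (continuous_const.sub continuous_id)).continuousOn).mul H.hρc).intervalIntegrable_of_Icc hle
  have iρ : IntervalIntegrable ρ volume (-Q) Q := H.hρc.intervalIntegrable_of_Icc hle
  have e : ρ x - ρ y = (kd x - kd y) - ∫ t in (-Q)..Q, (Kd (x - t) - Kd (y - t)) * ρ t := by
    rw [H.heq x hx, H.heq y hy]
    have : ∫ t in (-Q)..Q, (Kd (x - t) - Kd (y - t)) * ρ t
        = (∫ t in (-Q)..Q, Kd (x - t) * ρ t) - ∫ t in (-Q)..Q, Kd (y - t) * ρ t := by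
      rw [← intervalIntegral.integral_sub (ii x) (ii y)]
      apply intervalIntegral.integral_congr; intro t _; simp only; ring
    rw [this]; ring
  have b1 : |∫ t in (-Q)..Q, (Kd (x - t) - Kd (y - t)) * ρ t| ≤ LK * |x - y| * ∫ t in (-Q)..Q, ρ t := by
    rw [← intervalIntegral.integral_const_mul]
    have i1 : IntervalIntegrable (fun t => (Kd (x - t) - Kd (y - t)) * ρ t) volume (-Q) Q := by
      have := (ii x).sub (ii y)
      refine this.congr ?_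
      intro t _; simp only; ring
    calc |∫ t in (-Q)..Q, (Kd (x - t) - Kd (y - t)) * ρ t|
        ≤ ∫ t in (-Q)..Q, |(Kd (x - t) - Kd (y - t)) * ρ t| := by
          have := intervalIntegral.norm_integral_le_integral_norm
            (f := fun t => (Kd (x - t) - Kd (y - t)) * ρ t) (μ := volume) hle
          simpa [Real.norm_eq_abs] using this
      _ ≤ ∫ t in (-Q)..Q, LK * |x - y| * ρ t := by
          apply intervalIntegral.integral_mono_on hle i1.abs (iρ.const_mul _)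
          intro t ht
          rw [abs_mul, abs_of_nonneg (H.ρ0 hρmin t ht)]
          apply mul_le_mul_of_nonneg_right _ (H.ρ0 hρmin t ht)
          have := H.hLK (x - t) (y - t)
          have e : x - t - (y - t) = x - y := by ring
          rwa [e] at this
  rw [e]
  refine (abs_sub _ _).trans ?_
  have := H.hLk x y
  nlinarith

/-- E3: the column-weighted row sums of the frozen Jacobian. -/
theorem b2a287_E3 (H : B2a287Hyp Q ρmin ρmax κ B0 Θ0 Lk LK k kd θ Kd ρ) (hQ : 0 < Q) (hρmin : 0 < ρmin)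
    {n : ℕ} (hn : 0 < n) {N : ℝ} (hN : 0 < N) {y0 : Fin n → ℝ} {b : ℕ → ℝ} {h η t : ℝ}
    (hp : B2a287Part Q ρ n y0 b h)
    (hη : LK * h * (∫ t in (-Q)..Q, ρ t) + B0 * |(∫ t in (-Q)..Q, ρ t) - n / N| ≤ η)
    (ht0 : 0 ≤ t) (h1 : (Lk + LK * ∫ t in (-Q)..Q, ρ t) * h + (1 + t) * η ≤ t * ρmin)
    (h2 : (n : ℝ) / N ≤ (1 + t) * ∫ t in (-Q)..Q, ρ t) (j : Fin n) :
    ∑ l, |Kd (y0 j - y0 l)| / (N * b2a287X kd Kd N y0 (y0 l)) ≤ (1 + t) ^ 2 * (κ + LK * h * (2 * Q)) := by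
  set D := ∫ t in (-Q)..Q, ρ t with hD
  have hn' : (0 : ℝ) < n := by exact_mod_cast hn
  have hLK0 := b2a287_lip_nonneg H.hLK
  have hLk0 := b2a287_lip_nonneg H.hLk
  have hDpos : 0 < D := lt_of_lt_of_le (by positivity) (b2a287_D_pos hQ H.hρc H.hρmin)
  have hLρ0 : 0 ≤ Lk + LK * D := by positivity
  have hy0 : ∀ l : Fin n, y0 l ∈ Set.Icc (-Q) Q := fun l => hp.sub l.2 (hp.y0mem l)
  have hh : 0 ≤ h := (sub_nonneg.2 (hp.mono 0 hn)).trans (hp.len 0 hn)
  have key : ∀ l : Fin n, 0 < b2a287X kd Kd N y0 (y0 l) ∧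
      1 / (N * b2a287X kd Kd N y0 (y0 l)) ≤ (1 + t) ^ 2 * (b (l + 1) - b l) := by
    intro l
    set X := b2a287X kd Kd N y0 (y0 l) with hX
    have hlen : 0 ≤ b (l + 1) - b l := sub_nonneg.2 (hp.mono l l.2)
    have e2 := (b2a287_E2 H hρmin hn hN hp (hy0 l)).trans hη
    have hXl : ρ (y0 l) - η ≤ X := by linarith [(abs_le.1 e2).1]
    have hρl := H.hρmin _ (hy0 l)
    have h5 : (1 + t) * η ≤ t * ρmin := by nlinarith [mul_nonneg hLρ0 hh]
    have h6 : 0 < (1 + t) * (ρ (y0 l) - η) := by nlinarith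
    have hpos : 0 < ρ (y0 l) - η := (mul_pos_iff_of_pos_left (by linarith : 0 < 1 + t)).1 h6
    have hXpos : 0 < X := hpos.trans_le hXl
    refine ⟨hXpos, ?_⟩
    have l1 := b2a287_len_lower H.hρc hp hLρ0 (b2a287_rho_lip H hQ hρmin) l
    have l2 : ρ (y0 l) + (Lk + LK * D) * h ≤ (1 + t) * X := by nlinarith
    have l3 : D / n ≤ (1 + t) * X * (b (l + 1) - b l) :=
      l1.trans (mul_le_mul_of_nonneg_right l2 hlen)
    have l4 : 1 / N ≤ (1 + t) * (D / n) := by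
      rw [div_le_iff₀ hN]
      have : (n : ℝ) / N * N = n := div_mul_cancel₀ _ hN.ne'
      have h3 : (n : ℝ) ≤ (1 + t) * D * N := by
        calc (n : ℝ) = n / N * N := this.symm
          _ ≤ (1 + t) * D * N := mul_le_mul_of_nonneg_right h2 hN.le
      calc (1 : ℝ) = n / n := (div_self hn'.ne').symm
        _ ≤ ((1 + t) * D * N) / n := div_le_div_of_nonneg_right h3 hn'.le
        _ = (1 + t) * (D / n) * N := by ring
    rw [div_le_iff₀ (mul_pos hN hXpos)]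
    have l5 : 1 / N ≤ (1 + t) * ((1 + t) * X * (b (l + 1) - b l)) :=
      l4.trans (mul_le_mul_of_nonneg_left l3 (by linarith))
    rw [div_le_iff₀ hN] at l5
    nlinarith
  have hg : ∀ s u, |Kd (y0 j - s) - Kd (y0 j - u)| ≤ LK * |s - u| := by
    intro s u
    have := H.hLK (y0 j - s) (y0 j - u)
    have e : y0 j - s - (y0 j - u) = -(s - u) := by ring
    rwa [e, abs_neg] at this
  have q := b2a287_quad_leb hp hg
  have hκ := H.hκ (y0 j) (hy0 j)
  calc ∑ l, |Kd (y0 j - y0 l)| / (N * b2a287X kd Kd N y0 (y0 l))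
      ≤ ∑ l : Fin n, (1 + t) ^ 2 * (|Kd (y0 j - y0 l)| * (b (l + 1) - b l)) := by
        refine sum_le_sum fun l _ => ?_
        have := mul_le_mul_of_nonneg_left (key l).2 (abs_nonneg (Kd (y0 j - y0 l)))
        calc |Kd (y0 j - y0 l)| / (N * b2a287X kd Kd N y0 (y0 l))
            = |Kd (y0 j - y0 l)| * (1 / (N * b2a287X kd Kd N y0 (y0 l))) := by ring
          _ ≤ |Kd (y0 j - y0 l)| * ((1 + t) ^ 2 * (b (l + 1) - b l)) := this
          _ = (1 + t) ^ 2 * (|Kd (y0 j - y0 l)| * (b (l + 1) - b l)) := by ring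
    _ = (1 + t) ^ 2 * ∑ l : Fin n, |Kd (y0 j - y0 l)| * (b (l + 1) - b l) := by rw [mul_sum]
    _ ≤ (1 + t) ^ 2 * (κ + LK * h * (2 * Q)) := by
        apply mul_le_mul_of_nonneg_left _ (by positivity)
        linarith

end asm

theorem b2a287_eps {A γ : ℝ} (hA : 0 ≤ A) (hγ : 0 < γ) : ∃ ε : ℝ, 0 < ε ∧ ∀ s, s ≤ ε → A * s ≤ γ := by
  refine ⟨γ / (A + 1), by positivity, fun s hs => ?_⟩
  calc A * s ≤ A * (γ / (A + 1)) := mul_le_mul_of_nonneg_left hs hA
    _ ≤ γ := by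
      rw [← mul_div_assoc, div_le_iff₀ (by positivity)]; nlinarith

theorem b2a287_poly {κ : ℝ} (hκ0 : 0 ≤ κ) (hκ1 : κ < 1) :
    (1 + (1 - κ) / 16) ^ 2 * (κ + (1 - κ) / 16) ≤ (1 + κ) / 2 := by
  nlinarith [mul_pos (sub_pos.2 hκ1) (sub_pos.2 hκ1), mul_nonneg hκ0 (sub_pos.2 hκ1).le,
    mul_nonneg (mul_nonneg hκ0 (sub_pos.2 hκ1).le) (sub_pos.2 hκ1).le,
    mul_pos (mul_pos (sub_pos.2 hκ1) (sub_pos.2 hκ1)) (sub_pos.2 hκ1)]

set_option maxHeartbeats 1600000 in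
/-- **Leaf B2a.**  The thresholds `n0 δ0 r0 C` depend ONLY on the constants (and on a lower bound `Qmin` for `Q`).
For `n ≥ n0`, `n ≤ N`, `|D - n / N| ≤ δ0` (`D = ∫_{-Q}^{Q} ρ`): exactly one solution of the logarithmic Bethe equations in the
sup-ball of radius `r0` around the mid-quantiles; it is within `C (1 / n + |D - n / N|) ≤ r0 / 2` of them, strictly increasing,
and the Jacobian is injective on the whole ball. -/
theorem b2a287_main (Qmin ρmin ρmax κ B0 Θ0 Lk LK : ℝ) (hQmin : 0 < Qmin) (hρmin : 0 < ρmin)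
    (hρmm : ρmin ≤ ρmax) (hκ0 : 0 ≤ κ) (hκ1 : κ < 1) (hB0 : 0 ≤ B0) (hΘ0 : 0 ≤ Θ0) (hLk : 0 ≤ Lk)
    (hLK : 0 ≤ LK) :
    ∃ (n0 : ℕ) (δ0 r0 C : ℝ), 0 < δ0 ∧ 0 < r0 ∧ 0 < C ∧
      ∀ Q : ℝ, Qmin ≤ Q →
      ∀ k kd θ Kd ρ : ℝ → ℝ, B2a287Hyp Q ρmin ρmax κ B0 Θ0 Lk LK k kd θ Kd ρ →
      ∀ N n : ℕ, n0 ≤ n → n ≤ N → |(∫ x in (-Q)..Q, ρ x) - (n : ℝ) / N| ≤ δ0 →
      ∀ y0 : Fin n → ℝ, B2a287Quant Q ρ n y0 →
      ∃ y : Fin n → ℝ,
        (∀ j, k (y j) - (N : ℝ)⁻¹ * ∑ l, θ (y j - y l) = b2a287I n j / N) ∧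
        (∀ j, |y j - y0 j| ≤ C * (1 / n + |(∫ x in (-Q)..Q, ρ x) - (n : ℝ) / N|)) ∧
        (∀ j, |y j - y0 j| ≤ r0 / 2) ∧
        (∀ y' : Fin n → ℝ, (∀ j, k (y' j) - (N : ℝ)⁻¹ * ∑ l, θ (y' j - y' l) = b2a287I n j / N) →
          (∀ j, |y' j - y0 j| ≤ r0) → y' = y) ∧
        StrictMono y ∧
        (∀ y' : Fin n → ℝ, (∀ j, |y' j - y0 j| ≤ r0) →
          ∀ v : Fin n → ℝ, (∀ j, b2a287J kd Kd N y' v j = 0) → v = 0) := by
  have hx : 0 < 1 - κ := sub_pos.2 hκ1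
  obtain ⟨t, ht⟩ : ∃ t, t = (1 - κ) / 16 := ⟨_, rfl⟩
  have ht0 : 0 < t := by rw [ht]; positivity
  have ht1 : t ≤ 1 / 16 := by rw [ht]; linarith
  obtain ⟨dmin, hdmin⟩ : ∃ d, d = ρmin / 2 := ⟨_, rfl⟩
  have hd : 0 < dmin := by rw [hdmin]; positivity
  obtain ⟨Λ, hΛ⟩ : ∃ Λ, Λ = Lk + 4 * LK + 1 := ⟨_, rfl⟩
  have hΛ0 : 0 < Λ := by rw [hΛ]; positivity
  obtain ⟨R, hR⟩ : ∃ R, R = (1 - κ) * dmin ^ 2 / (4 * Λ) := ⟨_, rfl⟩
  have hR0 : 0 < R := by rw [hR]; positivity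
  obtain ⟨q, hq⟩ : ∃ q, q = (3 + κ) / 4 := ⟨_, rfl⟩
  have hq0 : 0 ≤ q := by rw [hq]; positivity
  have hq1 : q < 1 := by rw [hq]; linarith
  have h1q : 1 - q = (1 - κ) / 4 := by rw [hq]; ring
  have h1q0 : 0 < 1 - q := by linarith
  obtain ⟨Xmax, hXmax⟩ : ∃ X, X = ρmax + ρmin := ⟨_, rfl⟩
  have hXmax0 : 0 < Xmax := by rw [hXmax]; linarith
  have hdX : dmin ≤ Xmax := by rw [hdmin, hXmax]; linarith
  obtain ⟨r0, hr0⟩ : ∃ r, r = R / Xmax := ⟨_, rfl⟩
  have hr00 : 0 < r0 := by rw [hr0]; positivity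
  obtain ⟨C1, hC1⟩ : ∃ c, c = 4 * B0 / ρmin + Θ0 + 1 / 2 := ⟨_, rfl⟩
  have hC10 : 0 < C1 := by rw [hC1]; positivity
  obtain ⟨C, hC⟩ : ∃ c, c = C1 / ((1 - q) * dmin) := ⟨_, rfl⟩
  have hC0 : 0 < C := by rw [hC]; positivity
  obtain ⟨ε1, hε1, H1⟩ := b2a287_eps (A := (Lk + 6 * LK) * (2 / ρmin) + 2 * B0) (γ := t * ρmin)
    (by positivity) (by positivity)
  obtain ⟨ε2, hε2, H2⟩ := b2a287_eps (A := 1) (γ := t * (ρmin * (2 * Qmin))) (by norm_num) (by positivity)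
  obtain ⟨ε3, hε3, H3⟩ := b2a287_eps (A := LK * (2 / ρmin) * (2 / ρmin)) (γ := t) (by positivity) ht0
  obtain ⟨ε4, hε4, H4⟩ := b2a287_eps (A := C) (γ := r0 / 2) hC0.le (by positivity)
  obtain ⟨ε, hε, hεdef⟩ : ∃ ε, 0 < ε ∧ ε = min (min ε1 ε2) (min (min ε3 ε4) 1) :=
    ⟨_, by positivity, rfl⟩
  have e1 : ε ≤ ε1 := by rw [hεdef]; exact (min_le_left _ _).trans (min_le_left _ _)
  have e2 : ε ≤ ε2 := by rw [hεdef]; exact (min_le_left _ _).trans (min_le_right _ _)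
  have e3 : ε ≤ ε3 := by
    rw [hεdef]; exact (min_le_right _ _).trans ((min_le_left _ _).trans (min_le_left _ _))
  have e4 : ε ≤ ε4 := by
    rw [hεdef]; exact (min_le_right _ _).trans ((min_le_left _ _).trans (min_le_right _ _))
  have e5 : ε ≤ 1 := by rw [hεdef]; exact (min_le_right _ _).trans (min_le_right _ _)
  refine ⟨⌈2 / ε⌉₊ + 1, ε / 2, r0, C, by positivity, hr00, hC0, ?_⟩
  intro Q hQ k kd θ Kd ρ H N n hn0 hnN hδ y0 hqu
  have hQpos : 0 < Q := hQmin.trans_le hQ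
  have hn : 0 < n := by omega
  have hn' : (0 : ℝ) < n := by exact_mod_cast hn
  have hnN' : (n : ℝ) ≤ (N : ℝ) := by exact_mod_cast hnN
  have hN' : (0 : ℝ) < (N : ℝ) := hn'.trans_le hnN'
  have hinv : 1 / (n : ℝ) ≤ ε / 2 := by
    have h1 : 2 / ε ≤ n := by
      have : (⌈2 / ε⌉₊ : ℝ) ≤ n := by exact_mod_cast (by omega : ⌈2 / ε⌉₊ ≤ n)
      exact (Nat.le_ceil _).trans this
    rw [div_le_iff₀ hε] at h1
    rw [div_le_iff₀ hn']
    have : ε / 2 * (n : ℝ) = (n : ℝ) * ε / 2 := by ring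
    rw [this]; linarith
  set D := ∫ x in (-Q)..Q, ρ x with hD
  set δ := |D - (n : ℝ) / N| with hδdef
  have hδ0 : 0 ≤ δ := abs_nonneg _
  obtain ⟨s, hs⟩ : ∃ s, s = 1 / (n : ℝ) + δ := ⟨_, rfl⟩
  have hsε : s ≤ ε := by rw [hs]; linarith
  have hs0 : 0 < s := by rw [hs]; positivity
  have hns : 1 / (n : ℝ) ≤ s := by rw [hs]; linarith
  have hδs : δ ≤ s := by rw [hs]; have : 0 < 1 / (n : ℝ) := by positivity
                         linarith
  have hD1 : ρmin * (2 * Q) ≤ D := b2a287_D_pos hQpos H.hρc H.hρmin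
  have hDpos : 0 < D := lt_of_lt_of_le (by positivity) hD1
  have hfrac : (n : ℝ) / N ≤ 1 := (div_le_one hN').2 hnN'
  have habs := abs_le.1 (le_refl δ)
  have hD2 : D ≤ 2 := by
    have : D - (n : ℝ) / N ≤ δ := le_abs_self _
    linarith
  obtain ⟨b, hp⟩ := b2a287_part hQpos hρmin H.hρc H.hρev H.hρmin hn hqu
  set h := D / (n * ρmin) with hh
  have hh0 : 0 ≤ h := by positivity
  obtain ⟨u, hu⟩ : ∃ u, u = 2 / ρmin * s := ⟨_, rfl⟩
  have hu0 : 0 ≤ u := by rw [hu]; positivity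
  have hhn : h ≤ 2 / ρmin * (1 / n) := by
    rw [hh]
    calc D / (n * ρmin) ≤ 2 / (n * ρmin) := div_le_div_of_nonneg_right hD2 (by positivity)
      _ = 2 / ρmin * (1 / n) := by field_simp
  have hhu : h ≤ u := by
    rw [hu]; exact hhn.trans (mul_le_mul_of_nonneg_left hns (by positivity))
  obtain ⟨η, hη⟩ : ∃ η, η = LK * h * D + B0 * δ := ⟨_, rfl⟩
  have hη0 : 0 ≤ η := by rw [hη]; positivity
  have a2 : η ≤ 2 * LK * u + B0 * s := by
    rw [hη]
    have : LK * h * D ≤ LK * u * 2 :=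
      mul_le_mul (mul_le_mul_of_nonneg_left hhu hLK) hD2 hDpos.le (by positivity)
    have : B0 * δ ≤ B0 * s := mul_le_mul_of_nonneg_left hδs hB0
    linarith
  have c1 : (Lk + LK * D) * h + (1 + t) * η ≤ t * ρmin := by
    have a1 : (Lk + LK * D) * h ≤ (Lk + 2 * LK) * u :=
      mul_le_mul (by have := mul_le_mul_of_nonneg_left hD2 hLK; linarith) hhu hh0 (by positivity)
    have a3 : (1 + t) * η ≤ 2 * (2 * LK * u + B0 * s) :=
      mul_le_mul (by linarith) a2 hη0 (by norm_num)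
    have a4 := H1 s (hsε.trans e1)
    have a5 : ((Lk + 6 * LK) * (2 / ρmin) + 2 * B0) * s = (Lk + 2 * LK) * u + 2 * (2 * LK * u + B0 * s) := by
      rw [hu]; ring
    linarith
  have hηsmall : η ≤ ρmin / 16 := by
    have b0 : 0 ≤ (Lk + LK * D) * h := by positivity
    have b1 : 0 ≤ t * η := by positivity
    have b2 : t * ρmin ≤ 1 / 16 * ρmin := mul_le_mul_of_nonneg_right ht1 hρmin.le
    have b3 : (1 + t) * η = η + t * η := by ring
    linarith
  have c2 : (n : ℝ) / N ≤ (1 + t) * D := by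
    have a1 : (n : ℝ) / N - D ≤ δ := by rw [hδdef, abs_sub_comm]; exact le_abs_self _
    have a2 := H2 s (hsε.trans e2)
    have a3 : t * (ρmin * (2 * Qmin)) ≤ t * D :=
      mul_le_mul_of_nonneg_left ((mul_le_mul_of_nonneg_left (by linarith) hρmin.le).trans hD1) ht0.le
    linarith
  have h2Q : 2 * Q ≤ 2 / ρmin := by
    rw [le_div_iff₀ hρmin]
    have : 2 * Q * ρmin = ρmin * (2 * Q) := by ring
    rw [this]; linarith
  have c3 : (1 + t) ^ 2 * (κ + LK * h * (2 * Q)) ≤ (1 + κ) / 2 := by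
    have a1 : LK * h * (2 * Q) ≤ LK * u * (2 / ρmin) :=
      mul_le_mul (mul_le_mul_of_nonneg_left hhu hLK) h2Q (by positivity) (by positivity)
    have a2 := H3 s (hsε.trans e3)
    have a3 : LK * (2 / ρmin) * (2 / ρmin) * s = LK * u * (2 / ρmin) := by rw [hu]; ring
    have a4 : κ + LK * h * (2 * Q) ≤ κ + t := by linarith
    calc (1 + t) ^ 2 * (κ + LK * h * (2 * Q)) ≤ (1 + t) ^ 2 * (κ + t) :=
          mul_le_mul_of_nonneg_left a4 (by positivity)
      _ ≤ (1 + κ) / 2 := by rw [ht]; exact b2a287_poly hκ0 hκ1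
  have hE2 : ∀ x ∈ Set.Icc (-Q) Q, |b2a287X kd Kd N y0 x - ρ x| ≤ η := fun x hx =>
    (b2a287_E2 H hρmin hn hN' hp hx).trans (le_of_eq hη.symm)
  have hXlow : ∀ x ∈ Set.Icc (-Q) Q, dmin ≤ b2a287X kd Kd N y0 x := by
    intro x hx
    have := (abs_le.1 (hE2 x hx)).1
    have := H.hρmin x hx
    rw [hdmin]; linarith
  have hXup : ∀ x ∈ Set.Icc (-Q) Q, b2a287X kd Kd N y0 x ≤ Xmax := by
    intro x hx
    have := (abs_le.1 (hE2 x hx)).2
    have := H.hρmax x hx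
    rw [hXmax]; linarith
  have hy0 : ∀ j, y0 j ∈ Set.Icc (-Q) Q := fun j => (hqu j).1
  have hDd : ∀ j, dmin ≤ b2a287X kd Kd N y0 (y0 j) := fun j => hXlow _ (hy0 j)
  have hrow : ∀ j, ∑ l, |Kd (y0 j - y0 l)| / (N * b2a287X kd Kd N y0 (y0 l)) ≤ (1 + κ) / 2 := fun j =>
    (b2a287_E3 H hQpos hρmin hn hN' hp (le_of_eq hη.symm) ht0.le c1 c2 j).trans c3
  have hΛR : (Lk + 4 * LK) * R / dmin ^ 2 ≤ (1 - κ) / 4 := by
    rw [hR]
    have : (Lk + 4 * LK) * ((1 - κ) * dmin ^ 2 / (4 * Λ)) / dmin ^ 2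
        = (1 - κ) / 4 * ((Lk + 4 * LK) / Λ) := by field_simp
    rw [this]
    have h1 : (Lk + 4 * LK) / Λ ≤ 1 := by rw [div_le_one hΛ0, hΛ]; linarith
    calc (1 - κ) / 4 * ((Lk + 4 * LK) / Λ) ≤ (1 - κ) / 4 * 1 :=
          mul_le_mul_of_nonneg_left h1 (by positivity)
      _ = (1 - κ) / 4 := mul_one _
  have hqq : (1 + κ) / 2 + (Lk + 4 * LK) * R / dmin ^ 2 ≤ q := by rw [hq]; linarith
  obtain ⟨e0, he0⟩ : ∃ e, e = B0 * h * D + (Θ0 + 1 / 2) * δ := ⟨_, rfl⟩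
  have hres : ∀ j, |b2a287G k θ N (fun j => b2a287I n j / N) y0 j| ≤ e0 := fun j =>
    (b2a287_E1 H hρmin hn hN' hqu hp j).trans (le_of_eq he0.symm)
  have he0s : e0 ≤ C1 * s := by
    rw [he0, hC1, hs]
    have a1 : B0 * h * D ≤ B0 * (2 / ρmin * (1 / n)) * 2 :=
      mul_le_mul (mul_le_mul_of_nonneg_left hhn hB0) hD2 hDpos.le (by positivity)
    have a2 : B0 * (2 / ρmin * (1 / n)) * 2 = 4 * B0 / ρmin * (1 / n) := by ring
    have a3 : 0 ≤ (Θ0 + 1 / 2) * (1 / (n : ℝ)) := by positivity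
    have a4 : 0 ≤ 4 * B0 / ρmin * δ := by positivity
    have a5 : (4 * B0 / ρmin + Θ0 + 1 / 2) * (1 / (n : ℝ) + δ) = 4 * B0 / ρmin * (1 / n) + 4 * B0 / ρmin * δ
        + (Θ0 + 1 / 2) * (1 / (n : ℝ)) + (Θ0 + 1 / 2) * δ := by ring
    rw [a5]; linarith
  have hCs : C * s ≤ r0 / 2 := H4 s (hsε.trans e4)
  have hCe : e0 / ((1 - q) * dmin) ≤ C * s := by
    rw [hC, div_mul_eq_mul_div]
    exact div_le_div_of_nonneg_right he0s (by positivity)
  have he0R : e0 ≤ (1 - q) * R := by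
    have a1 : e0 / ((1 - q) * dmin) ≤ R / Xmax / 2 := by rw [← hr0]; exact hCe.trans hCs
    rw [div_le_iff₀ (by positivity)] at a1
    have a2 : R / Xmax / 2 * ((1 - q) * dmin) = (1 - q) * R * (dmin / (2 * Xmax)) := by field_simp
    have a3 : dmin / (2 * Xmax) ≤ 1 := by rw [div_le_one (by positivity)]; linarith
    have a4 : 0 ≤ (1 - q) * R := by positivity
    have a5 : (1 - q) * R * (dmin / (2 * Xmax)) ≤ (1 - q) * R * 1 := mul_le_mul_of_nonneg_left a3 a4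
    linarith
  obtain ⟨y, hy1, hy2, hy3⟩ := b2a287_newton hN' hnN' H.hk H.hθ H.hLk H.hLK
    (fun j => b2a287I n j / N) y0 hd hDd hrow hR0.le hqq hq0 hq1 hres he0R
  have hzero : ∀ (z : Fin n → ℝ) (j : Fin n),
      b2a287G k θ N (fun j => b2a287I n j / N) z j = 0 ↔
        k (z j) - (N : ℝ)⁻¹ * ∑ l, θ (z j - z l) = b2a287I n j / N := by
    intro z j; simp only [b2a287G]; exact sub_eq_zero
  have hclose : ∀ j, |y j - y0 j| ≤ C * s := by
    intro j
    refine le_trans ?_ hCe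
    rw [le_div_iff₀ (by positivity)]
    have a1 := hy2 j
    rw [le_div_iff₀ h1q0] at a1
    have a2 : dmin * |y j - y0 j| ≤ b2a287X kd Kd N y0 (y0 j) * |y j - y0 j| :=
      mul_le_mul_of_nonneg_right (hDd j) (abs_nonneg _)
    have a3 : dmin * |y j - y0 j| * (1 - q) ≤ b2a287X kd Kd N y0 (y0 j) * |y j - y0 j| * (1 - q) :=
      mul_le_mul_of_nonneg_right a2 h1q0.le
    have a4 : |y j - y0 j| * ((1 - q) * dmin) = dmin * |y j - y0 j| * (1 - q) := by ring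
    rw [a4]; linarith
  have hr0R : r0 ≤ R / dmin := by
    rw [hr0]; exact div_le_div_of_nonneg_left hR0.le hd hdX
  refine ⟨y, fun j => (hzero y j).1 (hy1 j), fun j => by rw [← hs]; exact hclose j,
    fun j => (hclose j).trans hCs, ?_, ?_, ?_⟩
  · intro y' hy' hb
    apply hy3 y' (fun j => (hzero y' j).2 (hy' j))
    intro j
    calc b2a287X kd Kd N y0 (y0 j) * |y' j - y0 j| ≤ Xmax * r0 :=
          mul_le_mul (hXup _ (hy0 j)) (hb j) (abs_nonneg _) hXmax0.le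
      _ = R := by rw [hr0]; field_simp
  · apply b2a287_order hN' hnN' H.hk H.hθ H.hLk H.hLK (fun j => b2a287I n j / N) y0 y hy0 hXlow
      (fun j => (hclose j).trans (hCs.trans (by linarith : r0 / 2 ≤ r0))) ?_ ?_ hy1
    · have a1 : (Lk + 2 * LK) * r0 ≤ Λ * (R / dmin) :=
        mul_le_mul (by rw [hΛ]; linarith) hr0R hr00.le hΛ0.le
      have a2 : Λ * (R / dmin) = (1 - κ) / 4 * dmin := by rw [hR]; field_simp
      have a3 : (1 - κ) / 4 * dmin < 1 * dmin := mul_lt_mul_of_pos_right (by linarith) hd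
      linarith
    · intro i j hij
      have : ((i : ℕ) : ℝ) < ((j : ℕ) : ℝ) := by exact_mod_cast hij
      simp only [b2a287I]
      exact div_lt_div_of_pos_right (by linarith) hN'
  · intro y' hb v hv
    exact b2a287_jac hN' hnN' H.hLk H.hLK y0 y' v hd hDd hrow (fun j => (hb j).trans hr0R) hqq hq1 hv

end Claimed.Agent.R292
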