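-- KEEP
import Mathlib

/-!
# Row 292, unit BETHE, leaf B4: condensation from closeness to the mid-quantiles, with a log singularity   (helper77; prefix `b4x77_`)

Abstract and quantitative, over Mathlib only; no model.  `h = 1 / N`.  0 sorry.

* `b4x77_lip`      : cells `b 0 ≤ … ≤ b n` of `ρ`-mass `h`, `y j` `δ`-close to the `j`-th cell, `g` `L`-Lipschitz:
                     `|h ∑ g (y j) - ∫ g ρ| ≤ h L ((b n - b 0) + n δ)`.  No lower bound on `ρ`.
* `b4x77_half`     : the same on `[0, Q]` for `g` singular at `0`: `|g x - g y| ≤ A (1 + 1/x) (y - x)`, `|g x| ≤ B / √x`,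
                     `y j ≥ c (j + 1/2) h`; error `h A (1 + 1/η) (Q + p δ) + 4 B ρmax √η + 8 B √η / c`, `η > 0` free.
* `b4x77_cells`    : the cells exist around the mid-quantiles (IVT);  `b4x77_half_q` : quantile form.
* `b4x77_full`     : two-sided, `g` even, `n = 2 p` roots.
* `b4x77_e0_even`, `b4x77_e0_lip`, `b4x77_e0_bound` : `e0 u = log |sinh (u + i lam) / sinh u|` has `A = 1`, `B = 2` (every `lam`).
* `b4x77_arctan_tanh_lip` : `arctan (κ tanh u)` is `|κ|`-Lipschitz.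
* `b4x77_sep`      : `|I_j| ≤ (N a1 + n a2) |y j|` for a symmetric solution of the logarithmic equations.
* `b4x77_fixedN`   : explicit error at fixed `N`;  `b4x77_contract` : the shape of `Bh271B4` (`HubB271`), proved.
  (`B4w77.lean` : `b4w77_B4 : Bh271B4`.)
-/

set_option autoImplicit false
open MeasureTheory intervalIntegral Set Filter Topology

namespace Claimed.Agent.R292

/-- One cell of mass `h`: replacing `g` by the constant `t` costs `h * w`. -/
theorem b4x77_cell {a b h w t : ℝ} (hab : a ≤ b) {ρ g : ℝ → ℝ}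
    (iρ : IntervalIntegrable ρ volume a b)
    (igρ : IntervalIntegrable (fun x => g x * ρ x) volume a b)
    (hρ0 : ∀ x ∈ Icc a b, 0 ≤ ρ x) (hρ : ∫ x in a..b, ρ x = h)
    (hV : ∀ x ∈ Icc a b, |t - g x| ≤ w) :
    |h * t - ∫ x in a..b, g x * ρ x| ≤ h * w := by
  have e1 : h * t - ∫ x in a..b, g x * ρ x = ∫ x in a..b, (t - g x) * ρ x := by
    have : (∫ x in a..b, (t - g x) * ρ x) =
        (∫ x in a..b, t * ρ x) - ∫ x in a..b, g x * ρ x := by
      rw [← intervalIntegral.integral_sub (iρ.const_mul _) igρ]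
      apply intervalIntegral.integral_congr; intro x _; simp only; ring
    rw [this, intervalIntegral.integral_const_mul, hρ]; ring
  rw [e1]
  have hb : ‖∫ x in a..b, (t - g x) * ρ x‖ ≤ ∫ x in a..b, w * ρ x := by
    apply intervalIntegral.norm_integral_le_of_norm_le hab _ (iρ.const_mul _)
    refine Filter.Eventually.of_forall (fun x hx => ?_)
    have hx' : x ∈ Icc a b := ⟨hx.1.le, hx.2⟩
    rw [Real.norm_eq_abs, abs_mul, abs_of_nonneg (hρ0 x hx')]
    exact mul_le_mul_of_nonneg_right (hV x hx') (hρ0 x hx')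
  rw [intervalIntegral.integral_const_mul, hρ, Real.norm_eq_abs] at hb
  linarith [mul_comm w h]

theorem b4x77_cont_of_lip {L : ℝ} (hL : 0 ≤ L) {g : ℝ → ℝ}
    (hg : ∀ x y, |g x - g y| ≤ L * |x - y|) : Continuous g := by
  have : LipschitzWith (Real.toNNReal L) g := by
    apply LipschitzWith.of_dist_le_mul
    intro x y
    rw [Real.dist_eq, Real.dist_eq, Real.coe_toNNReal _ hL]
    exact hg x y
  exact this.continuous

/-- **Lipschitz condensation over cells of equal mass.**  The points `y j` need only be `δ`-close to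
some point of the `j`-th cell.  No lower bound on `ρ`. -/
theorem b4x77_lip {h L δ : ℝ} {ρ g : ℝ → ℝ} {b y : ℕ → ℝ} (n : ℕ) (hL : 0 ≤ L)
    (hmono : ∀ j < n, b j ≤ b (j + 1))
    (iρ : ∀ j < n, IntervalIntegrable ρ volume (b j) (b (j + 1)))
    (hρ0 : ∀ j < n, ∀ x ∈ Icc (b j) (b (j + 1)), 0 ≤ ρ x)
    (hρ : ∀ j < n, ∫ x in b j..b (j + 1), ρ x = h)
    (hg : ∀ x y, |g x - g y| ≤ L * |x - y|)
    (hy : ∀ j < n, ∃ z ∈ Icc (b j) (b (j + 1)), |y j - z| ≤ δ) :
    IntervalIntegrable (fun x => g x * ρ x) volume (b 0) (b n) ∧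
    |h * ∑ j ∈ Finset.range n, g (y j) - ∫ x in b 0..b n, g x * ρ x|
      ≤ h * L * ((b n - b 0) + n * δ) := by
  have hgc : Continuous g := b4x77_cont_of_lip hL hg
  induction n with
  | zero => simp
  | succ m ih =>
    obtain ⟨i1, b1⟩ := ih (fun j hj => hmono j (by omega)) (fun j hj => iρ j (by omega))
      (fun j hj => hρ0 j (by omega)) (fun j hj => hρ j (by omega)) (fun j hj => hy j (by omega))
    have hm : m < m + 1 := by omega
    have i2 : IntervalIntegrable (fun x => g x * ρ x) volume (b m) (b (m + 1)) :=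
      (iρ m hm).continuousOn_mul hgc.continuousOn
    obtain ⟨z, hz, hyz⟩ := hy m hm
    have b2 := b4x77_cell (t := g (y m)) (w := L * (δ + (b (m + 1) - b m))) (hmono m hm) (iρ m hm) i2
      (hρ0 m hm) (hρ m hm) (by
        intro x hx
        refine (hg _ _).trans (mul_le_mul_of_nonneg_left ?_ hL)
        have h1 : |y m - x| ≤ |y m - z| + |z - x| := abs_sub_le _ _ _
        have h2 : |z - x| ≤ b (m + 1) - b m := by
          rw [abs_le]; constructor <;> linarith [hz.1, hz.2, hx.1, hx.2]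
        linarith)
    refine ⟨i1.trans i2, ?_⟩
    rw [Finset.sum_range_succ, ← intervalIntegral.integral_add_adjacent_intervals i1 i2]
    have := abs_add_le (h * ∑ j ∈ Finset.range m, g (y j) - ∫ x in b 0..b m, g x * ρ x)
      (h * g (y m) - ∫ x in b m..b (m + 1), g x * ρ x)
    calc _ = |(h * ∑ j ∈ Finset.range m, g (y j) - ∫ x in b 0..b m, g x * ρ x) +
          (h * g (y m) - ∫ x in b m..b (m + 1), g x * ρ x)| := by congr 1; ring
      _ ≤ _ := this
      _ ≤ h * L * ((b m - b 0) + m * δ) + h * (L * (δ + (b (m + 1) - b m))) := add_le_add b1 b2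
      _ = _ := by push_cast; ring

/-! ## Truncation of a singularity at `0` -/

theorem b4x77_trunc_lip {A η : ℝ} (hA : 0 ≤ A) (hη : 0 < η) {g : ℝ → ℝ}
    (hgL : ∀ x y, 0 < x → x ≤ y → |g x - g y| ≤ A * (1 + 1 / x) * (y - x)) (x y : ℝ) :
    |g (max x η) - g (max y η)| ≤ A * (1 + 1 / η) * |x - y| := by
  have key : ∀ x y : ℝ, max x η ≤ max y η →
      |g (max x η) - g (max y η)| ≤ A * (1 + 1 / η) * |x - y| := by
    intro x y hxy
    have hX : η ≤ max x η := le_max_right _ _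
    have hX0 : 0 < max x η := lt_of_lt_of_le hη hX
    refine (hgL _ _ hX0 hxy).trans ?_
    have h1 : 1 / max x η ≤ 1 / η := one_div_le_one_div_of_le hη hX
    have h2 : max y η - max x η ≤ |x - y| := by
      have := abs_max_sub_max_le_abs y x η
      rw [abs_sub_comm x y]
      exact (le_abs_self _).trans this
    have h3 : 0 ≤ max y η - max x η := by linarith
    have h4 : 0 ≤ 1 / max x η := by positivity
    calc A * (1 + 1 / max x η) * (max y η - max x η)
        ≤ A * (1 + 1 / η) * (max y η - max x η) := by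
          apply mul_le_mul_of_nonneg_right _ h3
          apply mul_le_mul_of_nonneg_left _ hA
          linarith
      _ ≤ A * (1 + 1 / η) * |x - y| := by
          apply mul_le_mul_of_nonneg_left h2
          have : 0 ≤ 1 / η := by positivity
          positivity
  rcases le_total (max x η) (max y η) with h | h
  · exact key x y h
  · rw [abs_sub_comm, abs_sub_comm x y]; exact key y x h

theorem b4x77_contOn {A : ℝ} (hA : 0 ≤ A) {g : ℝ → ℝ}
    (hgL : ∀ x y, 0 < x → x ≤ y → |g x - g y| ≤ A * (1 + 1 / x) * (y - x)) :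
    ContinuousOn g (Ioi 0) := by
  intro x hx
  have hx0 : (0:ℝ) < x := hx
  apply ContinuousAt.continuousWithinAt
  have hc : Continuous (fun u => g (max u (x / 2))) :=
    b4x77_cont_of_lip (L := A * (1 + 1 / (x / 2))) (by positivity)
      (b4x77_trunc_lip hA (by positivity) hgL)
  apply hc.continuousAt.congr
  have : ∀ᶠ u in 𝓝 x, x / 2 < u := lt_mem_nhds (by linarith)
  filter_upwards [this] with u hu
  rw [max_eq_left hu.le]

theorem b4x77_inv_sqrt (u : ℝ) (hu : 0 < u) : 1 / √u = u ^ (-(1 / 2) : ℝ) := by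
  rw [Real.rpow_neg hu.le, Real.sqrt_eq_rpow, one_div]

theorem b4x77_int_inv_sqrt (r : ℝ) :
    ∫ u in (0:ℝ)..r, u ^ (-(1 / 2) : ℝ) = 2 * √r := by
  rw [integral_rpow (Or.inl (by norm_num))]
  have e : (-(1 / 2) + 1 : ℝ) = 1 / 2 := by norm_num
  rw [e, Real.zero_rpow (by norm_num), Real.sqrt_eq_rpow]
  ring

/-- An integrand bounded by `M / √u` has a small integral over `[0, r]`. -/
theorem b4x77_small {M r : ℝ} (hr : 0 ≤ r) {F : ℝ → ℝ} (hF : ∀ u ∈ Ioc 0 r, |F u| ≤ M / √u) :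
    |∫ u in (0:ℝ)..r, F u| ≤ 2 * M * √r := by
  have hb : ‖∫ u in (0:ℝ)..r, F u‖ ≤ ∫ u in (0:ℝ)..r, M * u ^ (-(1 / 2) : ℝ) := by
    apply intervalIntegral.norm_integral_le_of_norm_le hr _
      ((intervalIntegral.intervalIntegrable_rpow' (by norm_num)).const_mul _)
    refine Filter.Eventually.of_forall (fun u hu => ?_)
    rw [Real.norm_eq_abs, ← b4x77_inv_sqrt u hu.1, mul_one_div]
    exact hF u hu
  rw [intervalIntegral.integral_const_mul, b4x77_int_inv_sqrt r, Real.norm_eq_abs] at hb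
  linarith

/-- Telescoping bound for the sum of `1 / √t` over the points `t = c (k + 1/2) h` below `η`. -/
theorem b4x77_tail_sum {c h : ℝ} (η : ℝ) (hc : 0 < c) (hh : 0 < h) (p : ℕ) :
    h * ∑ k ∈ Finset.range p,
        (if c * ((k:ℝ) + 1 / 2) * h < η then 1 / √(c * ((k:ℝ) + 1 / 2) * h) else 0)
      ≤ 4 / c * √η := by
  set Ψ : ℕ → ℝ := fun k => min (√(c * (k:ℝ) * h)) (√η) with hΨ
  have hterm : ∀ k : ℕ,
      h * (if c * ((k:ℝ) + 1 / 2) * h < η then 1 / √(c * ((k:ℝ) + 1 / 2) * h) else 0)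
        ≤ 4 / c * (Ψ (k + 1) - Ψ k) := by
    intro k
    have hs0 : 0 ≤ c * (k:ℝ) * h := by positivity
    have ht0 : 0 < c * ((k:ℝ) + 1 / 2) * h := by positivity
    have hst : c * (k:ℝ) * h ≤ c * ((k:ℝ) + 1 / 2) * h := by nlinarith [mul_pos hc hh]
    have hts : c * ((k:ℝ) + 1 / 2) * h ≤ c * ((k + 1 : ℕ):ℝ) * h := by
      push_cast; nlinarith [mul_pos hc hh]
    have hmonoΨ : Ψ k ≤ Ψ (k + 1) := by
      apply min_le_min_right
      exact Real.sqrt_le_sqrt (hst.trans hts)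
    split_ifs with hlt
    · set t := c * ((k:ℝ) + 1 / 2) * h with ht
      set s := c * (k:ℝ) * h with hs
      have h1 : √t ≤ Ψ (k + 1) := le_min (Real.sqrt_le_sqrt hts) (Real.sqrt_le_sqrt hlt.le)
      have h2 : Ψ k ≤ √s := min_le_left _ _
      have hsq : 0 < √t := Real.sqrt_pos.mpr ht0
      have e1 : √t * √t = t := Real.mul_self_sqrt ht0.le
      have e2 : √s * √s = s := Real.mul_self_sqrt hs0
      have hdiff : t - s = c * h / 2 := by rw [ht, hs]; ring
      have h3 : (t - s) ≤ 2 * √t * (√t - √s) := by nlinarith [sq_nonneg (√t - √s)]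
      have h4 : h / √t ≤ 4 / c * (√t - √s) := by
        rw [div_le_iff₀ hsq]
        have : h = 2 / c * (t - s) := by rw [hdiff]; field_simp
        calc h = 2 / c * (t - s) := this
          _ ≤ 2 / c * (2 * √t * (√t - √s)) := by
              apply mul_le_mul_of_nonneg_left h3; positivity
          _ = 4 / c * (√t - √s) * √t := by ring
      calc h * (1 / √t) = h / √t := by ring
        _ ≤ 4 / c * (√t - √s) := h4
        _ ≤ 4 / c * (Ψ (k + 1) - Ψ k) := by
            apply mul_le_mul_of_nonneg_left _ (by positivity); linarith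
    · rw [mul_zero]
      apply mul_nonneg (by positivity); linarith
  rw [Finset.mul_sum]
  calc _ ≤ ∑ k ∈ Finset.range p, 4 / c * (Ψ (k + 1) - Ψ k) :=
        Finset.sum_le_sum (fun k _ => hterm k)
    _ = 4 / c * (Ψ p - Ψ 0) := by rw [← Finset.mul_sum, Finset.sum_range_sub]
    _ ≤ 4 / c * √η := by
        apply mul_le_mul_of_nonneg_left _ (by positivity)
        have h0 : Ψ 0 = 0 := by simp [hΨ]
        have hp : Ψ p ≤ √η := min_le_right _ _
        linarith

theorem b4x77_le {b : ℕ → ℝ} {p : ℕ} (hmono : ∀ j < p, b j ≤ b (j + 1)) :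
    ∀ i j, i ≤ j → j ≤ p → b i ≤ b j := by
  intro i j hij
  induction j, hij using Nat.le_induction with
  | base => intro _; exact le_rfl
  | succ k _ ih => intro hk; exact (ih (by omega)).trans (hmono k (by omega))

/-- **One-sided condensation with an integrable singularity at `0`.**
Cells `0 = b 0 ≤ … ≤ b p = Q` of `ρ`-mass `h`; `y j` is `δ`-close to the `j`-th cell and
`y j ≥ c (j + 1/2) h`; `g` is locally Lipschitz on `(0, ∞)` with constant `A (1 + 1/x)` and
`|g x| ≤ B / √x`.  `η > 0` is a free parameter. -/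
theorem b4x77_half {h A B c δ η ρmax Q : ℝ} {ρ g : ℝ → ℝ} {b y : ℕ → ℝ} (p : ℕ)
    (hh : 0 < h) (hA : 0 ≤ A) (hB : 0 ≤ B) (hc : 0 < c) (hη : 0 < η)
    (hb0 : b 0 = 0) (hbp : b p = Q)
    (hmono : ∀ j < p, b j ≤ b (j + 1))
    (iρ : IntervalIntegrable ρ volume 0 Q)
    (hρ0 : ∀ x ∈ Icc 0 Q, 0 ≤ ρ x) (hρmax : ∀ x ∈ Icc 0 Q, ρ x ≤ ρmax)
    (hρ : ∀ j < p, ∫ x in b j..b (j + 1), ρ x = h)
    (hgL : ∀ x y, 0 < x → x ≤ y → |g x - g y| ≤ A * (1 + 1 / x) * (y - x))
    (hgB : ∀ x, 0 < x → |g x| ≤ B / √x)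
    (hy : ∀ j < p, ∃ z ∈ Icc (b j) (b (j + 1)), |y j - z| ≤ δ)
    (hsep : ∀ j < p, c * ((j:ℝ) + 1 / 2) * h ≤ y j) :
    IntervalIntegrable (fun x => g x * ρ x) volume 0 Q ∧
    |h * ∑ j ∈ Finset.range p, g (y j) - ∫ x in (0:ℝ)..Q, g x * ρ x|
      ≤ h * (A * (1 + 1 / η)) * (Q + p * δ) + 4 * B * ρmax * √η + 8 * B / c * √η := by
  have hle := b4x77_le hmono
  have hQ0 : 0 ≤ Q := by rw [← hb0, ← hbp]; exact hle 0 p (Nat.zero_le _) le_rfl
  have hsub : ∀ j < p, Icc (b j) (b (j + 1)) ⊆ Icc 0 Q := by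
    intro j hj
    apply Icc_subset_Icc
    · rw [← hb0]; exact hle 0 j (Nat.zero_le _) hj.le
    · rw [← hbp]; exact hle (j + 1) p hj le_rfl
  have hρmax0 : 0 ≤ ρmax := (hρ0 0 ⟨le_rfl, hQ0⟩).trans (hρmax 0 ⟨le_rfl, hQ0⟩)
  have hL0 : 0 ≤ A * (1 + 1 / η) := by positivity
  -- the truncated function
  set gη : ℝ → ℝ := fun u => g (max u η) with hgη
  have hgηL : ∀ x y, |gη x - gη y| ≤ A * (1 + 1 / η) * |x - y| := b4x77_trunc_lip hA hη hgL
  obtain ⟨iη, bη⟩ := b4x77_lip (h := h) (δ := δ) (ρ := ρ) (g := gη) (b := b) (y := y) p hL0 hmono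
    (fun j hj => iρ.mono_set (by
      rw [uIcc_of_le (hmono j hj), uIcc_of_le hQ0]; exact hsub j hj))
    (fun j hj x hx => hρ0 x (hsub j hj hx)) hρ hgηL hy
  rw [hb0, hbp] at iη bη
  -- integrability of `g ρ`
  have hgc : ContinuousOn g (Ioi 0) := b4x77_contOn hA hgL
  have ig : IntervalIntegrable (fun x => g x * ρ x) volume 0 Q := by
    rw [intervalIntegrable_iff_integrableOn_Ioc_of_le hQ0]
    have ib : IntegrableOn (fun u : ℝ => B * ρmax * u ^ (-(1 / 2) : ℝ)) (Ioc 0 Q) volume := by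
      rw [← intervalIntegrable_iff_integrableOn_Ioc_of_le hQ0]
      exact (intervalIntegral.intervalIntegrable_rpow' (by norm_num)).const_mul _
    have iρ' : IntegrableOn ρ (Ioc 0 Q) volume :=
      (intervalIntegrable_iff_integrableOn_Ioc_of_le hQ0).mp iρ
    refine Integrable.mono' ib ?_ ?_
    · exact ((hgc.mono Ioc_subset_Ioi_self).aestronglyMeasurable measurableSet_Ioc).mul
        iρ'.aestronglyMeasurable
    · rw [ae_restrict_iff' measurableSet_Ioc]
      refine Filter.Eventually.of_forall (fun u hu => ?_)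
      have hu' : u ∈ Icc 0 Q := ⟨hu.1.le, hu.2⟩
      rw [Real.norm_eq_abs, abs_mul, abs_of_nonneg (hρ0 u hu'), ← b4x77_inv_sqrt u hu.1]
      calc |g u| * ρ u ≤ (B / √u) * ρmax :=
            mul_le_mul (hgB u hu.1) (hρmax u hu') (hρ0 u hu') (by positivity)
        _ = B * ρmax * (1 / √u) := by ring
  refine ⟨ig, ?_⟩
  -- the difference
  set D : ℝ → ℝ := fun u => g u - gη u with hD
  have hD0 : ∀ u, η ≤ u → D u = 0 := by
    intro u hu; simp only [hD, hgη, max_eq_left hu, sub_self]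
  have hDb : ∀ u, 0 < u → u < η → |D u| ≤ 2 * B / √u := by
    intro u hu huη
    have h1 : |D u| ≤ |g u| + |g η| := by
      simp only [hD, hgη, max_eq_right huη.le]; exact abs_sub _ _
    have h2 := hgB u hu
    have h3 := hgB η hη
    have h4 : B / √η ≤ B / √u :=
      div_le_div_of_nonneg_left hB (Real.sqrt_pos.mpr hu) (Real.sqrt_le_sqrt huη.le)
    calc |D u| ≤ B / √u + B / √u := by linarith
      _ = 2 * B / √u := by ring
  have iD : IntervalIntegrable (fun x => D x * ρ x) volume 0 Q := by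
    have := ig.sub iη
    refine this.congr ?_
    intro x _
    simp only [hD]; ring
  have eInt : ∫ x in (0:ℝ)..Q, g x * ρ x
      = (∫ x in (0:ℝ)..Q, gη x * ρ x) + ∫ x in (0:ℝ)..Q, D x * ρ x := by
    rw [← intervalIntegral.integral_add iη iD]
    apply intervalIntegral.integral_congr; intro x _; simp only [hD]; ring
  -- the integral of the difference
  have bInt : |∫ x in (0:ℝ)..Q, D x * ρ x| ≤ 4 * B * ρmax * √η := by
    set r := min η Q with hr
    have hr0 : 0 ≤ r := le_min hη.le hQ0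
    have hrQ : r ≤ Q := min_le_right _ _
    have hrη : r ≤ η := min_le_left _ _
    have i1 : IntervalIntegrable (fun x => D x * ρ x) volume 0 r :=
      iD.mono_set (by rw [uIcc_of_le hr0, uIcc_of_le hQ0]; exact Icc_subset_Icc le_rfl hrQ)
    have i2 : IntervalIntegrable (fun x => D x * ρ x) volume r Q :=
      iD.mono_set (by rw [uIcc_of_le hrQ, uIcc_of_le hQ0]; exact Icc_subset_Icc hr0 le_rfl)
    have z2 : ∫ x in r..Q, D x * ρ x = 0 := by
      apply intervalIntegral.integral_zero_ae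
      refine Filter.Eventually.of_forall (fun x hx => ?_)
      rw [uIoc_of_le hrQ] at hx
      have : η ≤ x := by
        rcases le_total η Q with h | h
        · rw [hr, min_eq_left h] at hx; exact hx.1.le
        · rw [hr, min_eq_right h] at hx; exact absurd hx.2 (not_le.mpr hx.1)
      rw [hD0 x this, zero_mul]
    rw [← intervalIntegral.integral_add_adjacent_intervals i1 i2, z2, add_zero]
    have := b4x77_small (M := 2 * B * ρmax) (F := fun x => D x * ρ x) hr0 (by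
      intro u hu
      have hu' : u ∈ Icc 0 Q := ⟨hu.1.le, hu.2.trans hrQ⟩
      rw [abs_mul, abs_of_nonneg (hρ0 u hu')]
      have hDu : |D u| ≤ 2 * B / √u := by
        rcases lt_or_ge u η with h | h
        · exact hDb u hu.1 h
        · rw [hD0 u h, abs_zero]; positivity
      calc |D u| * ρ u ≤ (2 * B / √u) * ρmax :=
            mul_le_mul hDu (hρmax u hu') (hρ0 u hu') (by positivity)
        _ = 2 * B * ρmax / √u := by ring)
    calc _ ≤ 2 * (2 * B * ρmax) * √r := this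
      _ ≤ 2 * (2 * B * ρmax) * √η :=
          mul_le_mul_of_nonneg_left (Real.sqrt_le_sqrt hrη) (by positivity)
      _ = _ := by ring
  -- the sum of the difference
  have bSum : |h * ∑ j ∈ Finset.range p, D (y j)| ≤ 8 * B / c * √η := by
    have hterm : ∀ j ∈ Finset.range p, |D (y j)| ≤ 2 * B *
        (if c * ((j:ℝ) + 1 / 2) * h < η then 1 / √(c * ((j:ℝ) + 1 / 2) * h) else 0) := by
      intro j hj
      have hj' : j < p := Finset.mem_range.mp hj
      have ht0 : 0 < c * ((j:ℝ) + 1 / 2) * h := by positivity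
      have hty := hsep j hj'
      rcases lt_or_ge (y j) η with hlt | hge
      · rw [if_pos (lt_of_le_of_lt hty hlt)]
        refine (hDb _ (lt_of_lt_of_le ht0 hty) hlt).trans ?_
        rw [mul_one_div]
        exact div_le_div_of_nonneg_left (by positivity) (Real.sqrt_pos.mpr ht0)
          (Real.sqrt_le_sqrt hty)
      · rw [hD0 _ hge, abs_zero]
        split_ifs <;> positivity
    rw [abs_mul, abs_of_pos hh]
    calc h * |∑ j ∈ Finset.range p, D (y j)| ≤ h * ∑ j ∈ Finset.range p, |D (y j)| :=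
          mul_le_mul_of_nonneg_left (Finset.abs_sum_le_sum_abs _ _) hh.le
      _ ≤ h * ∑ j ∈ Finset.range p, 2 * B *
            (if c * ((j:ℝ) + 1 / 2) * h < η then 1 / √(c * ((j:ℝ) + 1 / 2) * h) else 0) :=
          mul_le_mul_of_nonneg_left (Finset.sum_le_sum hterm) hh.le
      _ = 2 * B * (h * ∑ j ∈ Finset.range p,
            (if c * ((j:ℝ) + 1 / 2) * h < η then 1 / √(c * ((j:ℝ) + 1 / 2) * h) else 0)) := by
          rw [← Finset.mul_sum]; ring
      _ ≤ 2 * B * (4 / c * √η) :=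
          mul_le_mul_of_nonneg_left (b4x77_tail_sum η hc hh p) (by positivity)
      _ = _ := by ring
  have eSum : ∑ j ∈ Finset.range p, g (y j)
      = ∑ j ∈ Finset.range p, gη (y j) + ∑ j ∈ Finset.range p, D (y j) := by
    rw [← Finset.sum_add_distrib]
    apply Finset.sum_congr rfl; intro j _; simp only [hD]; ring
  rw [eSum, eInt]
  have e : h * (∑ j ∈ Finset.range p, gη (y j) + ∑ j ∈ Finset.range p, D (y j)) -
      ((∫ x in (0:ℝ)..Q, gη x * ρ x) + ∫ x in (0:ℝ)..Q, D x * ρ x)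
      = (h * ∑ j ∈ Finset.range p, gη (y j) - ∫ x in (0:ℝ)..Q, gη x * ρ x)
        + h * ∑ j ∈ Finset.range p, D (y j) - ∫ x in (0:ℝ)..Q, D x * ρ x := by ring
  rw [e]
  have t1 := abs_sub ((h * ∑ j ∈ Finset.range p, gη (y j) - ∫ x in (0:ℝ)..Q, gη x * ρ x)
        + h * ∑ j ∈ Finset.range p, D (y j)) (∫ x in (0:ℝ)..Q, D x * ρ x)
  have t2 := abs_add_le (h * ∑ j ∈ Finset.range p, gη (y j) - ∫ x in (0:ℝ)..Q, gη x * ρ x)
        (h * ∑ j ∈ Finset.range p, D (y j))
  rw [sub_zero] at bη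
  linarith

/-! ## Cells from the quantile equations -/

/-- The cells of mass `h` around the mid-quantiles `y0 k` (`∫_0^{y0 k} ρ = (k + 1/2) h`). -/
theorem b4x77_cells {Q h : ℝ} {ρ : ℝ → ℝ} {p : ℕ} {y0 : ℕ → ℝ} (hQ : 0 ≤ Q) (hh : 0 < h)
    (hρc : ContinuousOn ρ (Icc 0 Q)) (hρpos : ∀ x ∈ Icc 0 Q, 0 < ρ x)
    (hQp : ∫ x in (0:ℝ)..Q, ρ x = p * h)
    (hy0m : ∀ k < p, y0 k ∈ Icc 0 Q)
    (hy0 : ∀ k < p, ∫ x in (0:ℝ)..y0 k, ρ x = ((k:ℝ) + 1 / 2) * h) :
    ∃ b : ℕ → ℝ, b 0 = 0 ∧ b p = Q ∧ (∀ j < p, b j ≤ b (j + 1)) ∧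
      (∀ j < p, ∫ x in b j..b (j + 1), ρ x = h) ∧ (∀ j < p, y0 j ∈ Icc (b j) (b (j + 1))) := by
  set P : ℝ → ℝ := fun x => ∫ t in (0:ℝ)..x, ρ t with hP
  have h0m : (0:ℝ) ∈ Icc 0 Q := ⟨le_rfl, hQ⟩
  have hQm : Q ∈ Icc 0 Q := ⟨hQ, le_rfl⟩
  have iρ : ∀ x ∈ Icc 0 Q, ∀ y ∈ Icc 0 Q, IntervalIntegrable ρ volume x y := by
    intro x hx y hy
    apply ContinuousOn.intervalIntegrable
    exact hρc.mono (uIcc_subset_Icc hx hy)
  have hPc : ContinuousOn P (Icc 0 Q) := by
    have := intervalIntegral.continuousOn_primitive_interval' (μ := volume) (iρ 0 h0m Q hQm)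
      (a := 0) left_mem_uIcc
    rwa [uIcc_of_le hQ] at this
  have hdiff : ∀ x ∈ Icc 0 Q, ∀ y ∈ Icc 0 Q, P y - P x = ∫ t in x..y, ρ t := by
    intro x hx y hy
    exact intervalIntegral.integral_interval_sub_left (iρ 0 h0m y hy) (iρ 0 h0m x hx)
  have hPs : StrictMonoOn P (Icc 0 Q) := by
    intro x hx y hy hxy
    have pos : 0 < ∫ t in x..y, ρ t :=
      intervalIntegral.intervalIntegral_pos_of_pos_on (iρ x hx y hy)
        (fun t ht => hρpos t ⟨hx.1.trans ht.1.le, ht.2.le.trans hy.2⟩) hxy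
    have := hdiff x hx y hy
    linarith
  have hP0 : P 0 = 0 := by simp [hP]
  have hex : ∀ j : ℕ, ∃ x ∈ Icc 0 Q, j ≤ p → P x = (j:ℝ) * h := by
    intro j
    by_cases hj : j ≤ p
    · have hmem : (j:ℝ) * h ∈ Icc (P 0) (P Q) := by
        rw [hP0]
        refine ⟨by positivity, ?_⟩
        show (j:ℝ) * h ≤ ∫ t in (0:ℝ)..Q, ρ t
        rw [hQp]
        exact mul_le_mul_of_nonneg_right (by exact_mod_cast hj) hh.le
      obtain ⟨x, hx, hxe⟩ := intermediate_value_Icc hQ hPc hmem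
      exact ⟨x, hx, fun _ => hxe⟩
    · exact ⟨0, h0m, fun h => absurd h hj⟩
  choose b hbm hbP using hex
  refine ⟨b, ?_, ?_, ?_, ?_, ?_⟩
  · apply hPs.injOn (hbm 0) h0m
    rw [hbP 0 (Nat.zero_le _), hP0]; simp
  · apply hPs.injOn (hbm p) hQm
    rw [hbP p le_rfl]; exact hQp.symm
  · intro j hj
    rw [← hPs.le_iff_le (hbm j) (hbm (j + 1)), hbP j hj.le, hbP (j + 1) hj]
    push_cast; nlinarith
  · intro j hj
    rw [← hdiff _ (hbm j) _ (hbm (j + 1)), hbP j hj.le, hbP (j + 1) hj]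
    push_cast; ring
  · intro j hj
    constructor
    · rw [← hPs.le_iff_le (hbm j) (hy0m j hj), hbP j hj.le]
      show _ ≤ ∫ t in (0:ℝ)..y0 j, ρ t
      rw [hy0 j hj]; nlinarith
    · rw [← hPs.le_iff_le (hy0m j hj) (hbm (j + 1)), hbP (j + 1) hj]
      show (∫ t in (0:ℝ)..y0 j, ρ t) ≤ _
      rw [hy0 j hj]; push_cast; nlinarith

/-- One-sided condensation, quantile form. -/
theorem b4x77_half_q {h A B c δ η ρmax Q : ℝ} {ρ g : ℝ → ℝ} {y y0 : ℕ → ℝ} (p : ℕ)
    (hQ : 0 ≤ Q) (hh : 0 < h) (hA : 0 ≤ A) (hB : 0 ≤ B) (hc : 0 < c) (hη : 0 < η)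
    (hρc : ContinuousOn ρ (Icc 0 Q)) (hρpos : ∀ x ∈ Icc 0 Q, 0 < ρ x)
    (hρmax : ∀ x ∈ Icc 0 Q, ρ x ≤ ρmax)
    (hQp : ∫ x in (0:ℝ)..Q, ρ x = p * h)
    (hy0m : ∀ k < p, y0 k ∈ Icc 0 Q)
    (hy0 : ∀ k < p, ∫ x in (0:ℝ)..y0 k, ρ x = ((k:ℝ) + 1 / 2) * h)
    (hgL : ∀ x y, 0 < x → x ≤ y → |g x - g y| ≤ A * (1 + 1 / x) * (y - x))
    (hgB : ∀ x, 0 < x → |g x| ≤ B / √x)
    (hclose : ∀ k < p, |y k - y0 k| ≤ δ)
    (hsep : ∀ k < p, c * ((k:ℝ) + 1 / 2) * h ≤ y k) :
    IntervalIntegrable (fun x => g x * ρ x) volume 0 Q ∧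
    |h * ∑ j ∈ Finset.range p, g (y j) - ∫ x in (0:ℝ)..Q, g x * ρ x|
      ≤ h * (A * (1 + 1 / η)) * (Q + p * δ) + 4 * B * ρmax * √η + 8 * B / c * √η := by
  obtain ⟨b, hb0, hbp, hmono, hρ, hmem⟩ := b4x77_cells hQ hh hρc hρpos hQp hy0m hy0
  exact b4x77_half p hh hA hB hc hη hb0 hbp hmono
    (by apply ContinuousOn.intervalIntegrable; rwa [uIcc_of_le hQ])
    (fun x hx => (hρpos x hx).le) hρmax hρ hgL hgB
    (fun j hj => ⟨y0 j, hmem j hj, hclose j hj⟩) hsep

/-- **B4, two-sided, even `g`, `n = 2 p` roots.**  `y0 j` are the mid-quantiles of `ρ / h`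
(`∫_0^{y0 j} ρ = (j - (n - 1)/2) h`, `j = 0, …, n - 1`), `|y j - y0 j| ≤ δ`,
`|y j| ≥ c |j - (n - 1)/2| h`. -/
theorem b4x77_full {h A B c δ η ρmax Q : ℝ} {ρ g : ℝ → ℝ} {y y0 : ℕ → ℝ} (p : ℕ)
    (hQ : 0 ≤ Q) (hh : 0 < h) (hA : 0 ≤ A) (hB : 0 ≤ B) (hc : 0 < c) (hη : 0 < η)
    (hρc : ContinuousOn ρ (Icc (-Q) Q)) (hρpos : ∀ x ∈ Icc (-Q) Q, 0 < ρ x)
    (hρmax : ∀ x ∈ Icc (-Q) Q, ρ x ≤ ρmax)
    (hQ1 : ∫ x in (0:ℝ)..Q, ρ x = p * h) (hQ2 : ∫ x in (-Q)..0, ρ x = p * h)
    (hy0m : ∀ j < 2 * p, y0 j ∈ Icc (-Q) Q)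
    (hy0 : ∀ j < 2 * p, ∫ x in (0:ℝ)..y0 j, ρ x = ((j:ℝ) - (2 * (p:ℝ) - 1) / 2) * h)
    (hgE : ∀ x, g (-x) = g x)
    (hgL : ∀ x y, 0 < x → x ≤ y → |g x - g y| ≤ A * (1 + 1 / x) * (y - x))
    (hgB : ∀ x, 0 < x → |g x| ≤ B / √x)
    (hclose : ∀ j < 2 * p, |y j - y0 j| ≤ δ)
    (hsep : ∀ j < 2 * p, c * |(j:ℝ) - (2 * (p:ℝ) - 1) / 2| * h ≤ |y j|) :
    IntervalIntegrable (fun x => g x * ρ x) volume (-Q) Q ∧
    |h * ∑ j ∈ Finset.range (2 * p), g (y j) - ∫ x in (-Q)..Q, g x * ρ x|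
      ≤ 2 * (h * (A * (1 + 1 / η)) * (Q + p * δ) + 4 * B * ρmax * √η + 8 * B / c * √η) := by
  have hgabs : ∀ x, g |x| = g x := by
    intro x
    rcases abs_cases x with ⟨h1, _⟩ | ⟨h1, _⟩
    · rw [h1]
    · rw [h1, hgE]
  have hnQ : -Q ≤ 0 := by linarith
  have sub1 : Icc 0 Q ⊆ Icc (-Q) Q := Icc_subset_Icc hnQ le_rfl
  have iρ : ∀ x ∈ Icc (-Q) Q, ∀ y ∈ Icc (-Q) Q, IntervalIntegrable ρ volume x y := by
    intro x hx y hy
    apply ContinuousOn.intervalIntegrable
    exact hρc.mono (uIcc_subset_Icc hx hy)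
  have h0m : (0:ℝ) ∈ Icc (-Q) Q := ⟨hnQ, hQ⟩
  -- sign of a quantile
  have hsignpos : ∀ z ∈ Icc (-Q) Q, 0 < ∫ x in (0:ℝ)..z, ρ x → 0 ≤ z := by
    intro z hz hpos
    by_contra hneg0
    have hneg : z < 0 := not_le.mp hneg0
    have : 0 < ∫ x in z..0, ρ x :=
      intervalIntegral.intervalIntegral_pos_of_pos_on (iρ z hz 0 h0m)
        (fun t ht => hρpos t ⟨hz.1.trans ht.1.le, ht.2.le.trans hQ⟩) hneg
    rw [intervalIntegral.integral_symm] at this
    linarith
  have hsignneg : ∀ z ∈ Icc (-Q) Q, (∫ x in (0:ℝ)..z, ρ x) < 0 → z ≤ 0 := by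
    intro z hz hneg'
    by_contra hpos0
    have hpos : 0 < z := not_le.mp hpos0
    have : 0 < ∫ x in (0:ℝ)..z, ρ x :=
      intervalIntegral.intervalIntegral_pos_of_pos_on (iρ 0 h0m z hz)
        (fun t ht => hρpos t ⟨hnQ.trans ht.1.le, ht.2.le.trans hz.2⟩) hpos
    linarith
  -- right half
  have R := b4x77_half_q (h := h) (A := A) (B := B) (c := c) (δ := δ) (η := η) (ρmax := ρmax)
    (Q := Q) (ρ := ρ) (g := g) (y := fun k => |y (p + k)|) (y0 := fun k => y0 (p + k)) p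
    hQ hh hA hB hc hη (hρc.mono sub1) (fun x hx => hρpos x (sub1 hx))
    (fun x hx => hρmax x (sub1 hx)) hQ1
    (by
      intro k hk
      have hj : p + k < 2 * p := by omega
      have e := hy0 (p + k) hj
      have : 0 < ∫ x in (0:ℝ)..y0 (p + k), ρ x := by
        rw [e]; push_cast
        have : (0:ℝ) < (p:ℝ) + k - (2 * (p:ℝ) - 1) / 2 := by
          have : (0:ℝ) ≤ k := Nat.cast_nonneg k
          linarith
        positivity
      exact ⟨hsignpos _ (hy0m _ hj) this, (hy0m _ hj).2⟩)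
    (by
      intro k hk
      have hj : p + k < 2 * p := by omega
      rw [hy0 (p + k) hj]; push_cast; ring)
    hgL hgB
    (by
      intro k hk
      have hj : p + k < 2 * p := by omega
      have e := hy0 (p + k) hj
      have hpos : 0 < ∫ x in (0:ℝ)..y0 (p + k), ρ x := by
        rw [e]; push_cast
        have : (0:ℝ) < (p:ℝ) + k - (2 * (p:ℝ) - 1) / 2 := by
          have : (0:ℝ) ≤ k := Nat.cast_nonneg k
          linarith
        positivity
      have h0 : 0 ≤ y0 (p + k) := hsignpos _ (hy0m _ hj) hpos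
      calc |abs (y (p + k)) - y0 (p + k)| = |abs (y (p + k)) - abs (y0 (p + k))| := by
            rw [abs_of_nonneg h0]
        _ ≤ |y (p + k) - y0 (p + k)| := abs_abs_sub_abs_le_abs_sub _ _
        _ ≤ δ := hclose _ hj)
    (by
      intro k hk
      have hj : p + k < 2 * p := by omega
      have := hsep (p + k) hj
      have e : |((p + k : ℕ):ℝ) - (2 * (p:ℝ) - 1) / 2| = (k:ℝ) + 1 / 2 := by
        push_cast
        rw [abs_of_nonneg] <;> [ring; (have : (0:ℝ) ≤ k := Nat.cast_nonneg k; linarith)]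
      rw [e] at this
      exact this)
  -- left half, reflected
  have L := b4x77_half_q (h := h) (A := A) (B := B) (c := c) (δ := δ) (η := η) (ρmax := ρmax)
    (Q := Q) (ρ := fun x => ρ (-x)) (g := g) (y := fun k => |y (p - 1 - k)|)
    (y0 := fun k => - y0 (p - 1 - k)) p
    hQ hh hA hB hc hη
    (by
      apply hρc.comp continuous_neg.continuousOn
      intro x hx; exact ⟨by linarith [hx.2], by linarith [hx.1]⟩)
    (fun x hx => hρpos (-x) ⟨by linarith [hx.2], by linarith [hx.1]⟩)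
    (fun x hx => hρmax (-x) ⟨by linarith [hx.2], by linarith [hx.1]⟩)
    (by rw [intervalIntegral.integral_comp_neg (fun x => ρ x), neg_zero]; exact hQ2)
    (by
      intro k hk
      have hj : p - 1 - k < 2 * p := by omega
      have e := hy0 (p - 1 - k) hj
      have ecast : ((p - 1 - k : ℕ):ℝ) = (p:ℝ) - 1 - k := by
        rw [Nat.sub_sub, Nat.cast_sub (by omega)]; push_cast; ring
      have : (∫ x in (0:ℝ)..y0 (p - 1 - k), ρ x) < 0 := by
        rw [e, ecast]
        have : (p:ℝ) - 1 - k - (2 * (p:ℝ) - 1) / 2 < 0 := by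
          have : (0:ℝ) ≤ k := Nat.cast_nonneg k
          linarith
        exact mul_neg_of_neg_of_pos this hh
      have h0 := hsignneg _ (hy0m _ hj) this
      exact ⟨by linarith, by linarith [(hy0m _ hj).1]⟩)
    (by
      intro k hk
      have hj : p - 1 - k < 2 * p := by omega
      have ecast : ((p - 1 - k : ℕ):ℝ) = (p:ℝ) - 1 - k := by
        rw [Nat.sub_sub, Nat.cast_sub (by omega)]; push_cast; ring
      rw [intervalIntegral.integral_comp_neg (fun x => ρ x), neg_zero, neg_neg,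
        intervalIntegral.integral_symm, hy0 _ hj, ecast]
      ring)
    hgL hgB
    (by
      intro k hk
      have hj : p - 1 - k < 2 * p := by omega
      have e := hy0 (p - 1 - k) hj
      have ecast : ((p - 1 - k : ℕ):ℝ) = (p:ℝ) - 1 - k := by
        rw [Nat.sub_sub, Nat.cast_sub (by omega)]; push_cast; ring
      have : (∫ x in (0:ℝ)..y0 (p - 1 - k), ρ x) < 0 := by
        rw [e, ecast]
        have : (p:ℝ) - 1 - k - (2 * (p:ℝ) - 1) / 2 < 0 := by
          have : (0:ℝ) ≤ k := Nat.cast_nonneg k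
          linarith
        exact mul_neg_of_neg_of_pos this hh
      have h0 := hsignneg _ (hy0m _ hj) this
      calc |abs (y (p - 1 - k)) - - y0 (p - 1 - k)|
          = |abs (y (p - 1 - k)) - abs (y0 (p - 1 - k))| := by
            rw [abs_of_nonpos h0]
        _ ≤ |y (p - 1 - k) - y0 (p - 1 - k)| := abs_abs_sub_abs_le_abs_sub _ _
        _ ≤ δ := hclose _ hj)
    (by
      intro k hk
      have hj : p - 1 - k < 2 * p := by omega
      have ecast : ((p - 1 - k : ℕ):ℝ) = (p:ℝ) - 1 - k := by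
        rw [Nat.sub_sub, Nat.cast_sub (by omega)]; push_cast; ring
      have := hsep (p - 1 - k) hj
      have e : |((p - 1 - k : ℕ):ℝ) - (2 * (p:ℝ) - 1) / 2| = (k:ℝ) + 1 / 2 := by
        rw [ecast, abs_of_nonpos] <;> [ring; (have : (0:ℝ) ≤ k := Nat.cast_nonneg k; linarith)]
      rw [e] at this
      exact this)
  obtain ⟨iR, bR⟩ := R
  obtain ⟨iL, bL⟩ := L
  -- back to the left half line
  have iL' : IntervalIntegrable (fun x => g x * ρ x) volume (-Q) 0 := by
    have h1 : IntervalIntegrable (fun x => g x * ρ x) volume 0 (-Q) := by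
      rw [IntervalIntegrable.iff_comp_neg]
      simp only [neg_zero, neg_neg, hgE]
      exact iL
    exact h1.symm
  have eL : ∫ x in (0:ℝ)..Q, g x * ρ (-x) = ∫ x in (-Q)..0, g x * ρ x := by
    have := intervalIntegral.integral_comp_neg (a := 0) (b := Q) (fun x => g x * ρ x)
    simp only [hgE, neg_zero] at this
    exact this
  refine ⟨iL'.trans iR, ?_⟩
  rw [← intervalIntegral.integral_add_adjacent_intervals iL' iR, two_mul p,
    Finset.sum_range_add, ← Finset.sum_range_reflect (fun j => g (y j)) p]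
  simp only [hgabs] at bR bL
  rw [eL] at bL
  have e : h * (∑ j ∈ Finset.range p, g (y (p - 1 - j)) + ∑ x ∈ Finset.range p, g (y (p + x))) -
      ((∫ x in (-Q)..0, g x * ρ x) + ∫ x in (0:ℝ)..Q, g x * ρ x)
      = (h * ∑ j ∈ Finset.range p, g (y (p - 1 - j)) - ∫ x in (-Q)..0, g x * ρ x)
        + (h * ∑ x ∈ Finset.range p, g (y (p + x)) - ∫ x in (0:ℝ)..Q, g x * ρ x) := by ring
  rw [e]
  have := abs_add_le (h * ∑ j ∈ Finset.range p, g (y (p - 1 - j)) - ∫ x in (-Q)..0, g x * ρ x)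
    (h * ∑ x ∈ Finset.range p, g (y (p + x)) - ∫ x in (0:ℝ)..Q, g x * ρ x)
  linarith

/-! ## The observable `e0` -/

/-- `e0 u = log |sinh (u + i lam) / sinh u|` (same formula as `bh271_e0`). -/
noncomputable def b4x77_e0 (lam u : ℝ) : ℝ :=
  Real.log ((Real.cosh (2 * u) - Real.cos (2 * lam)) / (Real.cosh (2 * u) - 1)) / 2

theorem b4x77_e0_even (lam u : ℝ) : b4x77_e0 lam (-u) = b4x77_e0 lam u := by
  unfold b4x77_e0; rw [mul_neg, Real.cosh_neg]

theorem b4x77_cosh_sub_one (u : ℝ) : Real.cosh (2 * u) - 1 = 2 * Real.sinh u ^ 2 := by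
  rw [Real.cosh_two_mul, Real.cosh_sq]; ring

theorem b4x77_log_one_add_le {t : ℝ} (ht : 0 ≤ t) : Real.log (1 + t) ≤ 2 * √t := by
  have h1 : 0 < 1 + t := by linarith
  have h2 : Real.log (√(1 + t)) = Real.log (1 + t) / 2 := Real.log_sqrt h1.le
  have h3 : Real.log (√(1 + t)) ≤ √(1 + t) - 1 :=
    Real.log_le_sub_one_of_pos (Real.sqrt_pos.mpr h1)
  have h4 : √(1 + t) ≤ 1 + √t := by
    rw [Real.sqrt_le_left (by positivity)]
    nlinarith [Real.sq_sqrt ht, Real.sqrt_nonneg t]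
  linarith

theorem b4x77_e0_bound (lam u : ℝ) (hu : 0 < u) : |b4x77_e0 lam u| ≤ 2 / √u := by
  have hsinh : u ≤ Real.sinh u := Real.self_le_sinh_iff.mpr hu.le
  have hb : Real.cosh (2 * u) - 1 = 2 * Real.sinh u ^ 2 := b4x77_cosh_sub_one u
  have hb2 : 2 * u ^ 2 ≤ Real.cosh (2 * u) - 1 := by rw [hb]; nlinarith
  have hb0 : 0 < Real.cosh (2 * u) - 1 := by nlinarith [sq_pos_of_pos hu]
  set b := Real.cosh (2 * u) - 1 with hbdef
  have ha : Real.cosh (2 * u) - Real.cos (2 * lam) = b + (1 - Real.cos (2 * lam)) := by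
    rw [hbdef]; ring
  have hc1 : 0 ≤ 1 - Real.cos (2 * lam) := by linarith [Real.cos_le_one (2 * lam)]
  have hc2 : 1 - Real.cos (2 * lam) ≤ 2 := by linarith [Real.neg_one_le_cos (2 * lam)]
  have hR1 : 1 ≤ (b + (1 - Real.cos (2 * lam))) / b := by
    rw [le_div_iff₀ hb0]; linarith
  have hR2 : (b + (1 - Real.cos (2 * lam))) / b ≤ (1 + 1 / u) ^ 2 := by
    rw [div_le_iff₀ hb0]
    have e : (1 + 1 / u) ^ 2 = 1 + 2 / u + 1 / u ^ 2 := by field_simp; ring
    have h1 : 1 / u ^ 2 * b ≥ 2 := by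
      have : 1 / u ^ 2 * (2 * u ^ 2) = 2 := by field_simp
      have h2 : 1 / u ^ 2 * (2 * u ^ 2) ≤ 1 / u ^ 2 * b :=
        mul_le_mul_of_nonneg_left hb2 (by positivity)
      linarith
    have h3 : 0 ≤ 2 / u * b := by positivity
    rw [e]; nlinarith
  unfold b4x77_e0
  rw [ha]
  have hl0 : 0 ≤ Real.log ((b + (1 - Real.cos (2 * lam))) / b) := Real.log_nonneg hR1
  have hl1 : Real.log ((b + (1 - Real.cos (2 * lam))) / b) ≤ Real.log ((1 + 1 / u) ^ 2) :=
    Real.log_le_log (by linarith) hR2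
  have hl2 : Real.log ((1 + 1 / u) ^ 2) = 2 * Real.log (1 + 1 / u) := by
    rw [Real.log_pow]; norm_num
  have hl3 : Real.log (1 + 1 / u) ≤ 2 * √(1 / u) := b4x77_log_one_add_le (by positivity)
  have hl4 : √(1 / u) = 1 / √u := by rw [Real.sqrt_div zero_le_one, Real.sqrt_one]
  rw [abs_of_nonneg (by positivity)]
  rw [hl4] at hl3
  have : 2 / √u = 2 * (1 / √u) := by ring
  rw [this]; linarith

theorem b4x77_e0_hasDerivAt (lam u : ℝ) (hu : 0 < u) :
    HasDerivAt (b4x77_e0 lam)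
      (Real.sinh (2 * u) * ((Real.cosh (2 * u) - 1) - (Real.cosh (2 * u) - Real.cos (2 * lam))) /
        ((Real.cosh (2 * u) - Real.cos (2 * lam)) * (Real.cosh (2 * u) - 1))) u := by
  have hb0 : 0 < Real.cosh (2 * u) - 1 := by
    rw [b4x77_cosh_sub_one]
    have : 0 < Real.sinh u := Real.sinh_pos_iff.mpr hu
    positivity
  have ha0 : 0 < Real.cosh (2 * u) - Real.cos (2 * lam) := by
    linarith [Real.cos_le_one (2 * lam)]
  have hc : HasDerivAt (fun x : ℝ => Real.cosh (2 * x)) (Real.sinh (2 * u) * 2) u := by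
    have := ((hasDerivAt_id u).const_mul 2).cosh
    simpa using this
  have h1 : HasDerivAt (fun x : ℝ => Real.cosh (2 * x) - Real.cos (2 * lam))
      (Real.sinh (2 * u) * 2) u := hc.sub_const _
  have h2 : HasDerivAt (fun x : ℝ => Real.cosh (2 * x) - 1) (Real.sinh (2 * u) * 2) u :=
    hc.sub_const _
  have h3 := ((h1.div h2 hb0.ne').log (div_pos ha0 hb0).ne').div_const 2
  refine h3.congr_deriv ?_
  simp only [Pi.div_apply]
  field_simp

theorem b4x77_e0_lip (lam x y : ℝ) (hx : 0 < x) (hxy : x ≤ y) :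
    |b4x77_e0 lam x - b4x77_e0 lam y| ≤ 1 * (1 + 1 / x) * (y - x) := by
  have key := Convex.norm_image_sub_le_of_norm_hasDerivWithin_le (f := b4x77_e0 lam)
    (C := 1 + 1 / x) (s := Icc x y) (x := x) (y := y)
    (f' := fun u => Real.sinh (2 * u) *
      ((Real.cosh (2 * u) - 1) - (Real.cosh (2 * u) - Real.cos (2 * lam))) /
        ((Real.cosh (2 * u) - Real.cos (2 * lam)) * (Real.cosh (2 * u) - 1)))
    (fun u hu => (b4x77_e0_hasDerivAt lam u (lt_of_lt_of_le hx hu.1)).hasDerivWithinAt)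
    (by
      intro u hu
      have hu0 : 0 < u := lt_of_lt_of_le hx hu.1
      have hs : 0 < Real.sinh u := Real.sinh_pos_iff.mpr hu0
      have hsu : u ≤ Real.sinh u := Real.self_le_sinh_iff.mpr hu0.le
      have hb : Real.cosh (2 * u) - 1 = 2 * Real.sinh u ^ 2 := b4x77_cosh_sub_one u
      have hb0 : 0 < Real.cosh (2 * u) - 1 := by rw [hb]; positivity
      have hc1 : 0 ≤ 1 - Real.cos (2 * lam) := by linarith [Real.cos_le_one (2 * lam)]
      have ha0 : 0 < Real.cosh (2 * u) - Real.cos (2 * lam) := by linarith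
      have hs2 : 0 < Real.sinh (2 * u) := Real.sinh_pos_iff.mpr (by linarith)
      rw [Real.norm_eq_abs, abs_div, abs_mul, abs_of_pos hs2, abs_of_pos (mul_pos ha0 hb0)]
      have e1 : |(Real.cosh (2 * u) - 1) - (Real.cosh (2 * u) - Real.cos (2 * lam))|
          ≤ Real.cosh (2 * u) - Real.cos (2 * lam) := by
        rw [abs_le]; constructor <;> linarith
      have e2 : Real.sinh (2 * u) *
          |(Real.cosh (2 * u) - 1) - (Real.cosh (2 * u) - Real.cos (2 * lam))| /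
          ((Real.cosh (2 * u) - Real.cos (2 * lam)) * (Real.cosh (2 * u) - 1))
          ≤ Real.sinh (2 * u) / (Real.cosh (2 * u) - 1) := by
        rw [div_le_div_iff₀ (mul_pos ha0 hb0) hb0]
        have := mul_le_mul_of_nonneg_left e1 (mul_pos hs2 hb0).le
        nlinarith
      have e3 : Real.sinh (2 * u) / (Real.cosh (2 * u) - 1) = Real.cosh u / Real.sinh u := by
        rw [hb, Real.sinh_two_mul]; field_simp
      have e4 : Real.cosh u / Real.sinh u ≤ 1 + 1 / u := by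
        have h1 : Real.cosh u = Real.sinh u + Real.exp (-u) := by
          linarith [Real.cosh_sub_sinh u]
        have h2 : Real.exp (-u) ≤ 1 := Real.exp_le_one_iff.mpr (by linarith)
        have h3 : Real.cosh u / Real.sinh u = 1 + Real.exp (-u) / Real.sinh u := by
          rw [h1]; field_simp
        have h4 : Real.exp (-u) / Real.sinh u ≤ 1 / u :=
          div_le_div₀ zero_le_one h2 hu0 hsu
        linarith
      have e5 : 1 / u ≤ 1 / x := one_div_le_one_div_of_le hx hu.1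
      linarith)
    (convex_Icc x y) (left_mem_Icc.mpr hxy) (right_mem_Icc.mpr hxy)
  rw [Real.norm_eq_abs, Real.norm_eq_abs, abs_of_nonneg (by linarith : 0 ≤ y - x)] at key
  rw [abs_sub_comm, one_mul]
  exact key

/-! ## Lipschitz bounds for `arctan (κ tanh u)` (momentum and phase) -/

theorem b4x77_tanh_hasDerivAt (u : ℝ) : HasDerivAt Real.tanh (1 / Real.cosh u ^ 2) u := by
  have hc : Real.cosh u ≠ 0 := (Real.cosh_pos u).ne'
  have h := (Real.hasDerivAt_sinh u).div (Real.hasDerivAt_cosh u) hc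
  have e : (fun x => Real.sinh x / Real.cosh x) = Real.tanh := by
    funext x; rw [Real.tanh_eq_sinh_div_cosh]
  have h' : HasDerivAt Real.tanh
      ((Real.cosh u * Real.cosh u - Real.sinh u * Real.sinh u) / Real.cosh u ^ 2) u := by
    rw [← e]; exact h
  refine h'.congr_deriv ?_
  have := Real.cosh_sq u
  congr 1
  nlinarith

theorem b4x77_arctan_tanh_lip (κ u v : ℝ) :
    |Real.arctan (κ * Real.tanh u) - Real.arctan (κ * Real.tanh v)| ≤ |κ| * |u - v| := by
  have key := Convex.norm_image_sub_le_of_norm_hasDerivWithin_le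
    (f := fun x => Real.arctan (κ * Real.tanh x)) (C := |κ|) (s := univ) (x := v) (y := u)
    (f' := fun x => 1 / (1 + (κ * Real.tanh x) ^ 2) * (κ * (1 / Real.cosh x ^ 2)))
    (fun x _ => (((b4x77_tanh_hasDerivAt x).const_mul κ).arctan).hasDerivWithinAt)
    (by
      intro x _
      have h1 : 0 < 1 + (κ * Real.tanh x) ^ 2 := by positivity
      have h2 : 1 / (1 + (κ * Real.tanh x) ^ 2) ≤ 1 := by
        rw [div_le_one h1]; nlinarith [sq_nonneg (κ * Real.tanh x)]
      have h3 : 1 / Real.cosh x ^ 2 ≤ 1 := by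
        have := Real.one_le_cosh x
        rw [div_le_one (by positivity)]; nlinarith
      have h4 : 0 ≤ 1 / Real.cosh x ^ 2 := by positivity
      rw [Real.norm_eq_abs, abs_mul, abs_mul, abs_of_nonneg (by positivity : 0 ≤ 1 / (1 + (κ * Real.tanh x) ^ 2)),
        abs_of_nonneg h4]
      calc 1 / (1 + (κ * Real.tanh x) ^ 2) * (|κ| * (1 / Real.cosh x ^ 2))
          ≤ 1 * (|κ| * 1) := by
            apply mul_le_mul h2 _ (by positivity) zero_le_one
            exact mul_le_mul_of_nonneg_left h3 (abs_nonneg _)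
        _ = |κ| := by ring)
    convex_univ (mem_univ _) (mem_univ _)
  simpa [Real.norm_eq_abs] using key

/-! ## Integrability of `g ρ` on every interval -/

theorem b4x77_ig0 {A B T : ℝ} (hA : 0 ≤ A) {g ρ : ℝ → ℝ} (hT : 0 ≤ T)
    (hgL : ∀ x y, 0 < x → x ≤ y → |g x - g y| ≤ A * (1 + 1 / x) * (y - x))
    (hgB : ∀ x, 0 < x → |g x| ≤ B / √x) (hρ : Continuous ρ) :
    IntervalIntegrable (fun x => g x * ρ x) volume 0 T := by
  have hgc : ContinuousOn g (Ioi 0) := b4x77_contOn hA hgL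
  obtain ⟨M, hM⟩ := isCompact_Icc.exists_bound_of_continuousOn (s := Icc 0 T) hρ.continuousOn
  rw [intervalIntegrable_iff_integrableOn_Ioc_of_le hT]
  have ib : IntegrableOn (fun u : ℝ => B * M * u ^ (-(1 / 2) : ℝ)) (Ioc 0 T) volume := by
    rw [← intervalIntegrable_iff_integrableOn_Ioc_of_le hT]
    exact (intervalIntegral.intervalIntegrable_rpow' (by norm_num)).const_mul _
  refine Integrable.mono' ib ?_ ?_
  · exact ((hgc.mono Ioc_subset_Ioi_self).aestronglyMeasurable measurableSet_Ioc).mul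
      hρ.aestronglyMeasurable
  · rw [ae_restrict_iff' measurableSet_Ioc]
    refine Filter.Eventually.of_forall (fun u hu => ?_)
    have hu' : u ∈ Icc 0 T := ⟨hu.1.le, hu.2⟩
    have h1 := hM u hu'
    rw [Real.norm_eq_abs] at h1
    rw [Real.norm_eq_abs, abs_mul, ← b4x77_inv_sqrt u hu.1]
    calc |g u| * |ρ u| ≤ (B / √u) * M :=
          mul_le_mul (hgB u hu.1) h1 (abs_nonneg _) ((abs_nonneg _).trans (hgB u hu.1))
      _ = B * M * (1 / √u) := by ring

theorem b4x77_intble {A B : ℝ} (hA : 0 ≤ A) {g ρ : ℝ → ℝ} (hgE : ∀ x, g (-x) = g x)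
    (hgL : ∀ x y, 0 < x → x ≤ y → |g x - g y| ≤ A * (1 + 1 / x) * (y - x))
    (hgB : ∀ x, 0 < x → |g x| ≤ B / √x) (hρ : Continuous ρ) (a b : ℝ) :
    IntervalIntegrable (fun x => g x * ρ x) volume a b := by
  set T := max |a| |b| with hT
  have hT0 : 0 ≤ T := (abs_nonneg a).trans (le_max_left _ _)
  have iR := b4x77_ig0 hA hT0 hgL hgB hρ
  have iL := b4x77_ig0 hA hT0 hgL hgB (hρ.comp continuous_neg)
  have iL' : IntervalIntegrable (fun x => g x * ρ x) volume (-T) 0 := by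
    have h1 : IntervalIntegrable (fun x => g x * ρ x) volume 0 (-T) := by
      rw [IntervalIntegrable.iff_comp_neg]
      simp only [neg_zero, neg_neg, hgE]
      exact iL
    exact h1.symm
  refine (iL'.trans iR).mono_set ?_
  rw [uIcc_of_le (by linarith : -T ≤ T)]
  apply uIcc_subset_Icc
  · exact abs_le.mp (le_max_left |a| |b|)
  · exact abs_le.mp (le_max_right |a| |b|)

/-! ## The primitive of a continuous positive even density -/

theorem b4x77_P_sub {r : ℝ → ℝ} (hrc : Continuous r) (a b : ℝ) :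
    (∫ t in (0:ℝ)..b, r t) - (∫ t in (0:ℝ)..a, r t) = ∫ t in a..b, r t :=
  intervalIntegral.integral_interval_sub_left (hrc.intervalIntegrable _ _)
    (hrc.intervalIntegrable _ _)

theorem b4x77_P_strictMono {r : ℝ → ℝ} (hrc : Continuous r) (hrpos : ∀ u, 0 < r u) :
    StrictMono (fun x => ∫ t in (0:ℝ)..x, r t) := by
  intro a b hab
  have pos : 0 < ∫ t in a..b, r t :=
    intervalIntegral.intervalIntegral_pos_of_pos_on (hrc.intervalIntegrable _ _)
      (fun t _ => hrpos t) hab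
  have := b4x77_P_sub hrc a b
  simp only
  linarith

theorem b4x77_P_odd {r : ℝ → ℝ} (hreven : ∀ u, r (-u) = r u) (x : ℝ) :
    (∫ t in (0:ℝ)..(-x), r t) = - ∫ t in (0:ℝ)..x, r t := by
  have := intervalIntegral.integral_comp_neg (a := 0) (b := x) (fun t => r t)
  simp only [hreven, neg_zero] at this
  rw [this, intervalIntegral.integral_symm]

theorem b4x77_P_lower {r : ℝ → ℝ} (hrc : Continuous r) {T m : ℝ}
    (hm : ∀ x ∈ Icc (-T) T, m ≤ r x) {a b : ℝ} (ha : a ∈ Icc (-T) T) (hb : b ∈ Icc (-T) T) :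
    m * |a - b| ≤ |(∫ t in (0:ℝ)..a, r t) - ∫ t in (0:ℝ)..b, r t| := by
  have key : ∀ a b : ℝ, a ∈ Icc (-T) T → b ∈ Icc (-T) T → a ≤ b →
      m * (b - a) ≤ (∫ t in (0:ℝ)..b, r t) - ∫ t in (0:ℝ)..a, r t := by
    intro a b ha hb hab
    rw [b4x77_P_sub hrc a b]
    have h1 : ∫ _t in a..b, m = m * (b - a) := by
      rw [intervalIntegral.integral_const, smul_eq_mul]; ring
    rw [← h1]
    apply intervalIntegral.integral_mono_on hab intervalIntegrable_const
      (hrc.intervalIntegrable _ _)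
    intro x hx
    exact hm x ⟨ha.1.trans hx.1, hx.2.trans hb.2⟩
  rcases le_total a b with h | h
  · have := key a b ha hb h
    rw [abs_sub_comm a b, abs_of_nonneg (by linarith : 0 ≤ b - a), abs_sub_comm]
    exact this.trans (le_abs_self _)
  · have := key b a hb ha h
    rw [abs_of_nonneg (by linarith : 0 ≤ a - b)]
    exact this.trans (le_abs_self _)

/-! ## Separation of the roots from `0` by the counting function -/

theorem b4x77_sep {a1 a2 : ℝ} {S Th : ℝ → ℝ} {N n : ℕ} {y : Fin n → ℝ}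
    (hS0 : S 0 = 0) (hS : ∀ u v, |S u - S v| ≤ a1 * |u - v|)
    (hThodd : ∀ u, Th (-u) = - Th u) (hTh : ∀ u v, |Th u - Th v| ≤ a2 * |u - v|)
    (hsymm : ∀ j : Fin n, y (Fin.rev j) = - y j) (j : Fin n) :
    |(N : ℝ) * S (y j) - ∑ k : Fin n, Th (y j - y k)| ≤ ((N : ℝ) * a1 + n * a2) * |y j| := by
  have hz : ∑ k : Fin n, Th (0 - y k) = 0 := by
    have h1 : ∑ k : Fin n, Th (0 - y k) = ∑ k : Fin n, Th (0 - y (Fin.rev k)) :=
      (Equiv.sum_comp Fin.revPerm (fun k => Th (0 - y k))).symm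
    have h2 : ∑ k : Fin n, Th (0 - y (Fin.rev k)) = - ∑ k : Fin n, Th (0 - y k) := by
      rw [← Finset.sum_neg_distrib]
      apply Finset.sum_congr rfl
      intro k _
      rw [hsymm k, ← hThodd]; congr 1; ring
    linarith
  have e : (N : ℝ) * S (y j) - ∑ k : Fin n, Th (y j - y k)
      = (N : ℝ) * (S (y j) - S 0) - ∑ k : Fin n, (Th (y j - y k) - Th (0 - y k)) := by
    rw [Finset.sum_sub_distrib, hz, hS0]; ring
  rw [e]
  have b1 : |(N : ℝ) * (S (y j) - S 0)| ≤ (N : ℝ) * a1 * |y j| := by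
    rw [abs_mul, abs_of_nonneg (Nat.cast_nonneg N), mul_assoc]
    apply mul_le_mul_of_nonneg_left _ (Nat.cast_nonneg N)
    simpa using hS (y j) 0
  have b2 : |∑ k : Fin n, (Th (y j - y k) - Th (0 - y k))| ≤ (n : ℝ) * a2 * |y j| := by
    calc _ ≤ ∑ k : Fin n, |Th (y j - y k) - Th (0 - y k)| := Finset.abs_sum_le_sum_abs _ _
      _ ≤ ∑ _k : Fin n, a2 * |y j| := by
          apply Finset.sum_le_sum
          intro k _
          have := hTh (y j - y k) (0 - y k)
          have e2 : y j - y k - (0 - y k) = y j := by ring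
          rwa [e2] at this
      _ = (n : ℝ) * a2 * |y j| := by
          rw [Finset.sum_const, Finset.card_univ, Fintype.card_fin, nsmul_eq_mul]; ring
  calc _ ≤ |(N : ℝ) * (S (y j) - S 0)| + |∑ k : Fin n, (Th (y j - y k) - Th (0 - y k))| :=
        abs_sub _ _
    _ ≤ _ := by linarith [b1, b2]

/-! ## The contract at fixed `N` -/

set_option maxHeartbeats 1600000 in
theorem b4x77_fixedN {A B a1 a2 Q rmin rmax C η : ℝ} {g r S Th : ℝ → ℝ}
    (hA : 0 ≤ A) (hB : 0 ≤ B) (hQ : 0 < Q) (hC : 0 ≤ C) (hη : 0 < η) (hrmin : 0 < rmin)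
    (hgE : ∀ x, g (-x) = g x)
    (hgL : ∀ x y, 0 < x → x ≤ y → |g x - g y| ≤ A * (1 + 1 / x) * (y - x))
    (hgB : ∀ x, 0 < x → |g x| ≤ B / √x)
    (hrc : Continuous r) (hrpos : ∀ u, 0 < r u) (hreven : ∀ u, r (-u) = r u)
    (hmin : ∀ x ∈ Icc (-(Q + 1)) (Q + 1), rmin ≤ r x)
    (hmax : ∀ x ∈ Icc (-(Q + 1)) (Q + 1), r x ≤ rmax)
    (hS0 : S 0 = 0) (hS : ∀ u v, |S u - S v| ≤ a1 * |u - v|)
    (hThodd : ∀ u, Th (-u) = - Th u) (hTh : ∀ u v, |Th u - Th v| ≤ a2 * |u - v|)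
    {N p : ℕ} (hN : 0 < N) (y : Fin (2 * p) → ℝ)
    (hN1 : (1 + C) / N < ∫ t in Q..(Q + 1), r t)
    (hN2 : 1 / (N * rmin) ≤ Q / 2)
    (hn : |((2 * p : ℕ) : ℝ) - (∫ u in (-Q)..Q, r u) * N| ≤ 2)
    (hroots : ∀ j : Fin (2 * p), (N : ℝ) * S (y j) - ∑ k, Th (y j - y k)
      = ((j : ℕ) : ℝ) - (((2 * p : ℕ) : ℝ) - 1) / 2)
    (hsymm : ∀ j, y (Fin.rev j) = - y j)
    (hclose : ∀ j, |(∫ u in (0 : ℝ)..(y j), r u)
      - (((j : ℕ) : ℝ) - (((2 * p : ℕ) : ℝ) - 1) / 2) / N| ≤ C / N) :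
    |(∑ j, g (y j)) / N - ∫ u in (-Q)..Q, g u * r u| ≤
      (1 / N) * (2 * (A * (1 + 1 / η)) * ((Q + 1) + (∫ t in (0:ℝ)..(Q + 1), r t) * C / rmin)
          + 2 * (B / √(Q / 2) * rmax) / rmin)
      + 2 * (4 * B * rmax + 8 * B * (a1 + ((∫ u in (-Q)..Q, r u) + 2) * a2 + 1)) * √η := by
  set P : ℝ → ℝ := fun x => ∫ t in (0:ℝ)..x, r t with hP
  have hPm : StrictMono P := b4x77_P_strictMono hrc hrpos
  have hPc : Continuous P :=
    intervalIntegral.continuous_primitive (fun a b => hrc.intervalIntegrable a b) 0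
  have hPodd : ∀ x, P (-x) = - P x := b4x77_P_odd hreven
  have hP0 : P 0 = 0 := by simp [hP]
  set T := Q + 1 with hT
  have hT0 : 0 < T := by linarith
  set h : ℝ := 1 / N with hh
  have hNpos : (0:ℝ) < N := by exact_mod_cast hN
  have hh0 : 0 < h := by positivity
  set D := ∫ u in (-Q)..Q, r u with hDdef
  have hD : D = 2 * P Q := by
    have h1 : P Q - P (-Q) = ∫ t in (-Q)..Q, r t := b4x77_P_sub hrc (-Q) Q
    rw [hDdef, ← h1, hPodd]; ring
  have hPT : P T - P Q = ∫ t in Q..T, r t := b4x77_P_sub hrc Q T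
  -- Step 1
  have hph : |(p:ℝ) * h - P Q| ≤ h := by
    rw [hD] at hn; push_cast at hn
    have e : (p:ℝ) * h - P Q = (2 * (p:ℝ) - 2 * P Q * N) / (2 * N) := by
      rw [hh]; field_simp
    rw [e, abs_div, abs_of_pos (by positivity : (0:ℝ) < 2 * N), div_le_iff₀ (by positivity)]
    calc _ ≤ (2:ℝ) := hn
      _ = h * (2 * N) := by rw [hh]; field_simp
  have e1C : (1 + C) / N = h + C * h := by rw [hh]; ring
  have hbT : (p:ℝ) * h + C * h < P T := by
    have := (abs_le.mp hph).2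
    rw [e1C] at hN1
    linarith
  -- Step 2
  obtain ⟨Q', hQ'm, hQ'⟩ : ∃ Q' ∈ Icc 0 T, P Q' = p * h := by
    apply intermediate_value_Icc hT0.le hPc.continuousOn
    rw [hP0]
    refine ⟨by positivity, ?_⟩
    have : 0 ≤ C * h := by positivity
    linarith
  have hTm : ∀ x, x ∈ Icc 0 T → x ∈ Icc (-T) T := fun x hx => ⟨by linarith [hx.1], hx.2⟩
  -- Step 3
  have hQQ' : |Q' - Q| ≤ h / rmin := by
    have := b4x77_P_lower hrc hmin (hTm Q' hQ'm) (hTm Q ⟨hQ.le, by linarith⟩)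
    rw [le_div_iff₀ hrmin]
    calc |Q' - Q| * rmin = rmin * |Q' - Q| := by ring
      _ ≤ |P Q' - P Q| := this
      _ ≤ h := by rw [hQ']; exact hph
  -- Step 4
  set y' : ℕ → ℝ := fun j => if hj : j < 2 * p then y ⟨j, hj⟩ else 0 with hy'
  have hy'eq : ∀ j (hj : j < 2 * p), y' j = y ⟨j, hj⟩ := by
    intro j hj; simp [hy', hj]
  have hI : ∀ j < 2 * p, |(j:ℝ) - (2 * (p:ℝ) - 1) / 2| ≤ p := by
    intro j hj
    have h1 : (j:ℝ) ≤ 2 * p - 1 := by
      have h2 : j + 1 ≤ 2 * p := hj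
      have h3 : ((j + 1 : ℕ):ℝ) ≤ ((2 * p : ℕ) : ℝ) := by exact_mod_cast h2
      push_cast at h3; linarith
    have h0 : (0:ℝ) ≤ j := Nat.cast_nonneg j
    rw [abs_le]; constructor <;> linarith
  have hex : ∀ j : ℕ, ∃ z ∈ Icc (-Q') Q',
      j < 2 * p → P z = ((j:ℝ) - (2 * (p:ℝ) - 1) / 2) * h := by
    intro j
    by_cases hj : j < 2 * p
    · have hmem : ((j:ℝ) - (2 * (p:ℝ) - 1) / 2) * h ∈ Icc (P (-Q')) (P Q') := by
        rw [hPodd, hQ']
        have := abs_le.mp (hI j hj)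
        constructor <;> nlinarith
      obtain ⟨z, hz, hze⟩ :=
        intermediate_value_Icc (by linarith [hQ'm.1]) hPc.continuousOn hmem
      exact ⟨z, hz, fun _ => hze⟩
    · exact ⟨0, ⟨by linarith [hQ'm.1], hQ'm.1⟩, fun h => absurd h hj⟩
  choose y0 hy0m hy0 using hex
  -- Step 5
  have hcl : ∀ j (hj : j < 2 * p),
      |P (y' j) - ((j:ℝ) - (2 * (p:ℝ) - 1) / 2) * h| ≤ C * h := by
    intro j hj
    have := hclose ⟨j, hj⟩
    rw [hy'eq j hj]
    push_cast at this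
    have e1 : ((j:ℝ) - (2 * (p:ℝ) - 1) / 2) / N = ((j:ℝ) - (2 * (p:ℝ) - 1) / 2) * h := by
      rw [hh]; ring
    have e2 : C / N = C * h := by rw [hh]; ring
    rw [e1, e2] at this; exact this
  have hyT : ∀ j < 2 * p, y' j ∈ Icc (-T) T := by
    intro j hj
    have h1 := abs_le.mp (hcl j hj)
    have h2 := abs_le.mp (hI j hj)
    have h3 : ((j:ℝ) - (2 * (p:ℝ) - 1) / 2) * h ≤ p * h :=
      mul_le_mul_of_nonneg_right h2.2 hh0.le
    have h4 : -(p:ℝ) * h ≤ ((j:ℝ) - (2 * (p:ℝ) - 1) / 2) * h :=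
      mul_le_mul_of_nonneg_right h2.1 hh0.le
    have hu : P (y' j) < P T := by linarith [h1.2]
    have hl : P (-T) < P (y' j) := by rw [hPodd]; linarith [h1.1]
    exact ⟨(hPm.lt_iff_lt.mp hl).le, (hPm.lt_iff_lt.mp hu).le⟩
  -- Step 6
  have hδ : ∀ j < 2 * p, |y' j - y0 j| ≤ C * h / rmin := by
    intro j hj
    have hz : y0 j ∈ Icc (-T) T :=
      ⟨by linarith [(hy0m j).1, hQ'm.2], by linarith [(hy0m j).2, hQ'm.2]⟩
    have := b4x77_P_lower hrc hmin (hyT j hj) hz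
    rw [le_div_iff₀ hrmin]
    calc |y' j - y0 j| * rmin = rmin * |y' j - y0 j| := by ring
      _ ≤ |P (y' j) - P (y0 j)| := this
      _ ≤ C * h := by rw [hy0 j hj]; exact hcl j hj
  -- Step 7
  have ha1 : 0 ≤ a1 := by
    have := hS 1 0
    simp only [sub_zero, abs_one, mul_one] at this
    exact (abs_nonneg _).trans this
  have ha2 : 0 ≤ a2 := by
    have := hTh 1 0
    simp only [sub_zero, abs_one, mul_one] at this
    exact (abs_nonneg _).trans this
  have hD0 : 0 ≤ D :=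
    intervalIntegral.integral_nonneg (by linarith) (fun u _ => (hrpos u).le)
  set Cξ := a1 + (D + 2) * a2 + 1 with hCξ
  have hCξ0 : 0 < Cξ := by positivity
  have hN1' : (1:ℝ) ≤ N := by exact_mod_cast hN
  have hnN : 2 * (p:ℝ) ≤ (D + 2) * N := by
    have := (abs_le.mp hn).2
    push_cast at this
    nlinarith
  have hsep : ∀ j < 2 * p, (1 / Cξ) * |(j:ℝ) - (2 * (p:ℝ) - 1) / 2| * h ≤ |y' j| := by
    intro j hj
    have h1 := b4x77_sep (N := N) hS0 hS hThodd hTh hsymm ⟨j, hj⟩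
    rw [hroots ⟨j, hj⟩] at h1
    push_cast at h1
    rw [hy'eq j hj]
    have h2 : (N:ℝ) * a1 + 2 * p * a2 ≤ N * Cξ := by
      have : 2 * (p:ℝ) * a2 ≤ (D + 2) * N * a2 := mul_le_mul_of_nonneg_right hnN ha2
      rw [hCξ]; nlinarith
    have h3 : |(j:ℝ) - (2 * (p:ℝ) - 1) / 2| ≤ N * Cξ * |y ⟨j, hj⟩| :=
      h1.trans (mul_le_mul_of_nonneg_right h2 (abs_nonneg _))
    have e : 1 / Cξ * |(j:ℝ) - (2 * (p:ℝ) - 1) / 2| * h
        = |(j:ℝ) - (2 * (p:ℝ) - 1) / 2| / (N * Cξ) := by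
      rw [hh]; field_simp
    rw [e, div_le_iff₀ (by positivity)]
    linarith
  -- Step 8
  have hsubQ' : Icc (-Q') Q' ⊆ Icc (-T) T :=
    Icc_subset_Icc (by linarith [hQ'm.2]) hQ'm.2
  obtain ⟨_, bF⟩ := b4x77_full (h := h) (A := A) (B := B) (c := 1 / Cξ) (δ := C * h / rmin)
    (η := η) (ρmax := rmax) (Q := Q') (ρ := r) (g := g) (y := y') (y0 := y0) p
    hQ'm.1 hh0 hA hB (by positivity) hη hrc.continuousOn (fun x _ => hrpos x)
    (fun x hx => hmax x (hsubQ' hx)) hQ'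
    (by
      rw [intervalIntegral.integral_symm]
      show - P (-Q') = _
      rw [hPodd, neg_neg]; exact hQ')
    (fun j _ => hy0m j) hy0 hgE hgL hgB hδ hsep
  -- Step 9
  have ii := b4x77_intble hA hgE hgL hgB hrc
  set M3 := B / √(Q / 2) * rmax with hM3
  have hQ'low : Q / 2 ≤ Q' := by
    have h1 := (abs_le.mp hQQ').1
    have h2 : h / rmin = 1 / (N * rmin) := by rw [hh]; field_simp
    rw [h2] at h1
    linarith
  have hbd : ∀ x, Q / 2 ≤ |x| → |x| ≤ T → ‖g x * r x‖ ≤ M3 := by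
    intro x hx1 hx2
    have hx0 : 0 < |x| := lt_of_lt_of_le (by positivity) hx1
    have hg1 : g x = g |x| := by
      rcases abs_cases x with ⟨h1, _⟩ | ⟨h1, _⟩
      · rw [h1]
      · rw [h1, hgE]
    have hg2 : |g x| ≤ B / √(Q / 2) := by
      rw [hg1]
      refine (hgB _ hx0).trans ?_
      exact div_le_div_of_nonneg_left hB (Real.sqrt_pos.mpr (by positivity))
        (Real.sqrt_le_sqrt hx1)
    have hr1 : r x ≤ rmax := hmax x (abs_le.mp hx2)
    rw [Real.norm_eq_abs, abs_mul, abs_of_pos (hrpos x)]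
    exact mul_le_mul hg2 hr1 (hrpos x).le ((abs_nonneg _).trans hg2)
  have bR : ‖∫ x in Q..Q', g x * r x‖ ≤ M3 * |Q' - Q| := by
    apply intervalIntegral.norm_integral_le_of_norm_le_const
    intro x hx
    rw [mem_uIoc] at hx
    have hx' : Q / 2 ≤ x ∧ x ≤ T := by
      rcases hx with ⟨h1, h2⟩ | ⟨h1, h2⟩
      · exact ⟨by linarith, h2.trans hQ'm.2⟩
      · exact ⟨by linarith, by linarith⟩
    have hx0 : 0 ≤ x := by linarith [hx'.1]
    apply hbd x <;> rw [abs_of_nonneg hx0]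
    · exact hx'.1
    · exact hx'.2
  have bL : ‖∫ x in (-Q')..(-Q), g x * r x‖ ≤ M3 * |(-Q) - (-Q')| := by
    apply intervalIntegral.norm_integral_le_of_norm_le_const
    intro x hx
    rw [mem_uIoc] at hx
    have hx' : Q / 2 ≤ -x ∧ -x ≤ T := by
      rcases hx with ⟨h1, h2⟩ | ⟨h1, h2⟩
      · exact ⟨by linarith, by linarith [hQ'm.2]⟩
      · exact ⟨by linarith, by linarith⟩
    have hx0 : x ≤ 0 := by linarith [hx'.1]
    apply hbd x <;> rw [abs_of_nonpos hx0]
    · exact hx'.1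
    · exact hx'.2
  have esplit : ∫ x in (-Q')..Q', g x * r x
      = (∫ x in (-Q')..(-Q), g x * r x) + (∫ x in (-Q)..Q, g x * r x)
        + ∫ x in Q..Q', g x * r x := by
    rw [intervalIntegral.integral_add_adjacent_intervals (ii _ _) (ii _ _),
      intervalIntegral.integral_add_adjacent_intervals (ii _ _) (ii _ _)]
  have esum : (∑ j, g (y j)) / N = h * ∑ j ∈ Finset.range (2 * p), g (y' j) := by
    rw [Finset.sum_range, hh]
    have : ∀ j : Fin (2 * p), g (y' j) = g (y j) := by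
      intro j; rw [hy'eq j j.isLt]
    simp only [this]
    ring
  rw [esum]
  rw [esplit] at bF
  rw [Real.norm_eq_abs] at bR bL
  have e3 : |(-Q) - (-Q')| = |Q' - Q| := by congr 1; ring
  rw [e3] at bL
  have hM30 : 0 ≤ M3 := by
    have : 0 ≤ rmax := (hrpos 0).le.trans (hmax 0 ⟨by linarith, by linarith⟩)
    positivity
  have bR' : |∫ x in Q..Q', g x * r x| ≤ M3 * (h / rmin) :=
    bR.trans (mul_le_mul_of_nonneg_left hQQ' hM30)
  have bL' : |∫ x in (-Q')..(-Q), g x * r x| ≤ M3 * (h / rmin) :=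
    bL.trans (mul_le_mul_of_nonneg_left hQQ' hM30)
  have htri : |h * ∑ j ∈ Finset.range (2 * p), g (y' j) - ∫ x in (-Q)..Q, g x * r x|
      ≤ |h * ∑ j ∈ Finset.range (2 * p), g (y' j) -
          ((∫ x in (-Q')..(-Q), g x * r x) + (∫ x in (-Q)..Q, g x * r x)
            + ∫ x in Q..Q', g x * r x)|
        + |∫ x in (-Q')..(-Q), g x * r x| + |∫ x in Q..Q', g x * r x| := by
    set X := h * ∑ j ∈ Finset.range (2 * p), g (y' j)
    set I1 := ∫ x in (-Q')..(-Q), g x * r x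
    set I2 := ∫ x in (-Q)..Q, g x * r x
    set I3 := ∫ x in Q..Q', g x * r x
    have : X - I2 = (X - (I1 + I2 + I3)) + I1 + I3 := by ring
    rw [this]
    exact (abs_add_le _ _).trans (add_le_add_left (abs_add_le _ _) _)
  have hpδ : Q' + p * (C * h / rmin) ≤ T + P T * C / rmin := by
    have h1 : (p:ℝ) * h ≤ P T := by
      have : 0 ≤ C * h := by positivity
      linarith
    have h2 : (p:ℝ) * (C * h / rmin) = (p * h) * (C / rmin) := by ring
    have h3 : (p * h) * (C / rmin) ≤ P T * (C / rmin) :=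
      mul_le_mul_of_nonneg_right h1 (by positivity)
    have h4 : P T * C / rmin = P T * (C / rmin) := by ring
    rw [h2, h4]
    linarith [hQ'm.2]
  have hAη : 0 ≤ h * (A * (1 + 1 / η)) := by positivity
  have hmain := mul_le_mul_of_nonneg_left hpδ hAη
  have e8 : 8 * B / (1 / Cξ) = 8 * B * Cξ := by field_simp
  rw [e8] at bF
  calc _ ≤ _ := htri
    _ ≤ 2 * (h * (A * (1 + 1 / η)) * (T + P T * C / rmin) + 4 * B * rmax * √η + 8 * B * Cξ * √η)
        + M3 * (h / rmin) + M3 * (h / rmin) := by linarith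
    _ = _ := by ring

/-- **Leaf B4, abstract contract** (the shape of `Bh271B4`): `g` even with an integrable singularity
at `0`, `r` continuous, positive, even; `S`, `Th` Lipschitz, `S 0 = 0`, `Th` odd. -/
theorem b4x77_contract {A B a1 a2 Q : ℝ} {g r S Th : ℝ → ℝ}
    (hA : 0 ≤ A) (hB : 0 ≤ B) (hQ : 0 < Q)
    (hgE : ∀ x, g (-x) = g x)
    (hgL : ∀ x y, 0 < x → x ≤ y → |g x - g y| ≤ A * (1 + 1 / x) * (y - x))
    (hgB : ∀ x, 0 < x → |g x| ≤ B / √x)
    (hrc : Continuous r) (hrpos : ∀ u, 0 < r u) (hreven : ∀ u, r (-u) = r u)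
    (hS0 : S 0 = 0) (hS : ∀ u v, |S u - S v| ≤ a1 * |u - v|)
    (hThodd : ∀ u, Th (-u) = - Th u) (hTh : ∀ u v, |Th u - Th v| ≤ a2 * |u - v|)
    (C ε : ℝ) (hε : 0 < ε) :
    ∃ N₁ : ℕ, ∀ (N n : ℕ) (y : Fin n → ℝ), N₁ ≤ N → Even n →
      |(n : ℝ) - (∫ u in (-Q)..Q, r u) * N| ≤ 2 →
      (∀ j : Fin n, (N : ℝ) * S (y j) - ∑ k : Fin n, Th (y j - y k)
        = ((j : ℕ) : ℝ) - ((n : ℝ) - 1) / 2) →
      (∀ j : Fin n, y (Fin.rev j) = - y j) →
      (∀ j : Fin n, |(∫ u in (0 : ℝ)..(y j), r u)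
        - (((j : ℕ) : ℝ) - ((n : ℝ) - 1) / 2) / N| ≤ C / N) →
      |(∑ j, g (y j)) / N - ∫ u in (-Q)..Q, g u * r u| ≤ ε := by
  have hne : (Icc (-(Q + 1)) (Q + 1)).Nonempty := nonempty_Icc.mpr (by linarith)
  obtain ⟨x0, _, hx0⟩ := isCompact_Icc.exists_isMinOn hne hrc.continuousOn
  obtain ⟨x1, _, hx1⟩ := isCompact_Icc.exists_isMaxOn hne hrc.continuousOn
  set rmin := r x0 with hrmin
  set rmax := r x1 with hrmax
  have hrmin0 : 0 < rmin := hrpos x0
  have hrmax0 : 0 < rmax := hrpos x1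
  have hmin : ∀ x ∈ Icc (-(Q + 1)) (Q + 1), rmin ≤ r x := fun x hx => hx0 hx
  have hmax : ∀ x ∈ Icc (-(Q + 1)) (Q + 1), r x ≤ rmax := fun x hx => hx1 hx
  set C' := max C 0 with hC'
  have hC'0 : 0 ≤ C' := le_max_right _ _
  have ha1 : 0 ≤ a1 := by
    have := hS 1 0
    simp only [sub_zero, abs_one, mul_one] at this
    exact (abs_nonneg _).trans this
  have ha2 : 0 ≤ a2 := by
    have := hTh 1 0
    simp only [sub_zero, abs_one, mul_one] at this
    exact (abs_nonneg _).trans this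
  have hD0 : 0 ≤ ∫ u in (-Q)..Q, r u :=
    intervalIntegral.integral_nonneg (by linarith) (fun u _ => (hrpos u).le)
  have hPT0 : 0 ≤ ∫ t in (0:ℝ)..(Q + 1), r t :=
    intervalIntegral.integral_nonneg (by linarith) (fun u _ => (hrpos u).le)
  have hm1 : 0 < ∫ t in Q..(Q + 1), r t :=
    intervalIntegral.intervalIntegral_pos_of_pos_on (hrc.intervalIntegrable _ _)
      (fun t _ => hrpos t) (by linarith)
  set m1 := ∫ t in Q..(Q + 1), r t with hm1def
  set K2 := 2 * (4 * B * rmax + 8 * B * (a1 + ((∫ u in (-Q)..Q, r u) + 2) * a2 + 1)) with hK2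
  have hK20 : 0 ≤ K2 := by positivity
  set η := (ε / (2 * (K2 + 1))) ^ 2 with hη
  have hη0 : 0 < η := by positivity
  have hsη : √η = ε / (2 * (K2 + 1)) := by
    rw [hη]; exact Real.sqrt_sq (by positivity)
  have hK2η : K2 * √η ≤ ε / 2 := by
    rw [hsη]
    have : K2 * (ε / (2 * (K2 + 1))) = (ε / 2) * (K2 / (K2 + 1)) := by field_simp
    rw [this]
    have h1 : K2 / (K2 + 1) ≤ 1 := by rw [div_le_one (by positivity)]; linarith
    nlinarith
  set K1 := 2 * (A * (1 + 1 / η)) * ((Q + 1) + (∫ t in (0:ℝ)..(Q + 1), r t) * C' / rmin)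
          + 2 * (B / √(Q / 2) * rmax) / rmin with hK1
  have hK10 : 0 ≤ K1 := by positivity
  obtain ⟨N₁, hN₁⟩ := exists_nat_ge (1 + (1 + C') / m1 + 2 / (Q * rmin) + 2 * K1 / ε)
  refine ⟨N₁, ?_⟩
  intro N n y hNN hn hnD hroots hsymm hclose
  obtain ⟨p, hp⟩ := hn
  have hn2 : n = 2 * p := by omega
  subst hn2
  have t1 : 0 ≤ (1 + C') / m1 := by positivity
  have t2 : 0 ≤ 2 / (Q * rmin) := by positivity
  have t3 : 0 ≤ 2 * K1 / ε := by positivity
  have hNX : 1 + (1 + C') / m1 + 2 / (Q * rmin) + 2 * K1 / ε ≤ (N:ℝ) :=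
    hN₁.trans (by exact_mod_cast hNN)
  have hNpos : (0:ℝ) < N := by linarith
  have hN : 0 < N := by exact_mod_cast hNpos
  have c1 : (1 + C') / N < m1 := by
    rw [div_lt_iff₀ hNpos]
    have : (1 + C') / m1 < N := by linarith
    rw [div_lt_iff₀ hm1] at this
    linarith
  have c2 : 1 / (N * rmin) ≤ Q / 2 := by
    rw [div_le_iff₀ (by positivity)]
    have : 2 / (Q * rmin) ≤ N := by linarith
    rw [div_le_iff₀ (by positivity)] at this
    nlinarith
  have c3 : (1 / N) * K1 ≤ ε / 2 := by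
    have : 2 * K1 / ε ≤ N := by linarith
    rw [div_le_iff₀ hε] at this
    rw [one_div, inv_mul_le_iff₀ hNpos]
    linarith
  have key := b4x77_fixedN (A := A) (B := B) (a1 := a1) (a2 := a2) (Q := Q) (rmin := rmin)
    (rmax := rmax) (C := C') (η := η) hA hB hQ hC'0 hη0 hrmin0 hgE hgL hgB hrc hrpos hreven
    hmin hmax hS0 hS hThodd hTh hN y c1 c2 hnD hroots hsymm
    (fun j => (hclose j).trans (div_le_div_of_nonneg_right (le_max_left _ _) hNpos.le))
  refine key.trans ?_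
  linarith

end Claimed.Agent.R292
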