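import Claimed.Agent.R292.Bethe.BA1x140
import Claimed.Agent.R290.SvAba
import Claimed.Agent.R292.Bethe.BA4x120
import Claimed.Agent.R292.Bethe.BA4Wire120
import Claimed.Agent.R292.Bethe.B1c160

/-!
# Rows 292 + 290, unit BETHE: the dictionary column transfer matrix `ba1T0` = row of the algebraic Bethe ansatz `svaba_row`   (helper140; prefix `ba1d`)

SORRY-FREE.  Over `R292/Bethe/BA1x140` (baZ = trace of powers of `ba1T`), `R290/SvAba` (282: algebraic Bethe ansatz), `R292/Bethe/BA4x120` (120: `ba120C`).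
* `ba1d_path`, `ba1d_trace` : entries / trace of `(List.ofFn A).prod` as sums over paths (`Fin (k+1)` cyclic).
* `ba1dLoc`, `ba1d_w_prod`, `ba1d_loc` : local weights; `ba1dB`, `ba1dEnc`, `ba1dEquiv` : `true ↦ 1`, `false ↦ 0`, `ZMod L ↔ Fin L`.
* **`ba1d_row`** : `ba1T0 c L h h' = c ^ L * svaba_row ε η 1 1 0 x (enc h) (enc h')` when both diagonal weights are `1 / c`.
* `ba1d_conserve`, `ba1T0_eq_zero` : the number of particles is conserved.
* **`ba1d_eigen`** : eigenvector of `svaba_row` ⇒ eigen relation for `ba120C (ba1T c L n)` on the sector.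
* **`ba1d_hB`**, **`ba1d_wiring_log`** (section 7) : ADAPTER `b1c160_eigen` (160, `ba70T`) ⇒ `hB` of `ba120_wiring_log` (120, `ba1T`), `pos := ba1dPos L m = b1c160_X m`.
* **`ba1d_BA2`** : `c = 2 cos (λ/2)`; Bethe equations ⇒ `ba120C (ba1T c L n) *ᵥ ψ = (∏ (-f(w)) + ∏ (-f(-w))) • ψ`, `ψ h = svaba_vec (-1) (iλ) 0 Y (enc h)`.
-/

set_option autoImplicit false

namespace Claimed.Agent.R292

open Claimed.Agent.R290 Matrix

/-! ## 1. entries and trace of an ordered product of matrices as sums over paths -/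

theorem ba1d_path {ι R : Type*} [Fintype ι] [DecidableEq ι] [CommSemiring R] :
    ∀ (L : ℕ) (A : Fin L → Matrix ι ι R) (i j : ι),
      (List.ofFn A).prod i j = ∑ p : Fin L → ι,
        (if (Fin.cons i p : Fin (L + 1) → ι) (Fin.last L) = j then 1 else 0) *
          ∏ b : Fin L, A b ((Fin.cons i p : Fin (L + 1) → ι) b.castSucc) (p b)
  | 0, A, i, j => by
    simp [Matrix.one_apply]
  | L + 1, A, i, j => by
    rw [List.ofFn_succ, List.prod_cons, Matrix.mul_apply,
      ← (Fin.consEquiv (fun _ : Fin (L + 1) => ι)).sum_comp, Fintype.sum_prod_type]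
    apply Finset.sum_congr rfl
    intro m _
    rw [ba1d_path L (fun b => A b.succ) m j, Finset.mul_sum]
    apply Finset.sum_congr rfl
    intro q _
    have h0 : (Fin.consEquiv (fun _ : Fin (L + 1) => ι)) (m, q) = (Fin.cons m q : Fin (L + 1) → ι) :=
      rfl
    rw [h0, Fin.prod_univ_succ]
    have h1 : (Fin.cons i (Fin.cons m q : Fin (L + 1) → ι) : Fin (L + 1 + 1) → ι)
        (Fin.last (L + 1)) = (Fin.cons m q : Fin (L + 1) → ι) (Fin.last L) := by
      rw [← Fin.succ_last, Fin.cons_succ]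
    have h2 : ∀ b : Fin L, (Fin.cons i (Fin.cons m q : Fin (L + 1) → ι) : Fin (L + 1 + 1) → ι)
        (b.succ.castSucc) = (Fin.cons m q : Fin (L + 1) → ι) b.castSucc := by
      intro b
      rw [← Fin.succ_castSucc, Fin.cons_succ]
    simp only [h1, h2, Fin.cons_succ, Fin.cons_zero, Fin.castSucc_zero]
    ring

theorem ba1d_trace {ι R : Type*} [Fintype ι] [DecidableEq ι] [CommSemiring R] (k : ℕ)
    (A : Fin (k + 1) → Matrix ι ι R) :
    (List.ofFn A).prod.trace = ∑ v : Fin (k + 1) → ι, ∏ b, A b (v (b - 1)) (v b) := by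
  unfold Matrix.trace
  simp only [Matrix.diag_apply, ba1d_path]
  rw [Finset.sum_comm]
  apply Finset.sum_congr rfl
  intro v _
  have h1 : ∀ i : ι, (Fin.cons i v : Fin (k + 1 + 1) → ι) (Fin.last (k + 1)) = v (Fin.last k) := by
    intro i
    rw [← Fin.succ_last, Fin.cons_succ]
  simp only [h1]
  rw [Finset.sum_eq_single (v (Fin.last k))]
  · rw [if_pos rfl, one_mul]
    apply Finset.prod_congr rfl
    intro b _
    congr 1
    refine Fin.cases ?_ (fun b' => ?_) b
    · rw [Fin.castSucc_zero, Fin.cons_zero, zero_sub]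
      congr 1
      apply Fin.ext
      rw [Fin.val_last, Fin.coe_neg_one]
    · rw [← Fin.succ_castSucc, Fin.cons_succ]
      congr 1
      rw [eq_sub_iff_add_eq, Fin.coeSucc_eq_succ]
  · intro i _ hi
    rw [if_neg (Ne.symm hi), zero_mul]
  · intro h; exact absurd (Finset.mem_univ _) h

/-! ## 2. the column weight as a product of local weights -/

/-- the local weight of a vertex: left `x`, right `y`, bottom `z`, top `w` -/
def ba1dLoc (c : ℝ) (x y z w : Bool) : ℝ :=
  if ba1Ice x y z w then (if x ≠ y then c else 1) else 0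

theorem ba1d_w_prod (c : ℝ) {L : ℕ} [NeZero L] (h v h' : ZMod L → Bool) :
    ba1w c h v h' = ∏ b : ZMod L, ba1dLoc c (h b) (h' b) (v (b - 1)) (v b) := by
  unfold ba1w ba1dLoc
  rw [Finset.prod_ite_zero]
  simp only [Finset.mem_univ, true_imp_iff]
  congr 1
  rw [Finset.prod_ite, Finset.prod_const, Finset.prod_const_one, mul_one]

/-- `false ↦ 0`, `true ↦ 1` -/
def ba1dB (x : Bool) : Fin 2 := finTwoEquiv.symm x

/-- the local dictionary: at the isotropic point both diagonal weights are `1 / c` -/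
theorem ba1d_loc (c : ℝ) (ε η u : ℂ)
    (ha : (c : ℂ) * (Complex.sinh (u + η / 2) / Complex.sinh η) = 1)
    (hb : (c : ℂ) * (ε * (Complex.sinh (u - η / 2) / Complex.sinh η)) = 1) (x y z w : Bool) :
    ((ba1dLoc c x y z w : ℝ) : ℂ) =
      (c : ℂ) * svaba_W ε η u (ba1dB x) (ba1dB y) (ba1dB z) (ba1dB w) := by
  cases x <;> cases y <;> cases z <;> cases w <;>
    simp [ba1dLoc, ba1Ice, ba1dB, svaba_W, svaba_Ls, svaba_L0, finTwoEquiv, ha, hb]

/-! ## 3. the dictionary -/

/-- encoding of a state: `true` = spin `1` (a particle), `false` = spin `0` (the vacuum) -/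
def ba1dEnc {L : ℕ} [NeZero L] (h : ZMod L → Bool) : svaba_Q L :=
  fun j => ba1dB (h (ZMod.finEquiv L j))

/-- **The dictionary.**  The column transfer matrix of the six-vertex model with weights `1, 1, c` is `c ^ L` times the
(untwisted, homogeneous) row of the algebraic Bethe ansatz at a point where both diagonal weights are `1 / c`. -/
theorem ba1d_row (c : ℝ) (ε η x : ℂ)
    (ha : (c : ℂ) * (Complex.sinh (x + η / 2) / Complex.sinh η) = 1)
    (hb : (c : ℂ) * (ε * (Complex.sinh (x - η / 2) / Complex.sinh η)) = 1)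
    (L : ℕ) [NeZero L] (h h' : ZMod L → Bool) :
    ((ba1T0 c L h h' : ℝ) : ℂ) =
      (c : ℂ) ^ L * svaba_row ε η 1 1 (fun _ : Fin L => 0) x (ba1dEnc h) (ba1dEnc h') := by
  obtain ⟨k, rfl⟩ := Nat.exists_eq_succ_of_ne_zero (NeZero.ne L)
  unfold svaba_row
  rw [one_mul, one_mul, ← Matrix.trace_fin_two, ba1d_trace, Finset.mul_sum]
  unfold ba1T0
  push_cast
  simp only [ba1d_w_prod]
  push_cast
  simp only [ba1d_loc c ε η x ha hb, sub_zero]
  rw [← (Equiv.piCongrRight (fun _ : Fin (k + 1) => finTwoEquiv.symm)).sum_comp]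
  apply Finset.sum_congr rfl
  intro v _
  rw [Finset.prod_mul_distrib, Finset.prod_const, Finset.card_univ, ZMod.card]
  rfl

/-- the encoding as a bijection -/
def ba1dEquiv (L : ℕ) [NeZero L] : (ZMod L → Bool) ≃ svaba_Q L :=
  Equiv.arrowCongr (ZMod.finEquiv L).toEquiv.symm finTwoEquiv.symm

theorem ba1dEquiv_apply {L : ℕ} [NeZero L] (h : ZMod L → Bool) : ba1dEquiv L h = ba1dEnc h := rfl

/-! ## 4. conservation of the number of particles -/

theorem ba1d_ice_int {x y z w : Bool} (h : ba1Ice x y z w) :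
    ((if x then 1 else 0 : ℤ) - (if y then 1 else 0)) = (if w then 1 else 0) - (if z then 1 else 0) := by
  revert h
  unfold ba1Ice
  cases x <;> cases y <;> cases z <;> cases w <;> simp

theorem ba1d_conserve {L : ℕ} [NeZero L] {h v h' : ZMod L → Bool}
    (hi : ∀ b : ZMod L, ba1Ice (h b) (h' b) (v (b - 1)) (v b)) :
    (Finset.univ.filter (fun b : ZMod L => h b = true)).card =
      (Finset.univ.filter (fun b : ZMod L => h' b = true)).card := by
  have h1 : ∑ b : ZMod L, ((if h b then 1 else 0 : ℤ) - (if h' b then 1 else 0)) =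
      ∑ b : ZMod L, ((if v b then 1 else 0 : ℤ) - (if v (b - 1) then 1 else 0)) :=
    Finset.sum_congr rfl fun b _ => ba1d_ice_int (hi b)
  have h2 : ∑ b : ZMod L, (if v (b - 1) then 1 else 0 : ℤ) = ∑ b : ZMod L, (if v b then 1 else 0 : ℤ) :=
    (Equiv.subRight (1 : ZMod L)).sum_comp (fun b => (if v b then 1 else 0 : ℤ))
  rw [Finset.sum_sub_distrib, Finset.sum_sub_distrib, h2, sub_self, sub_eq_zero] at h1
  rw [Finset.card_filter, Finset.card_filter]
  exact_mod_cast h1

theorem ba1T0_eq_zero (c : ℝ) {L : ℕ} [NeZero L] {n : ℕ} {h h' : ZMod L → Bool} (hP : ba1P n h)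
    (hP' : ¬ ba1P n h') : ba1T0 c L h h' = 0 := by
  unfold ba1T0
  apply Finset.sum_eq_zero
  intro v _
  unfold ba1w
  rw [if_neg]
  intro hi
  apply hP'
  unfold ba1P at hP ⊢
  rw [← ba1d_conserve hi, hP]

/-! ## 5. eigenvectors -/

/-- an eigenvector of the row of the algebraic Bethe ansatz, restricted to the sector `n`, satisfies the eigen relation of
the column transfer matrix of the sector (in the form wanted by `ba120_bethe_is_perron`) -/
theorem ba1d_eigen (c : ℝ) (ε η x : ℂ)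
    (ha : (c : ℂ) * (Complex.sinh (x + η / 2) / Complex.sinh η) = 1)
    (hb : (c : ℂ) * (ε * (Complex.sinh (x - η / 2) / Complex.sinh η)) = 1)
    (L : ℕ) [NeZero L] (n : ℕ) (φ : svaba_Q L → ℂ) (μ : ℂ)
    (he : svaba_row ε η 1 1 (fun _ : Fin L => 0) x *ᵥ φ = μ • φ) :
    ba120C (ba1T c L n) *ᵥ (fun h : ba1Sec L n => φ (ba1dEnc h.1)) =
      ((c : ℂ) ^ L * μ) • (fun h : ba1Sec L n => φ (ba1dEnc h.1)) := by
  funext h
  have h1 := congrFun he (ba1dEnc h.1)
  simp only [Matrix.mulVec, dotProduct, Pi.smul_apply, smul_eq_mul] at h1 ⊢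
  rw [mul_assoc, ← h1, Finset.mul_sum, ← (ba1dEquiv L).sum_comp]
  simp only [ba1dEquiv_apply, ← mul_assoc, ← ba1d_row c ε η x ha hb]
  have h2 : ∑ h' : ZMod L → Bool, ((ba1T0 c L h.1 h' : ℝ) : ℂ) * φ (ba1dEnc h') =
      ∑ h' ∈ Finset.univ.filter (fun h' : ZMod L → Bool => ba1P n h'),
        ((ba1T0 c L h.1 h' : ℝ) : ℂ) * φ (ba1dEnc h') := by
    symm
    apply Finset.sum_subset (Finset.subset_univ _)
    intro h' _ hh'
    rw [Finset.mem_filter] at hh'
    rw [ba1T0_eq_zero c h.2 (fun hP => hh' ⟨Finset.mem_univ _, hP⟩)]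
    simp
  rw [h2, Finset.sum_subtype (p := fun h' : ZMod L → Bool => ba1P n h')
    (Finset.univ.filter fun h' : ZMod L → Bool => ba1P n h') (by simp)]
  rfl

/-! ## 6. the physical point: `ε = -1`, `η = i λ`, `x = 0`, `c = 2 cos (λ / 2)` -/

theorem ba1d_weight_a (lam : ℝ) (hs : Complex.sinh (lam * Complex.I) ≠ 0) :
    ((2 * Real.cos (lam / 2) : ℝ) : ℂ) *
      (Complex.sinh (0 + lam * Complex.I / 2) / Complex.sinh (lam * Complex.I)) = 1 := by
  have h1 : Complex.sinh (lam * Complex.I) =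
      2 * Complex.sinh (lam * Complex.I / 2) * Complex.cosh (lam * Complex.I / 2) := by
    rw [← Complex.sinh_two_mul]
    congr 1
    ring
  have h2 : ((2 * Real.cos (lam / 2) : ℝ) : ℂ) = 2 * Complex.cosh (lam * Complex.I / 2) := by
    push_cast
    rw [← Complex.cosh_mul_I]
    congr 2
    ring
  rw [h1] at hs ⊢
  rw [h2, zero_add]
  have h3 : Complex.sinh (lam * Complex.I / 2) ≠ 0 := by
    intro h0; apply hs; rw [h0]; ring
  have h4 : Complex.cosh (lam * Complex.I / 2) ≠ 0 := by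
    intro h0; apply hs; rw [h0]; ring
  field_simp

theorem ba1d_weight_b (lam : ℝ) (hs : Complex.sinh (lam * Complex.I) ≠ 0) :
    ((2 * Real.cos (lam / 2) : ℝ) : ℂ) *
      (-1 * (Complex.sinh (0 - lam * Complex.I / 2) / Complex.sinh (lam * Complex.I))) = 1 := by
  have h := ba1d_weight_a lam hs
  rw [zero_add] at h
  rw [zero_sub, Complex.sinh_neg]
  linear_combination h

/-- **BA2 for the column transfer matrix of the sector.**  `c = 2 cos (λ / 2)`; `Y` a list of Bethe roots (equations of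
`svaba_BA2` at `ε = -1`, `η = i λ`, no inhomogeneity, no twist), none of them `0`.  The Bethe vector, read on the sector `n`,
satisfies the eigen relation of `ba1T c L n`, with eigenvalue `∏ (- f(w)) + ∏ (- f(-w))`, `f(u) = sinh (u + i λ) / sinh u`. -/
theorem ba1d_BA2 (lam : ℝ) (hs : Complex.sinh (lam * Complex.I) ≠ 0) (L : ℕ) [NeZero L] (n : ℕ)
    (Y : List ℂ) (hgen : ((0 : ℂ) :: Y).Pairwise (svaba_gen (lam * Complex.I)))
    (hBE : ∀ p ∈ svaba_picks Y,
      1 * svaba_a (lam * Complex.I) (fun _ : Fin L => 0) p.1 *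
          (p.2.map (fun w => -1 * svaba_f (lam * Complex.I) (w - p.1))).prod =
        1 * svaba_d (-1) (lam * Complex.I) (fun _ : Fin L => 0) p.1 *
          (p.2.map (fun w => -1 * svaba_f (lam * Complex.I) (p.1 - w))).prod) :
    ba120C (ba1T (2 * Real.cos (lam / 2)) L n) *ᵥ
        (fun h : ba1Sec L n => svaba_vec (-1) (lam * Complex.I) (fun _ : Fin L => 0) Y (ba1dEnc h.1)) =
      ((Y.map (fun w => -1 * svaba_f (lam * Complex.I) w)).prod +
        (Y.map (fun w => -1 * svaba_f (lam * Complex.I) (-w))).prod) •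
        (fun h : ba1Sec L n => svaba_vec (-1) (lam * Complex.I) (fun _ : Fin L => 0) Y (ba1dEnc h.1)) := by
  have ha := ba1d_weight_a lam hs
  have hb := ba1d_weight_b lam hs
  have h1 := svaba_BA2 (ε := -1) (η := lam * Complex.I) (by norm_num) hs (fun _ : Fin L => 0) 1 1 Y 0
    hgen hBE
  have h2 := ba1d_eigen (2 * Real.cos (lam / 2)) (-1) (lam * Complex.I) 0 ha hb L n _ _ h1
  rw [h2]
  congr 1
  have h3 : ((2 * Real.cos (lam / 2) : ℝ) : ℂ) ^ L *
      svaba_a (lam * Complex.I) (fun _ : Fin L => 0) 0 = 1 := by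
    unfold svaba_a
    rw [Finset.prod_const, Finset.card_univ, Fintype.card_fin, ← mul_pow]
    rw [sub_zero, ha, one_pow]
  have h4 : ((2 * Real.cos (lam / 2) : ℝ) : ℂ) ^ L *
      svaba_d (-1) (lam * Complex.I) (fun _ : Fin L => 0) 0 = 1 := by
    unfold svaba_d
    rw [Finset.prod_const, Finset.card_univ, Fintype.card_fin, ← mul_pow]
    rw [sub_zero, hb, one_pow]
  simp only [sub_zero, zero_sub, one_mul]
  rw [mul_add, ← mul_assoc, ← mul_assoc, h3, h4, one_mul, one_mul]

/-! ## 7. adapter: the coordinate road (`b1c160_eigen`, matrix `ba70T`) feeds the wiring of 120 (`ba120_wiring_log`, matrix `ba1T`) -/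

theorem ba1d_T70 (c : ℝ) (L n : ℕ) [NeZero L] {σ σ' : ZMod L → Bool} (h : ba1P n σ)
    (h' : ba1P n σ') : ba70T c L n σ σ' = ba1T0 c L σ σ' := by
  unfold ba70T ba1T0
  apply Finset.sum_congr rfl
  intro v _
  unfold ba70W ba1w
  by_cases hi : ∀ b : ZMod L, ba1Ice (σ b) (σ' b) (v (b - 1)) (v b)
  · rw [if_pos hi, if_pos ⟨hi, h, h'⟩]
    rfl
  · rw [if_neg hi, if_neg (fun hh => hi hh.1)]

/-- the sorted positions of a state of the sector -/
def ba1dPos (L m : ℕ) [NeZero L] (e : ba1Sec L (m + 1)) : ℕ → ℕ := b1c160_X m e.1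

theorem ba1dPos_strictMono (L m : ℕ) [NeZero L] (e : ba1Sec L (m + 1)) :
    StrictMono fun k : Fin (m + 1) => ba1dPos L m e k := by
  have h := b1c160_pos (m := m) (σ := e.1) e.2
  apply Fin.strictMono_iff_lt_succ.2
  intro i
  have := h.step i (by have := i.isLt; omega)
  simpa [ba1dPos] using this

theorem ba1dPos_lt (L m : ℕ) [NeZero L] (e : ba1Sec L (m + 1)) (k : Fin (m + 1)) :
    ba1dPos L m e k < L := by
  have h := b1c160_pos (m := m) (σ := e.1) e.2
  have h1 := (ba1dPos_strictMono L m e).monotone (Fin.le_last k)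
  have h2 : ba1dPos L m e ((Fin.last m : Fin (m + 1)) : ℕ) < L := h.lt
  exact lt_of_le_of_lt h1 h2

/-- the eigen relation wanted by `ba120_wiring`, from the Bethe equations -/
theorem ba1d_hB {c : ℝ} (hc : c ≠ 0) (L m : ℕ) [NeZero L] (z : Fin (m + 1) → ℂ)
    (hz : ∀ j, z j ≠ 1) (hBE : ba2a270_BE (2 - (c : ℂ) ^ 2) L z) :
    ba120C (ba1T c L (m + 1)) *ᵥ ba120Vec (ba1dPos L m) (2 - (c : ℂ) ^ 2) z =
      ba120Lam (c : ℂ) z • ba120Vec (ba1dPos L m) (2 - (c : ℂ) ^ 2) z := by
  funext e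
  have h1 := congrFun (b1c160_eigen (N := L) Complex.ofRealHom hc z hz hBE) e.1
  simp only [Matrix.mulVec, dotProduct, Pi.smul_apply, smul_eq_mul, Matrix.map_apply,
    Complex.ofRealHom_eq_coe] at h1 ⊢
  have hpsi : ∀ e' : ba1Sec L (m + 1), b1c160_psi (ba2a270_A (2 - (c : ℂ) ^ 2) z) z e'.1 =
      ba120Vec (ba1dPos L m) (2 - (c : ℂ) ^ 2) z e' := by
    intro e'
    unfold b1c160_psi ba120Vec ba1dPos
    exact if_pos (show ba70Cnt e'.1 = m + 1 from e'.2)
  have h2 : ∑ i : ZMod L → Bool, ((ba70T c L (m + 1) e.1 i : ℝ) : ℂ) *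
        b1c160_psi (ba2a270_A (2 - (c : ℂ) ^ 2) z) z i =
      ∑ i ∈ Finset.univ.filter (fun i : ZMod L → Bool => ba1P (m + 1) i),
        ((ba70T c L (m + 1) e.1 i : ℝ) : ℂ) * b1c160_psi (ba2a270_A (2 - (c : ℂ) ^ 2) z) z i := by
    symm
    apply Finset.sum_subset (Finset.subset_univ _)
    intro i _ hi
    rw [Finset.mem_filter] at hi
    have : b1c160_psi (ba2a270_A (2 - (c : ℂ) ^ 2) z) z i = 0 := by
      unfold b1c160_psi
      exact if_neg (fun hP : ba70Cnt i = m + 1 => hi ⟨Finset.mem_univ _, hP⟩)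
    rw [this, mul_zero]
  rw [h2, Finset.sum_subtype (p := fun i : ZMod L → Bool => ba1P (m + 1) i)
    (Finset.univ.filter fun i : ZMod L → Bool => ba1P (m + 1) i) (by simp), hpsi e] at h1
  unfold ba120Lam
  rw [← h1]
  apply Finset.sum_congr rfl
  intro e' _
  rw [hpsi e', ba1d_T70 c L (m + 1) e.2 e'.2]
  rfl

/-- **B1 + B3 wired.**  `z lam` an analytic family of roots `≠ 1` of the Bethe equations on a preconnected set `I ∋ π / 2` of
parameters, equal to the free-fermion roots at `π / 2`: the growth rate of the sector partition function is the Bethe eigenvalue. -/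
theorem ba1d_wiring_log {L : ℕ} [NeZero L] {m : ℕ} (h2 : 2 * (m + 1) ≤ L)
    {I : Set ℝ} (hI : IsPreconnected I) (hπ : Real.pi / 2 ∈ I) (hc : ∀ lam ∈ I, 0 < ba120c lam)
    {z : ℝ → Fin (m + 1) → ℂ} (hz : ∀ j, AnalyticOnNhd ℝ (fun lam => z lam j) I)
    (hz1 : ∀ lam ∈ I, ∀ j, z lam j ≠ 1) (hseed : z (Real.pi / 2) = ba120Z0 L (m + 1))
    (hBE : ∀ lam ∈ I, ba2a270_BE (ba120d lam) L (z lam)) :
    ∀ lam ∈ I, 0 < (ba120Lam ((ba120c lam : ℝ) : ℂ) (z lam)).re ∧
      Filter.Tendsto (fun M : ℕ => Real.log (baZ (ba120c lam) M L (m + 1)) / M) Filter.atTop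
        (nhds (Real.log (ba120Lam ((ba120c lam : ℝ) : ℂ) (z lam)).re)) :=
  ba120_wiring_log h2 (ba1dPos L m) (ba1dPos_strictMono L m) (ba1dPos_lt L m) hI hπ hc hz hz1 hseed
    (fun lam hl => ba1d_hB (hc lam hl).ne' L m (z lam) (hz1 lam hl) (hBE lam hl))

end Claimed.Agent.R292
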