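import Mathlib

/-!
Row 292 / 290, unit BETHE, block BA6 (the constant), pen 200.

Model-free real-variable Wiener-Hopf layer: the Ambartsumian-Chandrasekhar `H`-identity for
a half-line convolution equation `Y + T₊ Y = e` with an even integrable kernel `T`.
No factorisation of the symbol, only Fubini, translation and the symmetry of the pairing.
-/

set_option autoImplicit false
open MeasureTheory Set Filter Topology

namespace Claimed.Agent.R292

/-- The half-line convolution operator `(T₊ f)(x) = ∫_{y>0} T(x-y) f(y) dy`. -/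
noncomputable def ba6h200_op (T f : ℝ → ℝ) (x : ℝ) : ℝ :=
  ∫ y in Ioi (0:ℝ), T (x - y) * f y

theorem ba6h200_op_eqns_cite (T f : ℝ → ℝ) (x : ℝ) :
    ba6h200_op T f x = ∫ y in Ioi (0:ℝ), T (x - y) * f y := rfl

/-- The primitive `τ(z) = ∫_{u ≤ z} T(u) du`. -/
noncomputable def ba6h200_tau (T : ℝ → ℝ) (z : ℝ) : ℝ := ∫ u in Iic z, T u

theorem ba6h200_tau_eqns_cite (T : ℝ → ℝ) (z : ℝ) :
    ba6h200_tau T z = ∫ u in Iic z, T u := rfl

section basics

variable {T : ℝ → ℝ}

theorem ba6h200_tau_sub (hT : Integrable T) (a b : ℝ) :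
    ba6h200_tau T b - ba6h200_tau T a = ∫ u in a..b, T u :=
  intervalIntegral.integral_Iic_sub_Iic hT.integrableOn hT.integrableOn

theorem ba6h200_tau_continuous (hT : Integrable T) : Continuous (ba6h200_tau T) := by
  have h : ba6h200_tau T = fun z => ba6h200_tau T 0 + ∫ u in (0:ℝ)..z, T u := by
    funext z
    rw [← ba6h200_tau_sub hT 0 z]; ring
  rw [h]
  exact continuous_const.add
    (intervalIntegral.continuous_primitive (fun a b => hT.intervalIntegrable) 0)

theorem ba6h200_tau_abs_le (hT : Integrable T) (z : ℝ) :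
    |ba6h200_tau T z| ≤ ∫ u, |T u| := by
  unfold ba6h200_tau
  calc |∫ u in Iic z, T u| ≤ ∫ u in Iic z, |T u| := abs_integral_le_integral_abs
    _ ≤ ∫ u, |T u| := setIntegral_le_integral hT.abs (Eventually.of_forall fun u => abs_nonneg _)

/-- `∫_{y>s} T(x-y) dy = τ(x-s)`. -/
theorem ba6h200_integral_Ioi_shift (T : ℝ → ℝ) (x s : ℝ) :
    ∫ y in Ioi s, T (x - y) = ba6h200_tau T (x - s) := by
  unfold ba6h200_tau
  rw [integral_Iic_eq_integral_Iio, ← integral_indicator measurableSet_Ioi,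
    ← integral_indicator measurableSet_Iio,
    ← integral_sub_left_eq_self (fun v => (Iio (x - s)).indicator T v) volume x]
  congr 1
  funext y
  by_cases hy : s < y
  · rw [indicator_of_mem (show y ∈ Ioi s from hy),
      indicator_of_mem (show x - y ∈ Iio (x - s) by simp only [mem_Iio]; linarith)]
  · rw [indicator_of_notMem (show y ∉ Ioi s from hy),
      indicator_of_notMem (show x - y ∉ Iio (x - s) by simp only [mem_Iio]; intro h; apply hy; linarith)]

theorem ba6h200_tau_add_neg (hT : Integrable T) (hev : ∀ x, T (-x) = T x) (y : ℝ) :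
    ba6h200_tau T y + ba6h200_tau T (-y) = ∫ u, T u := by
  have h1 : ba6h200_tau T (-y) = ∫ u in Ioi y, T u := by
    unfold ba6h200_tau
    rw [← integral_comp_neg_Ioi]
    simp only [hev]
  rw [h1]
  exact intervalIntegral.integral_Iic_add_Ioi hT.integrableOn hT.integrableOn

theorem ba6h200_integrable_shift_mul (hT : Integrable T) {f : ℝ → ℝ} {B : ℝ}
    (hfm : Measurable f) (hfb : ∀ x, |f x| ≤ B) (x : ℝ) :
    Integrable (fun y => T (x - y) * f y) :=
  (hT.comp_sub_left x).mul_bdd (c := B) hfm.aestronglyMeasurable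
    (Eventually.of_forall fun y => by simpa using hfb y)

theorem ba6h200_op_one (T : ℝ → ℝ) (x : ℝ) :
    ba6h200_op T (fun _ => 1) x = ba6h200_tau T x := by
  unfold ba6h200_op
  simp only [mul_one]
  rw [ba6h200_integral_Ioi_shift, sub_zero]

end basics

section fubini

variable {T : ℝ → ℝ}

/-- Integrability of the convolution integrand on `S × (0,∞)`. -/
theorem ba6h200_integrable_kernel (hT : Integrable T) {b : ℝ → ℝ}
    (hb : IntegrableOn b (Ioi 0)) (S : Set ℝ) :
    Integrable (fun p : ℝ × ℝ => T (p.1 - p.2) * b p.2)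
      ((volume.restrict S).prod (volume.restrict (Ioi (0:ℝ)))) := by
  have h1 : Integrable (fun p : ℝ × ℝ => b p.2 * T (p.1 - p.2))
      ((volume : Measure ℝ).prod (volume.restrict (Ioi (0:ℝ)))) :=
    Integrable.convolution_integrand (ContinuousLinearMap.mul ℝ ℝ) hb hT
  have h2 : (volume.restrict S).prod (volume.restrict (Ioi (0:ℝ))) =
      ((volume : Measure ℝ).prod (volume.restrict (Ioi (0:ℝ)))).restrict (S ×ˢ univ) := by
    rw [← Measure.prod_restrict, Measure.restrict_univ]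
  rw [h2]
  refine (h1.restrict (s := S ×ˢ univ)).congr (Eventually.of_forall fun p => ?_)
  exact mul_comm _ _

/-- Symmetry of the pairing: `⟨a, T₊ b⟩ = ⟨b, T₊ a⟩`, `a` bounded, `b` integrable. -/
theorem ba6h200_pairing (hT : Integrable T) (hev : ∀ x, T (-x) = T x) {a b : ℝ → ℝ} {B : ℝ}
    (ham : Measurable a) (hab : ∀ x, |a x| ≤ B) (hb : IntegrableOn b (Ioi 0)) :
    ∫ x in Ioi (0:ℝ), a x * ba6h200_op T b x = ∫ y in Ioi (0:ℝ), b y * ba6h200_op T a y := by
  unfold ba6h200_op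
  simp only [← integral_const_mul]
  have hF : Integrable (Function.uncurry fun x y : ℝ => a x * (T (x - y) * b y))
      ((volume.restrict (Ioi (0:ℝ))).prod (volume.restrict (Ioi (0:ℝ)))) :=
    (ba6h200_integrable_kernel hT hb (Ioi 0)).bdd_mul (c := B)
      (ham.comp measurable_fst).aestronglyMeasurable
      (Eventually.of_forall fun p => by simpa using hab p.1)
  rw [integral_integral_swap hF]
  refine integral_congr_ae (Eventually.of_forall fun y => ?_)
  refine integral_congr_ae (Eventually.of_forall fun x => ?_)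
  have : T (x - y) = T (y - x) := by rw [← hev (y - x)]; congr 1; ring
  simp only [this]
  ring

/-- `t ↦ (T₊ g)(t)` is integrable on every set. -/
theorem ba6h200_op_integrableOn (hT : Integrable T) {g : ℝ → ℝ}
    (hg : IntegrableOn g (Ioi 0)) (S : Set ℝ) : IntegrableOn (ba6h200_op T g) S :=
  (ba6h200_integrable_kernel hT hg S).integral_prod_left

/-- The integrated operator. -/
theorem ba6h200_integral_op (hT : Integrable T) {g : ℝ → ℝ}
    (hg : IntegrableOn g (Ioi 0)) {x : ℝ} (hx : 0 ≤ x) :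
    ∫ t in (0:ℝ)..x, ba6h200_op T g t =
      ∫ s in Ioi (0:ℝ), g s * (ba6h200_tau T (x - s) - ba6h200_tau T (-s)) := by
  rw [intervalIntegral.integral_of_le hx]
  unfold ba6h200_op
  have hF : Integrable (Function.uncurry fun t s : ℝ => T (t - s) * g s)
      ((volume.restrict (Ioc 0 x)).prod (volume.restrict (Ioi (0:ℝ)))) :=
    ba6h200_integrable_kernel hT hg (Ioc 0 x)
  rw [integral_integral_swap hF]
  refine integral_congr_ae (Eventually.of_forall fun s => ?_)
  simp only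
  rw [integral_mul_const, ← intervalIntegral.integral_of_le hx,
    intervalIntegral.integral_comp_sub_right (fun u => T u) s, ba6h200_tau_sub hT, zero_sub]
  ring

/-- The triangle swap. -/
theorem ba6h200_triangle {h g : ℝ → ℝ} (hh : IntegrableOn h (Ioi 0))
    (hg : IntegrableOn g (Ioi 0)) :
    ∫ y in Ioi (0:ℝ), h y * (∫ s in (0:ℝ)..y, g s) =
      ∫ s in Ioi (0:ℝ), g s * (∫ y in Ioi s, h y) := by
  have hF : Integrable (Function.uncurry fun y s : ℝ =>
      {p : ℝ × ℝ | p.2 ≤ p.1}.indicator (fun p => h p.1 * g p.2) (y, s))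
      ((volume.restrict (Ioi (0:ℝ))).prod (volume.restrict (Ioi (0:ℝ)))) :=
    (Integrable.mul_prod hh hg).indicator (measurableSet_le measurable_snd measurable_fst)
  have h1 : ∀ y ∈ Ioi (0:ℝ), h y * (∫ s in (0:ℝ)..y, g s) =
      ∫ s in Ioi (0:ℝ), {p : ℝ × ℝ | p.2 ≤ p.1}.indicator (fun p => h p.1 * g p.2) (y, s) := by
    intro y hy
    have e : (fun s : ℝ => {p : ℝ × ℝ | p.2 ≤ p.1}.indicator (fun p => h p.1 * g p.2) (y, s)) =
        (Iic y).indicator (fun s => h y * g s) := by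
      funext s
      by_cases hs : s ≤ y
      · rw [indicator_of_mem (show (y, s) ∈ {p : ℝ × ℝ | p.2 ≤ p.1} from hs),
          indicator_of_mem (show s ∈ Iic y from hs)]
      · rw [indicator_of_notMem (show (y, s) ∉ {p : ℝ × ℝ | p.2 ≤ p.1} from hs),
          indicator_of_notMem (show s ∉ Iic y from hs)]
    rw [e, setIntegral_indicator measurableSet_Iic, Ioi_inter_Iic, integral_const_mul,
      intervalIntegral.integral_of_le (le_of_lt hy)]
  have h2 : ∀ s ∈ Ioi (0:ℝ), g s * (∫ y in Ioi s, h y) =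
      ∫ y in Ioi (0:ℝ), {p : ℝ × ℝ | p.2 ≤ p.1}.indicator (fun p => h p.1 * g p.2) (y, s) := by
    intro s hs
    have e : (fun y : ℝ => {p : ℝ × ℝ | p.2 ≤ p.1}.indicator (fun p => h p.1 * g p.2) (y, s)) =
        (Ici s).indicator (fun y => h y * g s) := by
      funext y
      by_cases hy : s ≤ y
      · rw [indicator_of_mem (show (y, s) ∈ {p : ℝ × ℝ | p.2 ≤ p.1} from hy),
          indicator_of_mem (show y ∈ Ici s from hy)]
      · rw [indicator_of_notMem (show (y, s) ∉ {p : ℝ × ℝ | p.2 ≤ p.1} from hy),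
          indicator_of_notMem (show y ∉ Ici s from hy)]
    have e2 : Ioi (0:ℝ) ∩ Ici s = Ici s := by
      ext y
      simp only [mem_inter_iff, mem_Ioi, mem_Ici, and_iff_right_iff_imp]
      intro hy
      exact lt_of_lt_of_le hs hy
    rw [e, setIntegral_indicator measurableSet_Ici, e2, integral_Ici_eq_integral_Ioi,
      integral_mul_const, mul_comm]
  rw [setIntegral_congr_fun measurableSet_Ioi h1, setIntegral_congr_fun measurableSet_Ioi h2]
  exact integral_integral_swap hF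

end fubini

section key

variable {T : ℝ → ℝ}

theorem ba6h200_prim_continuous {g : ℝ → ℝ} (hg : Integrable g) :
    Continuous (fun y : ℝ => ∫ s in (0:ℝ)..y, g s) :=
  intervalIntegral.continuous_primitive (fun _ _ => hg.intervalIntegrable) 0

theorem ba6h200_prim_abs_le {g : ℝ → ℝ} (hg : Integrable g) (y : ℝ) :
    |∫ s in (0:ℝ)..y, g s| ≤ ∫ s, |g s| := by
  have h1 := intervalIntegral.norm_integral_le_integral_norm_uIoc (f := g) (a := 0) (b := y)
    (μ := volume)
  simp only [Real.norm_eq_abs] at h1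
  exact h1.trans (setIntegral_le_integral hg.abs (Eventually.of_forall fun u => abs_nonneg _))

theorem ba6h200_integrable_mul_tau (hT : Integrable T) {g : ℝ → ℝ}
    (hg : IntegrableOn g (Ioi 0)) (x : ℝ) :
    IntegrableOn (fun s => g s * ba6h200_tau T (x - s)) (Ioi 0) :=
  Integrable.mul_bdd (c := ∫ u, |T u|) hg
    ((ba6h200_tau_continuous hT).comp (continuous_const.sub continuous_id)).aestronglyMeasurable
    (Eventually.of_forall fun s => by simpa using ba6h200_tau_abs_le hT (x - s))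

/-- `T₊` applied to a primitive. -/
theorem ba6h200_op_prim (hT : Integrable T) {g : ℝ → ℝ} (hg : Integrable g) (w₀ x : ℝ) :
    ba6h200_op T (fun y => w₀ - ∫ s in (0:ℝ)..y, g s) x =
      w₀ * ba6h200_tau T x - ∫ s in Ioi (0:ℝ), g s * ba6h200_tau T (x - s) := by
  unfold ba6h200_op
  have i1 : IntegrableOn (fun y => T (x - y) * w₀) (Ioi 0) :=
    ((hT.comp_sub_left x).mul_const w₀).integrableOn
  have i2 : IntegrableOn (fun y => T (x - y) * ∫ s in (0:ℝ)..y, g s) (Ioi 0) :=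
    (ba6h200_integrable_shift_mul hT (ba6h200_prim_continuous hg).measurable
      (ba6h200_prim_abs_le hg) x).integrableOn
  have e1 : (fun y => T (x - y) * (w₀ - ∫ s in (0:ℝ)..y, g s)) =
      fun y => T (x - y) * w₀ - T (x - y) * ∫ s in (0:ℝ)..y, g s := by
    funext y; ring
  rw [e1, integral_sub i1 i2, integral_mul_const, ba6h200_integral_Ioi_shift, sub_zero,
    ba6h200_triangle (hT.comp_sub_left x).integrableOn hg.integrableOn]
  simp only [ba6h200_integral_Ioi_shift]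
  ring

/-- The key identity: a primitive of a solution is a solution up to a constant. -/
theorem ba6h200_key (hT : Integrable T) {g r : ℝ → ℝ} (hg : Integrable g)
    (heq : ∀ x, 0 < x → g x + ba6h200_op T g x = r x) (w₀ : ℝ) {x : ℝ} (hx : 0 ≤ x) :
    (w₀ - ∫ s in (0:ℝ)..x, g s) + ba6h200_op T (fun y => w₀ - ∫ s in (0:ℝ)..y, g s) x =
      w₀ * (1 + ba6h200_tau T x) - (∫ t in (0:ℝ)..x, r t) -
        ∫ s in Ioi (0:ℝ), g s * ba6h200_tau T (-s) := by
  rw [ba6h200_op_prim hT hg]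
  have hB : ∫ t in (0:ℝ)..x, r t =
      (∫ t in (0:ℝ)..x, g t) + ∫ t in (0:ℝ)..x, ba6h200_op T g t := by
    rw [← intervalIntegral.integral_add hg.intervalIntegrable
      ((intervalIntegrable_iff_integrableOn_Ioc_of_le hx).2
        (ba6h200_op_integrableOn hT hg.integrableOn _))]
    rw [intervalIntegral.integral_of_le hx, intervalIntegral.integral_of_le hx]
    exact setIntegral_congr_fun measurableSet_Ioc (fun t ht => (heq t ht.1).symm)
  have hC : ∫ s in Ioi (0:ℝ), g s * (ba6h200_tau T (x - s) - ba6h200_tau T (-s)) =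
      (∫ s in Ioi (0:ℝ), g s * ba6h200_tau T (x - s)) -
        ∫ s in Ioi (0:ℝ), g s * ba6h200_tau T (-s) := by
    have i0 := ba6h200_integrable_mul_tau hT hg.integrableOn 0
    simp only [zero_sub] at i0
    rw [← integral_sub (ba6h200_integrable_mul_tau hT hg.integrableOn x) i0]
    refine integral_congr_ae (Eventually.of_forall fun s => ?_)
    simp only
    ring
  rw [hB, ba6h200_integral_op hT hg.integrableOn hx, hC]
  ring

end key

section linear

variable {T : ℝ → ℝ}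

theorem ba6h200_op_sub_mul (hT : Integrable T) {f g : ℝ → ℝ} {B B' : ℝ}
    (hfm : Measurable f) (hfb : ∀ x, |f x| ≤ B) (hgm : Measurable g) (hgb : ∀ x, |g x| ≤ B')
    (c x : ℝ) :
    ba6h200_op T (fun y => f y - c * g y) x = ba6h200_op T f x - c * ba6h200_op T g x := by
  unfold ba6h200_op
  rw [← integral_const_mul, ← integral_sub
    (ba6h200_integrable_shift_mul hT hfm hfb x).integrableOn
    ((ba6h200_integrable_shift_mul hT hgm hgb x).const_mul c).integrableOn]
  refine integral_congr_ae (Eventually.of_forall fun y => ?_)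
  simp only
  ring

theorem ba6h200_op_zero_eq (hev : ∀ x, T (-x) = T x) (f : ℝ → ℝ) :
    ba6h200_op T f 0 = ∫ x in Ioi (0:ℝ), f x * T x := by
  unfold ba6h200_op
  refine integral_congr_ae (Eventually.of_forall fun y => ?_)
  simp only [zero_sub, hev]
  ring

end linear

section identity

variable {T γ : ℝ → ℝ}

/-- `⟨e, γ⟩ = e(0) - Y(0)` when `Y + T₊ Y = e` and `γ + T₊ γ = T`. -/
theorem ba6h200_pair_gamma (hT : Integrable T) (hev : ∀ x, T (-x) = T x)
    (hγ : Integrable γ) (hγeq : ∀ x, 0 < x → γ x + ba6h200_op T γ x = T x)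
    {Y e : ℝ → ℝ} {B B' : ℝ} (hYm : Measurable Y) (hYb : ∀ x, |Y x| ≤ B)
    (hem : Measurable e) (heb : ∀ x, |e x| ≤ B')
    (hY : ∀ x, 0 ≤ x → Y x + ba6h200_op T Y x = e x) :
    ∫ x in Ioi (0:ℝ), e x * γ x = e 0 - Y 0 := by
  have hp := ba6h200_pairing hT hev hYm hYb hγ.integrableOn
  have iYT : IntegrableOn (fun x => Y x * T x) (Ioi 0) :=
    (hT.bdd_mul (c := B) hYm.aestronglyMeasurable
      (Eventually.of_forall fun y => by simpa using hYb y)).integrableOn
  have iYg : IntegrableOn (fun x => Y x * γ x) (Ioi 0) :=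
    (hγ.bdd_mul (c := B) hYm.aestronglyMeasurable
      (Eventually.of_forall fun y => by simpa using hYb y)).integrableOn
  have ieg : IntegrableOn (fun x => e x * γ x) (Ioi 0) :=
    (hγ.bdd_mul (c := B') hem.aestronglyMeasurable
      (Eventually.of_forall fun y => by simpa using heb y)).integrableOn
  have l : ∫ x in Ioi (0:ℝ), Y x * ba6h200_op T γ x =
      (∫ x in Ioi (0:ℝ), Y x * T x) - ∫ x in Ioi (0:ℝ), Y x * γ x := by
    rw [← integral_sub iYT iYg]
    refine setIntegral_congr_fun measurableSet_Ioi (fun x hx => ?_)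
    rw [← hγeq x hx]; ring
  have r : ∫ y in Ioi (0:ℝ), γ y * ba6h200_op T Y y =
      (∫ x in Ioi (0:ℝ), e x * γ x) - ∫ x in Ioi (0:ℝ), Y x * γ x := by
    rw [← integral_sub ieg iYg]
    refine setIntegral_congr_fun measurableSet_Ioi (fun x hx => ?_)
    rw [← hY x (le_of_lt hx)]; ring
  have z := ba6h200_op_zero_eq hev Y
  have h0 := hY 0 le_rfl
  rw [l, r] at hp
  linarith

/-- The uniqueness hypothesis: the homogeneous half-line equation has no bounded solution. -/
def ba6h200_Uniq (T : ℝ → ℝ) : Prop :=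
  ∀ f : ℝ → ℝ, Measurable f → (∃ B : ℝ, ∀ x, |f x| ≤ B) →
    (∀ x, 0 ≤ x → f x + ba6h200_op T f x = 0) → ∀ x, 0 ≤ x → f x = 0

theorem ba6h200_Uniq_eqns_cite (T : ℝ → ℝ) : ba6h200_Uniq T =
    (∀ f : ℝ → ℝ, Measurable f → (∃ B : ℝ, ∀ x, |f x| ≤ B) →
    (∀ x, 0 ≤ x → f x + ba6h200_op T f x = 0) → ∀ x, 0 ≤ x → f x = 0) := rfl

theorem ba6h200_prim_bdd {g : ℝ → ℝ} (hg : Integrable g) (w₀ x : ℝ) :
    |w₀ - ∫ s in (0:ℝ)..x, g s| ≤ |w₀| + ∫ s, |g s| :=
  (abs_sub _ _).trans (add_le_add le_rfl (ba6h200_prim_abs_le hg x))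

theorem ba6h200_prim_measurable {g : ℝ → ℝ} (hg : Integrable g) (w₀ : ℝ) :
    Measurable (fun x : ℝ => w₀ - ∫ s in (0:ℝ)..x, g s) :=
  (continuous_const.sub (ba6h200_prim_continuous hg)).measurable

/-- The constant of the `κ = 0` problem. -/
theorem ba6h200_const_eq (hT : Integrable T) (hev : ∀ x, T (-x) = T x)
    (hγ : Integrable γ) (hγeq : ∀ x, 0 < x → γ x + ba6h200_op T γ x = T x) :
    1 + ba6h200_tau T 0 - ∫ s in Ioi (0:ℝ), γ s * ba6h200_tau T (-s) =
      (1 + ∫ u, T u) * (1 - ∫ s in Ioi (0:ℝ), γ s) := by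
  have hp := ba6h200_pairing hT hev (a := fun _ => (1:ℝ)) (B := 1) measurable_const
    (fun _ => by simp) hγ.integrableOn
  simp only [one_mul, ba6h200_op_one] at hp
  have l : ∫ x in Ioi (0:ℝ), ba6h200_op T γ x =
      (∫ x in Ioi (0:ℝ), T x) - ∫ x in Ioi (0:ℝ), γ x := by
    rw [← integral_sub hT.integrableOn hγ.integrableOn]
    refine setIntegral_congr_fun measurableSet_Ioi (fun x hx => ?_)
    rw [← hγeq x hx]; ring
  have i0 := ba6h200_integrable_mul_tau hT hγ.integrableOn 0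
  simp only [zero_sub] at i0
  have r : ∫ y in Ioi (0:ℝ), γ y * ba6h200_tau T y =
      (∫ u, T u) * (∫ y in Ioi (0:ℝ), γ y) - ∫ s in Ioi (0:ℝ), γ s * ba6h200_tau T (-s) := by
    rw [← integral_const_mul, ← integral_sub (hγ.integrableOn.const_mul _) i0]
    refine integral_congr_ae (Eventually.of_forall fun y => ?_)
    simp only
    rw [← ba6h200_tau_add_neg hT hev y]; ring
  have t0 : ba6h200_tau T 0 + ∫ x in Ioi (0:ℝ), T x = ∫ u, T u :=
    intervalIntegral.integral_Iic_add_Ioi hT.integrableOn hT.integrableOn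
  rw [l, r] at hp
  linarith

/-- The `κ = 0` solution is `Y₀(0)` times the primitive `1 - ∫₀ˣ γ`, and
`(1 + ∫ T) Y₀(0)² = 1`. -/
theorem ba6h200_zero (hT : Integrable T) (hev : ∀ x, T (-x) = T x)
    (hγ : Integrable γ) (hγeq : ∀ x, 0 < x → γ x + ba6h200_op T γ x = T x)
    (hU : ba6h200_Uniq T)
    {Y₀ : ℝ → ℝ} {B : ℝ} (hYm : Measurable Y₀) (hYb : ∀ x, |Y₀ x| ≤ B)
    (hY : ∀ x, 0 ≤ x → Y₀ x + ba6h200_op T Y₀ x = 1) :
    (1 + ∫ u, T u) * Y₀ 0 ^ 2 = 1 ∧
      ∀ x, 0 ≤ x → Y₀ x = Y₀ 0 * (1 - ∫ s in (0:ℝ)..x, γ s) := by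
  set C : ℝ := 1 + ba6h200_tau T 0 - ∫ s in Ioi (0:ℝ), γ s * ba6h200_tau T (-s) with hC
  have hkey : ∀ x, 0 ≤ x → (1 - ∫ s in (0:ℝ)..x, γ s) +
      ba6h200_op T (fun y => 1 - ∫ s in (0:ℝ)..y, γ s) x = C := by
    intro x hx
    rw [ba6h200_key hT hγ hγeq 1 hx, ← ba6h200_tau_sub hT 0 x, hC]
    ring
  have hun : ∀ x, 0 ≤ x → (1 - ∫ s in (0:ℝ)..x, γ s) - C * Y₀ x = 0 := by
    refine hU _ ((ba6h200_prim_measurable hγ 1).sub (hYm.const_mul C))
      ⟨(|1| + ∫ s, |γ s|) + |C| * B, fun x => ?_⟩ (fun x hx => ?_)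
    · refine (abs_sub _ _).trans (add_le_add (ba6h200_prim_bdd hγ 1 x) ?_)
      rw [abs_mul]
      exact mul_le_mul_of_nonneg_left (hYb x) (abs_nonneg _)
    · rw [ba6h200_op_sub_mul hT (ba6h200_prim_measurable hγ 1) (ba6h200_prim_bdd hγ 1) hYm hYb]
      have h1 := hkey x hx
      have h2 := hY x hx
      linear_combination h1 - C * h2
  have h0 : C * Y₀ 0 = 1 := by
    have := hun 0 le_rfl
    simp only [intervalIntegral.integral_same, sub_zero] at this
    linarith
  have hg1 : ∫ x in Ioi (0:ℝ), γ x = 1 - Y₀ 0 := by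
    have := ba6h200_pair_gamma hT hev hγ hγeq hYm hYb (e := fun _ => (1:ℝ)) (B' := 1)
      measurable_const (fun _ => by simp) hY
    simpa using this
  have hC2 : C = (1 + ∫ u, T u) * Y₀ 0 := by
    rw [hC, ba6h200_const_eq hT hev hγ hγeq, hg1]; ring
  refine ⟨?_, fun x hx => ?_⟩
  · rw [hC2] at h0
    linear_combination h0
  · have := hun x hx
    linear_combination (-(Y₀ 0)) * this - (Y₀ x) * h0

theorem ba6h200_integrable_shift_mul' (hT : Integrable T) {M : ℝ} (hTb : ∀ x, |T x| ≤ M)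
    {f : ℝ → ℝ} (hf : Integrable f) (x : ℝ) :
    Integrable (fun y => T (x - y) * f y) :=
  hf.bdd_mul (c := M) (hT.comp_sub_left x).aestronglyMeasurable
    (Eventually.of_forall fun y => by simpa using hTb (x - y))

theorem ba6h200_op_lin (hT : Integrable T) {M : ℝ} (hTb : ∀ x, |T x| ≤ M)
    {f g : ℝ → ℝ} (hf : Integrable f) (hg : Integrable g) (a b x : ℝ) :
    ba6h200_op T (fun y => a * f y + b * g y) x =
      a * ba6h200_op T f x + b * ba6h200_op T g x := by
  unfold ba6h200_op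
  rw [← integral_const_mul, ← integral_const_mul, ← integral_add
    ((ba6h200_integrable_shift_mul' hT hTb hf x).const_mul a).integrableOn
    ((ba6h200_integrable_shift_mul' hT hTb hg x).const_mul b).integrableOn]
  refine integral_congr_ae (Eventually.of_forall fun y => ?_)
  simp only
  ring

theorem ba6h200_integral_exp (κ x : ℝ) :
    ∫ t in (0:ℝ)..x, κ * Real.exp (-κ * t) = 1 - Real.exp (-κ * x) := by
  have hd : ∀ t ∈ uIcc (0:ℝ) x,
      HasDerivAt (fun t => -Real.exp (-κ * t)) (κ * Real.exp (-κ * t)) t := by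
    intro t _
    have h1 : HasDerivAt (fun t : ℝ => -κ * t) (-κ) t := by
      simpa using (hasDerivAt_id t).const_mul (-κ)
    have h2 := (h1.exp).neg
    have e : κ * Real.exp (-κ * t) = -(Real.exp (-κ * t) * -κ) := by ring
    rw [e]
    exact h2
  have hc : Continuous (fun t : ℝ => κ * Real.exp (-κ * t)) := by fun_prop
  rw [intervalIntegral.integral_eq_sub_of_hasDerivAt hd (hc.intervalIntegrable _ _)]
  simp only [mul_zero, Real.exp_zero]
  ring

/-- A solution with an exponential right-hand side is a primitive: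
`Y' = -κ Y - Y(0) γ`, in integrated form. -/
theorem ba6h200_sol_prim (hT : Integrable T) (hev : ∀ x, T (-x) = T x)
    {M : ℝ} (hTb : ∀ x, |T x| ≤ M)
    (hγ : Integrable γ) (hγeq : ∀ x, 0 < x → γ x + ba6h200_op T γ x = T x)
    (hU : ba6h200_Uniq T)
    {Y₀ : ℝ → ℝ} {B₀ : ℝ} (hY₀m : Measurable Y₀) (hY₀b : ∀ x, |Y₀ x| ≤ B₀)
    (hY₀ : ∀ x, 0 ≤ x → Y₀ x + ba6h200_op T Y₀ x = 1)
    {κ : ℝ} {Y : ℝ → ℝ} {B : ℝ} (hYm : Measurable Y) (hYb : ∀ x, |Y x| ≤ B)
    (hYi : Integrable Y)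
    (hY : ∀ x, 0 ≤ x → Y x + ba6h200_op T Y x = Real.exp (-κ * x)) :
    ∀ x, 0 ≤ x → Y x = Y 0 - ∫ s in (0:ℝ)..x, (κ * Y s + Y 0 * γ s) := by
  have hz := ba6h200_zero hT hev hγ hγeq hU hY₀m hY₀b hY₀
  have hY₀0 : Y₀ 0 ≠ 0 := by
    intro h
    have := hz.1
    rw [h] at this
    simp at this
  have hg : Integrable (fun s => κ * Y s + Y 0 * γ s) := (hYi.const_mul κ).add (hγ.const_mul _)
  have hgeq : ∀ x, 0 < x → (κ * Y x + Y 0 * γ x) +
      ba6h200_op T (fun s => κ * Y s + Y 0 * γ s) x = κ * Real.exp (-κ * x) + Y 0 * T x := by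
    intro x hx
    rw [ba6h200_op_lin hT hTb hYi hγ, ← hY x hx.le, ← hγeq x hx]
    ring
  set c₀ : ℝ := Y 0 * (1 + ba6h200_tau T 0) - 1 -
    ∫ s in Ioi (0:ℝ), (κ * Y s + Y 0 * γ s) * ba6h200_tau T (-s) with hc₀
  have hkey : ∀ x, 0 ≤ x → (Y 0 - ∫ s in (0:ℝ)..x, (κ * Y s + Y 0 * γ s)) +
      ba6h200_op T (fun y => Y 0 - ∫ s in (0:ℝ)..y, (κ * Y s + Y 0 * γ s)) x =
        Real.exp (-κ * x) + c₀ := by
    intro x hx
    have hc : Continuous (fun t : ℝ => κ * Real.exp (-κ * t)) := by fun_prop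
    rw [ba6h200_key hT hg hgeq (Y 0) hx, intervalIntegral.integral_add
      (hc.intervalIntegrable _ _) (hT.intervalIntegrable.const_mul _), ba6h200_integral_exp,
      intervalIntegral.integral_const_mul, ← ba6h200_tau_sub hT 0 x, hc₀]
    ring
  have hWm := ba6h200_prim_measurable hg (Y 0)
  have hWb := ba6h200_prim_bdd hg (Y 0)
  have hWYm : Measurable (fun x => (Y 0 - ∫ s in (0:ℝ)..x, (κ * Y s + Y 0 * γ s)) - 1 * Y x) :=
    hWm.sub (hYm.const_mul 1)
  have hWYb : ∀ x, |(Y 0 - ∫ s in (0:ℝ)..x, (κ * Y s + Y 0 * γ s)) - 1 * Y x| ≤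
      (|Y 0| + ∫ s, |κ * Y s + Y 0 * γ s|) + B := by
    intro x
    refine (abs_sub _ _).trans (add_le_add (hWb x) ?_)
    rw [one_mul]; exact hYb x
  have hun : ∀ x, 0 ≤ x →
      ((Y 0 - ∫ s in (0:ℝ)..x, (κ * Y s + Y 0 * γ s)) - 1 * Y x) - c₀ * Y₀ x = 0 := by
    refine hU _ (hWYm.sub (hY₀m.const_mul c₀))
      ⟨((|Y 0| + ∫ s, |κ * Y s + Y 0 * γ s|) + B) + |c₀| * B₀, fun x => ?_⟩ (fun x hx => ?_)
    · refine (abs_sub _ _).trans (add_le_add (hWYb x) ?_)
      rw [abs_mul]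
      exact mul_le_mul_of_nonneg_left (hY₀b x) (abs_nonneg _)
    · rw [ba6h200_op_sub_mul hT hWYm hWYb hY₀m hY₀b, ba6h200_op_sub_mul hT hWm hWb hYm hYb]
      have h1 := hkey x hx
      have h2 := hY x hx
      have h3 := hY₀ x hx
      linear_combination h1 - h2 - c₀ * h3
  have hc0 : c₀ = 0 := by
    have := hun 0 le_rfl
    simp only [intervalIntegral.integral_same, sub_zero, one_mul, sub_self, zero_sub,
      neg_eq_zero, mul_eq_zero] at this
    exact this.resolve_right hY₀0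
  intro x hx
  have := hun x hx
  rw [hc0] at this
  linarith

/-- Laplace transform of a primitive. -/
theorem ba6h200_laplace_prim {g : ℝ → ℝ} (hg : Integrable g) (w₀ : ℝ) {κ : ℝ} (hκ : 0 < κ) :
    κ * ∫ x in Ioi (0:ℝ), Real.exp (-κ * x) * (w₀ - ∫ s in (0:ℝ)..x, g s) =
      w₀ - ∫ s in Ioi (0:ℝ), Real.exp (-κ * s) * g s := by
  have hneg : -κ < 0 := by linarith
  have ie : IntegrableOn (fun x => Real.exp (-κ * x)) (Ioi 0) := integrableOn_exp_mul_Ioi hneg 0
  have i1 : IntegrableOn (fun x => Real.exp (-κ * x) * w₀) (Ioi 0) := ie.mul_const w₀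
  have i2 : IntegrableOn (fun x => Real.exp (-κ * x) * ∫ s in (0:ℝ)..x, g s) (Ioi 0) :=
    Integrable.mul_bdd (c := ∫ s, |g s|) ie (ba6h200_prim_continuous hg).aestronglyMeasurable
      (Eventually.of_forall fun y => by simpa using ba6h200_prim_abs_le hg y)
  have e1 : (fun x => Real.exp (-κ * x) * (w₀ - ∫ s in (0:ℝ)..x, g s)) =
      fun x => Real.exp (-κ * x) * w₀ - Real.exp (-κ * x) * ∫ s in (0:ℝ)..x, g s := by
    funext y; ring
  rw [e1, integral_sub i1 i2, integral_mul_const, integral_exp_mul_Ioi hneg,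
    ba6h200_triangle ie hg.integrableOn]
  simp only [integral_exp_mul_Ioi hneg]
  have e2 : ∫ s in Ioi (0:ℝ), g s * (-Real.exp (-κ * s) / -κ) =
      (∫ s in Ioi (0:ℝ), Real.exp (-κ * s) * g s) / κ := by
    rw [← integral_div]
    refine integral_congr_ae (Eventually.of_forall fun y => ?_)
    simp only
    field_simp
  rw [e2]
  simp only [mul_zero, Real.exp_zero]
  field_simp

theorem ba6h200_pair_gamma_exp (hT : Integrable T) (hev : ∀ x, T (-x) = T x)
    (hγ : Integrable γ) (hγeq : ∀ x, 0 < x → γ x + ba6h200_op T γ x = T x)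
    {κ : ℝ} (hκ : 0 ≤ κ) {Y : ℝ → ℝ} {B : ℝ} (hYm : Measurable Y) (hYb : ∀ x, |Y x| ≤ B)
    (hY : ∀ x, 0 ≤ x → Y x + ba6h200_op T Y x = Real.exp (-κ * x)) :
    ∫ x in Ioi (0:ℝ), Real.exp (-κ * x) * γ x = 1 - Y 0 := by
  have hem : Measurable (fun x : ℝ => Real.exp (-κ * |x|)) := by fun_prop
  have heb : ∀ x : ℝ, |Real.exp (-κ * |x|)| ≤ 1 := by
    intro x
    rw [abs_of_pos (Real.exp_pos _)]
    apply Real.exp_le_one_iff.2
    have := mul_nonneg hκ (abs_nonneg x)
    linarith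
  have h := ba6h200_pair_gamma hT hev hγ hγeq hYm hYb hem heb
    (fun x hx => by rw [abs_of_nonneg hx]; exact hY x hx)
  simp only [abs_zero, mul_zero, Real.exp_zero] at h
  rw [← h]
  refine setIntegral_congr_fun measurableSet_Ioi (fun x hx => ?_)
  rw [abs_of_pos hx]

/-- **The Ambartsumian-Chandrasekhar `H`-identity**:
`(κ + κ') ⟨e_κ', Y_κ⟩ = Y_κ(0) Y_κ'(0)`. -/
theorem ba6h200_H_identity (hT : Integrable T) (hev : ∀ x, T (-x) = T x)
    {M : ℝ} (hTb : ∀ x, |T x| ≤ M)
    (hγ : Integrable γ) (hγeq : ∀ x, 0 < x → γ x + ba6h200_op T γ x = T x)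
    (hU : ba6h200_Uniq T)
    {Y₀ : ℝ → ℝ} {B₀ : ℝ} (hY₀m : Measurable Y₀) (hY₀b : ∀ x, |Y₀ x| ≤ B₀)
    (hY₀ : ∀ x, 0 ≤ x → Y₀ x + ba6h200_op T Y₀ x = 1)
    {κ κ' : ℝ} (hκ' : 0 < κ') {Y Y' : ℝ → ℝ} {B B' : ℝ}
    (hYm : Measurable Y) (hYb : ∀ x, |Y x| ≤ B) (hYi : Integrable Y)
    (hY : ∀ x, 0 ≤ x → Y x + ba6h200_op T Y x = Real.exp (-κ * x))
    (hYm' : Measurable Y') (hYb' : ∀ x, |Y' x| ≤ B')
    (hY' : ∀ x, 0 ≤ x → Y' x + ba6h200_op T Y' x = Real.exp (-κ' * x)) :
    (κ + κ') * ∫ x in Ioi (0:ℝ), Real.exp (-κ' * x) * Y x = Y 0 * Y' 0 := by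
  have hprim := ba6h200_sol_prim hT hev hTb hγ hγeq hU hY₀m hY₀b hY₀ hYm hYb hYi hY
  have hg : Integrable (fun s => κ * Y s + Y 0 * γ s) := (hYi.const_mul κ).add (hγ.const_mul _)
  have hl := ba6h200_laplace_prim hg (Y 0) hκ'
  have e1 : ∫ x in Ioi (0:ℝ), Real.exp (-κ' * x) * Y x =
      ∫ x in Ioi (0:ℝ), Real.exp (-κ' * x) * (Y 0 - ∫ s in (0:ℝ)..x, (κ * Y s + Y 0 * γ s)) := by
    refine setIntegral_congr_fun measurableSet_Ioi (fun x hx => ?_)
    rw [← hprim x (le_of_lt hx)]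
  have hebd : ∀ᵐ x ∂(volume.restrict (Ioi (0:ℝ))), ‖Real.exp (-κ' * x)‖ ≤ 1 := by
    refine (ae_restrict_iff' measurableSet_Ioi).2 (Eventually.of_forall fun x hx => ?_)
    rw [Real.norm_eq_abs, abs_of_pos (Real.exp_pos _)]
    apply Real.exp_le_one_iff.2
    have := mul_pos hκ' hx
    linarith
  have hem : AEStronglyMeasurable (fun x : ℝ => Real.exp (-κ' * x))
      (volume.restrict (Ioi (0:ℝ))) := by
    have : Measurable (fun x : ℝ => Real.exp (-κ' * x)) := by fun_prop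
    exact this.aestronglyMeasurable
  have iY : IntegrableOn (fun x => Real.exp (-κ' * x) * Y x) (Ioi 0) :=
    hYi.integrableOn.bdd_mul (c := 1) hem hebd
  have iG : IntegrableOn (fun x => Real.exp (-κ' * x) * γ x) (Ioi 0) :=
    hγ.integrableOn.bdd_mul (c := 1) hem hebd
  have e2 : ∫ s in Ioi (0:ℝ), Real.exp (-κ' * s) * (κ * Y s + Y 0 * γ s) =
      κ * (∫ s in Ioi (0:ℝ), Real.exp (-κ' * s) * Y s) +
        Y 0 * ∫ s in Ioi (0:ℝ), Real.exp (-κ' * s) * γ s := by
    rw [← integral_const_mul, ← integral_const_mul,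
      ← integral_add (iY.const_mul κ) (iG.const_mul _)]
    refine integral_congr_ae (Eventually.of_forall fun y => ?_)
    simp only
    ring
  have e3 := ba6h200_pair_gamma_exp hT hev hγ hγeq hκ'.le hYm' hYb' hY'
  rw [← e1, e2, e3] at hl
  linear_combination hl

/-- `κ ⟨1, Y_κ⟩ = Y₀(0) Y_κ(0)`. -/
theorem ba6h200_H_identity_zero (hT : Integrable T) (hev : ∀ x, T (-x) = T x)
    (hγ : Integrable γ) (hγeq : ∀ x, 0 < x → γ x + ba6h200_op T γ x = T x)
    (hU : ba6h200_Uniq T)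
    {Y₀ : ℝ → ℝ} {B₀ : ℝ} (hY₀m : Measurable Y₀) (hY₀b : ∀ x, |Y₀ x| ≤ B₀)
    (hY₀ : ∀ x, 0 ≤ x → Y₀ x + ba6h200_op T Y₀ x = 1)
    {κ : ℝ} (hκ : 0 < κ) {Y : ℝ → ℝ} {B : ℝ}
    (hYm : Measurable Y) (hYb : ∀ x, |Y x| ≤ B) (hYi : Integrable Y)
    (hY : ∀ x, 0 ≤ x → Y x + ba6h200_op T Y x = Real.exp (-κ * x)) :
    κ * ∫ x in Ioi (0:ℝ), Y x = Y₀ 0 * Y 0 := by
  have hz := ba6h200_zero hT hev hγ hγeq hU hY₀m hY₀b hY₀
  have hp := ba6h200_pairing hT hev hY₀m hY₀b hYi.integrableOn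
  have hneg : -κ < 0 := by linarith
  have ie : IntegrableOn (fun x => Real.exp (-κ * x)) (Ioi 0) := integrableOn_exp_mul_Ioi hneg 0
  have iY0e : IntegrableOn (fun x => Y₀ x * Real.exp (-κ * x)) (Ioi 0) :=
    ie.bdd_mul (c := B₀) hY₀m.aestronglyMeasurable
      (Eventually.of_forall fun y => by simpa using hY₀b y)
  have iY0Y : IntegrableOn (fun x => Y₀ x * Y x) (Ioi 0) :=
    hYi.integrableOn.bdd_mul (c := B₀) hY₀m.aestronglyMeasurable
      (Eventually.of_forall fun y => by simpa using hY₀b y)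
  have l : ∫ x in Ioi (0:ℝ), Y₀ x * ba6h200_op T Y x =
      (∫ x in Ioi (0:ℝ), Y₀ x * Real.exp (-κ * x)) - ∫ x in Ioi (0:ℝ), Y₀ x * Y x := by
    rw [← integral_sub iY0e iY0Y]
    refine setIntegral_congr_fun measurableSet_Ioi (fun x hx => ?_)
    rw [← hY x (le_of_lt hx)]; ring
  have r : ∫ y in Ioi (0:ℝ), Y y * ba6h200_op T Y₀ y =
      (∫ x in Ioi (0:ℝ), Y x) - ∫ x in Ioi (0:ℝ), Y₀ x * Y x := by
    rw [← integral_sub hYi.integrableOn iY0Y]
    refine setIntegral_congr_fun measurableSet_Ioi (fun x hx => ?_)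
    have := hY₀ x (le_of_lt hx)
    linear_combination (Y x) * this
  have hl := ba6h200_laplace_prim hγ 1 hκ
  have e3 := ba6h200_pair_gamma_exp hT hev hγ hγeq hκ.le hYm hYb hY
  have e4 : ∫ x in Ioi (0:ℝ), Y₀ x * Real.exp (-κ * x) =
      Y₀ 0 * ∫ x in Ioi (0:ℝ), Real.exp (-κ * x) * (1 - ∫ s in (0:ℝ)..x, γ s) := by
    rw [← integral_const_mul]
    refine setIntegral_congr_fun measurableSet_Ioi (fun x hx => ?_)
    rw [hz.2 x (le_of_lt hx)]; ring
  rw [l, r] at hp
  rw [e3] at hl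
  have h5 : ∫ x in Ioi (0:ℝ), Y x = ∫ x in Ioi (0:ℝ), Y₀ x * Real.exp (-κ * x) := by linarith
  rw [h5, e4]
  linear_combination (Y₀ 0) * hl

/-- **The constant of BA6**: `2 ⟨e_κ, Y_κ⟩ = κ (1 + ∫ T) ⟨1, Y_κ⟩²`. -/
theorem ba6h200_ratio (hT : Integrable T) (hev : ∀ x, T (-x) = T x)
    {M : ℝ} (hTb : ∀ x, |T x| ≤ M)
    (hγ : Integrable γ) (hγeq : ∀ x, 0 < x → γ x + ba6h200_op T γ x = T x)
    (hU : ba6h200_Uniq T)
    {Y₀ : ℝ → ℝ} {B₀ : ℝ} (hY₀m : Measurable Y₀) (hY₀b : ∀ x, |Y₀ x| ≤ B₀)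
    (hY₀ : ∀ x, 0 ≤ x → Y₀ x + ba6h200_op T Y₀ x = 1)
    {κ : ℝ} (hκ : 0 < κ) {Y : ℝ → ℝ} {B : ℝ}
    (hYm : Measurable Y) (hYb : ∀ x, |Y x| ≤ B) (hYi : Integrable Y)
    (hY : ∀ x, 0 ≤ x → Y x + ba6h200_op T Y x = Real.exp (-κ * x)) :
    2 * ∫ x in Ioi (0:ℝ), Real.exp (-κ * x) * Y x =
      κ * (1 + ∫ u, T u) * (∫ x in Ioi (0:ℝ), Y x) ^ 2 := by
  have h1 := ba6h200_H_identity hT hev hTb hγ hγeq hU hY₀m hY₀b hY₀ hκ hYm hYb hYi hY hYm hYb hY
  have h2 := ba6h200_H_identity_zero hT hev hγ hγeq hU hY₀m hY₀b hY₀ hκ hYm hYb hYi hY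
  have h3 := (ba6h200_zero hT hev hγ hγeq hU hY₀m hY₀b hY₀).1
  set I := ∫ x in Ioi (0:ℝ), Real.exp (-κ * x) * Y x
  set J := ∫ x in Ioi (0:ℝ), Y x
  set k := ∫ u, T u
  have hκ0 : κ ≠ 0 := hκ.ne'
  have h4 : κ * (2 * I) = κ * (κ * (1 + k) * J ^ 2) := by
    have : (κ * J) ^ 2 * (1 + k) = Y 0 ^ 2 := by
      rw [h2]
      linear_combination (Y 0 ^ 2) * h3
    linear_combination h1 - this
  exact mul_left_cancel₀ hκ0 h4

end identity

section apriori

variable {T : ℝ → ℝ}

theorem ba6h200_op_integrable (hT : Integrable T) {z : ℝ → ℝ}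
    (hz : IntegrableOn z (Ioi 0)) : Integrable (ba6h200_op T z) := by
  have := ba6h200_op_integrableOn hT hz univ
  rwa [integrableOn_univ] at this

/-- Young's inequality in `L¹` for the half-line operator, on the whole line. -/
theorem ba6h200_op_L1 (hT : Integrable T) {z : ℝ → ℝ} (hz : IntegrableOn z (Ioi 0)) :
    ∫ x, |ba6h200_op T z x| ≤ (∫ u, |T u|) * ∫ y in Ioi (0:ℝ), |z y| := by
  have hTa : Integrable (fun u => |T u|) := hT.abs
  have hza : IntegrableOn (fun y => |z y|) (Ioi 0) := hz.abs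
  have h1 : ∫ x, |ba6h200_op T z x| ≤ ∫ x, ba6h200_op (fun u => |T u|) (fun y => |z y|) x := by
    refine integral_mono (ba6h200_op_integrable hT hz).abs (ba6h200_op_integrable hTa hza)
      (fun x => ?_)
    unfold ba6h200_op
    simp only [← abs_mul]
    exact abs_integral_le_integral_abs
  refine h1.trans (le_of_eq ?_)
  unfold ba6h200_op
  have hF : Integrable (Function.uncurry fun x y : ℝ => |T (x - y)| * |z y|)
      ((volume : Measure ℝ).prod (volume.restrict (Ioi (0:ℝ)))) := by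
    have := ba6h200_integrable_kernel hTa hza univ
    rwa [Measure.restrict_univ] at this
  rw [integral_integral_swap hF, ← integral_const_mul]
  refine integral_congr_ae (Eventually.of_forall fun y => ?_)
  simp only
  rw [integral_mul_const, integral_sub_right_eq_self (fun u => |T u|)]

/-- The `L¹` a-priori bound for the two-boundary equation. -/
theorem ba6h200_apriori (hT : Integrable T) {q : ℝ} (hq : 0 ≤ q) {z s : ℝ → ℝ}
    (hz : IntegrableOn z (Ioi 0)) (hs : IntegrableOn s (Ioi 0))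
    (heq : ∀ x, 0 < x → z x + ba6h200_op T z x + ba6h200_op T z (-(2 * q) - x) = s x) :
    (1 - ∫ u, |T u|) * ∫ x in Ioi (0:ℝ), |z x| ≤ ∫ x in Ioi (0:ℝ), |s x| := by
  have hO := ba6h200_op_integrable hT hz
  have hOa : Integrable (fun x => |ba6h200_op T z x|) := hO.abs
  have hOr : Integrable (fun x => |ba6h200_op T z (-(2 * q) - x)|) :=
    hOa.comp_sub_left (-(2 * q))
  have h1 : ∫ x in Ioi (0:ℝ), |z x| ≤ ∫ x in Ioi (0:ℝ),
      (|s x| + |ba6h200_op T z x| + |ba6h200_op T z (-(2 * q) - x)|) := by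
    refine setIntegral_mono_on hz.abs ((hs.abs.add hOa.integrableOn).add hOr.integrableOn)
      measurableSet_Ioi (fun x hx => ?_)
    have e : z x = s x - ba6h200_op T z x - ba6h200_op T z (-(2 * q) - x) := by
      have := heq x hx; linarith
    rw [e]
    exact (abs_sub _ _).trans (add_le_add (abs_sub _ _) le_rfl)
  have h2 : ∫ x in Ioi (0:ℝ),
      (|s x| + |ba6h200_op T z x| + |ba6h200_op T z (-(2 * q) - x)|) =
      (∫ x in Ioi (0:ℝ), |s x|) + (∫ x in Ioi (0:ℝ), |ba6h200_op T z x|) +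
        ∫ x in Iic (-(2 * q)), |ba6h200_op T z x| := by
    have i12 : IntegrableOn (fun x => |s x| + |ba6h200_op T z x|) (Ioi 0) :=
      hs.abs.add hOa.integrableOn
    rw [integral_add i12 hOr.integrableOn, integral_add hs.abs hOa.integrableOn,
      ba6h200_integral_Ioi_shift (fun x => |ba6h200_op T z x|) (-(2 * q)) 0, sub_zero]
    rfl
  have h3 : (∫ x in Ioi (0:ℝ), |ba6h200_op T z x|) +
      ∫ x in Iic (-(2 * q)), |ba6h200_op T z x| ≤ ∫ x, |ba6h200_op T z x| := by
    have hd : Disjoint (Ioi (0:ℝ)) (Iic (-(2 * q))) := by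
      rw [Set.disjoint_left]
      intro x hx hx'
      simp only [mem_Ioi] at hx
      simp only [mem_Iic] at hx'
      linarith
    rw [← setIntegral_union hd measurableSet_Iic hOa.integrableOn hOa.integrableOn]
    exact setIntegral_le_integral hOa (Eventually.of_forall fun u => abs_nonneg _)
  have h4 := ba6h200_op_L1 hT hz
  nlinarith [h1, h2, h3, h4]

theorem ba6h200_tail_tendsto {F : ℝ → ℝ} (hF : Integrable F) :
    Tendsto (fun q : ℝ => ∫ x in Iic (-(2 * q)), F x) atTop (𝓝 0) := by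
  have h1 : Tendsto (fun q : ℝ => -(2 * q)) atTop atBot := by
    apply tendsto_neg_atTop_atBot.comp
    exact tendsto_id.const_mul_atTop (by norm_num : (0:ℝ) < 2)
  have h2 := intervalIntegral_tendsto_integral_Iic (f := F) (μ := volume) 0 hF.integrableOn h1
  have h3 : (fun q : ℝ => ∫ x in Iic (-(2 * q)), F x) =
      fun q => (∫ x in Iic (0:ℝ), F x) - ∫ x in (-(2 * q))..0, F x := by
    funext q
    rw [← intervalIntegral.integral_Iic_sub_Iic hF.integrableOn hF.integrableOn]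
    ring
  rw [h3]
  have := (tendsto_const_nhds (x := ∫ x in Iic (0:ℝ), F x)).sub h2
  simpa using this

end apriori

section stage1

variable {T : ℝ → ℝ}

theorem ba6h200_integrableOn_shift_mul (hT : Integrable T) {M : ℝ} (hTb : ∀ x, |T x| ≤ M)
    {f : ℝ → ℝ} (hf : IntegrableOn f (Ioi 0)) (x : ℝ) :
    IntegrableOn (fun y => T (x - y) * f y) (Ioi 0) :=
  Integrable.bdd_mul (c := M) hf (hT.comp_sub_left x).aestronglyMeasurable.restrict
    (Eventually.of_forall fun y => by simpa using hTb (x - y))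

theorem ba6h200_op_lin' (hT : Integrable T) {M : ℝ} (hTb : ∀ x, |T x| ≤ M)
    {f g : ℝ → ℝ} (hf : IntegrableOn f (Ioi 0)) (hg : IntegrableOn g (Ioi 0)) (a b x : ℝ) :
    ba6h200_op T (fun y => a * f y + b * g y) x =
      a * ba6h200_op T f x + b * ba6h200_op T g x := by
  unfold ba6h200_op
  rw [← integral_const_mul, ← integral_const_mul, ← integral_add
    ((ba6h200_integrableOn_shift_mul hT hTb hf x).const_mul a)
    ((ba6h200_integrableOn_shift_mul hT hTb hg x).const_mul b)]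
  refine integral_congr_ae (Eventually.of_forall fun y => ?_)
  simp only
  ring

theorem ba6h200_integral_exp_Ioi {κ : ℝ} (hκ : 0 < κ) :
    ∫ x in Ioi (0:ℝ), Real.exp (-κ * x) = 1 / κ := by
  rw [integral_exp_mul_Ioi (by linarith : -κ < 0)]
  simp only [mul_zero, Real.exp_zero]
  field_simp

/-- **S4, the `L¹` convergence**: `e^{κ q} y_q → a Y_κ` in `L¹(0,∞)`. -/
theorem ba6h200_L1_conv (hT : Integrable T) {M : ℝ} (hTb : ∀ x, |T x| ≤ M)
    (hr : ∫ u, |T u| < 1) {κ : ℝ} (hκ : 0 < κ) {Y : ℝ → ℝ} (hYi : IntegrableOn Y (Ioi 0))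
    (hY : ∀ x, 0 < x → Y x + ba6h200_op T Y x = Real.exp (-κ * x))
    {p : ℝ → ℝ} {a : ℝ} (hp : Tendsto (fun l => p l * Real.exp (κ * l)) atTop (𝓝 a))
    {y : ℝ → ℝ → ℝ} (hyi : ∀ q, IntegrableOn (y q) (Ioi 0))
    (hy : ∀ q, 0 ≤ q → ∀ x, 0 < x →
      y q x + ba6h200_op T (y q) x + ba6h200_op T (y q) (-(2 * q) - x) = p (x + q)) :
    Tendsto (fun q => ∫ x in Ioi (0:ℝ), |Real.exp (κ * q) * y q x + (-a) * Y x|) atTop (𝓝 0) := by
  have hOY := ba6h200_op_integrable hT hYi
  have hOYa : Integrable (fun x => |ba6h200_op T Y x|) := hOY.abs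
  have htail := ba6h200_tail_tendsto hOYa
  have h1r : 0 < 1 - ∫ u, |T u| := by linarith
  have ie : IntegrableOn (fun x => Real.exp (-κ * x)) (Ioi 0) :=
    integrableOn_exp_mul_Ioi (by linarith : -κ < 0) 0
  rw [Metric.tendsto_nhds]
  intro ε hε
  set r1 := 1 - ∫ u, |T u| with hr1
  have hε₁ : 0 < r1 * ε * κ / 4 := by positivity
  have hε₂ : 0 < r1 * ε / (4 * (|a| + 1)) := by positivity
  obtain ⟨q₀, hq₀⟩ := eventually_atTop.1 ((Metric.tendsto_nhds.1 hp) _ hε₁)
  filter_upwards [eventually_ge_atTop (max q₀ 0), (Metric.tendsto_nhds.1 htail) _ hε₂]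
    with q hq htq
  have hq0 : 0 ≤ q := le_trans (le_max_right _ _) hq
  have hqq : q₀ ≤ q := le_trans (le_max_left _ _) hq
  set z : ℝ → ℝ := fun x => Real.exp (κ * q) * y q x + (-a) * Y x with hz
  set s : ℝ → ℝ := fun x => (Real.exp (κ * q) * p (x + q) - a * Real.exp (-κ * x)) -
    a * ba6h200_op T Y (-(2 * q) - x) with hs
  have hzi : IntegrableOn z (Ioi 0) := ((hyi q).const_mul _).add (hYi.const_mul _)
  have heq : ∀ x, 0 < x → z x + ba6h200_op T z x + ba6h200_op T z (-(2 * q) - x) = s x := by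
    intro x hx
    rw [hz, ba6h200_op_lin' hT hTb (hyi q) hYi, ba6h200_op_lin' hT hTb (hyi q) hYi, hs]
    have h1 := hy q hq0 x hx
    have h2 := hY x hx
    simp only
    linear_combination (Real.exp (κ * q)) * h1 - a * h2
  have hOz := ba6h200_op_integrable hT hzi
  have hsi : IntegrableOn s (Ioi 0) := by
    refine IntegrableOn.congr_fun ((hzi.add hOz.integrableOn).add
      (hOz.comp_sub_left (-(2 * q))).integrableOn) (fun x hx => ?_) measurableSet_Ioi
    exact heq x hx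
  have hap := ba6h200_apriori hT hq0 hzi hsi heq
  have hOr : Integrable (fun x => |ba6h200_op T Y (-(2 * q) - x)|) :=
    hOYa.comp_sub_left (-(2 * q))
  have hsb : ∫ x in Ioi (0:ℝ), |s x| ≤ ∫ x in Ioi (0:ℝ),
      ((r1 * ε * κ / 4) * Real.exp (-κ * x) + |a| * |ba6h200_op T Y (-(2 * q) - x)|) := by
    refine setIntegral_mono_on hsi.abs ((ie.const_mul _).add (hOr.const_mul _).integrableOn)
      measurableSet_Ioi (fun x hx => ?_)
    have hx0 : (0:ℝ) < x := hx
    have h3 := hq₀ (x + q) (by linarith)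
    rw [Real.dist_eq] at h3
    have e1 : Real.exp (κ * q) * p (x + q) - a * Real.exp (-κ * x) =
        Real.exp (-κ * x) * (p (x + q) * Real.exp (κ * (x + q)) - a) := by
      have : Real.exp (κ * (x + q)) = Real.exp (κ * x) * Real.exp (κ * q) := by
        rw [← Real.exp_add]; congr 1; ring
      have h4 : Real.exp (-κ * x) * Real.exp (κ * x) = 1 := by
        rw [← Real.exp_add]; simp
      rw [this]
      linear_combination (-(p (x + q) * Real.exp (κ * q))) * h4
    rw [hs]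
    simp only
    refine (abs_sub _ _).trans (add_le_add ?_ (le_of_eq (abs_mul _ _)))
    rw [e1, abs_mul, abs_of_pos (Real.exp_pos _), mul_comm]
    exact mul_le_mul_of_nonneg_right h3.le (Real.exp_pos _).le
  have hsv : ∫ x in Ioi (0:ℝ),
      ((r1 * ε * κ / 4) * Real.exp (-κ * x) + |a| * |ba6h200_op T Y (-(2 * q) - x)|) =
      (r1 * ε * κ / 4) * (1 / κ) + |a| * ∫ x in Iic (-(2 * q)), |ba6h200_op T Y x| := by
    rw [integral_add (ie.const_mul _) (hOr.const_mul _).integrableOn, integral_const_mul,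
      integral_const_mul, ba6h200_integral_exp_Ioi hκ,
      ba6h200_integral_Ioi_shift (fun x => |ba6h200_op T Y x|) (-(2 * q)) 0, sub_zero]
    rfl
  rw [Real.dist_eq, sub_zero] at htq ⊢
  have hnn : 0 ≤ ∫ x in Ioi (0:ℝ), |z x| := integral_nonneg fun x => abs_nonneg _
  rw [abs_of_nonneg hnn]
  have ht2 : |a| * ∫ x in Iic (-(2 * q)), |ba6h200_op T Y x| ≤ r1 * ε / 4 := by
    have h5 : ∫ x in Iic (-(2 * q)), |ba6h200_op T Y x| ≤ r1 * ε / (4 * (|a| + 1)) :=
      (le_abs_self _).trans htq.le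
    calc |a| * ∫ x in Iic (-(2 * q)), |ba6h200_op T Y x|
        ≤ (|a| + 1) * (r1 * ε / (4 * (|a| + 1))) := by
          apply mul_le_mul (by linarith) h5 (integral_nonneg fun x => abs_nonneg _)
            (by positivity)
      _ = r1 * ε / 4 := by field_simp
  have h6 : (r1 * ε * κ / 4) * (1 / κ) = r1 * ε / 4 := by field_simp
  have h7 : r1 * ∫ x in Ioi (0:ℝ), |z x| ≤ r1 * ε / 2 := by
    rw [hsv, h6] at hsb
    linarith
  have h8 : r1 * ∫ x in Ioi (0:ℝ), |z x| < r1 * ε := by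
    have : r1 * ε / 2 < r1 * ε := by
      have : 0 < r1 * ε := by positivity
      linarith
    linarith
  exact lt_of_mul_lt_mul_left h8 h1r.le

/-- **S4, the mass**: `e^{κ q} ∫ y_q → a ⟨1, Y_κ⟩`. -/
theorem ba6h200_mass_tendsto (hT : Integrable T) {M : ℝ} (hTb : ∀ x, |T x| ≤ M)
    (hr : ∫ u, |T u| < 1) {κ : ℝ} (hκ : 0 < κ) {Y : ℝ → ℝ} (hYi : IntegrableOn Y (Ioi 0))
    (hY : ∀ x, 0 < x → Y x + ba6h200_op T Y x = Real.exp (-κ * x))
    {p : ℝ → ℝ} {a : ℝ} (hp : Tendsto (fun l => p l * Real.exp (κ * l)) atTop (𝓝 a))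
    {y : ℝ → ℝ → ℝ} (hyi : ∀ q, IntegrableOn (y q) (Ioi 0))
    (hy : ∀ q, 0 ≤ q → ∀ x, 0 < x →
      y q x + ba6h200_op T (y q) x + ba6h200_op T (y q) (-(2 * q) - x) = p (x + q)) :
    Tendsto (fun q => Real.exp (κ * q) * ∫ x in Ioi (0:ℝ), y q x) atTop
      (𝓝 (a * ∫ x in Ioi (0:ℝ), Y x)) := by
  have hL := ba6h200_L1_conv hT hTb hr hκ hYi hY hp hyi hy
  rw [tendsto_iff_dist_tendsto_zero]
  refine squeeze_zero (fun q => dist_nonneg) (fun q => ?_) hL
  rw [Real.dist_eq]
  have e : Real.exp (κ * q) * (∫ x in Ioi (0:ℝ), y q x) - a * ∫ x in Ioi (0:ℝ), Y x =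
      ∫ x in Ioi (0:ℝ), (Real.exp (κ * q) * y q x + (-a) * Y x) := by
    rw [integral_add ((hyi q).const_mul _) (hYi.const_mul _), integral_const_mul,
      integral_const_mul]
    ring
  rw [e]
  exact abs_integral_le_integral_abs

/-- **S4, the energy**: `e^{2 κ q} ∫ w(·+q) y_q → b a ⟨e_κ, Y_κ⟩`. -/
theorem ba6h200_energy_tendsto (hT : Integrable T) {M : ℝ} (hTb : ∀ x, |T x| ≤ M)
    (hr : ∫ u, |T u| < 1) {κ : ℝ} (hκ : 0 < κ) {Y : ℝ → ℝ} (hYi : IntegrableOn Y (Ioi 0))
    (hY : ∀ x, 0 < x → Y x + ba6h200_op T Y x = Real.exp (-κ * x))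
    {p : ℝ → ℝ} {a : ℝ} (hp : Tendsto (fun l => p l * Real.exp (κ * l)) atTop (𝓝 a))
    {w : ℝ → ℝ} {b : ℝ} (hwm : Measurable w)
    (hw : Tendsto (fun l => w l * Real.exp (κ * l)) atTop (𝓝 b))
    {y : ℝ → ℝ → ℝ} (hyi : ∀ q, IntegrableOn (y q) (Ioi 0))
    (hy : ∀ q, 0 ≤ q → ∀ x, 0 < x →
      y q x + ba6h200_op T (y q) x + ba6h200_op T (y q) (-(2 * q) - x) = p (x + q)) :
    Tendsto (fun q => Real.exp (2 * κ * q) * ∫ x in Ioi (0:ℝ), w (x + q) * y q x) atTop
      (𝓝 (b * a * ∫ x in Ioi (0:ℝ), Real.exp (-κ * x) * Y x)) := by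
  have hL := ba6h200_L1_conv hT hTb hr hκ hYi hY hp hyi hy
  have hebd : ∀ᵐ x ∂(volume.restrict (Ioi (0:ℝ))), ‖Real.exp (-κ * x)‖ ≤ 1 := by
    refine (ae_restrict_iff' measurableSet_Ioi).2 (Eventually.of_forall fun x hx => ?_)
    rw [Real.norm_eq_abs, abs_of_pos (Real.exp_pos _)]
    apply Real.exp_le_one_iff.2
    have := mul_pos hκ hx
    linarith
  have hem : AEStronglyMeasurable (fun x : ℝ => Real.exp (-κ * x))
      (volume.restrict (Ioi (0:ℝ))) := by
    have : Measurable (fun x : ℝ => Real.exp (-κ * x)) := by fun_prop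
    exact this.aestronglyMeasurable
  have ieY : IntegrableOn (fun x => Real.exp (-κ * x) * Y x) (Ioi 0) :=
    hYi.bdd_mul (c := 1) hem hebd
  set NY := ∫ x in Ioi (0:ℝ), |Y x| with hNY
  have hNY0 : 0 ≤ NY := integral_nonneg fun x => abs_nonneg _
  rw [Metric.tendsto_nhds]
  intro ε hε
  set ε₁ := min 1 (ε / (2 * (|a| * NY + 1))) with hε₁d
  have hε₁ : 0 < ε₁ := lt_min one_pos (by positivity)
  have hε₁1 : ε₁ ≤ 1 := min_le_left _ _
  have hε₁2 : ε₁ ≤ ε / (2 * (|a| * NY + 1)) := min_le_right _ _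
  have hε₂ : 0 < ε / (2 * (|b| + 1)) := by positivity
  obtain ⟨q₁, hq₁⟩ := eventually_atTop.1 ((Metric.tendsto_nhds.1 hw) _ hε₁)
  filter_upwards [eventually_ge_atTop (max q₁ 0), (Metric.tendsto_nhds.1 hL) _ hε₂]
    with q hq hzq
  have hq0 : 0 ≤ q := le_trans (le_max_right _ _) hq
  have hqq : q₁ ≤ q := le_trans (le_max_left _ _) hq
  set z : ℝ → ℝ := fun x => Real.exp (κ * q) * y q x + (-a) * Y x with hz
  have hzi : IntegrableOn z (Ioi 0) := ((hyi q).const_mul _).add (hYi.const_mul _)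
  -- the rescaled weight
  have hwx : ∀ x, 0 < x → |Real.exp (κ * q) * w (x + q) - b * Real.exp (-κ * x)| ≤ ε₁ := by
    intro x hx
    have h3 := hq₁ (x + q) (by linarith)
    rw [Real.dist_eq] at h3
    have e1 : Real.exp (κ * q) * w (x + q) - b * Real.exp (-κ * x) =
        Real.exp (-κ * x) * (w (x + q) * Real.exp (κ * (x + q)) - b) := by
      have : Real.exp (κ * (x + q)) = Real.exp (κ * x) * Real.exp (κ * q) := by
        rw [← Real.exp_add]; congr 1; ring
      have h4 : Real.exp (-κ * x) * Real.exp (κ * x) = 1 := by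
        rw [← Real.exp_add]; simp
      rw [this]
      linear_combination (-(w (x + q) * Real.exp (κ * q))) * h4
    rw [e1, abs_mul, abs_of_pos (Real.exp_pos _)]
    have h5 : Real.exp (-κ * x) ≤ 1 := by
      apply Real.exp_le_one_iff.2
      have := mul_pos hκ hx
      linarith
    calc Real.exp (-κ * x) * |w (x + q) * Real.exp (κ * (x + q)) - b|
        ≤ 1 * ε₁ := mul_le_mul h5 h3.le (abs_nonneg _) zero_le_one
      _ = ε₁ := one_mul _
  have hwb : ∀ x, 0 < x → |Real.exp (κ * q) * w (x + q)| ≤ |b| + 1 := by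
    intro x hx
    have h1 := hwx x hx
    have h5 : |b * Real.exp (-κ * x)| ≤ |b| := by
      rw [abs_mul, abs_of_pos (Real.exp_pos _)]
      have : Real.exp (-κ * x) ≤ 1 := by
        apply Real.exp_le_one_iff.2
        have := mul_pos hκ hx
        linarith
      exact mul_le_of_le_one_right (abs_nonneg _) this
    have h6 : |Real.exp (κ * q) * w (x + q)| ≤
        |Real.exp (κ * q) * w (x + q) - b * Real.exp (-κ * x)| + |b * Real.exp (-κ * x)| := by
      have := abs_add_le (Real.exp (κ * q) * w (x + q) - b * Real.exp (-κ * x))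
        (b * Real.exp (-κ * x))
      simpa using this
    linarith
  have hwmq : AEStronglyMeasurable (fun x : ℝ => Real.exp (κ * q) * w (x + q))
      (volume.restrict (Ioi (0:ℝ))) :=
    ((hwm.comp (measurable_id.add_const q)).const_mul _).aestronglyMeasurable
  have iwy : IntegrableOn (fun x => (Real.exp (κ * q) * w (x + q)) *
      (Real.exp (κ * q) * y q x)) (Ioi 0) :=
    Integrable.bdd_mul (c := |b| + 1) ((hyi q).const_mul _) hwmq
      ((ae_restrict_iff' measurableSet_Ioi).2 (Eventually.of_forall fun x hx => by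
        simpa using hwb x hx))
  have e0 : Real.exp (2 * κ * q) * ∫ x in Ioi (0:ℝ), w (x + q) * y q x =
      ∫ x in Ioi (0:ℝ), (Real.exp (κ * q) * w (x + q)) * (Real.exp (κ * q) * y q x) := by
    rw [← integral_const_mul]
    refine integral_congr_ae (Eventually.of_forall fun x => ?_)
    have : Real.exp (2 * κ * q) = Real.exp (κ * q) * Real.exp (κ * q) := by
      rw [← Real.exp_add]; congr 1; ring
    simp only [this]
    ring
  have e1 : (∫ x in Ioi (0:ℝ), (Real.exp (κ * q) * w (x + q)) * (Real.exp (κ * q) * y q x)) -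
      b * a * ∫ x in Ioi (0:ℝ), Real.exp (-κ * x) * Y x =
      ∫ x in Ioi (0:ℝ), ((Real.exp (κ * q) * w (x + q)) * (Real.exp (κ * q) * y q x) -
        b * a * (Real.exp (-κ * x) * Y x)) := by
    rw [integral_sub iwy (ieY.const_mul _), integral_const_mul]
  have ib : IntegrableOn (fun x => (|b| + 1) * |z x| + |a| * ε₁ * |Y x|) (Ioi 0) :=
    (hzi.abs.const_mul _).add (hYi.abs.const_mul _)
  have hbound : |∫ x in Ioi (0:ℝ), ((Real.exp (κ * q) * w (x + q)) *
      (Real.exp (κ * q) * y q x) - b * a * (Real.exp (-κ * x) * Y x))| ≤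
      ∫ x in Ioi (0:ℝ), ((|b| + 1) * |z x| + |a| * ε₁ * |Y x|) := by
    have := norm_integral_le_of_norm_le ib
      (f := fun x => (Real.exp (κ * q) * w (x + q)) *
      (Real.exp (κ * q) * y q x) - b * a * (Real.exp (-κ * x) * Y x))
      ((ae_restrict_iff' measurableSet_Ioi).2 (Eventually.of_forall fun x hx => ?_))
    · simpa using this
    · have e2 : (Real.exp (κ * q) * w (x + q)) * (Real.exp (κ * q) * y q x) -
          b * a * (Real.exp (-κ * x) * Y x) =
          (Real.exp (κ * q) * w (x + q)) * z x +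
            a * (Real.exp (κ * q) * w (x + q) - b * Real.exp (-κ * x)) * Y x := by
        rw [hz]; ring
      rw [Real.norm_eq_abs, e2]
      refine (abs_add_le _ _).trans (add_le_add ?_ ?_)
      · rw [abs_mul]
        exact mul_le_mul_of_nonneg_right (hwb x hx) (abs_nonneg _)
      · rw [abs_mul, abs_mul]
        exact mul_le_mul_of_nonneg_right
          (mul_le_mul_of_nonneg_left (hwx x hx) (abs_nonneg _)) (abs_nonneg _)
  rw [Real.dist_eq, e0, e1]
  rw [Real.dist_eq, sub_zero, abs_of_nonneg (integral_nonneg fun x => abs_nonneg _)] at hzq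
  have hval : ∫ x in Ioi (0:ℝ), ((|b| + 1) * |z x| + |a| * ε₁ * |Y x|) =
      (|b| + 1) * (∫ x in Ioi (0:ℝ), |z x|) + |a| * ε₁ * NY := by
    rw [integral_add (hzi.abs.const_mul _) (hYi.abs.const_mul _), integral_const_mul,
      integral_const_mul]
  have h1 : (|b| + 1) * (∫ x in Ioi (0:ℝ), |z x|) < ε / 2 := by
    have hb1 : 0 < |b| + 1 := by positivity
    calc (|b| + 1) * (∫ x in Ioi (0:ℝ), |z x|) < (|b| + 1) * (ε / (2 * (|b| + 1))) :=
          mul_lt_mul_of_pos_left hzq hb1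
      _ = ε / 2 := by field_simp
  have h2 : |a| * ε₁ * NY ≤ ε / 2 := by
    have h3 : 0 ≤ |a| * NY := by positivity
    calc |a| * ε₁ * NY = (|a| * NY) * ε₁ := by ring
      _ ≤ (|a| * NY + 1) * (ε / (2 * (|a| * NY + 1))) :=
          mul_le_mul (by linarith) hε₁2 hε₁.le (by positivity)
      _ = ε / 2 := by field_simp
  linarith [hbound, hval]

end stage1

section neumann

variable {T : ℝ → ℝ}

/-- Sup-norm bound of the half-line operator. -/
theorem ba6h200_op_abs_le (hT : Integrable T) {f : ℝ → ℝ} {S : ℝ}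
    (hfS : ∀ y, 0 < y → |f y| ≤ S) (x : ℝ) :
    |ba6h200_op T f x| ≤ S * ∫ u, |T u| := by
  have hi : Integrable (fun y => |T (x - y)| * S) := ((hT.comp_sub_left x).abs).mul_const S
  have h1 := norm_integral_le_of_norm_le (μ := volume.restrict (Ioi (0:ℝ))) hi.integrableOn
    (f := fun y => T (x - y) * f y)
    ((ae_restrict_iff' measurableSet_Ioi).2 (Eventually.of_forall fun y hy => by
      rw [Real.norm_eq_abs, abs_mul]
      exact mul_le_mul_of_nonneg_left (hfS y hy) (abs_nonneg _)))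
  have hS : 0 ≤ S := (abs_nonneg _).trans (hfS 1 one_pos)
  have h2 : ∫ y in Ioi (0:ℝ), |T (x - y)| * S ≤ ∫ y, |T (x - y)| * S :=
    setIntegral_le_integral hi (Eventually.of_forall fun y => mul_nonneg (abs_nonneg _) hS)
  have h3 : ∫ y, |T (x - y)| * S = S * ∫ u, |T u| := by
    rw [integral_mul_const, integral_sub_left_eq_self (fun u => |T u|), mul_comm]
  rw [Real.norm_eq_abs] at h1
  unfold ba6h200_op
  linarith

/-- Uniqueness of bounded solutions when `‖T‖₁ < 1`. -/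
theorem ba6h200_uniq_of_lt (hT : Integrable T) (hr : ∫ u, |T u| < 1) : ba6h200_Uniq T := by
  intro f _ ⟨B, hB⟩ hf
  set A : Set ℝ := (fun x => |f x|) '' Ici (0:ℝ) with hA
  have hAb : BddAbove A := ⟨B, by rintro _ ⟨x, _, rfl⟩; exact hB x⟩
  have hAn : A.Nonempty := ⟨|f 0|, ⟨0, (le_refl (0:ℝ) : (0:ℝ) ∈ Ici (0:ℝ)), rfl⟩⟩
  set S := sSup A with hS
  have hle : ∀ y, 0 ≤ y → |f y| ≤ S := fun y hy => le_csSup hAb ⟨y, hy, rfl⟩
  have hS0 : 0 ≤ S := (abs_nonneg _).trans (hle 0 le_rfl)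
  have hstep : S ≤ S * ∫ u, |T u| := by
    apply csSup_le hAn
    rintro _ ⟨x, hx, rfl⟩
    have h1 := hf x hx
    have h2 : f x = - ba6h200_op T f x := by linarith
    simp only
    rw [h2, abs_neg]
    exact ba6h200_op_abs_le hT (fun y hy => hle y hy.le) x
  have hSz : S = 0 := by nlinarith
  intro x hx
  have := hle x hx
  rw [hSz] at this
  exact abs_eq_zero.1 (le_antisymm this (abs_nonneg _))

theorem ba6h200_op_measurable (hTm : Measurable T) {f : ℝ → ℝ} (hfm : Measurable f) :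
    Measurable (ba6h200_op T f) := by
  have h : StronglyMeasurable (Function.uncurry fun x y : ℝ => T (x - y) * f y) :=
    ((hTm.comp (measurable_fst.sub measurable_snd)).mul
      (hfm.comp measurable_snd)).stronglyMeasurable
  exact (h.integral_prod_right (ν := volume.restrict (Ioi (0:ℝ)))).measurable

/-- The Neumann iterates. -/
noncomputable def ba6h200_iter (T e : ℝ → ℝ) : ℕ → ℝ → ℝ
  | 0 => e
  | n + 1 => fun x => - ba6h200_op T (ba6h200_iter T e n) x

theorem ba6h200_iter_zero (T e : ℝ → ℝ) : ba6h200_iter T e 0 = e := rfl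

theorem ba6h200_iter_succ (T e : ℝ → ℝ) (n : ℕ) :
    ba6h200_iter T e (n + 1) = fun x => - ba6h200_op T (ba6h200_iter T e n) x := rfl

theorem ba6h200_iter_measurable (hTm : Measurable T) {e : ℝ → ℝ} (hem : Measurable e) (n : ℕ) :
    Measurable (ba6h200_iter T e n) := by
  induction n with
  | zero => exact hem
  | succ n ih => rw [ba6h200_iter_succ]; exact (ba6h200_op_measurable hTm ih).neg

theorem ba6h200_iter_abs_le (hT : Integrable T) {e : ℝ → ℝ} {B : ℝ} (heb : ∀ x, |e x| ≤ B)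
    (n : ℕ) (x : ℝ) : |ba6h200_iter T e n x| ≤ B * (∫ u, |T u|) ^ n := by
  induction n generalizing x with
  | zero => simpa [ba6h200_iter_zero] using heb x
  | succ n ih =>
    rw [ba6h200_iter_succ]
    simp only [abs_neg]
    have := ba6h200_op_abs_le hT (fun y _ => ih y) x
    rw [pow_succ, ← mul_assoc]
    exact this

theorem ba6h200_iter_integrableOn (hT : Integrable T) {e : ℝ → ℝ}
    (hei : IntegrableOn e (Ioi 0)) (n : ℕ) :
    IntegrableOn (ba6h200_iter T e n) (Ioi 0) := by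
  induction n with
  | zero => exact hei
  | succ n ih => rw [ba6h200_iter_succ]; exact (ba6h200_op_integrable hT ih).neg.integrableOn

theorem ba6h200_iter_L1 (hT : Integrable T) {e : ℝ → ℝ}
    (hei : IntegrableOn e (Ioi 0)) (n : ℕ) :
    ∫ x in Ioi (0:ℝ), |ba6h200_iter T e n x| ≤
      (∫ x in Ioi (0:ℝ), |e x|) * (∫ u, |T u|) ^ n := by
  induction n with
  | zero => simp [ba6h200_iter_zero]
  | succ n ih =>
    rw [ba6h200_iter_succ]
    simp only [abs_neg]
    have hi := ba6h200_iter_integrableOn hT hei n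
    have h1 : ∫ x in Ioi (0:ℝ), |ba6h200_op T (ba6h200_iter T e n) x| ≤
        ∫ x, |ba6h200_op T (ba6h200_iter T e n) x| :=
      setIntegral_le_integral (ba6h200_op_integrable hT hi).abs
        (Eventually.of_forall fun u => abs_nonneg _)
    have h2 := ba6h200_op_L1 hT hi
    have h3 : 0 ≤ ∫ u, |T u| := integral_nonneg fun u => abs_nonneg _
    calc ∫ x in Ioi (0:ℝ), |ba6h200_op T (ba6h200_iter T e n) x|
        ≤ (∫ u, |T u|) * ∫ y in Ioi (0:ℝ), |ba6h200_iter T e n y| := h1.trans h2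
      _ ≤ (∫ u, |T u|) * ((∫ x in Ioi (0:ℝ), |e x|) * (∫ u, |T u|) ^ n) :=
          mul_le_mul_of_nonneg_left ih h3
      _ = (∫ x in Ioi (0:ℝ), |e x|) * (∫ u, |T u|) ^ (n + 1) := by ring

/-- The Neumann series. -/
noncomputable def ba6h200_sol (T e : ℝ → ℝ) (x : ℝ) : ℝ := ∑' n, ba6h200_iter T e n x

theorem ba6h200_sol_eqns_cite (T e : ℝ → ℝ) (x : ℝ) :
    ba6h200_sol T e x = ∑' n, ba6h200_iter T e n x := rfl

theorem ba6h200_norm_nonneg (T : ℝ → ℝ) : 0 ≤ ∫ u, |T u| := integral_nonneg fun _ => abs_nonneg _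

theorem ba6h200_iter_summable (hT : Integrable T) (hr : ∫ u, |T u| < 1) {e : ℝ → ℝ} {B : ℝ}
    (heb : ∀ x, |e x| ≤ B) (x : ℝ) : Summable (fun n => ba6h200_iter T e n x) :=
  Summable.of_norm_bounded
    ((summable_geometric_of_lt_one (ba6h200_norm_nonneg T) hr).mul_left B)
    (fun n => by simpa using ba6h200_iter_abs_le hT heb n x)

theorem ba6h200_sol_abs_le (hT : Integrable T) (hr : ∫ u, |T u| < 1) {e : ℝ → ℝ} {B : ℝ}
    (heb : ∀ x, |e x| ≤ B) (x : ℝ) : |ba6h200_sol T e x| ≤ B * (1 - ∫ u, |T u|)⁻¹ := by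
  have := tsum_of_norm_bounded
    ((hasSum_geometric_of_lt_one (ba6h200_norm_nonneg T) hr).mul_left B)
    (f := fun n => ba6h200_iter T e n x)
    (fun n => by simpa using ba6h200_iter_abs_le hT heb n x)
  simpa [ba6h200_sol] using this

theorem ba6h200_sol_measurable (hT : Integrable T) (hTm : Measurable T)
    (hr : ∫ u, |T u| < 1) {e : ℝ → ℝ} {B : ℝ} (hem : Measurable e) (heb : ∀ x, |e x| ≤ B) :
    Measurable (ba6h200_sol T e) := by
  refine measurable_of_tendsto_metrizable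
    (f := fun N : ℕ => fun x => ∑ n ∈ Finset.range N, ba6h200_iter T e n x)
    (fun N => Finset.measurable_fun_sum _ fun n _ => ba6h200_iter_measurable hTm hem n) ?_
  rw [tendsto_pi_nhds]
  intro x
  exact (ba6h200_iter_summable hT hr heb x).hasSum.tendsto_sum_nat

theorem ba6h200_op_sol (hT : Integrable T) (hTm : Measurable T)
    (hr : ∫ u, |T u| < 1) {e : ℝ → ℝ} {B : ℝ} (hem : Measurable e) (heb : ∀ x, |e x| ≤ B)
    (x : ℝ) :
    HasSum (fun n => ba6h200_op T (ba6h200_iter T e n) x) (ba6h200_op T (ba6h200_sol T e) x) := by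
  unfold ba6h200_op
  have hgeo := (summable_geometric_of_lt_one (ba6h200_norm_nonneg T) hr).mul_left B
  refine hasSum_integral_of_dominated_convergence
    (fun n y => |T (x - y)| * (B * (∫ u, |T u|) ^ n)) (fun n => ?_) (fun n => ?_) ?_ ?_ ?_
  · exact ((hTm.comp (measurable_const.sub measurable_id)).mul
      (ba6h200_iter_measurable hTm hem n)).aestronglyMeasurable
  · refine Eventually.of_forall fun y => ?_
    rw [Real.norm_eq_abs, abs_mul]
    exact mul_le_mul_of_nonneg_left (ba6h200_iter_abs_le hT heb n y) (abs_nonneg _)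
  · exact Eventually.of_forall fun y => hgeo.mul_left _
  · simp only [tsum_mul_left]
    exact ((hT.comp_sub_left x).abs.mul_const _).integrableOn
  · exact Eventually.of_forall fun y => (ba6h200_iter_summable hT hr heb y).hasSum.mul_left _

/-- The Neumann series solves the equation at EVERY real `x`. -/
theorem ba6h200_sol_eq (hT : Integrable T) (hTm : Measurable T)
    (hr : ∫ u, |T u| < 1) {e : ℝ → ℝ} {B : ℝ} (hem : Measurable e) (heb : ∀ x, |e x| ≤ B)
    (x : ℝ) : ba6h200_sol T e x + ba6h200_op T (ba6h200_sol T e) x = e x := by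
  have h1 := ba6h200_op_sol hT hTm hr hem heb x
  have h2 := ba6h200_iter_summable hT hr heb x
  rw [ba6h200_sol, h2.tsum_eq_zero_add, ← h1.tsum_eq]
  simp only [ba6h200_iter_succ, ba6h200_iter_zero, tsum_neg]
  ring

theorem ba6h200_sol_integrableOn (hT : Integrable T) (hTm : Measurable T)
    (hr : ∫ u, |T u| < 1) {e : ℝ → ℝ} {B : ℝ} (hem : Measurable e) (heb : ∀ x, |e x| ≤ B)
    (hei : IntegrableOn e (Ioi 0)) : IntegrableOn (ba6h200_sol T e) (Ioi 0) := by
  have hm := ba6h200_sol_measurable hT hTm hr hem heb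
  have hb := ba6h200_sol_abs_le hT hr heb
  have h0 := ba6h200_norm_nonneg T
  set r := ∫ u, |T u| with hrdef
  set E := ∫ x in Ioi (0:ℝ), |e x| with hE
  have hE0 : 0 ≤ E := integral_nonneg fun u => abs_nonneg _
  have hloc : ∀ L : ℕ, IntegrableOn (ba6h200_sol T e) (Ioc 0 (L:ℝ)) := by
    intro L
    refine Measure.integrableOn_of_bounded (M := B * (1 - r)⁻¹) (by simp) hm.aestronglyMeasurable
      (Eventually.of_forall fun x => by simpa using hb x)
  refine integrableOn_Ioi_of_intervalIntegral_norm_bounded (E * (1 - r)⁻¹) 0 hloc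
    tendsto_natCast_atTop_atTop (Eventually.of_forall fun L => ?_)
  rw [intervalIntegral.integral_of_le (Nat.cast_nonneg L)]
  -- partial sums
  have hSint : ∀ N : ℕ, IntegrableOn (fun x => ∑ n ∈ Finset.range N, ba6h200_iter T e n x)
      (Ioi 0) := fun N => integrable_finsetSum _ fun n _ => ba6h200_iter_integrableOn hT hei n
  have hSb : ∀ N : ℕ, ∫ x in Ioc 0 (L:ℝ), ‖∑ n ∈ Finset.range N, ba6h200_iter T e n x‖ ≤
      E * (1 - r)⁻¹ := by
    intro N
    have i1 : IntegrableOn (fun x => ∑ n ∈ Finset.range N, |ba6h200_iter T e n x|) (Ioi 0) :=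
      integrable_finsetSum _ fun n _ => (ba6h200_iter_integrableOn hT hei n).abs
    calc ∫ x in Ioc 0 (L:ℝ), ‖∑ n ∈ Finset.range N, ba6h200_iter T e n x‖
        ≤ ∫ x in Ioi (0:ℝ), ‖∑ n ∈ Finset.range N, ba6h200_iter T e n x‖ :=
          setIntegral_mono_set (hSint N).norm (Eventually.of_forall fun x => norm_nonneg _)
            (Eventually.of_forall Ioc_subset_Ioi_self)
      _ ≤ ∫ x in Ioi (0:ℝ), ∑ n ∈ Finset.range N, |ba6h200_iter T e n x| :=
          integral_mono (hSint N).norm i1 (fun x => by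
            simpa using Finset.abs_sum_le_sum_abs (fun n => ba6h200_iter T e n x) _)
      _ = ∑ n ∈ Finset.range N, ∫ x in Ioi (0:ℝ), |ba6h200_iter T e n x| :=
          integral_finsetSum _ fun n _ => (ba6h200_iter_integrableOn hT hei n).abs
      _ ≤ ∑ n ∈ Finset.range N, E * r ^ n :=
          Finset.sum_le_sum fun n _ => ba6h200_iter_L1 hT hei n
      _ ≤ E * (1 - r)⁻¹ := by
          rw [← Finset.mul_sum]
          refine mul_le_mul_of_nonneg_left ?_ hE0
          rw [← tsum_geometric_of_lt_one h0 hr]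
          exact (summable_geometric_of_lt_one h0 hr).sum_le_tsum _ (fun n _ => pow_nonneg h0 n)
  have hB0 : 0 ≤ B := (abs_nonneg _).trans (heb 0)
  have hlim : Tendsto (fun N : ℕ => ∫ x in Ioc 0 (L:ℝ),
      ‖∑ n ∈ Finset.range N, ba6h200_iter T e n x‖) atTop
      (𝓝 (∫ x in Ioc 0 (L:ℝ), ‖ba6h200_sol T e x‖)) := by
    refine tendsto_integral_of_dominated_convergence (fun _ => B * (1 - r)⁻¹) (fun N => ?_) ?_
      (fun N => Eventually.of_forall fun x => ?_) (Eventually.of_forall fun x => ?_)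
    · exact ((hSint N).mono_set Ioc_subset_Ioi_self).norm.aestronglyMeasurable
    · exact integrableOn_const (by simp)
    · rw [norm_norm, Real.norm_eq_abs]
      calc |∑ n ∈ Finset.range N, ba6h200_iter T e n x|
          ≤ ∑ n ∈ Finset.range N, |ba6h200_iter T e n x| := Finset.abs_sum_le_sum_abs _ _
        _ ≤ ∑ n ∈ Finset.range N, B * r ^ n :=
            Finset.sum_le_sum fun n _ => ba6h200_iter_abs_le hT heb n x
        _ ≤ B * (1 - r)⁻¹ := by
            rw [← Finset.mul_sum]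
            refine mul_le_mul_of_nonneg_left ?_ hB0
            rw [← tsum_geometric_of_lt_one h0 hr]
            exact (summable_geometric_of_lt_one h0 hr).sum_le_tsum _ (fun n _ => pow_nonneg h0 n)
    · exact ((ba6h200_iter_summable hT hr heb x).hasSum.tendsto_sum_nat).norm
  exact le_of_tendsto' hlim hSb

end neumann

section canonical

variable {T : ℝ → ℝ}

theorem ba6h200_op_indicator (T f : ℝ → ℝ) {S : Set ℝ} (hS : Ioi (0:ℝ) ⊆ S) (x : ℝ) :
    ba6h200_op T (S.indicator f) x = ba6h200_op T f x := by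
  unfold ba6h200_op
  refine setIntegral_congr_fun measurableSet_Ioi (fun y hy => ?_)
  rw [indicator_of_mem (hS hy)]

/-- The bounded extension of `e^{-κ x}`, `x ≥ 0`. -/
noncomputable def ba6h200_e (κ : ℝ) (x : ℝ) : ℝ := Real.exp (-κ * |x|)

theorem ba6h200_e_eqns_cite (κ x : ℝ) : ba6h200_e κ x = Real.exp (-κ * |x|) := rfl

theorem ba6h200_e_measurable (κ : ℝ) : Measurable (ba6h200_e κ) := by
  unfold ba6h200_e; fun_prop

theorem ba6h200_e_abs_le {κ : ℝ} (hκ : 0 ≤ κ) (x : ℝ) : |ba6h200_e κ x| ≤ 1 := by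
  unfold ba6h200_e
  rw [abs_of_pos (Real.exp_pos _)]
  apply Real.exp_le_one_iff.2
  have := mul_nonneg hκ (abs_nonneg x)
  linarith

theorem ba6h200_e_of_nonneg (κ : ℝ) {x : ℝ} (hx : 0 ≤ x) :
    ba6h200_e κ x = Real.exp (-κ * x) := by
  unfold ba6h200_e; rw [abs_of_nonneg hx]

theorem ba6h200_e_integrableOn {κ : ℝ} (hκ : 0 < κ) : IntegrableOn (ba6h200_e κ) (Ioi 0) :=
  (integrableOn_exp_mul_Ioi (by linarith : -κ < 0) 0).congr_fun
    (fun x hx => (ba6h200_e_of_nonneg κ (le_of_lt hx)).symm) measurableSet_Ioi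

/-- The canonical solution `Y_κ = (1 + T₊)⁻¹ e_κ`, cut to `[0,∞)`. -/
noncomputable def ba6h200_Y (T : ℝ → ℝ) (κ : ℝ) : ℝ → ℝ :=
  (Ici (0:ℝ)).indicator (ba6h200_sol T (ba6h200_e κ))

theorem ba6h200_Y_eqns_cite (T : ℝ → ℝ) (κ : ℝ) :
    ba6h200_Y T κ = (Ici (0:ℝ)).indicator (ba6h200_sol T (ba6h200_e κ)) := rfl

/-- The canonical `γ = (1 + T₊)⁻¹ T`, cut to `[0,∞)`. -/
noncomputable def ba6h200_gam (T : ℝ → ℝ) : ℝ → ℝ :=
  (Ici (0:ℝ)).indicator (ba6h200_sol T T)

theorem ba6h200_gam_eqns_cite (T : ℝ → ℝ) :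
    ba6h200_gam T = (Ici (0:ℝ)).indicator (ba6h200_sol T T) := rfl

theorem ba6h200_cut_measurable {f : ℝ → ℝ} (hf : Measurable f) :
    Measurable ((Ici (0:ℝ)).indicator f) := hf.indicator measurableSet_Ici

theorem ba6h200_cut_abs_le {f : ℝ → ℝ} {B : ℝ} (hf : ∀ x, |f x| ≤ B) (x : ℝ) :
    |(Ici (0:ℝ)).indicator f x| ≤ B := by
  by_cases hx : x ∈ Ici (0:ℝ)
  · rw [indicator_of_mem hx]; exact hf x
  · rw [indicator_of_notMem hx, abs_zero]; exact (abs_nonneg _).trans (hf 0)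

theorem ba6h200_cut_integrable {f : ℝ → ℝ} (hf : IntegrableOn f (Ioi 0)) :
    Integrable ((Ici (0:ℝ)).indicator f) :=
  ((integrableOn_Ici_iff_integrableOn_Ioi (by simp)).2 hf).integrable_indicator measurableSet_Ici

theorem ba6h200_cut_eq {f g : ℝ → ℝ} (hf : ∀ x, f x + ba6h200_op T f x = g x) {x : ℝ}
    (hx : 0 ≤ x) :
    (Ici (0:ℝ)).indicator f x + ba6h200_op T ((Ici (0:ℝ)).indicator f) x = g x := by
  rw [ba6h200_op_indicator T f Ioi_subset_Ici_self, indicator_of_mem (show x ∈ Ici (0:ℝ) from hx)]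
  exact hf x

/-- All the properties of the canonical solutions, in one statement. -/
theorem ba6h200_canon (hT : Integrable T) (hTm : Measurable T) {M : ℝ} (hTb : ∀ x, |T x| ≤ M)
    (hr : ∫ u, |T u| < 1) {κ : ℝ} (hκ : 0 < κ) :
    (Measurable (ba6h200_Y T κ) ∧ (∀ x, |ba6h200_Y T κ x| ≤ 1 * (1 - ∫ u, |T u|)⁻¹) ∧
      Integrable (ba6h200_Y T κ) ∧
      ∀ x, 0 ≤ x → ba6h200_Y T κ x + ba6h200_op T (ba6h200_Y T κ) x = Real.exp (-κ * x)) ∧
    (Measurable (ba6h200_Y T 0) ∧ (∀ x, |ba6h200_Y T 0 x| ≤ 1 * (1 - ∫ u, |T u|)⁻¹) ∧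
      ∀ x, 0 ≤ x → ba6h200_Y T 0 x + ba6h200_op T (ba6h200_Y T 0) x = 1) ∧
    (Integrable (ba6h200_gam T) ∧
      ∀ x, 0 < x → ba6h200_gam T x + ba6h200_op T (ba6h200_gam T) x = T x) := by
  refine ⟨⟨?_, ?_, ?_, ?_⟩, ⟨?_, ?_, ?_⟩, ?_, ?_⟩
  · exact ba6h200_cut_measurable (ba6h200_sol_measurable hT hTm hr (ba6h200_e_measurable κ)
      (ba6h200_e_abs_le hκ.le))
  · exact ba6h200_cut_abs_le (ba6h200_sol_abs_le hT hr (ba6h200_e_abs_le hκ.le))
  · exact ba6h200_cut_integrable (ba6h200_sol_integrableOn hT hTm hr (ba6h200_e_measurable κ)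
      (ba6h200_e_abs_le hκ.le) (ba6h200_e_integrableOn hκ))
  · intro x hx
    rw [← ba6h200_e_of_nonneg κ hx]
    exact ba6h200_cut_eq (ba6h200_sol_eq hT hTm hr (ba6h200_e_measurable κ)
      (ba6h200_e_abs_le hκ.le)) hx
  · exact ba6h200_cut_measurable (ba6h200_sol_measurable hT hTm hr (ba6h200_e_measurable 0)
      (ba6h200_e_abs_le le_rfl))
  · exact ba6h200_cut_abs_le (ba6h200_sol_abs_le hT hr (ba6h200_e_abs_le le_rfl))
  · intro x hx
    have := ba6h200_cut_eq (ba6h200_sol_eq hT hTm hr (ba6h200_e_measurable 0)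
      (ba6h200_e_abs_le le_rfl)) hx
    rw [ba6h200_e_of_nonneg 0 hx] at this
    simpa [ba6h200_Y] using this
  · exact ba6h200_cut_integrable (ba6h200_sol_integrableOn hT hTm hr hTm hTb hT.integrableOn)
  · intro x hx
    exact ba6h200_cut_eq (ba6h200_sol_eq hT hTm hr hTm hTb) hx.le

/-- The constant, for the canonical solution, without side hypotheses. -/
theorem ba6h200_ratio_canon (hT : Integrable T) (hTm : Measurable T)
    (hev : ∀ x, T (-x) = T x) {M : ℝ} (hTb : ∀ x, |T x| ≤ M)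
    (hr : ∫ u, |T u| < 1) {κ : ℝ} (hκ : 0 < κ) :
    2 * ∫ x in Ioi (0:ℝ), Real.exp (-κ * x) * ba6h200_Y T κ x =
      κ * (1 + ∫ u, T u) * (∫ x in Ioi (0:ℝ), ba6h200_Y T κ x) ^ 2 := by
  obtain ⟨⟨h1, h2, h3, h4⟩, ⟨h5, h6, h7⟩, h8, h9⟩ := ba6h200_canon hT hTm hTb hr hκ
  exact ba6h200_ratio hT hev hTb h8 h9 (ba6h200_uniq_of_lt hT hr) h5 h6 h7 hκ h1 h2 h3 h4

theorem ba6h200_half_norm (hT : Integrable T) (hev : ∀ x, T (-x) = T x) :
    2 * ∫ y in Ioi (0:ℝ), |T (0 - y)| = ∫ u, |T u| := by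
  have h1 := ba6h200_integral_Ioi_shift (fun u => |T u|) 0 0
  have h2 := ba6h200_tau_add_neg hT.abs (fun x => by simp only [hev]) 0
  simp only [sub_zero, neg_zero] at h1 h2
  simp only [zero_sub] at h1 ⊢
  rw [h1]
  linarith

/-- `Y_κ(0) > 0` when `‖T‖₁ < 2/3`. -/
theorem ba6h200_Y_zero_pos (hT : Integrable T) (hTm : Measurable T)
    (hev : ∀ x, T (-x) = T x) {M : ℝ} (hTb : ∀ x, |T x| ≤ M)
    (hr : ∫ u, |T u| < 2 / 3) {κ : ℝ} (hκ : 0 < κ) : 0 < ba6h200_Y T κ 0 := by
  have hr1 : ∫ u, |T u| < 1 := by linarith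
  obtain ⟨⟨h1, h2, h3, h4⟩, -, -⟩ := ba6h200_canon hT hTm hTb hr1 hκ
  have h0 := h4 0 le_rfl
  simp only [mul_zero, Real.exp_zero] at h0
  set r := ∫ u, |T u| with hrd
  have hr0 : 0 ≤ r := ba6h200_norm_nonneg T
  have hi : Integrable (fun y => |T (0 - y)| * (1 * (1 - r)⁻¹)) :=
    ((hT.comp_sub_left 0).abs).mul_const _
  have hb := norm_integral_le_of_norm_le (μ := volume.restrict (Ioi (0:ℝ))) hi.integrableOn
    (f := fun y => T (0 - y) * ba6h200_Y T κ y)
    (Eventually.of_forall fun y => by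
      rw [Real.norm_eq_abs, abs_mul]
      exact mul_le_mul_of_nonneg_left (h2 y) (abs_nonneg _))
  rw [integral_mul_const, Real.norm_eq_abs] at hb
  have hh := ba6h200_half_norm hT hev
  have hop : |ba6h200_op T (ba6h200_Y T κ) 0| ≤ r / 2 * (1 * (1 - r)⁻¹) := by
    have : ∫ y in Ioi (0:ℝ), |T (0 - y)| = r / 2 := by linarith
    rw [this] at hb
    exact hb
  have h1r : 0 < 1 - r := by linarith
  have hlt : r / 2 * (1 * (1 - r)⁻¹) < 1 := by
    rw [one_mul, ← div_eq_mul_inv, div_lt_one h1r]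
    linarith
  have := abs_le.1 hop
  linarith [this.2]

/-- `⟨1, Y_κ⟩ ≠ 0` when `‖T‖₁ < 2/3`. -/
theorem ba6h200_mass_ne_zero (hT : Integrable T) (hTm : Measurable T)
    (hev : ∀ x, T (-x) = T x) {M : ℝ} (hTb : ∀ x, |T x| ≤ M)
    (hr : ∫ u, |T u| < 2 / 3) {κ : ℝ} (hκ : 0 < κ) :
    ∫ x in Ioi (0:ℝ), ba6h200_Y T κ x ≠ 0 := by
  have hr1 : ∫ u, |T u| < 1 := by linarith
  obtain ⟨⟨h1, h2, h3, h4⟩, ⟨h5, h6, h7⟩, h8, h9⟩ := ba6h200_canon hT hTm hTb hr1 hκ
  have hU := ba6h200_uniq_of_lt hT hr1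
  have hz := (ba6h200_zero hT hev h8 h9 hU h5 h6 h7).1
  have hH := ba6h200_H_identity_zero hT hev h8 h9 hU h5 h6 h7 hκ h1 h2 h3 h4
  have hY := ba6h200_Y_zero_pos hT hTm hev hTb hr hκ
  intro h
  rw [h, mul_zero] at hH
  have h0 : ba6h200_Y T 0 0 = 0 := by
    rcases mul_eq_zero.1 hH.symm with h' | h'
    · exact h'
    · exact absurd h' hY.ne'
  rw [h0] at hz
  simp at hz

/-- **C3 + C4 together**: the limit of `energy / mass²` for the two-boundary equation. -/
theorem ba6h200_stage1_ratio (hT : Integrable T) (hTm : Measurable T)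
    (hev : ∀ x, T (-x) = T x) {M : ℝ} (hTb : ∀ x, |T x| ≤ M)
    (hr : ∫ u, |T u| < 2 / 3) {κ : ℝ} (hκ : 0 < κ)
    {p : ℝ → ℝ} {a : ℝ} (ha : a ≠ 0)
    (hp : Tendsto (fun l => p l * Real.exp (κ * l)) atTop (𝓝 a))
    {w : ℝ → ℝ} {b : ℝ} (hwm : Measurable w)
    (hw : Tendsto (fun l => w l * Real.exp (κ * l)) atTop (𝓝 b))
    {y : ℝ → ℝ → ℝ} (hyi : ∀ q, IntegrableOn (y q) (Ioi 0))
    (hy : ∀ q, 0 ≤ q → ∀ x, 0 < x →
      y q x + ba6h200_op T (y q) x + ba6h200_op T (y q) (-(2 * q) - x) = p (x + q)) :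
    Tendsto (fun q => (∫ x in Ioi (0:ℝ), w (x + q) * y q x) / (∫ x in Ioi (0:ℝ), y q x) ^ 2)
      atTop (𝓝 (b / a * (κ / 2) * (1 + ∫ u, T u))) := by
  have hr1 : ∫ u, |T u| < 1 := by linarith
  obtain ⟨⟨h1, h2, h3, h4⟩, -, -⟩ := ba6h200_canon hT hTm hTb hr1 hκ
  have hY' : ∀ x, 0 < x → ba6h200_Y T κ x + ba6h200_op T (ba6h200_Y T κ) x =
      Real.exp (-κ * x) := fun x hx => h4 x hx.le
  have hm := ba6h200_mass_tendsto hT hTb hr1 hκ h3.integrableOn hY' hp hyi hy
  have he := ba6h200_energy_tendsto hT hTb hr1 hκ h3.integrableOn hY' hp hwm hw hyi hy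
  have hJ := ba6h200_mass_ne_zero hT hTm hev hTb hr hκ
  have hR := ba6h200_ratio_canon hT hTm hev hTb hr1 hκ
  set I := ∫ x in Ioi (0:ℝ), Real.exp (-κ * x) * ba6h200_Y T κ x
  set J := ∫ x in Ioi (0:ℝ), ba6h200_Y T κ x
  have hden : (a * J) ^ 2 ≠ 0 := pow_ne_zero 2 (mul_ne_zero ha hJ)
  have hdiv := he.div (hm.pow 2) hden
  have hval : b * a * I / (a * J) ^ 2 = b / a * (κ / 2) * (1 + ∫ u, T u) := by
    have hI : I = κ * (1 + ∫ u, T u) * J ^ 2 / 2 := by linarith
    rw [hI]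
    field_simp
  rw [hval] at hdiv
  refine hdiv.congr (fun q => ?_)
  have hexp : Real.exp (2 * κ * q) = Real.exp (κ * q) ^ 2 := by
    rw [← Real.exp_nat_mul]; congr 1; push_cast; ring
  have hpos : Real.exp (κ * q) ≠ 0 := (Real.exp_pos _).ne'
  simp only [Pi.div_apply]
  rw [hexp, mul_pow]
  by_cases hN : (∫ x in Ioi (0:ℝ), y q x) = 0
  · simp [hN]
  · field_simp

end canonical

section asym

/-- `∫_{t>0} F(q+t) dt = ∫_{y>q} F(y) dy`. -/
theorem ba6h200_shift_Ioi (F : ℝ → ℝ) (q : ℝ) :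
    ∫ t in Ioi (0:ℝ), F (q + t) = ∫ y in Ioi q, F y := by
  have h1 := ba6h200_integral_Ioi_shift (fun u => F (-u)) (-q) 0
  have h2 := integral_comp_neg_Iic (-q) F
  simp only [neg_neg] at h2
  unfold ba6h200_tau at h1
  simp only [sub_zero] at h1
  rw [← h2, ← h1]
  refine integral_congr_ae (Eventually.of_forall fun t => ?_)
  simp only
  congr 1
  ring

/-- `∫_{t>0} F(-q-t) dt = ∫_{y<-q} F(y) dy`. -/
theorem ba6h200_shift_Iio (F : ℝ → ℝ) (q : ℝ) :
    ∫ t in Ioi (0:ℝ), F (-q - t) = ∫ y in Iio (-q), F y := by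
  have h1 := ba6h200_integral_Ioi_shift F (-q) 0
  unfold ba6h200_tau at h1
  simp only [sub_zero] at h1
  rw [h1, integral_Iic_eq_integral_Iio]

/-- From the complement form on the line to the two-boundary half-line equation (`T = -R`). -/
theorem ba6h200_complement_to_half {R : ℝ → ℝ} (hRev : ∀ x, R (-x) = R x)
    {rinf f : ℝ → ℝ} {q : ℝ} (hfev : ∀ x, f (-x) = f x)
    (hcomp : ∀ x, f x = rinf x + (∫ y in Ioi q, R (x - y) * f y) +
      ∫ y in Iio (-q), R (x - y) * f y) (t : ℝ) :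
    f (q + t) + ba6h200_op (fun u => - R u) (fun t => f (q + t)) t +
      ba6h200_op (fun u => - R u) (fun t => f (q + t)) (-(2 * q) - t) = rinf (t + q) := by
  have h1 : ba6h200_op (fun u => - R u) (fun t => f (q + t)) t =
      - ∫ y in Ioi q, R ((q + t) - y) * f y := by
    unfold ba6h200_op
    rw [← ba6h200_shift_Ioi (fun y => R ((q + t) - y) * f y) q, ← integral_neg]
    refine integral_congr_ae (Eventually.of_forall fun t' => ?_)
    simp only
    have : q + t - (q + t') = t - t' := by ring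
    rw [this]; ring
  have h2 : ba6h200_op (fun u => - R u) (fun t => f (q + t)) (-(2 * q) - t) =
      - ∫ y in Iio (-q), R ((q + t) - y) * f y := by
    unfold ba6h200_op
    rw [← ba6h200_shift_Iio (fun y => R ((q + t) - y) * f y) q, ← integral_neg]
    refine integral_congr_ae (Eventually.of_forall fun t' => ?_)
    simp only
    have e1 : q + t - (-q - t') = -(-(2 * q) - t - t') := by ring
    have e2 : -q - t' = -(q + t') := by ring
    rw [e1, hRev, e2, hfev]; ring
  rw [h1, h2, hcomp (q + t), add_comm t q]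
  ring

/-- **Exit of block B6 (HALF)**: the asymptotic stiffness of the continuum problem, from the
complement form of the density and the two exact identities. -/
theorem ba6h200_asym {R : ℝ → ℝ} (hR : Integrable R) (hRm : Measurable R)
    (hRev : ∀ x, R (-x) = R x) {M : ℝ} (hRb : ∀ x, |R x| ≤ M) (hRn : ∫ u, |R u| < 2 / 3)
    {κ : ℝ} (hκ : 0 < κ) {rinf eps : ℝ → ℝ} {a b : ℝ} (ha : a ≠ 0)
    (hrinf : Tendsto (fun l => rinf l * Real.exp (κ * l)) atTop (𝓝 a))
    (hepsm : Measurable eps)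
    (heps : Tendsto (fun l => eps l * Real.exp (κ * l)) atTop (𝓝 b))
    {rQ : ℝ → ℝ → ℝ} (hrQi : ∀ Q, IntegrableOn (rQ Q) (Ioi Q))
    (hrQev : ∀ Q x, rQ Q (-x) = rQ Q x)
    (hcomp : ∀ Q, 0 ≤ Q → ∀ x, rQ Q x = rinf x + (∫ y in Ioi Q, R (x - y) * rQ Q y) +
      ∫ y in Iio (-Q), R (x - y) * rQ Q y)
    {Dq Eq : ℝ → ℝ} {Dinf Einf : ℝ}
    (hD : ∀ Q, 0 ≤ Q → Dinf - Dq Q = 2 * (1 - ∫ u, R u) * ∫ y in Ioi Q, rQ Q y)
    (hE : ∀ Q, 0 ≤ Q → Einf - Eq Q = 2 * ∫ y in Ioi Q, eps y * rQ Q y) :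
    Tendsto (fun Q => (Einf - Eq Q) / (Dinf - Dq Q) ^ 2) atTop
      (𝓝 (b / a * κ / (4 * (1 - ∫ u, R u)))) := by
  set T : ℝ → ℝ := fun u => - R u with hTdef
  have hT : Integrable T := hR.neg
  have hTm : Measurable T := hRm.neg
  have hTev : ∀ x, T (-x) = T x := fun x => by simp only [hTdef, hRev]
  have hTb : ∀ x, |T x| ≤ M := fun x => by simpa [hTdef] using hRb x
  have hTn : ∫ u, |T u| < 2 / 3 := by simpa [hTdef] using hRn
  have hTint : ∫ u, T u = - ∫ u, R u := by simp only [hTdef]; exact integral_neg _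
  set y : ℝ → ℝ → ℝ := fun q t => rQ q (q + t) with hy
  have hyi : ∀ q, IntegrableOn (y q) (Ioi 0) := by
    intro q
    have h1 : Integrable ((Ioi q).indicator (rQ q)) := (hrQi q).integrable_indicator measurableSet_Ioi
    have h2 := (h1.comp_add_left q).integrableOn (s := Ioi (0:ℝ))
    refine h2.congr_fun (fun t ht => ?_) measurableSet_Ioi
    have : q + t ∈ Ioi q := by simp only [mem_Ioi]; linarith [show (0:ℝ) < t from ht]
    simp only [hy]
    rw [indicator_of_mem this]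
  have hyeq : ∀ q, 0 ≤ q → ∀ x, 0 < x →
      y q x + ba6h200_op T (y q) x + ba6h200_op T (y q) (-(2 * q) - x) = rinf (x + q) :=
    fun q hq x _ => ba6h200_complement_to_half hRev (hrQev q) (hcomp q hq) x
  have hmain := ba6h200_stage1_ratio hT hTm hTev hTb hTn hκ ha hrinf hepsm heps hyi hyeq
  rw [hTint] at hmain
  set Z : ℝ := 1 - ∫ u, R u with hZ
  have hZpos : 0 < Z := by
    have h1 : ∫ u, R u ≤ ∫ u, |R u| := integral_mono hR hR.abs (fun u => le_abs_self _)
    linarith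
  have h2 := hmain.const_mul (1 / (2 * Z ^ 2))
  have hval : 1 / (2 * Z ^ 2) * (b / a * (κ / 2) * (1 + -∫ u, R u)) = b / a * κ / (4 * Z) := by
    have : 1 + -∫ u, R u = Z := by rw [hZ]; ring
    rw [this]
    field_simp
    ring
  rw [hval] at h2
  refine h2.congr' ?_
  filter_upwards [eventually_ge_atTop (0:ℝ)] with Q hQ
  have e1 : ∫ x in Ioi (0:ℝ), y Q x = ∫ y in Ioi Q, rQ Q y := ba6h200_shift_Ioi (rQ Q) Q
  have e2 : ∫ x in Ioi (0:ℝ), eps (x + Q) * y Q x = ∫ y in Ioi Q, eps y * rQ Q y := by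
    rw [← ba6h200_shift_Ioi (fun y => eps y * rQ Q y) Q]
    refine integral_congr_ae (Eventually.of_forall fun t => ?_)
    simp only [hy, add_comm t Q]
  rw [e1, e2, hD Q hQ, hE Q hQ]
  by_cases hN : (∫ y in Ioi Q, rQ Q y) = 0
  · simp [hN]
  · field_simp

end asym

section complement

/-- Partial convolution `∫_{y ∈ S} R(x-y) f(y) dy`. -/
noncomputable def ba6h200_cv (R f : ℝ → ℝ) (S : Set ℝ) (x : ℝ) : ℝ :=
  ∫ y in S, R (x - y) * f y

theorem ba6h200_cv_eqns_cite (R f : ℝ → ℝ) (S : Set ℝ) (x : ℝ) :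
    ba6h200_cv R f S x = ∫ y in S, R (x - y) * f y := rfl

variable {R : ℝ → ℝ}

theorem ba6h200_cv_kernel (hR : Integrable R) {f : ℝ → ℝ} {S : Set ℝ}
    (hf : IntegrableOn f S) :
    Integrable (fun p : ℝ × ℝ => R (p.1 - p.2) * f p.2)
      ((volume : Measure ℝ).prod (volume.restrict S)) := by
  have h1 : Integrable (fun p : ℝ × ℝ => f p.2 * R (p.1 - p.2))
      ((volume : Measure ℝ).prod (volume.restrict S)) :=
    Integrable.convolution_integrand (ContinuousLinearMap.mul ℝ ℝ) hf hR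
  exact h1.congr (Eventually.of_forall fun p => mul_comm _ _)

theorem ba6h200_cv_integrable (hR : Integrable R) {f : ℝ → ℝ} {S : Set ℝ}
    (hf : IntegrableOn f S) : Integrable (ba6h200_cv R f S) :=
  (ba6h200_cv_kernel hR hf).integral_prod_left

theorem ba6h200_cv_measurable (hRm : Measurable R) {f : ℝ → ℝ} (hfm : Measurable f)
    (S : Set ℝ) : Measurable (ba6h200_cv R f S) := by
  have h : StronglyMeasurable (Function.uncurry fun x y : ℝ => R (x - y) * f y) :=
    ((hRm.comp (measurable_fst.sub measurable_snd)).mul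
      (hfm.comp measurable_snd)).stronglyMeasurable
  exact (h.integral_prod_right (ν := volume.restrict S)).measurable

theorem ba6h200_cv_abs_le {M : ℝ} (hRb : ∀ x, |R x| ≤ M) {f : ℝ → ℝ} {S : Set ℝ}
    (hf : IntegrableOn f S) (x : ℝ) : |ba6h200_cv R f S x| ≤ M * ∫ y in S, |f y| := by
  have h1 := norm_integral_le_of_norm_le (μ := volume.restrict S) (hf.abs.const_mul M)
    (f := fun y => R (x - y) * f y)
    (Eventually.of_forall fun y => by
      rw [Real.norm_eq_abs, abs_mul]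
      exact mul_le_mul_of_nonneg_right (hRb _) (abs_nonneg _))
  rw [integral_const_mul, Real.norm_eq_abs] at h1
  exact h1

/-- `∫ (R * 1_S f) = (∫ R)(∫_S f)`. -/
theorem ba6h200_integral_cv (hR : Integrable R) {f : ℝ → ℝ} {S : Set ℝ}
    (hf : IntegrableOn f S) :
    ∫ x, ba6h200_cv R f S x = (∫ u, R u) * ∫ y in S, f y := by
  unfold ba6h200_cv
  have hF : Integrable (Function.uncurry fun x y : ℝ => R (x - y) * f y)
      ((volume : Measure ℝ).prod (volume.restrict S)) := ba6h200_cv_kernel hR hf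
  rw [integral_integral_swap hF, ← integral_const_mul]
  refine integral_congr_ae (Eventually.of_forall fun y => ?_)
  simp only
  rw [integral_mul_const, integral_sub_right_eq_self R]

/-- `⟨e, R * 1_S f⟩ = ⟨R * e, 1_S f⟩`. -/
theorem ba6h200_pair_cv (hRm : Measurable R) (hRev : ∀ x, R (-x) = R x)
    {M : ℝ} (hRb : ∀ x, |R x| ≤ M) {e f : ℝ → ℝ} {S : Set ℝ} (he : Integrable e)
    (hf : IntegrableOn f S) :
    ∫ x, e x * ba6h200_cv R f S x = ∫ y in S, f y * ba6h200_cv R e univ y := by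
  unfold ba6h200_cv
  simp only [← integral_const_mul, Measure.restrict_univ]
  have hF : Integrable (Function.uncurry fun x y : ℝ => e x * (R (x - y) * f y))
      ((volume : Measure ℝ).prod (volume.restrict S)) := by
    have h1 : Integrable (fun p : ℝ × ℝ => e p.1 * f p.2)
        ((volume : Measure ℝ).prod (volume.restrict S)) := Integrable.mul_prod he hf
    have h2 := h1.bdd_mul (c := M)
      (hRm.comp (measurable_fst.sub measurable_snd)).aestronglyMeasurable
      (Eventually.of_forall fun p : ℝ × ℝ => by simpa using hRb (p.1 - p.2))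
    refine h2.congr (Eventually.of_forall fun p => ?_)
    simp only [Function.uncurry, Function.comp, Pi.sub_apply]
    ring
  rw [integral_integral_swap hF]
  refine integral_congr_ae (Eventually.of_forall fun y => ?_)
  refine integral_congr_ae (Eventually.of_forall fun x => ?_)
  have : R (x - y) = R (y - x) := by rw [← hRev (y - x)]; congr 1; ring
  simp only [this]
  ring

/-- Associativity: `R * (K * 1_S g) = (R * K) * 1_S g`. -/
theorem ba6h200_cv_assoc (hRm : Measurable R) {M : ℝ} (hRb : ∀ x, |R x| ≤ M)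
    {K g : ℝ → ℝ} {S : Set ℝ} (hK : Integrable K) (hg : IntegrableOn g S) (x : ℝ) :
    ba6h200_cv R (ba6h200_cv K g S) univ x =
      ∫ z in S, ba6h200_cv R K univ (x - z) * g z := by
  unfold ba6h200_cv
  simp only [← integral_const_mul, ← integral_mul_const, Measure.restrict_univ]
  have hF : Integrable (Function.uncurry fun y z : ℝ => R (x - y) * (K (y - z) * g z))
      ((volume : Measure ℝ).prod (volume.restrict S)) :=
    (ba6h200_cv_kernel hK hg).bdd_mul (c := M)
      (hRm.comp (measurable_const.sub measurable_fst)).aestronglyMeasurable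
      (Eventually.of_forall fun p : ℝ × ℝ => by simpa using hRb (x - p.1))
  rw [integral_integral_swap hF]
  refine integral_congr_ae (Eventually.of_forall fun z => ?_)
  simp only
  rw [← integral_sub_right_eq_self (fun u => R (x - z - u) * K u * g z) z]
  refine integral_congr_ae (Eventually.of_forall fun y => ?_)
  simp only
  have : x - z - (y - z) = x - y := by ring
  rw [this]
  ring

theorem ba6h200_split {h : ℝ → ℝ} (hh : Integrable h) {Q : ℝ} (hQ : 0 ≤ Q) :
    ∫ y, h y = (∫ y in Icc (-Q) Q, h y) + (∫ y in Ioi Q, h y) + ∫ y in Iio (-Q), h y := by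
  have h1 := intervalIntegral.integral_Iic_add_Ioi (f := h) (b := Q) (μ := volume)
    hh.integrableOn hh.integrableOn
  have hd : Disjoint (Iio (-Q)) (Icc (-Q) Q) := by
    rw [Set.disjoint_left]
    intro y hy hy'
    exact absurd hy'.1 (not_le.2 hy)
  have h2 := setIntegral_union hd measurableSet_Icc (hh.integrableOn (s := Iio (-Q)))
    (hh.integrableOn (s := Icc (-Q) Q))
  rw [Iio_union_Icc_eq_Iic (by linarith : -Q ≤ Q)] at h2
  rw [← h1, h2]
  ring

theorem ba6h200_bdd_shift_mul (hRm : Measurable R) {M : ℝ} (hRb : ∀ x, |R x| ≤ M)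
    {f : ℝ → ℝ} {μ : Measure ℝ} (hf : Integrable f μ) (x : ℝ) :
    Integrable (fun y => R (x - y) * f y) μ :=
  hf.bdd_mul (c := M) (hRm.comp (measurable_const.sub measurable_id)).aestronglyMeasurable
    (Eventually.of_forall fun y => by simpa using hRb (x - y))

/-- **B5 (ii), the complement form**: from the inside equation on `[-Q,Q]` (valid at all `x`)
and the resolvent identity `R + R * K = K`. -/
theorem ba6h200_complement (hRm : Measurable R) {M : ℝ} (hRb : ∀ x, |R x| ≤ M)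
    {K : ℝ → ℝ} (hK : Integrable K) (hKm : Measurable K) {M' : ℝ} (hKb : ∀ x, |K x| ≤ M')
    (hres : ∀ x, R x + ba6h200_cv R K univ x = K x)
    {f s : ℝ → ℝ} {Q : ℝ} (hQ : 0 ≤ Q) (hf : Integrable f) (hs : Integrable s)
    (hin : ∀ x, f x + ba6h200_cv K f (Icc (-Q) Q) x = s x) (x : ℝ) :
    f x = (s x - ba6h200_cv R s univ x) + (∫ y in Ioi Q, R (x - y) * f y) +
      ∫ y in Iio (-Q), R (x - y) * f y := by
  set I := Icc (-Q) Q with hI
  have hA : Integrable (ba6h200_cv K f I) := ba6h200_cv_integrable hK hf.integrableOn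
  -- (2)
  have h2 : ba6h200_cv R f univ x =
      ba6h200_cv R s univ x - ba6h200_cv R (ba6h200_cv K f I) univ x := by
    simp only [ba6h200_cv_eqns_cite R, Measure.restrict_univ]
    rw [← integral_sub (ba6h200_bdd_shift_mul hRm hRb hs x) (ba6h200_bdd_shift_mul hRm hRb hA x)]
    refine integral_congr_ae (Eventually.of_forall fun y => ?_)
    simp only
    rw [← hin y]
    ring
  -- (3)
  have h3 : ba6h200_cv R (ba6h200_cv K f I) univ x = ba6h200_cv K f I x - ba6h200_cv R f I x := by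
    rw [ba6h200_cv_assoc hRm hRb hK hf.integrableOn, ba6h200_cv_eqns_cite K f I,
      ba6h200_cv_eqns_cite R f I]
    rw [← integral_sub (ba6h200_bdd_shift_mul hKm hKb hf.integrableOn x)
      (ba6h200_bdd_shift_mul hRm hRb hf.integrableOn x)]
    refine integral_congr_ae (Eventually.of_forall fun z => ?_)
    simp only
    rw [← hres (x - z)]
    ring
  -- (4)
  have h4 : ba6h200_cv R f univ x = ba6h200_cv R f I x + (∫ y in Ioi Q, R (x - y) * f y) +
      ∫ y in Iio (-Q), R (x - y) * f y := by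
    unfold ba6h200_cv
    simp only [Measure.restrict_univ]
    exact ba6h200_split (ba6h200_bdd_shift_mul hRm hRb hf x) hQ
  have h1 := hin x
  linarith

theorem ba6h200_even_Iio {g : ℝ → ℝ} (hg : ∀ x, g (-x) = g x) (Q : ℝ) :
    ∫ y in Iio (-Q), g y = ∫ y in Ioi Q, g y := by
  rw [← integral_Iic_eq_integral_Iio, ← integral_comp_neg_Ioi]
  simp only [hg]

theorem ba6h200_cv_even (hRev : ∀ x, R (-x) = R x) {e : ℝ → ℝ} (he : ∀ x, e (-x) = e x)
    (y : ℝ) : ba6h200_cv R e univ (-y) = ba6h200_cv R e univ y := by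
  unfold ba6h200_cv
  simp only [Measure.restrict_univ]
  rw [← integral_neg_eq_self (fun x => R (-y - x) * e x)]
  refine integral_congr_ae (Eventually.of_forall fun x => ?_)
  simp only
  have : -y - -x = -(y - x) := by ring
  rw [this, hRev, he]

/-- **B5 (v), the mass identity**. -/
theorem ba6h200_mass_identity (hR : Integrable R) {f rinf : ℝ → ℝ} {Q : ℝ} (hQ : 0 ≤ Q)
    (hf : Integrable f) (hfev : ∀ x, f (-x) = f x)
    (hc : ∀ x, f x = rinf x + (∫ y in Ioi Q, R (x - y) * f y) +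
      ∫ y in Iio (-Q), R (x - y) * f y) :
    (∫ x, rinf x) - ∫ x in Icc (-Q) Q, f x = 2 * (1 - ∫ u, R u) * ∫ y in Ioi Q, f y := by
  have c1 := ba6h200_cv_integrable hR (hf.integrableOn (s := Ioi Q))
  have c2 := ba6h200_cv_integrable hR (hf.integrableOn (s := Iio (-Q)))
  have hri : Integrable rinf := by
    refine ((hf.sub c1).sub c2).congr (Eventually.of_forall fun x => ?_)
    have := hc x
    simp only [Pi.sub_apply, ba6h200_cv]
    linarith
  have h1 : ∫ x, f x = (∫ x, rinf x) + (∫ x, ba6h200_cv R f (Ioi Q) x) +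
      ∫ x, ba6h200_cv R f (Iio (-Q)) x := by
    have i12 : Integrable (fun x => rinf x + ba6h200_cv R f (Ioi Q) x) := hri.add c1
    rw [← integral_add hri c1, ← integral_add i12 c2]
    exact integral_congr_ae (Eventually.of_forall fun x => hc x)
  rw [ba6h200_integral_cv hR hf.integrableOn, ba6h200_integral_cv hR hf.integrableOn,
    ba6h200_even_Iio hfev] at h1
  have h2 := ba6h200_split hf hQ
  rw [ba6h200_even_Iio hfev] at h2
  linarith

/-- **B5 (v), the energy identity**. -/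
theorem ba6h200_energy_identity (hRm : Measurable R)
    (hRev : ∀ x, R (-x) = R x) {M : ℝ} (hRb : ∀ x, |R x| ≤ M)
    {f rinf e : ℝ → ℝ} {Q : ℝ} (hQ : 0 ≤ Q)
    (hf : Integrable f) (hfm : Measurable f) {B : ℝ} (hfb : ∀ x, |f x| ≤ B)
    (hfev : ∀ x, f (-x) = f x)
    (he : Integrable e) (hem : Measurable e) (heev : ∀ x, e (-x) = e x)
    (hc : ∀ x, f x = rinf x + (∫ y in Ioi Q, R (x - y) * f y) +
      ∫ y in Iio (-Q), R (x - y) * f y) :
    (∫ x, e x * rinf x) - ∫ x in Icc (-Q) Q, e x * f x =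
      2 * ∫ y in Ioi Q, (e y - ba6h200_cv R e univ y) * f y := by
  have ief : Integrable (fun x => e x * f x) :=
    he.mul_bdd (c := B) hfm.aestronglyMeasurable
      (Eventually.of_forall fun x => by simpa using hfb x)
  have iec : ∀ S : Set ℝ, Integrable (fun x => e x * ba6h200_cv R f S x) := fun S =>
    he.mul_bdd (c := M * ∫ y in S, |f y|) (ba6h200_cv_measurable hRm hfm S).aestronglyMeasurable
      (Eventually.of_forall fun x => by simpa using ba6h200_cv_abs_le hRb hf.integrableOn x)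
  have ier : Integrable (fun x => e x * rinf x) := by
    refine ((ief.sub (iec (Ioi Q))).sub (iec (Iio (-Q)))).congr
      (Eventually.of_forall fun x => ?_)
    have := hc x
    simp only [Pi.sub_apply, ba6h200_cv]
    rw [this]; ring
  have h1 : ∫ x, e x * f x = (∫ x, e x * rinf x) + (∫ x, e x * ba6h200_cv R f (Ioi Q) x) +
      ∫ x, e x * ba6h200_cv R f (Iio (-Q)) x := by
    have i12 : Integrable (fun x => e x * rinf x + e x * ba6h200_cv R f (Ioi Q) x) :=
      ier.add (iec _)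
    rw [← integral_add ier (iec _), ← integral_add i12 (iec _)]
    refine integral_congr_ae (Eventually.of_forall fun x => ?_)
    have := hc x
    simp only [ba6h200_cv]
    rw [this]; ring
  rw [ba6h200_pair_cv hRm hRev hRb he hf.integrableOn,
    ba6h200_pair_cv hRm hRev hRb he hf.integrableOn] at h1
  have hce := ba6h200_cv_even hRev heev
  have ev1 : ∀ x, (fun y => f y * ba6h200_cv R e univ y) (-x) =
      (fun y => f y * ba6h200_cv R e univ y) x := fun x => by simp only [hfev, hce]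
  have ev2 : ∀ x, (fun y => e y * f y) (-x) = (fun y => e y * f y) x :=
    fun x => by simp only [hfev, heev]
  rw [ba6h200_even_Iio ev1] at h1
  have h2 := ba6h200_split ief hQ
  rw [ba6h200_even_Iio ev2] at h2
  have ifc : Integrable (fun y => f y * ba6h200_cv R e univ y) :=
    hf.mul_bdd (c := M * ∫ y in univ, |e y|)
      (ba6h200_cv_measurable hRm hem univ).aestronglyMeasurable
      (Eventually.of_forall fun x => by
        simpa using ba6h200_cv_abs_le hRb (he.integrableOn (s := univ)) x)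
  have h3 : ∫ y in Ioi Q, (e y - ba6h200_cv R e univ y) * f y =
      (∫ y in Ioi Q, e y * f y) - ∫ y in Ioi Q, f y * ba6h200_cv R e univ y := by
    rw [← integral_sub ief.integrableOn ifc.integrableOn]
    refine integral_congr_ae (Eventually.of_forall fun y => ?_)
    simp only
    ring
  rw [h3]
  linarith

/-- **B5 (ii) (v) + B6 together**: the asymptotic stiffness directly from the inside equations
`r_Q + K *_{[-Q,Q]} r_Q = s` (valid at all `x`), the resolvent identity `R + R * K = K` and the two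
tails. -/
theorem ba6h200_asym_inside {K : ℝ → ℝ} (hK : Integrable K) (hKm : Measurable K) {M' : ℝ}
    (hKb : ∀ x, |K x| ≤ M') (hR : Integrable R) (hRm : Measurable R)
    (hRev : ∀ x, R (-x) = R x) {M : ℝ} (hRb : ∀ x, |R x| ≤ M) (hRn : ∫ u, |R u| < 2 / 3)
    (hres : ∀ x, R x + ba6h200_cv R K univ x = K x)
    {s e0 : ℝ → ℝ} (hs : Integrable s) (he0 : Integrable e0) (he0m : Measurable e0)
    (he0ev : ∀ x, e0 (-x) = e0 x) {κ a b : ℝ} (hκ : 0 < κ) (ha : a ≠ 0)
    (hrinf : Tendsto (fun l => (s l - ba6h200_cv R s univ l) * Real.exp (κ * l)) atTop (𝓝 a))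
    (heps : Tendsto (fun l => (e0 l - ba6h200_cv R e0 univ l) * Real.exp (κ * l)) atTop (𝓝 b))
    {rQ : ℝ → ℝ → ℝ} (hrQi : ∀ Q, Integrable (rQ Q)) (hrQm : ∀ Q, Measurable (rQ Q))
    (hrQb : ∀ Q, ∃ B : ℝ, ∀ x, |rQ Q x| ≤ B) (hrQev : ∀ Q x, rQ Q (-x) = rQ Q x)
    (hin : ∀ Q, 0 ≤ Q → ∀ x, rQ Q x + ba6h200_cv K (rQ Q) (Icc (-Q) Q) x = s x) :
    Tendsto (fun Q => ((∫ x, e0 x * (s x - ba6h200_cv R s univ x)) -
        ∫ x in Icc (-Q) Q, e0 x * rQ Q x) /
      ((∫ x, (s x - ba6h200_cv R s univ x)) - ∫ x in Icc (-Q) Q, rQ Q x) ^ 2) atTop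
      (𝓝 (b / a * κ / (4 * (1 - ∫ u, R u)))) := by
  have hcomp : ∀ Q, 0 ≤ Q → ∀ x, rQ Q x = (s x - ba6h200_cv R s univ x) +
      (∫ y in Ioi Q, R (x - y) * rQ Q y) + ∫ y in Iio (-Q), R (x - y) * rQ Q y :=
    fun Q hQ x => ba6h200_complement hRm hRb hK hKm hKb hres hQ (hrQi Q) hs (hin Q hQ) x
  refine ba6h200_asym hR hRm hRev hRb hRn hκ ha hrinf
    (he0m.sub (ba6h200_cv_measurable hRm he0m univ)) heps
    (fun Q => (hrQi Q).integrableOn) hrQev hcomp
    (Dq := fun Q => ∫ x in Icc (-Q) Q, rQ Q x)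
    (Eq := fun Q => ∫ x in Icc (-Q) Q, e0 x * rQ Q x)
    (fun Q hQ => ba6h200_mass_identity hR hQ (hrQi Q) (hrQev Q) (hcomp Q hQ))
    (fun Q hQ => ?_)
  obtain ⟨B, hB⟩ := hrQb Q
  exact ba6h200_energy_identity hRm hRev hRb hQ (hrQi Q) (hrQm Q) hB (hrQev Q) he0 he0m he0ev
    (hcomp Q hQ)

/-- Commutativity of the full-line convolution (adapter for the resolvent identity). -/
theorem ba6h200_cv_comm (R K : ℝ → ℝ) (x : ℝ) :
    ba6h200_cv R K univ x = ba6h200_cv K R univ x := by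
  unfold ba6h200_cv
  simp only [Measure.restrict_univ]
  rw [← integral_sub_left_eq_self (fun y => R (x - y) * K y) volume x]
  refine integral_congr_ae (Eventually.of_forall fun y => ?_)
  simp only
  have : x - (x - y) = y := by ring
  rw [this]
  ring

/-- A bounded measurable solution of the inside equation with an integrable source is
integrable on the line (adapter). -/
theorem ba6h200_inside_integrable {K : ℝ → ℝ} (hK : Integrable K) {f s : ℝ → ℝ} {Q B : ℝ}
    (hfm : Measurable f) (hfb : ∀ x, |f x| ≤ B) (hs : Integrable s)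
    (hin : ∀ x, f x + ba6h200_cv K f (Icc (-Q) Q) x = s x) : Integrable f := by
  have h1 : IntegrableOn f (Icc (-Q) Q) :=
    Measure.integrableOn_of_bounded (M := B) (by simp) hfm.aestronglyMeasurable
      (Eventually.of_forall fun x => by simpa using hfb x)
  refine (hs.sub (ba6h200_cv_integrable hK h1)).congr (Eventually.of_forall fun x => ?_)
  have := hin x
  simp only [Pi.sub_apply]
  linarith

/-- The complement form for an ARBITRARY measurable set `A`:
`f + K * (1_A f) = s` on the line  ⟹  `f = (s - R * s) + R * (1_{Aᶜ} f)`. -/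
theorem ba6h200_complement_set (hRm : Measurable R) {M : ℝ} (hRb : ∀ x, |R x| ≤ M)
    {K : ℝ → ℝ} (hK : Integrable K) (hKm : Measurable K) {M' : ℝ} (hKb : ∀ x, |K x| ≤ M')
    (hres : ∀ x, R x + ba6h200_cv R K univ x = K x)
    {f s : ℝ → ℝ} {A : Set ℝ} (hA : MeasurableSet A) (hf : Integrable f) (hs : Integrable s)
    (hin : ∀ x, f x + ba6h200_cv K f A x = s x) (x : ℝ) :
    f x = (s x - ba6h200_cv R s univ x) + ba6h200_cv R f Aᶜ x := by
  have hAi : Integrable (ba6h200_cv K f A) := ba6h200_cv_integrable hK hf.integrableOn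
  have h2 : ba6h200_cv R f univ x =
      ba6h200_cv R s univ x - ba6h200_cv R (ba6h200_cv K f A) univ x := by
    simp only [ba6h200_cv_eqns_cite R, Measure.restrict_univ]
    rw [← integral_sub (ba6h200_bdd_shift_mul hRm hRb hs x) (ba6h200_bdd_shift_mul hRm hRb hAi x)]
    refine integral_congr_ae (Eventually.of_forall fun y => ?_)
    simp only
    rw [← hin y]
    ring
  have h3 : ba6h200_cv R (ba6h200_cv K f A) univ x = ba6h200_cv K f A x - ba6h200_cv R f A x := by
    rw [ba6h200_cv_assoc hRm hRb hK hf.integrableOn, ba6h200_cv_eqns_cite K f A,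
      ba6h200_cv_eqns_cite R f A]
    rw [← integral_sub (ba6h200_bdd_shift_mul hKm hKb hf.integrableOn x)
      (ba6h200_bdd_shift_mul hRm hRb hf.integrableOn x)]
    refine integral_congr_ae (Eventually.of_forall fun z => ?_)
    simp only
    rw [← hres (x - z)]
    ring
  have h4 : ba6h200_cv R f univ x = ba6h200_cv R f A x + ba6h200_cv R f Aᶜ x := by
    unfold ba6h200_cv
    simp only [Measure.restrict_univ]
    exact (integral_add_compl hA (ba6h200_bdd_shift_mul hRm hRb hf x)).symm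
  have h1 := hin x
  linarith

end complement

end Claimed.Agent.R292
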