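import Mathlib

/-!
# Row 292, unit BETHE, leaf C1 (abstract): the truncated equation `F + K 1_A F = f`

`K` is an even integrable kernel with `∫ |K| < 1`, `A` a measurable set of the line.

* `c1x150_op`: the truncated convolution operator, bounds, continuity, linearity;
* existence, uniqueness, evenness, positivity and `L¹` bounds of the solutions;
* `c1x150_two_set_bdd`, `c1x150_two_set_int`: the exact "two intervals" identity
  `∫_{A'} f G - ∫_A F g = ∫_{A' \ A} F G`;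
* the energy and mass defects in the half-line form used by leaf C3;
* the filling `D` is Lipschitz, monotone under positivity, and the reparametrisation `Q ↦ d = D Q`.
-/

set_option autoImplicit false

namespace Claimed.Agent.R292

open MeasureTheory Filter Topology Set

noncomputable section

/-- `(K 1_A F)(u) = ∫_{v ∈ A} K (u - v) F v dv`, evaluated on the whole line. -/
def c1x150_op (K : ℝ → ℝ) (A : Set ℝ) (F : ℝ → ℝ) (u : ℝ) : ℝ := ∫ v in A, K (u - v) * F v

theorem c1x150_op_ind {K F : ℝ → ℝ} {A : Set ℝ} (hA : MeasurableSet A) (u : ℝ) :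
    c1x150_op K A F u = ∫ v, K (u - v) * A.indicator F v := by
  unfold c1x150_op
  rw [← integral_indicator hA]
  congr 1
  funext v
  by_cases hv : v ∈ A
  · simp [indicator_of_mem hv]
  · simp [indicator_of_notMem hv]

theorem c1x150_op_conv {K F : ℝ → ℝ} {A : Set ℝ} (hA : MeasurableSet A) (u : ℝ) :
    c1x150_op K A F u = ∫ w, K w * A.indicator F (u - w) := by
  rw [c1x150_op_ind hA]
  have h := integral_sub_left_eq_self (fun v => K (u - v) * A.indicator F v) volume u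
  rw [← h]
  simp

theorem c1x150_ind_abs_le {F : ℝ → ℝ} {A : Set ℝ} {M : ℝ} (hM0 : 0 ≤ M)
    (hM : ∀ v ∈ A, |F v| ≤ M) (v : ℝ) : |A.indicator F v| ≤ M := by
  by_cases hv : v ∈ A
  · rw [indicator_of_mem hv]; exact hM v hv
  · rw [indicator_of_notMem hv]; simpa using hM0

theorem c1x150_integrand {K F : ℝ → ℝ} {A : Set ℝ} (hK : Integrable K) (hA : MeasurableSet A)
    (hF : Measurable F) {M : ℝ} (hM0 : 0 ≤ M) (hM : ∀ v ∈ A, |F v| ≤ M) (u : ℝ) :
    Integrable fun v => K (u - v) * A.indicator F v := by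
  have h1 : Integrable fun v => K (u - v) := hK.comp_sub_left u
  have h2 := h1.bdd_mul (c := M) (hF.indicator hA).aestronglyMeasurable
    (Eventually.of_forall fun v => by simpa using c1x150_ind_abs_le hM0 hM v)
  simpa [mul_comm] using h2

theorem c1x150_op_abs_le {K F : ℝ → ℝ} {A : Set ℝ} (hK : Integrable K) (hA : MeasurableSet A)
    {M : ℝ} (hM0 : 0 ≤ M) (hM : ∀ v ∈ A, |F v| ≤ M) (u : ℝ) :
    |c1x150_op K A F u| ≤ (∫ w, |K w|) * M := by
  rw [c1x150_op_conv hA]
  calc |∫ w, K w * A.indicator F (u - w)| ≤ ∫ w, |K w * A.indicator F (u - w)| := by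
        simpa using norm_integral_le_integral_norm (fun w => K w * A.indicator F (u - w))
    _ ≤ ∫ w, |K w| * M := by
        refine integral_mono_of_nonneg (Eventually.of_forall fun w => abs_nonneg _)
          (hK.abs.mul_const M) (Eventually.of_forall fun w => ?_)
        simp only [abs_mul]
        exact mul_le_mul_of_nonneg_left (c1x150_ind_abs_le hM0 hM _) (abs_nonneg _)
    _ = (∫ w, |K w|) * M := integral_mul_const _ _

theorem c1x150_ind_continuousAt {F : ℝ → ℝ} {A : Set ℝ} (hF : Continuous F) {z : ℝ}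
    (hz : z ∉ frontier A) : ContinuousAt (A.indicator F) z := by
  by_cases h : z ∈ interior A
  · have : A.indicator F =ᶠ[𝓝 z] F := by
      filter_upwards [isOpen_interior.mem_nhds h] with y hy
      exact indicator_of_mem (interior_subset hy) F
    exact hF.continuousAt.congr this.symm
  · have h2 : z ∉ closure A := fun hc => hz ⟨hc, h⟩
    have : A.indicator F =ᶠ[𝓝 z] fun _ => 0 := by
      filter_upwards [isClosed_closure.isOpen_compl.mem_nhds h2] with y hy
      exact indicator_of_notMem (fun hy' => hy (subset_closure hy')) F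
    exact continuousAt_const.congr this.symm

theorem c1x150_op_continuous {K F : ℝ → ℝ} {A : Set ℝ} (hK : Integrable K) (hA : MeasurableSet A)
    (hfr : volume (frontier A) = 0) (hF : Continuous F) {M : ℝ} (hM0 : 0 ≤ M)
    (hM : ∀ v ∈ A, |F v| ≤ M) : Continuous (c1x150_op K A F) := by
  have e : c1x150_op K A F = fun u => ∫ w, K w * A.indicator F (u - w) :=
    funext fun u => c1x150_op_conv hA u
  rw [e, continuous_iff_continuousAt]
  intro x₀
  refine continuousAt_of_dominated (bound := fun w => |K w| * M) ?_ ?_ (hK.abs.mul_const M) ?_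
  · refine Eventually.of_forall fun x => ?_
    exact hK.aestronglyMeasurable.mul
      ((hF.measurable.indicator hA).comp (measurable_const.sub measurable_id)).aestronglyMeasurable
  · refine Eventually.of_forall fun x => Eventually.of_forall fun w => ?_
    rw [Real.norm_eq_abs, abs_mul]
    exact mul_le_mul_of_nonneg_left (c1x150_ind_abs_le hM0 hM _) (abs_nonneg _)
  · have h0 : ∀ᵐ w : ℝ, x₀ - w ∉ frontier A := by
      have h1 : volume ((fun w : ℝ => x₀ - w) ⁻¹' frontier A) = 0 := by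
        rw [(Measure.measurePreserving_sub_left volume x₀).measure_preimage
          isClosed_frontier.measurableSet.nullMeasurableSet]
        exact hfr
      exact measure_eq_zero_iff_ae_notMem.1 h1
    filter_upwards [h0] with w hw
    refine continuousAt_const.mul ?_
    have h1 : ContinuousAt (A.indicator F) (x₀ - w) := c1x150_ind_continuousAt hF hw
    exact ContinuousAt.comp (f := fun x : ℝ => x - w) h1 (by fun_prop)

theorem c1x150_op_sub {K F G : ℝ → ℝ} {A : Set ℝ} (hK : Integrable K) (hA : MeasurableSet A)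
    (hF : Measurable F) (hG : Measurable G) {M N : ℝ} (hM0 : 0 ≤ M) (hN0 : 0 ≤ N)
    (hM : ∀ v ∈ A, |F v| ≤ M) (hN : ∀ v ∈ A, |G v| ≤ N) (u : ℝ) :
    c1x150_op K A (fun v => F v - G v) u = c1x150_op K A F u - c1x150_op K A G u := by
  rw [c1x150_op_ind hA, c1x150_op_ind hA, c1x150_op_ind hA,
    ← integral_sub (c1x150_integrand hK hA hF hM0 hM u) (c1x150_integrand hK hA hG hN0 hN u)]
  congr 1
  funext v
  by_cases hv : v ∈ A
  · simp only [indicator_of_mem hv]; ring
  · simp only [indicator_of_notMem hv]; ring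

theorem c1x150_op_congr {K F G : ℝ → ℝ} {A : Set ℝ} (hA : MeasurableSet A)
    (h : ∀ v ∈ A, F v = G v) (u : ℝ) : c1x150_op K A F u = c1x150_op K A G u := by
  unfold c1x150_op
  exact setIntegral_congr_fun hA fun v hv => by simp only [h v hv]

theorem c1x150_op_congr_set {K F : ℝ → ℝ} {A B : Set ℝ} (h : A =ᵐ[volume] B) (u : ℝ) :
    c1x150_op K A F u = c1x150_op K B F u := by
  unfold c1x150_op
  exact setIntegral_congr_set h

theorem c1x150_op_const_mul {K : ℝ → ℝ} {A : Set ℝ} (c : ℝ) (F : ℝ → ℝ) (u : ℝ) :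
    c1x150_op K A (fun v => c * F v) u = c * c1x150_op K A F u := by
  unfold c1x150_op
  rw [← integral_const_mul]
  congr 1
  funext v
  ring

/-- the constant function: `K * 1 = ∫ K`. -/
theorem c1x150_op_univ_const {K : ℝ → ℝ} (c u : ℝ) :
    c1x150_op K univ (fun _ => c) u = (∫ w, K w) * c := by
  unfold c1x150_op
  rw [setIntegral_univ, integral_mul_const]
  congr 1
  exact integral_sub_left_eq_self K volume u

/-- **Existence** of a bounded continuous solution of `F + K 1_A F = f` (Banach fixed point). -/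
theorem c1x150_exists {K : ℝ → ℝ} (hK : Integrable K) {h : ℝ} (hh : ∫ w, |K w| ≤ h) (hh1 : h < 1)
    {A : Set ℝ} (hA : MeasurableSet A) (hfr : volume (frontier A) = 0)
    {f : ℝ → ℝ} (hf : Continuous f) {C : ℝ} (hC : ∀ u, |f u| ≤ C) :
    ∃ F : ℝ → ℝ, Continuous F ∧ (∀ u, |F u| ≤ C / (1 - h)) ∧ ∀ u, F u + c1x150_op K A F u = f u := by
  set t : ℝ := ∫ w, |K w| with ht
  have ht0 : 0 ≤ t := integral_nonneg fun u => abs_nonneg _
  have hC0 : 0 ≤ C := (abs_nonneg _).trans (hC 0)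
  have hb : ∀ φ : BoundedContinuousFunction ℝ ℝ, ∀ x ∈ A, |φ x| ≤ ‖φ‖ := fun φ x _ => by
    simpa using φ.norm_coe_le_norm x
  let Φ : BoundedContinuousFunction ℝ ℝ → BoundedContinuousFunction ℝ ℝ := fun φ =>
    BoundedContinuousFunction.ofNormedAddCommGroup (fun x => f x - c1x150_op K A φ x)
      (hf.sub (c1x150_op_continuous hK hA hfr φ.continuous (norm_nonneg φ) (hb φ))) (C + t * ‖φ‖)
      (fun x => by
        rw [Real.norm_eq_abs]
        exact (abs_sub _ _).trans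
          (add_le_add (hC x) (c1x150_op_abs_le hK hA (norm_nonneg φ) (hb φ) x)))
  have hΦ : ∀ φ x, Φ φ x = f x - c1x150_op K A φ x := fun φ x => rfl
  have hcon : ContractingWith ⟨t, ht0⟩ Φ := by
    refine ⟨by exact_mod_cast (lt_of_le_of_lt hh hh1), LipschitzWith.of_dist_le_mul fun φ ψ => ?_⟩
    rw [BoundedContinuousFunction.dist_le (by positivity)]
    intro x
    rw [hΦ, hΦ, Real.dist_eq]
    have h1 : f x - c1x150_op K A φ x - (f x - c1x150_op K A ψ x)
        = - c1x150_op K A (fun y => φ y - ψ y) x := by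
      rw [c1x150_op_sub hK hA φ.continuous.measurable ψ.continuous.measurable (norm_nonneg φ)
        (norm_nonneg ψ) (hb φ) (hb ψ)]; ring
    rw [h1, abs_neg]
    have h2 : ∀ y ∈ A, |φ y - ψ y| ≤ dist φ ψ := fun y _ => by
      rw [← Real.dist_eq]; exact BoundedContinuousFunction.dist_coe_le_dist y
    exact c1x150_op_abs_le hK hA dist_nonneg h2 x
  set φ := ContractingWith.fixedPoint Φ hcon with hφ
  have hfix : Φ φ = φ := hcon.fixedPoint_isFixedPt
  have heq : ∀ x, φ x = f x - c1x150_op K A φ x := fun x => by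
    conv_lhs => rw [← hfix]
    exact hΦ φ x
  have hn : ‖φ‖ ≤ C + t * ‖φ‖ := by
    rw [BoundedContinuousFunction.norm_le (by positivity)]
    intro x
    rw [heq x, Real.norm_eq_abs]
    exact (abs_sub _ _).trans
      (add_le_add (hC x) (c1x150_op_abs_le hK hA (norm_nonneg φ) (hb φ) x))
  have hn2 : ‖φ‖ ≤ C / (1 - h) := by
    rw [le_div_iff₀ (by linarith)]
    have : t * ‖φ‖ ≤ h * ‖φ‖ := mul_le_mul_of_nonneg_right hh (norm_nonneg _)
    nlinarith
  exact ⟨φ, φ.continuous, fun x => (by simpa using φ.norm_coe_le_norm x : |φ x| ≤ ‖φ‖).trans hn2,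
    fun x => by rw [heq x]; ring⟩


/-- a bounded solution of the homogeneous equation vanishes. -/
theorem c1x150_hom_zero {K d : ℝ → ℝ} (hK : Integrable K) {h : ℝ} (hh : ∫ w, |K w| ≤ h) (hh1 : h < 1)
    {A : Set ℝ} (hA : MeasurableSet A) {M : ℝ} (hM : ∀ v ∈ A, |d v| ≤ M) (hM0 : 0 ≤ M)
    (hd : ∀ u, d u + c1x150_op K A d u = 0) (u : ℝ) : d u = 0 := by
  have hh0 : 0 ≤ h := (integral_nonneg fun w => abs_nonneg (K w)).trans hh
  have step : ∀ m : ℝ, 0 ≤ m → (∀ v ∈ A, |d v| ≤ m) → ∀ u, |d u| ≤ h * m := by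
    intro m hm0 hm u
    have e : d u = - c1x150_op K A d u := by linarith [hd u]
    rw [e, abs_neg]
    exact (c1x150_op_abs_le hK hA hm0 hm u).trans (mul_le_mul_of_nonneg_right hh hm0)
  have ind : ∀ n : ℕ, ∀ v ∈ A, |d v| ≤ h ^ n * M := by
    intro n
    induction n with
    | zero => simpa using hM
    | succ n ih =>
      intro v _
      have := step (h ^ n * M) (by positivity) ih v
      calc |d v| ≤ h * (h ^ n * M) := this
        _ = h ^ (n + 1) * M := by ring
  have all : ∀ n : ℕ, |d u| ≤ h ^ (n + 1) * M := fun n => by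
    have := step (h ^ n * M) (by positivity) (ind n) u
    calc |d u| ≤ h * (h ^ n * M) := this
      _ = h ^ (n + 1) * M := by ring
  have lim : Tendsto (fun n : ℕ => h ^ (n + 1) * M) atTop (𝓝 (0 * M)) :=
    ((tendsto_pow_atTop_nhds_zero_of_lt_one hh0 hh1).comp (tendsto_add_atTop_nat 1)).mul_const M
  rw [zero_mul] at lim
  have : |d u| ≤ 0 := ge_of_tendsto' lim all
  exact abs_nonpos_iff.1 this

/-- **Uniqueness** among measurable solutions that are bounded on `A`. -/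
theorem c1x150_unique {K F G f : ℝ → ℝ} (hK : Integrable K) {h : ℝ} (hh : ∫ w, |K w| ≤ h)
    (hh1 : h < 1) {A : Set ℝ} (hA : MeasurableSet A) (hF : Measurable F) (hG : Measurable G)
    {M N : ℝ} (hM0 : 0 ≤ M) (hN0 : 0 ≤ N) (hM : ∀ v ∈ A, |F v| ≤ M) (hN : ∀ v ∈ A, |G v| ≤ N)
    (hFs : ∀ u, F u + c1x150_op K A F u = f u) (hGs : ∀ u, G u + c1x150_op K A G u = f u) (u : ℝ) :
    F u = G u := by
  have := c1x150_hom_zero (d := fun v => F v - G v) hK hh hh1 hA (M := M + N)
    (fun v hv => (abs_sub _ _).trans (add_le_add (hM v hv) (hN v hv))) (by positivity)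
    (fun u => by
      rw [c1x150_op_sub hK hA hF hG hM0 hN0 hM hN]
      linarith [hFs u, hGs u]) u
  linarith

theorem c1x150_op_neg {K F : ℝ → ℝ} (hev : ∀ w, K (-w) = K w) {A : Set ℝ} (hA : MeasurableSet A)
    (hsym : ∀ v, -v ∈ A ↔ v ∈ A) (u : ℝ) :
    c1x150_op K A (fun v => F (-v)) u = c1x150_op K A F (-u) := by
  rw [c1x150_op_ind hA, c1x150_op_ind hA,
    ← integral_neg_eq_self (fun v => K (u - v) * A.indicator (fun v => F (-v)) v) volume]
  congr 1
  funext v
  have e1 : K (u - -v) = K (-u - v) := by rw [← hev]; congr 1; ring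
  rw [e1]
  by_cases hv : v ∈ A
  · rw [indicator_of_mem hv, indicator_of_mem ((hsym v).2 hv), neg_neg]
  · rw [indicator_of_notMem hv, indicator_of_notMem (fun h' => hv ((hsym v).1 h'))]

/-- **Evenness** of the solution for an even source on a symmetric set. -/
theorem c1x150_even {K F f : ℝ → ℝ} (hK : Integrable K) (hev : ∀ w, K (-w) = K w) {h : ℝ}
    (hh : ∫ w, |K w| ≤ h) (hh1 : h < 1) {A : Set ℝ} (hA : MeasurableSet A)
    (hsym : ∀ v, -v ∈ A ↔ v ∈ A) (hF : Measurable F) {M : ℝ} (hM0 : 0 ≤ M)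
    (hM : ∀ v ∈ A, |F v| ≤ M) (hfev : ∀ u, f (-u) = f u)
    (hFs : ∀ u, F u + c1x150_op K A F u = f u) (u : ℝ) : F (-u) = F u :=
  c1x150_unique (F := fun v => F (-v)) (G := F) hK hh hh1 hA (hF.comp measurable_neg) hF hM0 hM0
    (fun v hv => hM (-v) ((hsym v).2 hv)) hM
    (fun u => by rw [c1x150_op_neg hev hA hsym, hFs (-u), hfev]) hFs u

/-- **Positivity**: for `K ≤ 0` the resolvent of `1 + K 1_A` preserves positivity. -/
theorem c1x150_nonneg {K F f : ℝ → ℝ} (hK : Integrable K) {h : ℝ} (hh : ∫ w, |K w| ≤ h)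
    (hh1 : h < 1) (hK0 : ∀ w, K w ≤ 0) {A : Set ℝ} (hA : MeasurableSet A) (hF : Measurable F)
    {M : ℝ} (hM0 : 0 ≤ M) (hM : ∀ v ∈ A, |F v| ≤ M) (hf : ∀ u, 0 ≤ f u)
    (hFs : ∀ u, F u + c1x150_op K A F u = f u) (u : ℝ) : 0 ≤ F u := by
  have hh0 : 0 ≤ h := (integral_nonneg fun w => abs_nonneg (K w)).trans hh
  have step : ∀ m : ℝ, 0 ≤ m → (∀ v ∈ A, -m ≤ F v) → ∀ u, -(h * m) ≤ F u := by
    intro m hm0 hm u
    have h1 : c1x150_op K A F u ≤ (∫ w, |K w|) * m := by
      rw [c1x150_op_ind hA]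
      calc ∫ v, K (u - v) * A.indicator F v ≤ ∫ v, |K (u - v)| * m := by
            refine integral_mono (c1x150_integrand hK hA hF hM0 hM u)
              ((hK.comp_sub_left u).abs.mul_const m) fun v => ?_
            show K (u - v) * A.indicator F v ≤ |K (u - v)| * m
            rw [abs_of_nonpos (hK0 _)]
            have h2 : -m ≤ A.indicator F v := by
              by_cases hv : v ∈ A
              · rw [indicator_of_mem hv]; exact hm v hv
              · rw [indicator_of_notMem hv]; linarith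
            nlinarith [hK0 (u - v)]
        _ = (∫ w, |K w|) * m := by
            rw [integral_mul_const]
            congr 1
            exact integral_sub_left_eq_self (fun w => |K w|) volume u
    have h3 : (∫ w, |K w|) * m ≤ h * m := mul_le_mul_of_nonneg_right hh hm0
    linarith [hFs u, hf u]
  have ind : ∀ n : ℕ, ∀ v ∈ A, -(h ^ n * M) ≤ F v := by
    intro n
    induction n with
    | zero => intro v hv; simpa using (abs_le.1 (hM v hv)).1
    | succ n ih =>
      intro v _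
      have := step (h ^ n * M) (by positivity) ih v
      calc -(h ^ (n + 1) * M) = -(h * (h ^ n * M)) := by ring
        _ ≤ F v := this
  have all : ∀ n : ℕ, -(h ^ (n + 1) * M) ≤ F u := fun n => by
    have := step (h ^ n * M) (by positivity) (ind n) u
    calc -(h ^ (n + 1) * M) = -(h * (h ^ n * M)) := by ring
      _ ≤ F u := this
  have lim : Tendsto (fun n : ℕ => -(h ^ (n + 1) * M)) atTop (𝓝 (-(0 * M))) :=
    (((tendsto_pow_atTop_nhds_zero_of_lt_one hh0 hh1).comp (tendsto_add_atTop_nat 1)).mul_const M).neg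
  rw [zero_mul, neg_zero] at lim
  exact le_of_tendsto' lim all

/-- for `K ≤ 0` the solution dominates its nonnegative source. -/
theorem c1x150_source_le {K F f : ℝ → ℝ} (hK : Integrable K) {h : ℝ} (hh : ∫ w, |K w| ≤ h)
    (hh1 : h < 1) (hK0 : ∀ w, K w ≤ 0) {A : Set ℝ} (hA : MeasurableSet A) (hF : Measurable F)
    {M : ℝ} (hM0 : 0 ≤ M) (hM : ∀ v ∈ A, |F v| ≤ M) (hf : ∀ u, 0 ≤ f u)
    (hFs : ∀ u, F u + c1x150_op K A F u = f u) (u : ℝ) : f u ≤ F u := by
  have hpos := c1x150_nonneg hK hh hh1 hK0 hA hF hM0 hM hf hFs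
  have h1 : c1x150_op K A F u ≤ 0 := by
    unfold c1x150_op
    exact integral_nonpos fun v => mul_nonpos_of_nonpos_of_nonneg (hK0 _) (hpos v)
  linarith [hFs u]

/-- `L¹` bound of the truncated operator. -/
theorem c1x150_op_L1 {K F : ℝ → ℝ} (hK : Integrable K) {A : Set ℝ} (hA : MeasurableSet A)
    (hF : IntegrableOn F A) :
    Integrable (c1x150_op K A F) ∧
      ∫ u, |c1x150_op K A F u| ≤ (∫ w, |K w|) * ∫ v in A, |F v| := by
  have hh : Integrable (A.indicator F) := (integrable_indicator_iff hA).2 hF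
  have h1 : Integrable (fun p : ℝ × ℝ => A.indicator F p.2 * K (p.1 - p.2)) (volume.prod volume) :=
    hh.convolution_integrand (ContinuousLinearMap.mul ℝ ℝ) hK
  have h2 : Integrable (fun p : ℝ × ℝ => |A.indicator F p.2| * |K (p.1 - p.2)|)
      (volume.prod volume) :=
    hh.abs.convolution_integrand (ContinuousLinearMap.mul ℝ ℝ) hK.abs
  have e : ∀ x, c1x150_op K A F x = ∫ y, A.indicator F y * K (x - y) := fun x => by
    rw [c1x150_op_ind hA]; congr 1; funext y; ring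
  have hi : Integrable (c1x150_op K A F) := by
    have := h1.integral_prod_left
    exact this.congr (Eventually.of_forall fun x => (e x).symm)
  refine ⟨hi, ?_⟩
  calc ∫ x, |c1x150_op K A F x| ≤ ∫ x, ∫ y, |A.indicator F y| * |K (x - y)| := by
        refine integral_mono_of_nonneg (Eventually.of_forall fun x => abs_nonneg _)
          h2.integral_prod_left (Eventually.of_forall fun x => ?_)
        simp only [e x]
        calc |∫ y, A.indicator F y * K (x - y)| ≤ ∫ y, |A.indicator F y * K (x - y)| := by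
              simpa using norm_integral_le_integral_norm (fun y => A.indicator F y * K (x - y))
          _ = _ := by simp only [abs_mul]
    _ = ∫ y, ∫ x, |A.indicator F y| * |K (x - y)| :=
        integral_integral_swap (f := fun x y => |A.indicator F y| * |K (x - y)|) h2
    _ = ∫ y, |A.indicator F y| * ∫ w, |K w| := by
        congr 1; funext y; rw [integral_const_mul]
        congr 1
        exact integral_sub_right_eq_self (fun w => |K w|) (μ := volume) y
    _ = (∫ w, |K w|) * ∫ v in A, |F v| := by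
        rw [integral_mul_const, mul_comm, ← integral_indicator hA]
        congr 2
        funext y
        by_cases hy : y ∈ A
        · simp [indicator_of_mem hy]
        · simp [indicator_of_notMem hy]

/-- `L¹` a priori bound on `A`. -/
theorem c1x150_L1_apriori {K F f : ℝ → ℝ} (hK : Integrable K) {h : ℝ} (hh : ∫ w, |K w| ≤ h)
    (hh1 : h < 1) {A : Set ℝ} (hA : MeasurableSet A) (hF : IntegrableOn F A)
    (hf : IntegrableOn f A) (hFs : ∀ u ∈ A, F u + c1x150_op K A F u = f u) :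
    ∫ v in A, |F v| ≤ (∫ v in A, |f v|) / (1 - h) := by
  obtain ⟨hi, hb⟩ := c1x150_op_L1 hK hA hF
  have hN0 : 0 ≤ ∫ v in A, |F v| := integral_nonneg fun v => abs_nonneg _
  have h1 : ∫ v in A, |F v| ≤ ∫ v in A, (|f v| + |c1x150_op K A F v|) := by
    refine setIntegral_mono_on hF.abs (hf.abs.add hi.abs.integrableOn) hA fun v hv => ?_
    have e : F v = f v - c1x150_op K A F v := by linarith [hFs v hv]
    rw [e]; exact abs_sub _ _
  rw [integral_add hf.abs hi.abs.integrableOn] at h1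
  have h2 : ∫ v in A, |c1x150_op K A F v| ≤ ∫ v, |c1x150_op K A F v| :=
    setIntegral_le_integral hi.abs (Eventually.of_forall fun v => abs_nonneg _)
  have h3 : (∫ w, |K w|) * ∫ v in A, |F v| ≤ h * ∫ v in A, |F v| :=
    mul_le_mul_of_nonneg_right hh hN0
  rw [le_div_iff₀ (by linarith)]
  nlinarith

/-- **Symmetric pairing** (Fubini): bounded against integrable. -/
theorem c1x150_pair {K a b : ℝ → ℝ} (hK : Integrable K) (hev : ∀ w, K (-w) = K w)
    (ha : Measurable a) {M : ℝ} (hM : ∀ x, |a x| ≤ M) (hb : Integrable b) :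
    Integrable (fun x => a x * ∫ y, K (x - y) * b y) ∧
    Integrable (fun y => b y * ∫ x, K (y - x) * a x) ∧
    ∫ x, a x * (∫ y, K (x - y) * b y) = ∫ y, b y * ∫ x, K (y - x) * a x := by
  have h1 : Integrable (fun p : ℝ × ℝ => b p.2 * K (p.1 - p.2)) (volume.prod volume) :=
    hb.convolution_integrand (ContinuousLinearMap.mul ℝ ℝ) hK
  have h2 : Integrable (Function.uncurry fun x y => a x * (K (x - y) * b y))
      (volume.prod volume) := by
    have h3 := h1.bdd_mul (c := M) (f := fun p : ℝ × ℝ => a p.1)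
      (ha.comp measurable_fst).aestronglyMeasurable
      (Eventually.of_forall fun p => by simpa using hM p.1)
    refine h3.congr (Eventually.of_forall fun p => ?_)
    simp only [Function.uncurry]
    ring
  have e1 : ∀ x, a x * (∫ y, K (x - y) * b y) = ∫ y, a x * (K (x - y) * b y) := fun x => by
    rw [integral_const_mul]
  have e2 : ∀ y, b y * (∫ x, K (y - x) * a x) = ∫ x, a x * (K (x - y) * b y) := fun y => by
    rw [← integral_const_mul]
    congr 1; funext x
    rw [← hev (y - x), show -(y - x) = x - y by ring]; ring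
  refine ⟨?_, ?_, ?_⟩
  · exact h2.integral_prod_left.congr (Eventually.of_forall fun x => (e1 x).symm)
  · exact h2.integral_prod_right.congr (Eventually.of_forall fun y => (e2 y).symm)
  · simp only [e1, e2]
    exact integral_integral_swap h2

theorem c1x150_ind_mul (A : Set ℝ) (F φ : ℝ → ℝ) :
    A.indicator (fun v => F v * φ v) = fun v => A.indicator F v * φ v := by
  funext v
  by_cases hv : v ∈ A
  · simp [indicator_of_mem hv]
  · simp [indicator_of_notMem hv]

/-- the pairing for the truncated operators: `F` bounded on `A`, `G` integrable on `A'`. -/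
theorem c1x150_swap {K F G : ℝ → ℝ} {A A' : Set ℝ} (hK : Integrable K) (hev : ∀ w, K (-w) = K w)
    (hA : MeasurableSet A) (hA' : MeasurableSet A') (hF : Measurable F) {M : ℝ} (hM0 : 0 ≤ M)
    (hM : ∀ v ∈ A, |F v| ≤ M) (hG : IntegrableOn G A') :
    IntegrableOn (fun v => F v * c1x150_op K A' G v) A ∧
    IntegrableOn (fun u => G u * c1x150_op K A F u) A' ∧
    ∫ v in A, F v * c1x150_op K A' G v = ∫ u in A', G u * c1x150_op K A F u := by
  obtain ⟨i1, i2, e⟩ := c1x150_pair hK hev (hF.indicator hA) (c1x150_ind_abs_le hM0 hM)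
    ((integrable_indicator_iff hA').2 hG)
  refine ⟨?_, ?_, ?_⟩
  · rw [← integrable_indicator_iff hA, c1x150_ind_mul]
    simpa only [c1x150_op_ind hA'] using i1
  · rw [← integrable_indicator_iff hA', c1x150_ind_mul]
    simpa only [c1x150_op_ind hA] using i2
  · rw [← integral_indicator hA, ← integral_indicator hA', c1x150_ind_mul, c1x150_ind_mul]
    simpa only [c1x150_op_ind hA, c1x150_op_ind hA'] using e

/-- algebraic core of the two-set identity. -/
theorem c1x150_two_set_core {K F G f g : ℝ → ℝ} {A A' : Set ℝ} (hA : MeasurableSet A)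
    (hAA' : A ⊆ A')
    (I1 : IntegrableOn (fun v => F v * c1x150_op K A' G v) A)
    (I2 : IntegrableOn (fun u => G u * c1x150_op K A F u) A')
    (hsw : ∫ v in A, F v * c1x150_op K A' G v = ∫ u in A', G u * c1x150_op K A F u)
    (hFG : IntegrableOn (fun u => F u * G u) A')
    (hF : ∀ᵐ u ∂(volume.restrict A'), F u + c1x150_op K A F u = f u)
    (hG : ∀ᵐ v ∂(volume.restrict A), G v + c1x150_op K A' G v = g v) :
    (∫ u in A', f u * G u) - ∫ v in A, F v * g v = ∫ u in A' \ A, F u * G u := by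
  have e1 : ∫ u in A', f u * G u
      = (∫ u in A', F u * G u) + ∫ u in A', G u * c1x150_op K A F u := by
    rw [← integral_add hFG I2]
    refine integral_congr_ae ?_
    filter_upwards [hF] with u hu
    rw [← hu]; ring
  have e2 : ∫ v in A, F v * g v
      = (∫ v in A, F v * G v) + ∫ v in A, F v * c1x150_op K A' G v := by
    rw [← integral_add (hFG.mono_set hAA') I1]
    refine integral_congr_ae ?_
    filter_upwards [hG] with v hv
    rw [← hv]; ring
  rw [setIntegral_sdiff hA hFG hAA', e1, e2, hsw]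
  ring

/-- **C1, the two-set identity**, `F` bounded and `G` integrable on the large set. -/
theorem c1x150_two_set_bdd {K F G f g : ℝ → ℝ} {A A' : Set ℝ} (hK : Integrable K)
    (hev : ∀ w, K (-w) = K w) (hA : MeasurableSet A) (hA' : MeasurableSet A') (hAA' : A ⊆ A')
    (hFm : Measurable F) {M : ℝ} (hM : ∀ v, |F v| ≤ M) (hGi : IntegrableOn G A')
    (hF : ∀ᵐ u ∂(volume.restrict A'), F u + c1x150_op K A F u = f u)
    (hG : ∀ᵐ v ∂(volume.restrict A), G v + c1x150_op K A' G v = g v) :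
    (∫ u in A', f u * G u) - ∫ v in A, F v * g v = ∫ u in A' \ A, F u * G u := by
  have hM0 : 0 ≤ M := (abs_nonneg _).trans (hM 0)
  obtain ⟨I1, I2, e⟩ := c1x150_swap hK hev hA hA' hFm hM0 (fun v _ => hM v) hGi
  have hFG : IntegrableOn (fun u => F u * G u) A' :=
    hGi.bdd_mul (c := M) hFm.aestronglyMeasurable (Eventually.of_forall fun u => by simpa using hM u)
  exact c1x150_two_set_core hA hAA' I1 I2 e hFG hF hG

/-- **C1, the two-set identity**, `F` integrable on the large set and `G` bounded. -/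
theorem c1x150_two_set_int {K F G f g : ℝ → ℝ} {A A' : Set ℝ} (hK : Integrable K)
    (hev : ∀ w, K (-w) = K w) (hA : MeasurableSet A) (hA' : MeasurableSet A') (hAA' : A ⊆ A')
    (hGm : Measurable G) {M : ℝ} (hM : ∀ v, |G v| ≤ M) (hFi : IntegrableOn F A')
    (hF : ∀ᵐ u ∂(volume.restrict A'), F u + c1x150_op K A F u = f u)
    (hG : ∀ᵐ v ∂(volume.restrict A), G v + c1x150_op K A' G v = g v) :
    (∫ u in A', f u * G u) - ∫ v in A, F v * g v = ∫ u in A' \ A, F u * G u := by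
  have hM0 : 0 ≤ M := (abs_nonneg _).trans (hM 0)
  obtain ⟨I2, I1, e⟩ := c1x150_swap hK hev hA' hA hGm hM0 (fun v _ => hM v) (hFi.mono_set hAA')
  have hFG : IntegrableOn (fun u => F u * G u) A' := by
    have := hFi.bdd_mul (c := M) hGm.aestronglyMeasurable
      (Eventually.of_forall fun u => by simpa using hM u)
    exact this.congr (Eventually.of_forall fun u => mul_comm _ _)
  exact c1x150_two_set_core hA hAA' I1 I2 e.symm hFG hF hG


/-! ### Intervals -/

theorem c1x150_Ioi_shift (φ : ℝ → ℝ) (Q : ℝ) :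
    ∫ x in Ioi (0 : ℝ), φ (x + Q) = ∫ u in Ioi Q, φ u := by
  have h := (measurePreserving_add_right volume Q).setIntegral_preimage_emb
    (measurableEmbedding_addRight Q) φ (Ioi Q)
  rw [← h]
  congr 2
  ext x
  simp

theorem c1x150_compl_Icc {Q : ℝ} : (Icc (-Q) Q)ᶜ = Iio (-Q) ∪ Ioi Q := by
  ext u
  simp only [mem_compl_iff, mem_Icc, not_and_or, not_le, mem_union, mem_Iio, mem_Ioi]

/-- integral of an even function over the complement of a symmetric interval. -/
theorem c1x150_compl_even {φ : ℝ → ℝ} {Q : ℝ} (hQ : 0 ≤ Q) (hφ : IntegrableOn φ (Icc (-Q) Q)ᶜ)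
    (hev : ∀ u, φ (-u) = φ u) :
    ∫ u in (Icc (-Q) Q)ᶜ, φ u = 2 * ∫ x in Ioi (0 : ℝ), φ (x + Q) := by
  rw [c1x150_compl_Icc] at hφ ⊢
  have hd : Disjoint (Iio (-Q)) (Ioi Q) := by
    rw [Set.disjoint_left]
    intro u hu hu'
    simp only [mem_Iio, mem_Ioi] at hu hu'
    linarith
  rw [setIntegral_union hd measurableSet_Ioi hφ.left_of_union hφ.right_of_union]
  have e : ∫ u in Iio (-Q), φ u = ∫ u in Ioi Q, φ u := by
    rw [← integral_Iic_eq_integral_Iio, ← integral_comp_neg_Ioi]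
    simp only [hev]
  rw [e, c1x150_Ioi_shift]
  ring

theorem c1x150_frontier_Icc (a b : ℝ) : volume (frontier (Icc a b)) = 0 := by
  rcases le_or_gt a b with h | h
  · rw [frontier_Icc h]
    exact (Set.toFinite _).measure_zero _
  · rw [Icc_eq_empty (not_le.2 h), frontier_empty, measure_empty]

theorem c1x150_Icc_symm (Q v : ℝ) : -v ∈ Icc (-Q) Q ↔ v ∈ Icc (-Q) Q := by
  simp only [mem_Icc]
  constructor <;> rintro ⟨h1, h2⟩ <;> constructor <;> linarith

/-- the solution is integrable on the line as soon as it is integrable on `A`. -/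
theorem c1x150_sol_integrable {K F f : ℝ → ℝ} (hK : Integrable K) {A : Set ℝ}
    (hA : MeasurableSet A) (hF : IntegrableOn F A) (hf : Integrable f)
    (hFs : ∀ u, F u + c1x150_op K A F u = f u) : Integrable F := by
  have h := hf.sub (c1x150_op_L1 hK hA hF).1
  refine h.congr (Eventually.of_forall fun u => ?_)
  simp only [Pi.sub_apply]
  linarith [hFs u]

/-- **C1, energy defect**: `E(∞) - E(Q) = 2 ∫_{x>0} ε_∞(x+Q) r_Q(x+Q) dx`. -/
theorem c1x150_energy_defect {K s e0 eps r : ℝ → ℝ} {Q : ℝ} (hQ : 0 ≤ Q) (hK : Integrable K)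
    (hev : ∀ w, K (-w) = K w) (hrm : Measurable r) {M : ℝ} (hrb : ∀ u, |r u| ≤ M)
    (hrev : ∀ u, r (-u) = r u) (hr : ∀ u, r u + c1x150_op K (Icc (-Q) Q) r u = s u)
    (heps : Integrable eps) (hepsev : ∀ u, eps (-u) = eps u)
    (he : ∀ᵐ u, eps u + c1x150_op K univ eps u = e0 u) :
    (∫ u, s u * eps u) - ∫ u in Icc (-Q) Q, r u * e0 u
      = 2 * ∫ x in Ioi (0 : ℝ), eps (x + Q) * r (x + Q) := by
  have h := c1x150_two_set_bdd (K := K) (F := r) (G := eps) (f := s) (g := e0)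
    (A := Icc (-Q) Q) (A' := univ) hK hev measurableSet_Icc MeasurableSet.univ (subset_univ _)
    hrm hrb heps.integrableOn (Eventually.of_forall hr) (ae_restrict_of_ae he)
  rw [setIntegral_univ, ← compl_eq_univ_sdiff] at h
  rw [h]
  have hi : Integrable fun u => r u * eps u :=
    heps.bdd_mul (c := M) hrm.aestronglyMeasurable (Eventually.of_forall fun u => by simpa using hrb u)
  rw [c1x150_compl_even hQ hi.integrableOn (fun u => by rw [hrev, hepsev])]
  congr 2
  funext x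
  ring

/-- **C1, mass defect**: `Z ∫ s - D(Q) = 2 Z ∫_{x>0} r_Q(x+Q) dx`, `Z = 1/(1 + ∫ K)`. -/
theorem c1x150_mass_defect {K s r : ℝ → ℝ} {Q Z : ℝ} (hQ : 0 ≤ Q) (hK : Integrable K)
    (hev : ∀ w, K (-w) = K w) (hZ : Z * (1 + ∫ w, K w) = 1) (hri : Integrable r)
    (hrev : ∀ u, r (-u) = r u) (hr : ∀ u, r u + c1x150_op K (Icc (-Q) Q) r u = s u) :
    Z * (∫ u, s u) - ∫ u in Icc (-Q) Q, r u = 2 * Z * ∫ x in Ioi (0 : ℝ), r (x + Q) := by
  have h := c1x150_two_set_int (K := K) (F := r) (G := fun _ => Z) (f := s) (g := fun _ => 1)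
    (A := Icc (-Q) Q) (A' := univ) hK hev measurableSet_Icc MeasurableSet.univ (subset_univ _)
    measurable_const (M := |Z|) (fun _ => le_rfl) hri.integrableOn (Eventually.of_forall hr)
    (Eventually.of_forall fun v => by
      rw [c1x150_op_univ_const]
      linarith)
  rw [setIntegral_univ, ← compl_eq_univ_sdiff, integral_mul_const, integral_mul_const,
    integral_mul_const, c1x150_compl_even hQ hri.integrableOn hrev] at h
  simp only [mul_one] at h
  linarith

/-- symmetry of the full-line functional: `∫ s ε_∞ = ∫ r_∞ e0`. -/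
theorem c1x150_full_symm {K s e0 eps r : ℝ → ℝ} (hK : Integrable K)
    (hev : ∀ w, K (-w) = K w) (hrm : Measurable r) {M : ℝ} (hrb : ∀ u, |r u| ≤ M)
    (hr : ∀ u, r u + c1x150_op K univ r u = s u) (heps : Integrable eps)
    (he : ∀ᵐ u, eps u + c1x150_op K univ eps u = e0 u) :
    ∫ u, s u * eps u = ∫ u, r u * e0 u := by
  have h := c1x150_two_set_bdd (K := K) (F := r) (G := eps) (f := s) (g := e0)
    (A := univ) (A' := univ) hK hev MeasurableSet.univ MeasurableSet.univ (subset_univ _)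
    hrm hrb heps.integrableOn (Eventually.of_forall hr) (ae_restrict_of_ae he)
  rw [setIntegral_univ, setIntegral_univ, Set.sdiff_self, setIntegral_empty] at h
  linarith

/-- **C1, increments of the filling**: `D(Q') - D(Q) = ∫_{Q<|u|≤Q'} r_Q H_{Q'}`. -/
theorem c1x150_D_diff {K s r r' H' : ℝ → ℝ} {Q Q' : ℝ} (hQQ' : Q ≤ Q') (hK : Integrable K)
    (hev : ∀ w, K (-w) = K w) (hrm : Measurable r) {M : ℝ} (hrb : ∀ u, |r u| ≤ M)
    (hr'm : Measurable r') {M' : ℝ} (hr'b : ∀ u, |r' u| ≤ M')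
    (hHi : IntegrableOn H' (Icc (-Q') Q'))
    (hr : ∀ u, r u + c1x150_op K (Icc (-Q) Q) r u = s u)
    (hr' : ∀ u, r' u + c1x150_op K (Icc (-Q') Q') r' u = s u)
    (hH : ∀ u, H' u + c1x150_op K (Icc (-Q') Q') H' u = 1) :
    (∫ u in Icc (-Q') Q', r' u) - ∫ u in Icc (-Q) Q, r u
      = ∫ u in Icc (-Q') Q' \ Icc (-Q) Q, r u * H' u := by
  have hsub : Icc (-Q) Q ⊆ Icc (-Q') Q' := Icc_subset_Icc (by linarith) hQQ'
  have h1 := c1x150_two_set_bdd (K := K) (F := r) (G := H') (f := s) (g := fun _ => 1)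
    (A := Icc (-Q) Q) (A' := Icc (-Q') Q') hK hev measurableSet_Icc measurableSet_Icc hsub
    hrm hrb hHi (Eventually.of_forall hr) (Eventually.of_forall hH)
  have h2 := c1x150_two_set_bdd (K := K) (F := r') (G := H') (f := s) (g := fun _ => 1)
    (A := Icc (-Q') Q') (A' := Icc (-Q') Q') hK hev measurableSet_Icc measurableSet_Icc
    subset_rfl hr'm hr'b hHi (Eventually.of_forall hr') (Eventually.of_forall hH)
  rw [Set.sdiff_self, setIntegral_empty] at h2
  simp only [mul_one] at h1 h2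
  linarith

theorem c1x150_vol_diff {Q Q' : ℝ} (hQ : 0 ≤ Q) (hQQ' : Q ≤ Q') :
    volume.real (Icc (-Q') Q' \ Icc (-Q) Q) = 2 * (Q' - Q) := by
  have hsub : Icc (-Q) Q ⊆ Icc (-Q') Q' := Icc_subset_Icc (by linarith) hQQ'
  rw [measureReal_sdiff hsub measurableSet_Icc measure_Icc_lt_top.ne, Real.volume_real_Icc,
    Real.volume_real_Icc,
    max_eq_left (by linarith), max_eq_left (by linarith)]
  ring


/-! ### B5 (ii): the complement form, for bounded sources -/

theorem c1x150_op_add {K F G : ℝ → ℝ} {A : Set ℝ} (hK : Integrable K) (hA : MeasurableSet A)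
    (hF : Measurable F) (hG : Measurable G) {M N : ℝ} (hM0 : 0 ≤ M) (hN0 : 0 ≤ N)
    (hM : ∀ v ∈ A, |F v| ≤ M) (hN : ∀ v ∈ A, |G v| ≤ N) (u : ℝ) :
    c1x150_op K A (fun v => F v + G v) u = c1x150_op K A F u + c1x150_op K A G u := by
  rw [c1x150_op_ind hA, c1x150_op_ind hA, c1x150_op_ind hA,
    ← integral_add (c1x150_integrand hK hA hF hM0 hM u) (c1x150_integrand hK hA hG hN0 hN u)]
  congr 1
  funext v
  by_cases hv : v ∈ A
  · simp only [indicator_of_mem hv]; ring
  · simp only [indicator_of_notMem hv]; ring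

theorem c1x150_op_ker_sub {K L F : ℝ → ℝ} {A : Set ℝ} (hK : Integrable K) (hL : Integrable L)
    (hA : MeasurableSet A) (hF : Measurable F) {M : ℝ} (hM0 : 0 ≤ M) (hM : ∀ v ∈ A, |F v| ≤ M)
    (u : ℝ) :
    c1x150_op (fun w => K w - L w) A F u = c1x150_op K A F u - c1x150_op L A F u := by
  rw [c1x150_op_ind hA, c1x150_op_ind hA, c1x150_op_ind hA,
    ← integral_sub (c1x150_integrand hK hA hF hM0 hM u) (c1x150_integrand hL hA hF hM0 hM u)]
  congr 1
  funext v
  ring

theorem c1x150_op_ker_neg {K F : ℝ → ℝ} {A : Set ℝ} (u : ℝ) :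
    c1x150_op (fun w => - K w) A F u = - c1x150_op K A F u := by
  unfold c1x150_op
  rw [← integral_neg]
  congr 1
  funext v
  ring

theorem c1x150_op_ker_congr {K L F : ℝ → ℝ} {A : Set ℝ} (h : ∀ w, K w = L w) (u : ℝ) :
    c1x150_op K A F u = c1x150_op L A F u := by
  have : K = L := funext h
  rw [this]

theorem c1x150_op_split {K F : ℝ → ℝ} {A : Set ℝ} (hK : Integrable K) (hA : MeasurableSet A)
    (hF : Measurable F) {M : ℝ} (hM : ∀ v, |F v| ≤ M) (u : ℝ) :
    c1x150_op K univ F u = c1x150_op K A F u + c1x150_op K Aᶜ F u := by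
  have hM0 : 0 ≤ M := (abs_nonneg _).trans (hM 0)
  have hi : Integrable fun v => K (u - v) * F v := by
    have := c1x150_integrand hK MeasurableSet.univ hF hM0 (fun v _ => hM v) u
    simpa using this
  unfold c1x150_op
  rw [setIntegral_univ, integral_add_compl hA hi]

theorem c1x150_op_measurable {K F : ℝ → ℝ} {A : Set ℝ} (hK : Measurable K) (hA : MeasurableSet A)
    (hF : Measurable F) : Measurable (c1x150_op K A F) := by
  have e : c1x150_op K A F = fun u => ∫ v, K (u - v) * A.indicator F v :=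
    funext fun u => c1x150_op_ind hA u
  rw [e]
  have hm : Measurable (Function.uncurry fun u v : ℝ => K (u - v) * A.indicator F v) :=
    (hK.comp (measurable_fst.sub measurable_snd)).mul ((hF.indicator hA).comp measurable_snd)
  exact (StronglyMeasurable.integral_prod_right (f := fun u v : ℝ => K (u - v) * A.indicator F v)
    hm.stronglyMeasurable).measurable

/-- associativity `K * (R * (1_S F)) = (K * R) * (1_S F)` (Fubini). -/
theorem c1x150_op_assoc {K R F : ℝ → ℝ} (hK : Integrable K) (hR : Integrable R) {S : Set ℝ}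
    (hS : MeasurableSet S) (hF : Measurable F) {M : ℝ} (hM0 : 0 ≤ M) (hM : ∀ v ∈ S, |F v| ≤ M)
    (u : ℝ) :
    c1x150_op K univ (c1x150_op R S F) u = c1x150_op (c1x150_op K univ R) S F u := by
  set g := S.indicator F with hg
  have hgm : Measurable g := hF.indicator hS
  have hgb : ∀ v, |g v| ≤ M := c1x150_ind_abs_le hM0 hM
  have ha : Integrable fun v => K (u - v) := hK.comp_sub_left u
  have hRn : Integrable fun z => R (-z) := hR.comp_neg
  have h1 : Integrable (fun p : ℝ × ℝ => K (u - p.2) * R (-(p.1 - p.2))) (volume.prod volume) :=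
    ha.convolution_integrand (ContinuousLinearMap.mul ℝ ℝ) hRn
  have h2 : Integrable (Function.uncurry fun w v => K (u - v) * (R (v - w) * g w))
      (volume.prod volume) := by
    have h3 := h1.bdd_mul (c := M) (f := fun p : ℝ × ℝ => g p.1)
      (hgm.comp measurable_fst).aestronglyMeasurable
      (Eventually.of_forall fun p => by simpa using hgb p.1)
    refine h3.congr (Eventually.of_forall fun p => ?_)
    simp only [Function.uncurry]
    rw [show -(p.1 - p.2) = p.2 - p.1 by ring]; ring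
  calc c1x150_op K univ (c1x150_op R S F) u
      = ∫ v, ∫ w, K (u - v) * (R (v - w) * g w) := by
        unfold c1x150_op
        rw [setIntegral_univ]
        congr 1; funext v
        rw [← integral_const_mul, ← integral_indicator hS]
        congr 1; funext w
        by_cases hw : w ∈ S
        · simp [hg, indicator_of_mem hw]
        · simp [hg, indicator_of_notMem hw]
    _ = ∫ w, ∫ v, K (u - v) * (R (v - w) * g w) := (integral_integral_swap h2).symm
    _ = ∫ w, c1x150_op K univ R (u - w) * g w := by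
        congr 1; funext w
        unfold c1x150_op
        rw [setIntegral_univ, ← integral_mul_const,
          ← integral_sub_right_eq_self (fun t => K (u - w - t) * R t * g w) (μ := volume) w]
        congr 1; funext v
        rw [show u - w - (v - w) = u - v by ring]; ring
    _ = c1x150_op (c1x150_op K univ R) S F u := by
        rw [c1x150_op_ind hS]

/-- **B5 (ii), complement form**: `F_A = F_∞ + R * (1_{Aᶜ} F_A)` where `R + K * R = K`. -/
theorem c1x150_complement {K R F Finf f : ℝ → ℝ} (hK : Integrable K) {h : ℝ}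
    (hh : ∫ w, |K w| ≤ h) (hh1 : h < 1) (hR : Integrable R) (hRm : Measurable R)
    (hres : ∀ u, R u + c1x150_op K univ R u = K u) {A : Set ℝ} (hA : MeasurableSet A)
    (hFm : Measurable F) {M : ℝ} (hFb : ∀ u, |F u| ≤ M)
    (hFs : ∀ u, F u + c1x150_op K A F u = f u)
    (hIm : Measurable Finf) {M' : ℝ} (hIb : ∀ u, |Finf u| ≤ M')
    (hIs : ∀ u, Finf u + c1x150_op K univ Finf u = f u) (u : ℝ) :
    F u = Finf u + c1x150_op R Aᶜ F u := by
  have hM0 : 0 ≤ M := (abs_nonneg _).trans (hFb 0)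
  have hM'0 : 0 ≤ M' := (abs_nonneg _).trans (hIb 0)
  have hAc : MeasurableSet Aᶜ := hA.compl
  have hOm : Measurable (c1x150_op R Aᶜ F) := c1x150_op_measurable hRm hAc hFm
  have hOb : ∀ v, |c1x150_op R Aᶜ F v| ≤ (∫ w, |R w|) * M :=
    c1x150_op_abs_le hR hAc hM0 (fun v _ => hFb v)
  have hN0 : 0 ≤ (∫ w, |R w|) * M := (abs_nonneg _).trans (hOb 0)
  refine c1x150_unique (f := fun u => f u + c1x150_op K Aᶜ F u) hK hh hh1 MeasurableSet.univ hFm
    (hIm.add hOm) hM0 (add_nonneg hM'0 hN0) (fun v _ => hFb v)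
    (fun v _ => (abs_add_le _ _).trans (add_le_add (hIb v) (hOb v))) (fun u => ?_) (fun u => ?_) u
  · rw [c1x150_op_split hK hA hFm hFb]
    linarith [hFs u]
  · have e1 : c1x150_op K univ (Finf + c1x150_op R Aᶜ F) u
        = c1x150_op K univ Finf u + c1x150_op K univ (c1x150_op R Aᶜ F) u :=
      c1x150_op_add hK MeasurableSet.univ hIm hOm hM'0 hN0 (fun v _ => hIb v) (fun v _ => hOb v) u
    have e2 : c1x150_op (c1x150_op K univ R) Aᶜ F u = c1x150_op K Aᶜ F u - c1x150_op R Aᶜ F u := by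
      rw [← c1x150_op_ker_sub hK hR hAc hFm hM0 (fun v _ => hFb v)]
      exact c1x150_op_ker_congr (fun w => by linarith [hres w]) u
    rw [e1, c1x150_op_assoc hK hR hAc hFm hM0 (fun v _ => hFb v), e2]
    simp only [Pi.add_apply]
    linarith [hIs u]

/-- the complement form in the shape consumed by `ba6h200_asym`. -/
theorem c1x150_complement_rays {R F : ℝ → ℝ} (hR : Integrable R) (hFm : Measurable F) {M : ℝ}
    (hFb : ∀ u, |F u| ≤ M) {Q : ℝ} (hQ : 0 ≤ Q) (u : ℝ) :
    c1x150_op R (Icc (-Q) Q)ᶜ F u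
      = (∫ y in Ioi Q, R (u - y) * F y) + ∫ y in Iio (-Q), R (u - y) * F y := by
  have hM0 : 0 ≤ M := (abs_nonneg _).trans (hFb 0)
  have hi : Integrable fun v => R (u - v) * F v := by
    have := c1x150_integrand hR MeasurableSet.univ hFm hM0 (fun v _ => hFb v) u
    simpa using this
  have hd : Disjoint (Iio (-Q)) (Ioi Q) := by
    rw [Set.disjoint_left]
    intro u hu hu'
    simp only [mem_Iio, mem_Ioi] at hu hu'
    linarith
  unfold c1x150_op
  rw [c1x150_compl_Icc, setIntegral_union hd measurableSet_Ioi hi.integrableOn hi.integrableOn]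
  ring

/-- **B5 (iii), `R ≥ 0`**: the truncated solution dominates the full-line solution. -/
theorem c1x150_ge_full {R F Finf : ℝ → ℝ} (hR : Integrable R) {τ : ℝ} (hτ : ∫ w, |R w| ≤ τ)
    (hτ1 : τ < 1) (hR0 : ∀ w, 0 ≤ R w) {S : Set ℝ} (hS : MeasurableSet S) (hFm : Measurable F)
    {M : ℝ} (hFb : ∀ u, |F u| ≤ M) (hI0 : ∀ u, 0 ≤ Finf u)
    (hc : ∀ u, F u = Finf u + c1x150_op R S F u) (u : ℝ) : Finf u ≤ F u := by
  have hM0 : 0 ≤ M := (abs_nonneg _).trans (hFb 0)
  refine c1x150_source_le (K := fun w => - R w) hR.neg (h := τ) (by simpa using hτ) hτ1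
    (fun w => by simpa using hR0 w) hS hFm hM0 (fun v _ => hFb v) hI0 (fun u => ?_) u
  rw [c1x150_op_ker_neg]
  linarith [hc u]


/-! ### Increments of the filling: two-sided bounds -/

theorem c1x150_shell_upper {r H' : ℝ → ℝ} {Q Q' M N : ℝ} (hQ : 0 ≤ Q) (hQQ' : Q ≤ Q')
    (hrb : ∀ u, |r u| ≤ M) (hHb : ∀ u, |H' u| ≤ N) :
    |∫ u in Icc (-Q') Q' \ Icc (-Q) Q, r u * H' u| ≤ 2 * M * N * (Q' - Q) := by
  have hfin : volume (Icc (-Q') Q' \ Icc (-Q) Q) < ⊤ :=
    (measure_mono sdiff_subset).trans_lt measure_Icc_lt_top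
  have h := norm_setIntegral_le_of_norm_le_const (μ := volume) (f := fun u => r u * H' u)
    (C := M * N) hfin (fun u _ => by
      rw [Real.norm_eq_abs, abs_mul]
      exact mul_le_mul (hrb u) (hHb u) (abs_nonneg _) ((abs_nonneg _).trans (hrb u)))
  rw [c1x150_vol_diff hQ hQQ', Real.norm_eq_abs] at h
  linarith

theorem c1x150_shell_lower {r H' : ℝ → ℝ} {Q Q' cr cH : ℝ} (hQ : 0 ≤ Q) (hQQ' : Q ≤ Q')
    (hi : IntegrableOn (fun u => r u * H' u) (Icc (-Q') Q' \ Icc (-Q) Q))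
    (hcr : 0 ≤ cr) (hcH : 0 ≤ cH) (hr : ∀ u ∈ Icc (-Q') Q', cr ≤ r u)
    (hH : ∀ u ∈ Icc (-Q') Q', cH ≤ H' u) :
    2 * cr * cH * (Q' - Q) ≤ ∫ u in Icc (-Q') Q' \ Icc (-Q) Q, r u * H' u := by
  have hfin : volume (Icc (-Q') Q' \ Icc (-Q) Q) < ⊤ :=
    (measure_mono sdiff_subset).trans_lt measure_Icc_lt_top
  have hms : MeasurableSet (Icc (-Q') Q' \ Icc (-Q) Q) := measurableSet_Icc.diff measurableSet_Icc
  have h : ∫ _u in Icc (-Q') Q' \ Icc (-Q) Q, cr * cH
      ≤ ∫ u in Icc (-Q') Q' \ Icc (-Q) Q, r u * H' u :=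
    setIntegral_mono_on (integrableOn_const hfin.ne) hi hms fun u hu =>
      mul_le_mul (hr u hu.1) (hH u hu.1) hcH (hcr.trans (hr u hu.1))
  rw [setIntegral_const, c1x150_vol_diff hQ hQQ', smul_eq_mul] at h
  linarith

/-! ### Canonical solution, filling and energy -/

/-- the bounded continuous solution of `F + K 1_A F = f`. -/
def c1x150_sol (K : ℝ → ℝ) (A : Set ℝ) (f : ℝ → ℝ) : ℝ → ℝ :=
  Classical.epsilon fun F : ℝ → ℝ =>
    Continuous F ∧ (∃ M, ∀ u, |F u| ≤ M) ∧ ∀ u, F u + c1x150_op K A F u = f u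

theorem c1x150_sol_spec {K : ℝ → ℝ} (hK : Integrable K) {h : ℝ} (hh : ∫ w, |K w| ≤ h) (hh1 : h < 1)
    {A : Set ℝ} (hA : MeasurableSet A) (hfr : volume (frontier A) = 0)
    {f : ℝ → ℝ} (hf : Continuous f) {C : ℝ} (hC : ∀ u, |f u| ≤ C) :
    Continuous (c1x150_sol K A f) ∧ (∀ u, |c1x150_sol K A f u| ≤ C / (1 - h)) ∧
      ∀ u, c1x150_sol K A f u + c1x150_op K A (c1x150_sol K A f) u = f u := by
  obtain ⟨F, hFc, hFb, hFs⟩ := c1x150_exists hK hh hh1 hA hfr hf hC
  have hex : ∃ F : ℝ → ℝ,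
      Continuous F ∧ (∃ M, ∀ u, |F u| ≤ M) ∧ ∀ u, F u + c1x150_op K A F u = f u :=
    ⟨F, hFc, ⟨_, hFb⟩, hFs⟩
  obtain ⟨hc, ⟨M, hM⟩, hs⟩ := Classical.epsilon_spec hex
  refine ⟨hc, fun u => ?_, hs⟩
  have e : c1x150_sol K A f u = F u :=
    c1x150_unique hK hh hh1 hA hc.measurable hFc.measurable ((abs_nonneg _).trans (hM 0))
      ((abs_nonneg _).trans (hFb 0)) (fun v _ => hM v) (fun v _ => hFb v) hs hFs u
  rw [e]
  exact hFb u

/-- any bounded measurable solution is the canonical one. -/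
theorem c1x150_sol_eq {K : ℝ → ℝ} (hK : Integrable K) {h : ℝ} (hh : ∫ w, |K w| ≤ h) (hh1 : h < 1)
    {A : Set ℝ} (hA : MeasurableSet A) (hfr : volume (frontier A) = 0)
    {f : ℝ → ℝ} (hf : Continuous f) {C : ℝ} (hC : ∀ u, |f u| ≤ C) {F : ℝ → ℝ} (hFm : Measurable F)
    {M : ℝ} (hM0 : 0 ≤ M) (hM : ∀ v ∈ A, |F v| ≤ M) (hFs : ∀ u, F u + c1x150_op K A F u = f u)
    (u : ℝ) : F u = c1x150_sol K A f u := by
  obtain ⟨hc, hb, hs⟩ := c1x150_sol_spec hK hh hh1 hA hfr hf hC
  exact c1x150_unique hK hh hh1 hA hFm hc.measurable hM0 ((abs_nonneg _).trans (hb 0)) hM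
    (fun v _ => hb v) hFs hs u

/-- the density `r_Q`. -/
def c1x150_rQ (K s : ℝ → ℝ) (Q : ℝ) : ℝ → ℝ := c1x150_sol K (Icc (-Q) Q) s

/-- the dressed constant `H_Q`. -/
def c1x150_HQ (K : ℝ → ℝ) (Q : ℝ) : ℝ → ℝ := c1x150_sol K (Icc (-Q) Q) fun _ => 1

/-- the filling `D(Q) = ∫_{-Q}^{Q} r_Q`. -/
def c1x150_Dq (K s : ℝ → ℝ) (Q : ℝ) : ℝ := ∫ u in Icc (-Q) Q, c1x150_rQ K s Q u

/-- the energy `E(Q) = ∫_{-Q}^{Q} r_Q e0`. -/
def c1x150_Eq (K s e0 : ℝ → ℝ) (Q : ℝ) : ℝ := ∫ u in Icc (-Q) Q, c1x150_rQ K s Q u * e0 u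

/-- hypotheses on the kernel and the source. -/
structure C1x150Ker (K s : ℝ → ℝ) (h C : ℝ) : Prop where
  K_int : Integrable K
  K_even : ∀ w, K (-w) = K w
  K_norm : ∫ w, |K w| ≤ h
  h_lt : h < 1
  s_cont : Continuous s
  s_bdd : ∀ u, |s u| ≤ C
  s_even : ∀ u, s (-u) = s u
  s_int : Integrable s

section ker

variable {K s : ℝ → ℝ} {h C : ℝ}

theorem c1x150_rQ_continuous (H : C1x150Ker K s h C) (Q : ℝ) : Continuous (c1x150_rQ K s Q) :=
  (c1x150_sol_spec H.K_int H.K_norm H.h_lt measurableSet_Icc (c1x150_frontier_Icc _ _) H.s_cont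
    H.s_bdd).1

theorem c1x150_rQ_bdd (H : C1x150Ker K s h C) (Q u : ℝ) : |c1x150_rQ K s Q u| ≤ C / (1 - h) :=
  (c1x150_sol_spec H.K_int H.K_norm H.h_lt measurableSet_Icc (c1x150_frontier_Icc _ _) H.s_cont
    H.s_bdd).2.1 u

theorem c1x150_rQ_eq (H : C1x150Ker K s h C) (Q u : ℝ) :
    c1x150_rQ K s Q u + c1x150_op K (Icc (-Q) Q) (c1x150_rQ K s Q) u = s u :=
  (c1x150_sol_spec H.K_int H.K_norm H.h_lt measurableSet_Icc (c1x150_frontier_Icc _ _) H.s_cont
    H.s_bdd).2.2 u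

theorem c1x150_bound_nonneg (H : C1x150Ker K s h C) : 0 ≤ C / (1 - h) :=
  (abs_nonneg _).trans (c1x150_rQ_bdd H 0 0)

theorem c1x150_rQ_even (H : C1x150Ker K s h C) (Q u : ℝ) :
    c1x150_rQ K s Q (-u) = c1x150_rQ K s Q u :=
  c1x150_even H.K_int H.K_even H.K_norm H.h_lt measurableSet_Icc (c1x150_Icc_symm Q)
    (c1x150_rQ_continuous H Q).measurable (c1x150_bound_nonneg H)
    (fun v _ => c1x150_rQ_bdd H Q v) H.s_even (c1x150_rQ_eq H Q) u

theorem c1x150_rQ_integrable (H : C1x150Ker K s h C) (Q : ℝ) : Integrable (c1x150_rQ K s Q) :=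
  c1x150_sol_integrable H.K_int measurableSet_Icc
    (c1x150_rQ_continuous H Q).continuousOn.integrableOn_Icc H.s_int (c1x150_rQ_eq H Q)

theorem c1x150_HQ_continuous (H : C1x150Ker K s h C) (Q : ℝ) : Continuous (c1x150_HQ K Q) :=
  (c1x150_sol_spec H.K_int H.K_norm H.h_lt measurableSet_Icc (c1x150_frontier_Icc _ _)
    continuous_const (C := 1) (fun _ => by simp)).1

theorem c1x150_HQ_bdd (H : C1x150Ker K s h C) (Q u : ℝ) : |c1x150_HQ K Q u| ≤ 1 / (1 - h) :=
  (c1x150_sol_spec H.K_int H.K_norm H.h_lt measurableSet_Icc (c1x150_frontier_Icc _ _)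
    continuous_const (C := 1) (fun _ => by simp)).2.1 u

theorem c1x150_HQ_eq (H : C1x150Ker K s h C) (Q u : ℝ) :
    c1x150_HQ K Q u + c1x150_op K (Icc (-Q) Q) (c1x150_HQ K Q) u = 1 :=
  (c1x150_sol_spec H.K_int H.K_norm H.h_lt measurableSet_Icc (c1x150_frontier_Icc _ _)
    continuous_const (C := 1) (fun _ => by simp)).2.2 u

/-- `D(Q') - D(Q) = ∫_{Q<|u|≤Q'} r_Q H_{Q'}`. -/
theorem c1x150_Dq_diff (H : C1x150Ker K s h C) {Q Q' : ℝ} (hQQ' : Q ≤ Q') :
    c1x150_Dq K s Q' - c1x150_Dq K s Q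
      = ∫ u in Icc (-Q') Q' \ Icc (-Q) Q, c1x150_rQ K s Q u * c1x150_HQ K Q' u :=
  c1x150_D_diff hQQ' H.K_int H.K_even (c1x150_rQ_continuous H Q).measurable (c1x150_rQ_bdd H Q)
    (c1x150_rQ_continuous H Q').measurable (c1x150_rQ_bdd H Q')
    (c1x150_HQ_continuous H Q').continuousOn.integrableOn_Icc (c1x150_rQ_eq H Q)
    (c1x150_rQ_eq H Q') (c1x150_HQ_eq H Q')

/-- `D` is Lipschitz on `[0,∞)`. -/
theorem c1x150_Dq_lipschitz (H : C1x150Ker K s h C) {Q Q' : ℝ} (hQ : 0 ≤ Q) (hQQ' : Q ≤ Q') :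
    |c1x150_Dq K s Q' - c1x150_Dq K s Q| ≤ 2 * (C / (1 - h)) * (1 / (1 - h)) * (Q' - Q) := by
  rw [c1x150_Dq_diff H hQQ']
  exact c1x150_shell_upper hQ hQQ' (c1x150_rQ_bdd H Q) (c1x150_HQ_bdd H Q')

theorem c1x150_Dq_continuousOn (H : C1x150Ker K s h C) : ContinuousOn (c1x150_Dq K s) (Ici 0) := by
  set L := 2 * (C / (1 - h)) * (1 / (1 - h)) with hL
  have hL0 : 0 ≤ L := by
    have h1 := c1x150_bound_nonneg H
    have h2 : 0 ≤ 1 / (1 - h) := (abs_nonneg _).trans (c1x150_HQ_bdd H 0 0)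
    positivity
  have hlip : LipschitzOnWith ⟨L, hL0⟩ (c1x150_Dq K s) (Ici 0) := by
    refine LipschitzOnWith.of_dist_le_mul fun x hx y hy => ?_
    rw [Real.dist_eq, Real.dist_eq]
    show _ ≤ L * |x - y|
    rcases le_total x y with hxy | hxy
    · have := c1x150_Dq_lipschitz H hx hxy
      rw [abs_sub_comm, abs_sub_comm x y, abs_of_nonneg (by linarith : 0 ≤ y - x)]
      exact this
    · have := c1x150_Dq_lipschitz H hy hxy
      rw [abs_of_nonneg (by linarith : 0 ≤ x - y)]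
      exact this
  exact hlip.continuousOn

theorem c1x150_Dq_zero : c1x150_Dq K s 0 = 0 := by
  unfold c1x150_Dq
  simp

/-- lower bound of the increments of `D` under pointwise lower bounds. -/
theorem c1x150_Dq_lower (H : C1x150Ker K s h C) {Q Q' cr cH : ℝ} (hQ : 0 ≤ Q) (hQQ' : Q ≤ Q')
    (hcr : 0 ≤ cr) (hcH : 0 ≤ cH) (hr : ∀ u ∈ Icc (-Q') Q', cr ≤ c1x150_rQ K s Q u)
    (hH : ∀ u ∈ Icc (-Q') Q', cH ≤ c1x150_HQ K Q' u) :
    2 * cr * cH * (Q' - Q) ≤ c1x150_Dq K s Q' - c1x150_Dq K s Q := by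
  rw [c1x150_Dq_diff H hQQ']
  refine c1x150_shell_lower hQ hQQ' ?_ hcr hcH hr hH
  exact (((c1x150_rQ_continuous H Q).mul
    (c1x150_HQ_continuous H Q')).continuousOn.integrableOn_Icc).mono_set sdiff_subset

/-- **B5 (iii), `K ≤ 0`**. -/
theorem c1x150_rQ_ge_source (H : C1x150Ker K s h C) (hK0 : ∀ w, K w ≤ 0) (hs0 : ∀ u, 0 ≤ s u)
    (Q u : ℝ) : s u ≤ c1x150_rQ K s Q u :=
  c1x150_source_le H.K_int H.K_norm H.h_lt hK0 measurableSet_Icc
    (c1x150_rQ_continuous H Q).measurable (c1x150_bound_nonneg H)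
    (fun v _ => c1x150_rQ_bdd H Q v) hs0 (c1x150_rQ_eq H Q) u

theorem c1x150_HQ_ge_one (H : C1x150Ker K s h C) (hK0 : ∀ w, K w ≤ 0) (Q u : ℝ) :
    1 ≤ c1x150_HQ K Q u :=
  c1x150_source_le (f := fun _ => 1) H.K_int H.K_norm H.h_lt hK0 measurableSet_Icc
    (c1x150_HQ_continuous H Q).measurable ((abs_nonneg _).trans (c1x150_HQ_bdd H Q 0))
    (fun v _ => c1x150_HQ_bdd H Q v) (fun _ => zero_le_one) (c1x150_HQ_eq H Q) u

end ker


/-! ### With the resolvent kernel: the inputs of `ba6h200_asym` -/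

/-- `∫ K * R = (∫ K)(∫ R)`. -/
theorem c1x150_integral_op_univ {K R : ℝ → ℝ} (hK : Integrable K) (hev : ∀ w, K (-w) = K w)
    (hR : Integrable R) : ∫ u, c1x150_op K univ R u = (∫ w, K w) * ∫ w, R w := by
  obtain ⟨_, _, e⟩ := c1x150_pair (a := fun _ => 1) (b := R) hK hev measurable_const (M := 1)
    (fun _ => by simp) hR
  have e1 : ∀ x, c1x150_op K univ R x = 1 * ∫ y, K (x - y) * R y := fun x => by
    unfold c1x150_op; rw [setIntegral_univ, one_mul]
  have e2 : ∀ y, R y * (∫ x, K (y - x) * 1) = R y * ∫ w, K w := fun y => by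
    congr 1
    simp only [mul_one]
    exact integral_sub_left_eq_self K volume y
  simp only [e1]
  rw [e]
  simp only [e2]
  rw [integral_mul_const, mul_comm]

/-- `(1 - ∫ R)(1 + ∫ K) = 1`. -/
theorem c1x150_Z_eq {K R : ℝ → ℝ} (hK : Integrable K) (hev : ∀ w, K (-w) = K w)
    (hR : Integrable R) (hres : ∀ u, R u + c1x150_op K univ R u = K u) :
    (1 - ∫ w, R w) * (1 + ∫ w, K w) = 1 := by
  have hi : Integrable (c1x150_op K univ R) :=
    (c1x150_op_L1 hK MeasurableSet.univ hR.integrableOn).1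
  have h1 : (∫ u, R u) + ∫ u, c1x150_op K univ R u = ∫ u, K u := by
    rw [← integral_add hR hi]
    exact integral_congr_ae (Eventually.of_forall hres)
  rw [c1x150_integral_op_univ hK hev hR] at h1
  linear_combination -h1

/-- hypotheses on the resolvent kernel and the full-line solutions. -/
structure C1x150Res (K s R rinf eps e0 : ℝ → ℝ) : Prop where
  R_int : Integrable R
  R_meas : Measurable R
  R_res : ∀ u, R u + c1x150_op K univ R u = K u
  rinf_meas : Measurable rinf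
  rinf_bdd : ∃ M, ∀ u, |rinf u| ≤ M
  rinf_eq : ∀ u, rinf u + c1x150_op K univ rinf u = s u
  eps_int : Integrable eps
  eps_even : ∀ u, eps (-u) = eps u
  eps_eq : ∀ᵐ u, eps u + c1x150_op K univ eps u = e0 u

section res

variable {K s R rinf eps e0 : ℝ → ℝ} {h C : ℝ}

/-- **B5 (ii)** for `r_Q`, abstract shape. -/
theorem c1x150_rQ_complement (H : C1x150Ker K s h C) (G : C1x150Res K s R rinf eps e0) (Q u : ℝ) :
    c1x150_rQ K s Q u = rinf u + c1x150_op R (Icc (-Q) Q)ᶜ (c1x150_rQ K s Q) u := by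
  obtain ⟨M, hM⟩ := G.rinf_bdd
  exact c1x150_complement H.K_int H.K_norm H.h_lt G.R_int G.R_meas G.R_res measurableSet_Icc
    (c1x150_rQ_continuous H Q).measurable (c1x150_rQ_bdd H Q) (c1x150_rQ_eq H Q) G.rinf_meas hM
    G.rinf_eq u

/-- **B5 (ii)** = `hcomp` of `ba6h200_asym`. -/
theorem c1x150_hcomp (H : C1x150Ker K s h C) (G : C1x150Res K s R rinf eps e0) (Q : ℝ)
    (hQ : 0 ≤ Q) (x : ℝ) :
    c1x150_rQ K s Q x = rinf x + (∫ y in Ioi Q, R (x - y) * c1x150_rQ K s Q y)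
      + ∫ y in Iio (-Q), R (x - y) * c1x150_rQ K s Q y := by
  rw [c1x150_rQ_complement H G Q x, c1x150_complement_rays G.R_int
    (c1x150_rQ_continuous H Q).measurable (c1x150_rQ_bdd H Q) hQ]
  ring

/-- **B5 (v)** = `hD` of `ba6h200_asym`, with `Dinf = (1 - ∫ R) ∫ s`. -/
theorem c1x150_hD (H : C1x150Ker K s h C) (G : C1x150Res K s R rinf eps e0) (Q : ℝ) (hQ : 0 ≤ Q) :
    (1 - ∫ w, R w) * (∫ u, s u) - c1x150_Dq K s Q
      = 2 * (1 - ∫ w, R w) * ∫ y in Ioi Q, c1x150_rQ K s Q y := by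
  rw [← c1x150_Ioi_shift]
  exact c1x150_mass_defect hQ H.K_int H.K_even (c1x150_Z_eq H.K_int H.K_even G.R_int G.R_res)
    (c1x150_rQ_integrable H Q) (c1x150_rQ_even H Q) (c1x150_rQ_eq H Q)

/-- **B5 (v)** = `hE` of `ba6h200_asym`, with `Einf = ∫ s ε_∞`. -/
theorem c1x150_hE (H : C1x150Ker K s h C) (G : C1x150Res K s R rinf eps e0) (Q : ℝ) (hQ : 0 ≤ Q) :
    (∫ u, s u * eps u) - c1x150_Eq K s e0 Q = 2 * ∫ y in Ioi Q, eps y * c1x150_rQ K s Q y := by
  rw [← c1x150_Ioi_shift (fun y => eps y * c1x150_rQ K s Q y)]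
  exact c1x150_energy_defect hQ H.K_int H.K_even (c1x150_rQ_continuous H Q).measurable
    (c1x150_rQ_bdd H Q) (c1x150_rQ_even H Q) (c1x150_rQ_eq H Q) G.eps_int G.eps_even G.eps_eq

/-- `Einf = ∫ s ε_∞ = ∫ r_∞ e0`. -/
theorem c1x150_Einf_eq (H : C1x150Ker K s h C) (G : C1x150Res K s R rinf eps e0) :
    ∫ u, s u * eps u = ∫ u, rinf u * e0 u := by
  obtain ⟨M, hM⟩ := G.rinf_bdd
  exact c1x150_full_symm H.K_int H.K_even G.rinf_meas hM G.rinf_eq G.eps_int G.eps_eq

/-- **B5 (iii), `R ≥ 0`**: `r_Q ≥ r_∞`. -/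
theorem c1x150_rQ_ge_rinf (H : C1x150Ker K s h C) (G : C1x150Res K s R rinf eps e0) {τ : ℝ}
    (hτ : ∫ w, |R w| ≤ τ) (hτ1 : τ < 1) (hR0 : ∀ w, 0 ≤ R w) (hr0 : ∀ u, 0 ≤ rinf u) (Q u : ℝ) :
    rinf u ≤ c1x150_rQ K s Q u :=
  c1x150_ge_full G.R_int hτ hτ1 hR0 measurableSet_Icc.compl (c1x150_rQ_continuous H Q).measurable
    (c1x150_rQ_bdd H Q) hr0 (c1x150_rQ_complement H G Q) u

/-- **B5 (iii), `R ≥ 0`**: `H_Q ≥ 1 - ∫ R`. -/
theorem c1x150_HQ_ge_Z (H : C1x150Ker K s h C) (G : C1x150Res K s R rinf eps e0) {τ : ℝ}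
    (hτ : ∫ w, |R w| ≤ τ) (hτ1 : τ < 1) (hR0 : ∀ w, 0 ≤ R w) (Q u : ℝ) :
    1 - ∫ w, R w ≤ c1x150_HQ K Q u := by
  have hZ := c1x150_Z_eq H.K_int H.K_even G.R_int G.R_res
  have hZ0 : 0 ≤ 1 - ∫ w, R w := by
    have : ∫ w, R w ≤ ∫ w, |R w| := integral_mono G.R_int G.R_int.abs fun w => le_abs_self _
    linarith
  have hc : ∀ u, c1x150_HQ K Q u
      = (fun _ => 1 - ∫ w, R w) u + c1x150_op R (Icc (-Q) Q)ᶜ (c1x150_HQ K Q) u :=
    c1x150_complement (f := fun _ => 1) H.K_int H.K_norm H.h_lt G.R_int G.R_meas G.R_res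
      measurableSet_Icc (c1x150_HQ_continuous H Q).measurable (c1x150_HQ_bdd H Q)
      (c1x150_HQ_eq H Q) measurable_const (M' := |1 - ∫ w, R w|) (fun _ => le_rfl)
      (fun u => by rw [c1x150_op_univ_const]; linarith)
  exact c1x150_ge_full (Finf := fun _ => 1 - ∫ w, R w) G.R_int hτ hτ1 hR0 measurableSet_Icc.compl
    (c1x150_HQ_continuous H Q).measurable (c1x150_HQ_bdd H Q) (fun _ => hZ0) hc u

/-- `D(Q) < Dinf` as soon as `r_Q > 0` and `∫ R < 1`. -/
theorem c1x150_Dq_lt (H : C1x150Ker K s h C) (G : C1x150Res K s R rinf eps e0)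
    (hZ : 0 < 1 - ∫ w, R w) {Q : ℝ} (hQ : 0 ≤ Q) (hpos : ∀ u, 0 < c1x150_rQ K s Q u) :
    c1x150_Dq K s Q < (1 - ∫ w, R w) * ∫ u, s u := by
  have h1 := c1x150_hD H G Q hQ
  have h2 : 0 < ∫ y in Ioi Q, c1x150_rQ K s Q y := by
    rw [setIntegral_pos_iff_support_of_nonneg_ae (Eventually.of_forall fun u => (hpos u).le)
      (c1x150_rQ_integrable H Q).integrableOn]
    have : Function.support (c1x150_rQ K s Q) = univ := by
      ext u; simp [(hpos u).ne']
    rw [this, univ_inter]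
    simp
  have h3 : 0 < 2 * (1 - ∫ w, R w) * ∫ y in Ioi Q, c1x150_rQ K s Q y := by positivity
  linarith

end res

/-! ### Reparametrisation by the filling -/

/-- If `EE (D Q) = E Q`, `D` is continuous, `< Dinf`, `→ Dinf`, and the ratio converges along
`Q → ∞`, then it converges along `d ↑ Dinf`. -/
theorem c1x150_reparam {D E EE : ℝ → ℝ} {Dinf Einf L : ℝ} (hDc : ContinuousOn D (Ici 0))
    (hDlim : Tendsto D atTop (𝓝 Dinf)) (hDlt : ∀ Q, 0 ≤ Q → D Q < Dinf)
    (hEE : ∀ Q, 0 < Q → EE (D Q) = E Q)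
    (hlim : Tendsto (fun Q => (Einf - E Q) / (Dinf - D Q) ^ 2) atTop (𝓝 L)) :
    Tendsto (fun d => (Einf - EE d) / (Dinf - d) ^ 2) (𝓝[<] Dinf) (𝓝 L) := by
  rw [Metric.tendsto_nhds]
  intro ε hε
  obtain ⟨Q₀, hQ₀⟩ := eventually_atTop.1 ((Metric.tendsto_nhds.1 hlim) ε hε)
  set Q₁ := max Q₀ 1 with hQ₁
  have hQ₁0 : 0 < Q₁ := lt_of_lt_of_le one_pos (le_max_right _ _)
  have hmem : Ioo (D Q₁) Dinf ∈ 𝓝[<] Dinf := Ioo_mem_nhdsLT (hDlt Q₁ hQ₁0.le)
  filter_upwards [hmem] with d hd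
  -- a point beyond which `D > d`
  obtain ⟨Q₂, hQ₂⟩ := eventually_atTop.1 (hDlim.eventually (lt_mem_nhds hd.2))
  set Q₃ := max Q₂ Q₁ with hQ₃
  have h13 : Q₁ ≤ Q₃ := le_max_right _ _
  have hc : ContinuousOn D (Icc Q₁ Q₃) :=
    hDc.mono fun x hx => (hQ₁0.le.trans hx.1 : (0 : ℝ) ≤ x)
  have hd' : d ∈ Icc (D Q₁) (D Q₃) := ⟨hd.1.le, (hQ₂ Q₃ (le_max_left _ _)).le⟩
  obtain ⟨Q, hQm, hQd⟩ := intermediate_value_Icc h13 hc hd'
  have hQ0 : 0 < Q := lt_of_lt_of_le hQ₁0 hQm.1
  have := hQ₀ Q ((le_max_left _ _).trans hQm.1)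
  rw [← hQd, hEE Q hQ0]
  exact this

/-- every filling in `(0, Dinf)` is attained. -/
theorem c1x150_surj {D : ℝ → ℝ} {Dinf : ℝ} (hDc : ContinuousOn D (Ici 0)) (hD0 : D 0 = 0)
    (hDlim : Tendsto D atTop (𝓝 Dinf)) {d : ℝ} (hd0 : 0 < d) (hd : d < Dinf) :
    ∃ Q, 0 < Q ∧ D Q = d := by
  obtain ⟨Q₂, hQ₂⟩ := eventually_atTop.1 (hDlim.eventually (lt_mem_nhds hd))
  set Q₃ := max Q₂ 0 with hQ₃
  have h03 : (0 : ℝ) ≤ Q₃ := le_max_right _ _
  have hc : ContinuousOn D (Icc 0 Q₃) := hDc.mono fun x hx => hx.1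
  have hd' : d ∈ Icc (D 0) (D Q₃) := ⟨by rw [hD0]; exact hd0.le, (hQ₂ Q₃ (le_max_left _ _)).le⟩
  obtain ⟨Q, hQm, hQd⟩ := intermediate_value_Icc h03 hc hd'
  refine ⟨Q, lt_of_le_of_ne hQm.1 fun h0 => ?_, hQd⟩
  rw [← h0, hD0] at hQd
  exact hd0.ne hQd


/-- **Exit shape of block C** (the hypotheses `hBA`, `hC` of `bs110_stiffness_of`): a function `φ` of the
filling with `φ (D Q) = E Q` for a chosen Fermi point, and its second order expansion at `Dinf`.
No injectivity of `D` is used. -/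
theorem c1x150_exit {D E : ℝ → ℝ} {Dinf Einf L : ℝ} (hDc : ContinuousOn D (Ici 0)) (hD0 : D 0 = 0)
    (hDlim : Tendsto D atTop (𝓝 Dinf)) (hDlt : ∀ Q, 0 ≤ Q → D Q < Dinf)
    (hlim : Tendsto (fun Q => (Einf - E Q) / (Dinf - D Q) ^ 2) atTop (𝓝 L)) :
    ∃ φ : ℝ → ℝ, (∀ d, 0 < d → d < Dinf → ∃ Q, 0 < Q ∧ D Q = d ∧ φ d = E Q) ∧
      ∀ ε : ℝ, 0 < ε → ∃ δ : ℝ, 0 < δ ∧ ∀ d, Dinf - δ < d → d < Dinf →
        |Einf - φ d - L * (Dinf - d) ^ 2| ≤ ε * (Dinf - d) ^ 2 := by
  classical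
  let φ : ℝ → ℝ := fun d => if h : ∃ Q, 0 < Q ∧ D Q = d then E h.choose else 0
  have hφ : ∀ d, 0 < d → d < Dinf → ∃ Q, 0 < Q ∧ D Q = d ∧ φ d = E Q := by
    intro d hd0 hd
    have hex := c1x150_surj hDc hD0 hDlim hd0 hd
    refine ⟨hex.choose, hex.choose_spec.1, hex.choose_spec.2, ?_⟩
    show (if h : ∃ Q, 0 < Q ∧ D Q = d then E h.choose else 0) = _
    rw [dif_pos hex]
  refine ⟨φ, hφ, fun ε hε => ?_⟩
  obtain ⟨Q₀, hQ₀⟩ := eventually_atTop.1 ((Metric.tendsto_nhds.1 hlim) ε hε)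
  set Q₁ := max Q₀ 0 with hQ₁
  have hQ₁0 : 0 ≤ Q₁ := le_max_right _ _
  have hc : ContinuousOn D (Icc 0 Q₁) := hDc.mono fun x hx => hx.1
  obtain ⟨Qs, hQs, hmax⟩ := isCompact_Icc.exists_isMaxOn (nonempty_Icc.2 hQ₁0) hc
  have hlt := hDlt Qs hQs.1
  refine ⟨Dinf - D Qs, by linarith, fun d hd1 hd2 => ?_⟩
  have hd1' : D Qs < d := by linarith
  have hd0 : 0 < d := by
    have : D 0 ≤ D Qs := hmax (⟨le_rfl, hQ₁0⟩ : (0 : ℝ) ∈ Icc 0 Q₁)
    rw [hD0] at this
    linarith
  obtain ⟨Q, hQ0, hQd, hQφ⟩ := hφ d hd0 hd2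
  have hQbig : Q₁ < Q := by
    by_contra hcon
    have : D Q ≤ D Qs := hmax (⟨hQ0.le, not_lt.1 hcon⟩ : Q ∈ Icc 0 Q₁)
    rw [hQd] at this
    linarith
  have h1 := hQ₀ Q ((le_max_left _ _).trans hQbig.le)
  rw [Real.dist_eq, hQd] at h1
  have hpos : 0 < (Dinf - d) ^ 2 := by
    have : 0 < Dinf - d := by linarith
    positivity
  rw [hQφ]
  have e : Einf - E Q - L * (Dinf - d) ^ 2
      = ((Einf - E Q) / (Dinf - d) ^ 2 - L) * (Dinf - d) ^ 2 := by
    rw [sub_mul, div_mul_cancel₀ _ hpos.ne']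
  rw [e, abs_mul, abs_of_pos hpos]
  exact mul_le_mul_of_nonneg_right h1.le hpos.le


/-! ### `D(Q) → Dinf` -/

theorem c1x150_tail_tendsto {g : ℝ → ℝ} (hg : Integrable g) :
    Tendsto (fun Q : ℝ => ∫ u in (Icc (-Q) Q)ᶜ, g u) atTop (𝓝 0) := by
  have h1 : Tendsto (fun Q : ℝ => ∫ u in (-Q)..Q, g u) atTop (𝓝 (∫ u, g u)) :=
    intervalIntegral_tendsto_integral hg tendsto_neg_atTop_atBot tendsto_id
  have h2 : Tendsto (fun Q : ℝ => (∫ u, g u) - ∫ u in (-Q)..Q, g u) atTop (𝓝 0) := by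
    have := h1.const_sub (∫ u, g u)
    simpa using this
  refine h2.congr' ?_
  filter_upwards [eventually_ge_atTop (0 : ℝ)] with Q hQ
  rw [intervalIntegral.integral_of_le (by linarith), ← integral_Icc_eq_integral_Ioc,
    ← integral_add_compl (measurableSet_Icc (a := -Q) (b := Q)) hg]
  ring

/-- `L¹` control of `r_Q` outside `[-Q,Q]` by the tail of `r_∞`. -/
theorem c1x150_rQ_out_le {K s R rinf eps e0 : ℝ → ℝ} {h C : ℝ} (H : C1x150Ker K s h C)
    (G : C1x150Res K s R rinf eps e0) {τ : ℝ} (hτ : ∫ w, |R w| ≤ τ) (hτ1 : τ < 1)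
    (hri : Integrable rinf) (Q : ℝ) :
    ∫ u in (Icc (-Q) Q)ᶜ, |c1x150_rQ K s Q u| ≤ (∫ u in (Icc (-Q) Q)ᶜ, |rinf u|) / (1 - τ) := by
  refine c1x150_L1_apriori (K := fun w => - R w) G.R_int.neg (h := τ) (by simpa using hτ) hτ1
    measurableSet_Icc.compl (c1x150_rQ_integrable H Q).integrableOn hri.integrableOn
    (fun u _ => ?_)
  rw [c1x150_op_ker_neg]
  linarith [c1x150_rQ_complement H G Q u]

theorem c1x150_Dq_tendsto {K s R rinf eps e0 : ℝ → ℝ} {h C : ℝ} (H : C1x150Ker K s h C)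
    (G : C1x150Res K s R rinf eps e0) {τ : ℝ} (hτ : ∫ w, |R w| ≤ τ) (hτ1 : τ < 1)
    (hri : Integrable rinf) :
    Tendsto (c1x150_Dq K s) atTop (𝓝 ((1 - ∫ w, R w) * ∫ u, s u)) := by
  set Z := 1 - ∫ w, R w with hZ
  have ht := c1x150_tail_tendsto hri.abs
  have hb : Tendsto (fun Q : ℝ => 2 * |Z| * ((∫ u in (Icc (-Q) Q)ᶜ, |rinf u|) / (1 - τ))) atTop
      (𝓝 0) := by
    have := (ht.div_const (1 - τ)).const_mul (2 * |Z|)
    simpa using this
  rw [tendsto_iff_dist_tendsto_zero]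
  refine squeeze_zero' (Eventually.of_forall fun Q => dist_nonneg) ?_ hb
  filter_upwards [eventually_ge_atTop (0 : ℝ)] with Q hQ
  rw [Real.dist_eq, abs_sub_comm, c1x150_hD H G Q hQ, abs_mul, abs_mul]
  have h1 : |∫ y in Ioi Q, c1x150_rQ K s Q y| ≤ ∫ u in (Icc (-Q) Q)ᶜ, |c1x150_rQ K s Q u| := by
    calc |∫ y in Ioi Q, c1x150_rQ K s Q y| ≤ ∫ y in Ioi Q, |c1x150_rQ K s Q y| :=
          abs_integral_le_integral_abs
      _ ≤ ∫ u in (Icc (-Q) Q)ᶜ, |c1x150_rQ K s Q u| := by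
          refine setIntegral_mono_set (c1x150_rQ_integrable H Q).abs.integrableOn
            (Eventually.of_forall fun u => abs_nonneg _) (LE.le.eventuallyLE ?_)
          rw [c1x150_compl_Icc]
          exact subset_union_right
  have h2 := c1x150_rQ_out_le H G hτ hτ1 hri Q
  rw [abs_of_pos (two_pos : (0 : ℝ) < 2)]
  exact mul_le_mul_of_nonneg_left (h1.trans h2) (by positivity)


/-- `D` is strictly increasing as soon as `r_Q` and `H_Q` are positive. -/
theorem c1x150_Dq_strictMonoOn {K s : ℝ → ℝ} {h C : ℝ} (H : C1x150Ker K s h C)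
    (hr : ∀ Q u, 0 < c1x150_rQ K s Q u) (hH : ∀ Q u, 0 < c1x150_HQ K Q u) :
    StrictMonoOn (c1x150_Dq K s) (Ici 0) := by
  intro Q hQ Q' _ hQQ'
  have hQ0 : (0 : ℝ) ≤ Q := hQ
  have h1 := c1x150_Dq_diff H hQQ'.le
  have hi : IntegrableOn (fun u => c1x150_rQ K s Q u * c1x150_HQ K Q' u)
      (Icc (-Q') Q' \ Icc (-Q) Q) :=
    (((c1x150_rQ_continuous H Q).mul
      (c1x150_HQ_continuous H Q')).continuousOn.integrableOn_Icc).mono_set sdiff_subset
  have hv : 0 < volume (Icc (-Q') Q' \ Icc (-Q) Q) := by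
    have h2 := c1x150_vol_diff hQ0 hQQ'.le
    rcases eq_or_ne (volume (Icc (-Q') Q' \ Icc (-Q) Q)) 0 with h0 | h0
    · rw [Measure.real, h0] at h2
      simp only [ENNReal.toReal_zero] at h2
      linarith
    · exact pos_iff_ne_zero.2 h0
  have h3 : 0 < ∫ u in Icc (-Q') Q' \ Icc (-Q) Q, c1x150_rQ K s Q u * c1x150_HQ K Q' u := by
    rw [setIntegral_pos_iff_support_of_nonneg_ae
      (Eventually.of_forall fun u => (mul_pos (hr Q u) (hH Q' u)).le) hi]
    have : Function.support (fun u => c1x150_rQ K s Q u * c1x150_HQ K Q' u) = univ := by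
      ext u; simp [(hr Q u).ne', (hH Q' u).ne']
    rw [this, univ_inter]
    exact hv
  linarith

end

end Claimed.Agent.R292
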