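/-
R292 / unit BETHE (block BA5/BA6 input).  Pen: 230.  Prefix `ba230_`.  Mathlib + Ba6H200 (200) + C1x150 (150), 0 sorry.

FOURIER LAYER OF THE BETHE KERNELS.
  xi_mu(x) = sin mu / (cosh x - cos mu),   0 < mu < 2 pi
(the derivative of the momentum function k; the two-body kernel is K = xi_{2 mu}; sech = xi_{pi/2}).

Sec. 1  Beta integral: B(1+i tau, 1-i tau) = int e^{i tau y} sigma(y)(1-sigma(y)) dy = pi tau / sinh(pi tau).
Sec. 2  horizontal contour shift on a strip (`ba230_shift`).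
Sec. 3  the strip function e^{-itz}/(1-cosh z) on -2 pi < Im z < 0.
Sec. 4  `ba230_fourier_xi` : int e^{-itx} xi_mu(x) dx = 2 pi sinh((pi-mu)t)/sinh(pi t)   (t != 0).
Sec. 5  product form for all t (`ba230_fourier_xi_mul`), mass `ba230_integral_xi` : int xi_mu = 2(pi-mu).
Sec. 6  paper-290 normalisation: `ba230_ker a u = sin a/(pi(cosh 2u - cos a))`, `ba230_rho lam u = 1/(2 lam cosh(pi u/lam))`:
        `ba230_ker_integrable`, `ba230_ker_integral`, `ba230_ker_fourier`, `ba230_rho_integrable`, `ba230_rho_fourier`,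
        `ba230_rho_integral`, `ba230_fourier_sech`.
Sec. 7  `ba230_ft f w = int e^{iwu} f(u) du`, `ba230_conv K f u = int K(u-v) f(v) dv`: `ba230_ft_unique`, `ba230_ft_conv`.
Sec. 8  `ba230_conv_identity` (master lemma);  (E2) `ba230_rho_solves` : rho + K*rho = s   (0 < lam < pi).
Sec. 9  (E4) `ba230_R lam = J * rho` for 0 < lam < 2 pi/3: `_R_integrable _R_continuous _R_bdd _R_even _R_integral
        _R_nonneg _R_nonpos _R_norm _R_norm_lt` (int |R| < 1/2).
Sec. 10 `ba230_R_resolvent` : R + K*R = K;  `ba230_rho_eq_sub` : rho + R*s = s.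
Sec. 11 `ba230_E a u = (1/2) log((cosh 2u - cos a)/(cosh 2u - 1))`: `ba230_E_eq_integral` (= (pi/2) int_0^a ker), `ba230_E_integrable`,
        `ba230_ft_E` (Fubini in the angle).
Sec. 12 (E3) `ba230_e0 lam = E (2 lam)`, `ba230_eps lam u = E pi (pi u/(2 lam)) = log coth` (`ba230_eps_eq`):
        `ba230_eps_solves` : eps + K*eps = e0 (u != 0);  `ba230_eps_eq_sub` : eps + R*e0 = e0 (u != 0).
Sec. 13 `ba230_rho_edge` : rho(l) e^{kap l} -> 1/lam;  `ba230_eps_edge` : eps(l) e^{kap l} -> 2  (kap = pi/lam);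
        `ba230_rho_edge_bound`, `ba230_eps_eq_artanh`, measurability.
Sec. 14 `ba230_R_rescale` (for 210), `ba230_asym` = `ba6h200_asym` (pen 200) instantiated: limit pi - lam.
Sec. 15 truncated equation f + K 1_[-Q,Q] f = s (operator `c1x150_op` of pen 150): `ba230_sol_integrable`, `ba230_sol_bdd`,
        `ba230_comp` : rho + R 1_{|y|>Q} f = f  (COMPLEMENT FORM, by the Fourier master lemma).
Sec. 16 `ba230_rQ_exists`, `ba230_sol_even`, `ba230_sol_unique`, `ba230_sol_pos` (0 < r_Q, both signs of K).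
Sec. 17 `ba230_mass_id`, `ba230_energy_id`, `ba230_comp'`, and
        **`ba230_ASYM`** : (int rho e0 - int_{-Q}^{Q} r_Q e0)/(1/2 - int_{-Q}^{Q} r_Q)^2 -> pi - lam  for every family of continuous solutions.
Sec. 18 `ba230_Ker`, `ba230_Res` (structures C1x150Ker / C1x150Res of 150), `ba230_out_bound`, `ba230_D_tendsto` (D -> 1/2),
        **`ba230_C_exit`** = `c1x150_exit` instantiated: phi(d) with |Einf - phi d - (pi-lam)(1/2-d)^2| <= eps (1/2-d)^2.
Sec. 20 **`ba230_t2`** = contract `ba_t2` of Bethe/Thermo.lean (116); `ba230_t1_part` = 4 of the 6 conjuncts of `ba_t1`; `ba230_Dq_lt`.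
Sec. 19 `ba230_dens` (the four fields of Bh271Dens for the canonical r_Q), `ba230_D_interval`, `ba230_Phi_interval`, `ba230_dens_unique`.
-/
import Mathlib
import Claimed.Agent.R292.Bethe.Ba6H200
import Claimed.Agent.R292.Bethe.C1x150

set_option autoImplicit false
open MeasureTheory Filter Topology Set Complex
open scoped FourierTransform Convolution

namespace Claimed.Agent.R292

lemma ba230_logit_sigmoid (y : ℝ) :
    Real.log (Real.sigmoid y) - Real.log (1 - Real.sigmoid y) = y := by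
  have h1 : 1 - Real.sigmoid y = Real.sigmoid (-y) := by rw [Real.sigmoid_neg]
  rw [h1, Real.sigmoid_def, Real.sigmoid_def, neg_neg, Real.log_inv, Real.log_inv]
  have h2 : 1 + Real.exp y = Real.exp y * (1 + Real.exp (-y)) := by
    rw [mul_add, ← Real.exp_add]; simp [add_comm]
  rw [h2, Real.log_mul (Real.exp_pos y).ne' (by positivity), Real.log_exp]
  ring

lemma ba230_beta_eq (τ : ℝ) :
    Complex.betaIntegral (1 + τ * I) (1 - τ * I) =
      ∫ y : ℝ, cexp (τ * y * I) * ((Real.sigmoid y * (1 - Real.sigmoid y) : ℝ) : ℂ) := by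
  unfold Complex.betaIntegral
  rw [intervalIntegral.integral_of_le zero_le_one, integral_Ioc_eq_integral_Ioo,
    ← Real.range_sigmoid, ← image_univ,
    integral_image_eq_integral_abs_deriv_smul MeasurableSet.univ
      (fun x _ => (Real.hasDerivAt_sigmoid x).hasDerivWithinAt) Real.sigmoid_injective.injOn]
  rw [Measure.restrict_univ]
  refine integral_congr_ae (Eventually.of_forall fun y => ?_)
  have hs := Real.sigmoid_pos y
  have hs1 : 0 < 1 - Real.sigmoid y := sub_pos.2 (Real.sigmoid_lt_one y)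
  have e1 : ((Real.sigmoid y : ℝ) : ℂ) ^ ((1 + τ * I) - 1 : ℂ)
      = cexp ((Real.log (Real.sigmoid y) : ℝ) * (τ * I)) := by
    rw [Complex.cpow_def_of_ne_zero (by exact_mod_cast hs.ne'), ← Complex.ofReal_log hs.le]
    congr 1; ring
  have e2 : (1 - ((Real.sigmoid y : ℝ) : ℂ)) ^ ((1 - τ * I) - 1 : ℂ)
      = cexp (-((Real.log (1 - Real.sigmoid y) : ℝ) * (τ * I))) := by
    have : (1 - ((Real.sigmoid y : ℝ) : ℂ)) = ((1 - Real.sigmoid y : ℝ) : ℂ) := by push_cast; ring
    rw [this, Complex.cpow_def_of_ne_zero (by exact_mod_cast hs1.ne'), ← Complex.ofReal_log hs1.le]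
    congr 1; ring
  simp only []
  rw [e1, e2, ← Complex.exp_add, abs_of_pos (mul_pos hs hs1), Complex.real_smul, mul_comm]
  congr 2
  have := ba230_logit_sigmoid y
  have h3 : ((Real.log (Real.sigmoid y) : ℝ) : ℂ) - ((Real.log (1 - Real.sigmoid y) : ℝ) : ℂ) = (y : ℂ) := by
    exact_mod_cast this
  linear_combination (τ * I) * h3

lemma ba230_beta_val (τ : ℝ) (hτ : τ ≠ 0) :
    Complex.betaIntegral (1 + τ * I) (1 - τ * I) = (Real.pi * τ / Real.sinh (Real.pi * τ) : ℝ) := by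
  have h1 := Complex.Gamma_mul_Gamma_eq_betaIntegral (s := 1 + τ * I) (t := 1 - τ * I)
    (by simp) (by simp)
  have h2 : (1 + τ * I : ℂ) + (1 - τ * I) = 1 + 1 := by ring
  have hG2 : Complex.Gamma (1 + 1) = 1 := by
    rw [Complex.Gamma_add_one 1 one_ne_zero, Complex.Gamma_one, mul_one]
  rw [h2, hG2, one_mul] at h1
  rw [← h1]
  have hτI : (-(τ * I) : ℂ) ≠ 0 := by
    simp [hτ]
  have h3 : Complex.Gamma (1 - τ * I) = (-(τ * I)) * Complex.Gamma (-(τ * I)) := by
    rw [← Complex.Gamma_add_one _ hτI]; congr 1; ring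
  have h4 := Complex.Gamma_mul_Gamma_one_sub (1 + τ * I)
  have h5 : (1 : ℂ) - (1 + τ * I) = -(τ * I) := by ring
  rw [h5] at h4
  have h6 : Complex.sin (Real.pi * (1 + τ * I)) = -(Complex.sinh (Real.pi * τ) * I) := by
    have : (Real.pi * (1 + τ * I) : ℂ) = (Real.pi * τ) * I + Real.pi := by ring
    rw [this, Complex.sin_add_pi, Complex.sin_mul_I]
  rw [h3, mul_left_comm, h4, h6]
  have hsh : Real.sinh (Real.pi * τ) ≠ 0 := by
    rw [Ne, Real.sinh_eq_zero]; exact mul_ne_zero Real.pi_ne_zero hτ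
  have hshC : Complex.sinh (Real.pi * τ) ≠ 0 := by
    have : Complex.sinh (Real.pi * τ) = ((Real.sinh (Real.pi * τ) : ℝ) : ℂ) := by push_cast; rfl
    rw [this]; exact_mod_cast hsh
  push_cast
  field_simp

lemma ba230_sigmoid_mul (y : ℝ) :
    Real.sigmoid y * (1 - Real.sigmoid y) = 1 / (2 * (1 + Real.cosh y)) := by
  have h1 : 1 - Real.sigmoid y = Real.sigmoid (-y) := by rw [Real.sigmoid_neg]
  rw [h1, Real.sigmoid_def, Real.sigmoid_def, neg_neg, Real.cosh_eq, ← mul_inv, one_div]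
  congr 1
  have : Real.exp (-y) * Real.exp y = 1 := by rw [← Real.exp_add]; simp
  nlinarith

/-- Fourier transform of `1/(1+cosh x)`. -/
lemma ba230_fourier_base (t : ℝ) (ht : t ≠ 0) :
    ∫ x : ℝ, cexp (-(I * t * x)) / (1 + Complex.cosh x)
      = ((2 * Real.pi * t / Real.sinh (Real.pi * t) : ℝ) : ℂ) := by
  have h1 := ba230_beta_eq (-t)
  rw [ba230_beta_val (-t) (neg_ne_zero.2 ht)] at h1
  have h2 : ∀ x : ℝ, cexp (-(I * t * x)) / (1 + Complex.cosh x)
      = 2 * (cexp (((-t : ℝ) : ℂ) * x * I) * ((Real.sigmoid x * (1 - Real.sigmoid x) : ℝ) : ℂ)) := by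
    intro x
    rw [ba230_sigmoid_mul]
    have h3 : (1 + Complex.cosh x) = ((1 + Real.cosh x : ℝ) : ℂ) := by push_cast; rfl
    have h4 : (1 + Real.cosh x : ℝ) ≠ 0 := by have := Real.cosh_pos x; linarith
    have h5 : ((1 + Real.cosh x : ℝ) : ℂ) ≠ 0 := by exact_mod_cast h4
    have h6 : (-(I * t * x) : ℂ) = ((-t : ℝ) : ℂ) * x * I := by push_cast; ring
    rw [h3, h6]
    push_cast
    push_cast at h5
    field_simp
  simp_rw [h2]
  rw [integral_const_mul, ← h1]
  have : Real.sinh (Real.pi * -t) = - Real.sinh (Real.pi * t) := by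
    rw [mul_neg, Real.sinh_neg]
  rw [this]
  have hsh : Real.sinh (Real.pi * t) ≠ 0 := by
    rw [Ne, Real.sinh_eq_zero]; exact mul_ne_zero Real.pi_ne_zero ht
  have hshC : ((Real.sinh (Real.pi * t) : ℝ) : ℂ) ≠ 0 := by exact_mod_cast hsh
  push_cast
  push_cast at hshC
  field_simp

lemma ba230_integrable_exp_abs {κ : ℝ} (hκ : 0 < κ) :
    Integrable (fun x : ℝ => Real.exp (-κ * |x|)) := by
  rw [← integrableOn_univ, ← Iic_union_Ioi (a := (0:ℝ))]
  refine IntegrableOn.union ?_ ?_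
  · refine (integrableOn_exp_mul_Iic hκ 0).congr_fun (fun x hx => ?_) measurableSet_Iic
    simp only [mem_Iic] at hx
    simp only [abs_of_nonpos hx]; congr 1; ring
  · refine (integrableOn_exp_mul_Ioi (neg_lt_zero.2 hκ) 0).congr_fun (fun x hx => ?_) measurableSet_Ioi
    simp only [mem_Ioi] at hx
    simp only [abs_of_pos hx]

/-- integrability along a horizontal line of a strip. -/
lemma ba230_line_integrable (G : ℂ → ℂ) (a b : ℝ) (C κ : ℝ) (hκ : 0 < κ)
    (hd : ContinuousOn G {z : ℂ | z.im ∈ Icc a b})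
    (hb : ∀ z : ℂ, z.im ∈ Icc a b → ‖G z‖ ≤ C * Real.exp (-κ * |z.re|))
    (y : ℝ) (hy : y ∈ Icc a b) :
    Integrable (fun x : ℝ => G (x + y * I)) := by
  have hc : Continuous (fun x : ℝ => G (x + y * I)) := by
    refine hd.comp_continuous (by fun_prop) (fun x => ?_)
    simpa using hy
  refine Integrable.mono' ((ba230_integrable_exp_abs hκ).const_mul C) hc.aestronglyMeasurable
    (Eventually.of_forall fun x => ?_)
  have := hb (x + y * I) (by simpa using hy)
  simpa using this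

/-- **Horizontal contour shift.**  A function holomorphic on a closed horizontal strip and
exponentially small at both ends has the same integral along all horizontal lines. -/
theorem ba230_shift (G : ℂ → ℂ) (a b : ℝ) (hab : a ≤ b) (C κ : ℝ) (hκ : 0 < κ)
    (hd : DifferentiableOn ℂ G {z : ℂ | z.im ∈ Icc a b})
    (hb : ∀ z : ℂ, z.im ∈ Icc a b → ‖G z‖ ≤ C * Real.exp (-κ * |z.re|)) :
    ∫ x : ℝ, G (x + a * I) = ∫ x : ℝ, G (x + b * I) := by
  have hia := ba230_line_integrable G a b C κ hκ hd.continuousOn hb a (left_mem_Icc.2 hab)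
  have hib := ba230_line_integrable G a b C κ hκ hd.continuousOn hb b (right_mem_Icc.2 hab)
  have hta : Tendsto (fun R : ℝ => ∫ x in (-R)..R, G (x + a * I)) atTop
      (𝓝 (∫ x : ℝ, G (x + a * I))) :=
    intervalIntegral_tendsto_integral hia tendsto_neg_atTop_atBot tendsto_id
  have htb : Tendsto (fun R : ℝ => ∫ x in (-R)..R, G (x + b * I)) atTop
      (𝓝 (∫ x : ℝ, G (x + b * I))) :=
    intervalIntegral_tendsto_integral hib tendsto_neg_atTop_atBot tendsto_id
  -- the vertical sides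
  have hv : ∀ R : ℝ, ∀ s : ℝ, |s| = |R| → ‖∫ y in a..b, G (s + y * I)‖
      ≤ C * Real.exp (-κ * |R|) * |b - a| := by
    intro R s hs
    refine intervalIntegral.norm_integral_le_of_norm_le_const (fun y hy => ?_)
    rw [uIoc_of_le hab] at hy
    have := hb (s + y * I) (by simpa using ⟨hy.1.le, hy.2⟩)
    simpa [hs] using this
  have hrect : ∀ R : ℝ, (∫ x in (-R)..R, G (x + a * I)) - (∫ x in (-R)..R, G (x + b * I))
      = I • (∫ y in a..b, G ((-R : ℝ) + y * I)) - I • (∫ y in a..b, G ((R : ℝ) + y * I)) := by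
    intro R
    have := Complex.integral_boundary_rect_eq_zero_of_differentiableOn G
      (⟨-R, a⟩ : ℂ) (⟨R, b⟩ : ℂ) (hd.mono (fun z hz => by
        have := hz.2
        simp only [uIcc_of_le hab] at this
        exact this))
    simp only at this
    linear_combination this
  have hzero : Tendsto (fun R : ℝ => I • (∫ y in a..b, G ((-R : ℝ) + y * I))
      - I • (∫ y in a..b, G ((R : ℝ) + y * I))) atTop (𝓝 0) := by
    have hE : Tendsto (fun R : ℝ => 2 * (C * Real.exp (-κ * |R|) * |b - a|)) atTop (𝓝 0) := by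
      have h1 : Tendsto (fun R : ℝ => Real.exp (-κ * |R|)) atTop (𝓝 0) := by
        refine Real.tendsto_exp_atBot.comp ?_
        have : Tendsto (fun R : ℝ => κ * |R|) atTop atTop :=
          (tendsto_abs_atTop_atTop).const_mul_atTop hκ
        have h2 := tendsto_neg_atTop_atBot.comp this
        refine h2.congr (fun R => ?_)
        simp [neg_mul]
      have := ((h1.const_mul C).mul_const |b - a|).const_mul 2
      simpa using this
    refine squeeze_zero_norm (fun R => ?_) hE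
    calc ‖I • (∫ y in a..b, G ((-R : ℝ) + y * I)) - I • (∫ y in a..b, G ((R : ℝ) + y * I))‖
        ≤ ‖I • (∫ y in a..b, G ((-R : ℝ) + y * I))‖ + ‖I • (∫ y in a..b, G ((R : ℝ) + y * I))‖ :=
          norm_sub_le _ _
      _ = ‖∫ y in a..b, G ((-R : ℝ) + y * I)‖ + ‖∫ y in a..b, G ((R : ℝ) + y * I)‖ := by
          simp
      _ ≤ C * Real.exp (-κ * |R|) * |b - a| + C * Real.exp (-κ * |R|) * |b - a| :=
          add_le_add (hv R (-R) (abs_neg R)) (hv R R rfl)
      _ = 2 * (C * Real.exp (-κ * |R|) * |b - a|) := by ring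
  have hlim := hta.sub htb
  simp only [hrect] at hlim
  have := tendsto_nhds_unique hlim hzero
  exact sub_eq_zero.1 this

lemma ba230_cosh_add_mul_I (x y : ℝ) :
    Complex.cosh (x + y * I) = ((Real.cosh x * Real.cos y : ℝ) : ℂ)
      + ((Real.sinh x * Real.sin y : ℝ) : ℂ) * I := by
  rw [Complex.cosh_add, Complex.cosh_mul_I, Complex.sinh_mul_I]
  push_cast
  ring

lemma ba230_norm_one_sub_cosh (x y : ℝ) :
    ‖1 - Complex.cosh (x + y * I)‖ = Real.cosh x - Real.cos y := by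
  have h0 : 0 ≤ Real.cosh x - Real.cos y := by
    have := Real.one_le_cosh x; have := Real.cos_le_one y; linarith
  have h1 : ‖1 - Complex.cosh (x + y * I)‖ ^ 2 = (Real.cosh x - Real.cos y) ^ 2 := by
    rw [Complex.sq_norm, ba230_cosh_add_mul_I, Complex.normSq_apply]
    simp only [Complex.sub_re, Complex.one_re, Complex.add_re, Complex.ofReal_re, Complex.mul_re,
      Complex.I_re, Complex.ofReal_im, Complex.I_im, Complex.sub_im, Complex.one_im, Complex.add_im,
      Complex.mul_im]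
    have hc := Real.cosh_sq x
    have hs := Real.sin_sq_add_cos_sq y
    nlinarith [hc, hs]
  exact (pow_left_inj₀ (norm_nonneg _) h0 two_ne_zero).1 h1

lemma ba230_cos_lt_one {y : ℝ} (h1 : -(2 * Real.pi) < y) (h2 : y < 0) : Real.cos y < 1 := by
  refine lt_of_le_of_ne (Real.cos_le_one y) (fun h => ?_)
  have := (Real.cos_eq_one_iff_of_lt_of_lt h1 (by linarith [Real.pi_pos])).1 h
  linarith

lemma ba230_half_exp_abs_le_cosh (x : ℝ) : Real.exp |x| / 2 ≤ Real.cosh x := by
  rw [← Real.cosh_abs x, Real.cosh_eq]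
  have := Real.exp_pos (-|x|)
  linarith

/-- uniform lower bound of `cosh x - cos y` on a compact sub-strip of `(-2π, 0)`. -/
lemma ba230_strip_lower (a b : ℝ) (hab : a ≤ b) (ha : -(2 * Real.pi) < a) (hb : b < 0) :
    ∃ η : ℝ, 0 < η ∧ ∀ x y : ℝ, y ∈ Icc a b → η * Real.exp |x| ≤ Real.cosh x - Real.cos y := by
  obtain ⟨y0, hy0, hmax⟩ := (isCompact_Icc (a := a) (b := b)).exists_isMaxOn
    (nonempty_Icc.2 hab) Real.continuous_cos.continuousOn
  have hc0 : Real.cos y0 < 1 := ba230_cos_lt_one (by linarith [hy0.1]) (by linarith [hy0.2])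
  set c1 : ℝ := max (Real.cos y0) 0 with hc1
  have hc1lt : c1 < 1 := max_lt hc0 one_pos
  have hc1nn : 0 ≤ c1 := le_max_right _ _
  refine ⟨(1 - c1) / 2, by linarith, fun x y hy => ?_⟩
  have h1 : Real.cos y ≤ c1 := le_trans (hmax hy) (le_max_left _ _)
  have h2 := ba230_half_exp_abs_le_cosh x
  have h3 := Real.one_le_cosh x
  have h4 : (1 - c1) * (Real.exp |x| / 2) ≤ (1 - c1) * Real.cosh x :=
    mul_le_mul_of_nonneg_left h2 (by linarith)
  nlinarith

/-- the integrand on the strip -/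
noncomputable def ba230_G (t : ℝ) (z : ℂ) : ℂ := cexp (-(I * t * z)) / (1 - Complex.cosh z)

lemma ba230_G_shift (t a b : ℝ) (hab : a ≤ b) (ha : -(2 * Real.pi) < a) (hb : b < 0) :
    ∫ x : ℝ, ba230_G t (x + a * I) = ∫ x : ℝ, ba230_G t (x + b * I) := by
  obtain ⟨η, hη, hlow⟩ := ba230_strip_lower a b hab ha hb
  have hne : ∀ z : ℂ, z.im ∈ Icc a b → 1 - Complex.cosh z ≠ 0 := by
    intro z hz h
    have h1 := ba230_norm_one_sub_cosh z.re z.im
    rw [Complex.re_add_im, h, norm_zero] at h1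
    have h2 := hlow z.re z.im hz
    have := mul_pos hη (Real.exp_pos |z.re|)
    linarith
  refine ba230_shift (ba230_G t) a b hab (Real.exp (|t| * (2 * Real.pi)) / η) 1 one_pos ?_ ?_
  · intro z hz
    refine DifferentiableAt.differentiableWithinAt ?_
    unfold ba230_G
    refine DifferentiableAt.div (by fun_prop) (by fun_prop) (hne z hz)
  · intro z hz
    unfold ba230_G
    rw [norm_div, Complex.norm_exp]
    have h1 := ba230_norm_one_sub_cosh z.re z.im
    rw [Complex.re_add_im] at h1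
    rw [h1]
    have h2 := hlow z.re z.im hz
    have h3 : (-(I * t * z)).re = t * z.im := by
      simp [Complex.mul_re, Complex.mul_im]
    rw [h3]
    have h4 : t * z.im ≤ |t| * (2 * Real.pi) := by
      have : |z.im| ≤ 2 * Real.pi := by
        rw [abs_le]; constructor <;> linarith [hz.1, hz.2, Real.pi_pos]
      calc t * z.im ≤ |t * z.im| := le_abs_self _
        _ = |t| * |z.im| := abs_mul _ _
        _ ≤ |t| * (2 * Real.pi) := mul_le_mul_of_nonneg_left this (abs_nonneg _)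
    have h5 : 0 < η * Real.exp |z.re| := mul_pos hη (Real.exp_pos _)
    calc Real.exp (t * z.im) / (Real.cosh z.re - Real.cos z.im)
        ≤ Real.exp (|t| * (2 * Real.pi)) / (η * Real.exp |z.re|) :=
          div_le_div₀ (Real.exp_pos _).le (Real.exp_le_exp.2 h4) h5 h2
      _ = Real.exp (|t| * (2 * Real.pi)) / η * Real.exp (-1 * |z.re|) := by
          rw [neg_one_mul, Real.exp_neg]; field_simp

/-- The Bethe kernel `ξ_μ(x) = sin μ / (cosh x - cos μ)`. -/
noncomputable def ba230_xi (μ x : ℝ) : ℝ := Real.sin μ / (Real.cosh x - Real.cos μ)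

lemma ba230_den_lower {μ : ℝ} (h0 : 0 < μ) (h1 : μ < 2 * Real.pi) :
    ∃ η : ℝ, 0 < η ∧ ∀ x : ℝ, η * Real.exp |x| ≤ Real.cosh x - Real.cos μ := by
  obtain ⟨η, hη, h⟩ := ba230_strip_lower (-μ) (-μ) le_rfl (by linarith) (by linarith)
  refine ⟨η, hη, fun x => ?_⟩
  have := h x (-μ) ⟨le_rfl, le_rfl⟩
  rwa [Real.cos_neg] at this

lemma ba230_den_pos {μ : ℝ} (h0 : 0 < μ) (h1 : μ < 2 * Real.pi) (x : ℝ) :
    0 < Real.cosh x - Real.cos μ := by
  obtain ⟨η, hη, h⟩ := ba230_den_lower h0 h1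
  exact lt_of_lt_of_le (mul_pos hη (Real.exp_pos _)) (h x)

lemma ba230_G_line (t μ x : ℝ) :
    ba230_G t (x + ((-μ : ℝ) : ℂ) * I)
      = (Real.exp (-(t * μ)) : ℝ) * (cexp (-(I * t * x)) / (1 - Complex.cosh (x + ((-μ : ℝ) : ℂ) * I))) := by
  unfold ba230_G
  have : (-(I * t * (x + ((-μ : ℝ) : ℂ) * I)) : ℂ) = ((-(t * μ) : ℝ) : ℂ) + (-(I * t * x)) := by
    push_cast
    linear_combination ((t : ℂ) * μ) * Complex.I_mul_I
  rw [this, Complex.exp_add, Complex.ofReal_exp]
  ring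

/-- all horizontal lines of the strip `(-2π,0)` compared with the middle line. -/
lemma ba230_A_eq (t μ : ℝ) (h0 : 0 < μ) (h1 : μ < 2 * Real.pi) (ht : t ≠ 0) :
    ∫ x : ℝ, cexp (-(I * t * x)) / (1 - Complex.cosh (x + ((-μ : ℝ) : ℂ) * I))
      = (Real.exp (t * (μ - Real.pi)) : ℝ) * ((2 * Real.pi * t / Real.sinh (Real.pi * t) : ℝ) : ℂ) := by
  have hsh : ∫ x : ℝ, ba230_G t (x + ((-μ : ℝ) : ℂ) * I)
      = ∫ x : ℝ, ba230_G t (x + ((-Real.pi : ℝ) : ℂ) * I) := by
    rcases le_total μ Real.pi with h | h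
    · exact (ba230_G_shift t (-Real.pi) (-μ) (by linarith) (by linarith [Real.pi_pos])
        (by linarith)).symm
    · exact ba230_G_shift t (-μ) (-Real.pi) (by linarith) (by linarith) (by linarith [Real.pi_pos])
  simp_rw [ba230_G_line] at hsh
  rw [integral_const_mul, integral_const_mul] at hsh
  have hpi : ∀ x : ℝ, (1 - Complex.cosh (x + ((-Real.pi : ℝ) : ℂ) * I)) = 1 + Complex.cosh x := by
    intro x
    rw [ba230_cosh_add_mul_I]
    simp
  simp_rw [hpi] at hsh
  rw [ba230_fourier_base t ht] at hsh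
  have he : ((Real.exp (-(t * μ)) : ℝ) : ℂ) ≠ 0 := by exact_mod_cast (Real.exp_pos _).ne'
  have h2 : (Real.exp (t * (μ - Real.pi)) : ℝ) = Real.exp (-(t * Real.pi)) / Real.exp (-(t * μ)) := by
    rw [← Real.exp_sub]; congr 1; ring
  rw [h2, Complex.ofReal_div, div_mul_eq_mul_div, eq_div_iff he, mul_comm, hsh]

/-- derivative of the kernel -/
noncomputable def ba230_xi' (μ x : ℝ) : ℝ :=
  -(Real.sin μ * Real.sinh x) / (Real.cosh x - Real.cos μ) ^ 2

lemma ba230_xi_hasDerivAt {μ : ℝ} (h0 : 0 < μ) (h1 : μ < 2 * Real.pi) (x : ℝ) :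
    HasDerivAt (ba230_xi μ) (ba230_xi' μ x) x := by
  have h := (hasDerivAt_const x (Real.sin μ)).div ((Real.hasDerivAt_cosh x).sub_const (Real.cos μ))
    (ba230_den_pos h0 h1 x).ne'
  have h2 : HasDerivAt (ba230_xi μ) ((0 * (Real.cosh x - Real.cos μ) - Real.sin μ * Real.sinh x)
      / (Real.cosh x - Real.cos μ) ^ 2) x := h
  convert h2 using 1
  unfold ba230_xi'
  ring

lemma ba230_xi_continuous {μ : ℝ} (h0 : 0 < μ) (h1 : μ < 2 * Real.pi) : Continuous (ba230_xi μ) :=
  continuous_iff_continuousAt.2 fun x => (ba230_xi_hasDerivAt h0 h1 x).continuousAt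

lemma ba230_xi_abs_le {μ : ℝ} (h0 : 0 < μ) (h1 : μ < 2 * Real.pi) :
    ∃ C : ℝ, ∀ x : ℝ, |ba230_xi μ x| ≤ C * Real.exp (-1 * |x|) := by
  obtain ⟨η, hη, h⟩ := ba230_den_lower h0 h1
  refine ⟨1 / η, fun x => ?_⟩
  unfold ba230_xi
  rw [abs_div, abs_of_pos (ba230_den_pos h0 h1 x)]
  have h5 : 0 < η * Real.exp |x| := mul_pos hη (Real.exp_pos _)
  calc |Real.sin μ| / (Real.cosh x - Real.cos μ) ≤ 1 / (η * Real.exp |x|) :=
        div_le_div₀ zero_le_one (Real.abs_sin_le_one μ) h5 (h x)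
    _ = 1 / η * Real.exp (-1 * |x|) := by
        rw [neg_one_mul, Real.exp_neg]; field_simp

lemma ba230_xi_integrable {μ : ℝ} (h0 : 0 < μ) (h1 : μ < 2 * Real.pi) :
    Integrable (ba230_xi μ) := by
  obtain ⟨C, hC⟩ := ba230_xi_abs_le h0 h1
  exact Integrable.mono' ((ba230_integrable_exp_abs one_pos).const_mul C)
    (ba230_xi_continuous h0 h1).aestronglyMeasurable (Eventually.of_forall fun x => by
      simpa using hC x)

lemma ba230_line_int (t μ : ℝ) (h0 : 0 < μ) (h1 : μ < 2 * Real.pi) :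
    Integrable (fun x : ℝ => cexp (-(I * t * x)) / (1 - Complex.cosh (x + ((-μ : ℝ) : ℂ) * I))) := by
  obtain ⟨η, hη, h⟩ := ba230_den_lower h0 h1
  have hnorm : ∀ x : ℝ, ‖1 - Complex.cosh (x + ((-μ : ℝ) : ℂ) * I)‖ = Real.cosh x - Real.cos μ := by
    intro x; rw [ba230_norm_one_sub_cosh, Real.cos_neg]
  have hne : ∀ x : ℝ, 1 - Complex.cosh (x + ((-μ : ℝ) : ℂ) * I) ≠ 0 := by
    intro x hx
    have := hnorm x
    rw [hx, norm_zero] at this
    linarith [ba230_den_pos h0 h1 x]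
  have hc : Continuous (fun x : ℝ => cexp (-(I * t * x)) / (1 - Complex.cosh (x + ((-μ : ℝ) : ℂ) * I))) :=
    Continuous.div (by fun_prop) (by fun_prop) hne
  refine Integrable.mono' ((ba230_integrable_exp_abs one_pos).const_mul (1 / η))
    hc.aestronglyMeasurable (Eventually.of_forall fun x => ?_)
  rw [norm_div, hnorm, Complex.norm_exp]
  have h3 : (-(I * t * x) : ℂ).re = 0 := by simp [Complex.mul_re, Complex.mul_im]
  rw [h3, Real.exp_zero]
  have h5 : 0 < η * Real.exp |x| := mul_pos hη (Real.exp_pos _)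
  calc 1 / (Real.cosh x - Real.cos μ) ≤ 1 / (η * Real.exp |x|) :=
        div_le_div₀ zero_le_one le_rfl h5 (h x)
    _ = 1 / η * Real.exp (-1 * |x|) := by
        rw [neg_one_mul, Real.exp_neg]; field_simp

lemma ba230_xi'_decomp {μ : ℝ} (h0 : 0 < μ) (h1 : μ < 2 * Real.pi) (x : ℝ) :
    ((ba230_xi' μ x : ℝ) : ℂ) = (1 / (2 * I)) *
      (1 / (1 - Complex.cosh (x + ((-μ : ℝ) : ℂ) * I))
        - 1 / (1 - Complex.cosh (x + ((-(2 * Real.pi - μ) : ℝ) : ℂ) * I))) := by
  have hD := (ba230_den_pos h0 h1 x).ne'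
  rw [ba230_cosh_add_mul_I, ba230_cosh_add_mul_I]
  have c1 : Real.cos (-(2 * Real.pi - μ)) = Real.cos μ := by
    rw [Real.cos_neg, Real.cos_two_pi_sub]
  have s1 : Real.sin (-(2 * Real.pi - μ)) = Real.sin μ := by
    rw [Real.sin_neg, Real.sin_two_pi_sub, neg_neg]
  rw [c1, s1, Real.cos_neg, Real.sin_neg]
  set ch := Real.cosh x with hch
  set sh := Real.sinh x with hsh
  set c := Real.cos μ with hc
  set s := Real.sin μ with hs
  have e1 : ch ^ 2 = sh ^ 2 + 1 := Real.cosh_sq x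
  have e2 : s ^ 2 + c ^ 2 = 1 := Real.sin_sq_add_cos_sq μ
  have hprod : (1 - (((ch * c : ℝ) : ℂ) + ((sh * -s : ℝ) : ℂ) * I)) *
      (1 - (((ch * c : ℝ) : ℂ) + ((sh * s : ℝ) : ℂ) * I)) = (((ch - c) ^ 2 : ℝ) : ℂ) := by
    have e1' : (ch : ℂ) ^ 2 = (sh : ℂ) ^ 2 + 1 := by exact_mod_cast e1
    have e2' : (s : ℂ) ^ 2 + (c : ℂ) ^ 2 = 1 := by exact_mod_cast e2
    push_cast
    linear_combination (-(sh : ℂ) ^ 2 * (s : ℂ) ^ 2) * Complex.I_mul_I + ((c:ℂ)^2 - 1) * e1' + ((sh : ℂ)^2 ) * e2'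
  have hDC : (((ch - c) ^ 2 : ℝ) : ℂ) ≠ 0 := by exact_mod_cast pow_ne_zero 2 hD
  have hw1 : (1 - (((ch * c : ℝ) : ℂ) + ((sh * -s : ℝ) : ℂ) * I)) ≠ 0 := by
    intro h; rw [h, zero_mul] at hprod; exact hDC hprod.symm
  have hw2 : (1 - (((ch * c : ℝ) : ℂ) + ((sh * s : ℝ) : ℂ) * I)) ≠ 0 := by
    intro h; rw [h, mul_zero] at hprod; exact hDC hprod.symm
  rw [div_sub_div _ _ hw1 hw2, hprod]
  unfold ba230_xi'
  rw [← hch, ← hsh, ← hc, ← hs]
  push_cast
  push_cast at hDC
  field_simp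
  ring

lemma ba230_char_mul_integrable (t : ℝ) {f : ℝ → ℂ} (hf : Integrable f) :
    Integrable (fun x : ℝ => cexp (-(I * t * x)) * f x) := by
  refine hf.bdd_mul (c := 1) (Continuous.aestronglyMeasurable (by fun_prop))
    (Eventually.of_forall fun x => ?_)
  rw [Complex.norm_exp]
  have h3 : (-(I * t * x) : ℂ).re = 0 := by simp [Complex.mul_re, Complex.mul_im]
  rw [h3, Real.exp_zero]

lemma ba230_fourier_xi' (t μ : ℝ) (h0 : 0 < μ) (h1 : μ < 2 * Real.pi) (ht : t ≠ 0) :
    (Integrable fun x : ℝ => cexp (-(I * t * x)) * ((ba230_xi' μ x : ℝ) : ℂ)) ∧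
    ∫ x : ℝ, cexp (-(I * t * x)) * ((ba230_xi' μ x : ℝ) : ℂ)
      = I * ((2 * Real.pi * t / Real.sinh (Real.pi * t) * Real.sinh ((Real.pi - μ) * t) : ℝ) : ℂ) := by
  have h0' : 0 < 2 * Real.pi - μ := by linarith
  have h1' : 2 * Real.pi - μ < 2 * Real.pi := by linarith
  have i1 := ba230_line_int t μ h0 h1
  have i2 := ba230_line_int t (2 * Real.pi - μ) h0' h1'
  have hfun : (fun x : ℝ => cexp (-(I * t * x)) * ((ba230_xi' μ x : ℝ) : ℂ))
      = fun x : ℝ => (1 / (2 * I)) *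
        (cexp (-(I * t * x)) / (1 - Complex.cosh (x + ((-μ : ℝ) : ℂ) * I))
        - cexp (-(I * t * x)) / (1 - Complex.cosh (x + ((-(2 * Real.pi - μ) : ℝ) : ℂ) * I))) := by
    funext x
    rw [ba230_xi'_decomp h0 h1 x]
    ring
  refine ⟨by rw [hfun]; exact (i1.sub i2).const_mul _, ?_⟩
  rw [hfun, integral_const_mul, integral_sub i1 i2, ba230_A_eq t μ h0 h1 ht,
    ba230_A_eq t (2 * Real.pi - μ) h0' h1' ht]
  have e1 : t * (2 * Real.pi - μ - Real.pi) = (Real.pi - μ) * t := by ring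
  have e2 : t * (μ - Real.pi) = -((Real.pi - μ) * t) := by ring
  rw [e1, e2, Real.sinh_eq ((Real.pi - μ) * t)]
  set B : ℝ := 2 * Real.pi * t / Real.sinh (Real.pi * t)
  set E1 : ℝ := Real.exp ((Real.pi - μ) * t)
  set E2 : ℝ := Real.exp (-((Real.pi - μ) * t))
  push_cast
  have hI : (I : ℂ) ≠ 0 := Complex.I_ne_zero
  field_simp
  linear_combination (-(B : ℂ) * (E1 - E2)) * Complex.I_sq

/-- **Fourier transform of the Bethe kernel.** -/
theorem ba230_fourier_xi (t μ : ℝ) (h0 : 0 < μ) (h1 : μ < 2 * Real.pi) (ht : t ≠ 0) :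
    ∫ x : ℝ, cexp (-(I * t * x)) * ((ba230_xi μ x : ℝ) : ℂ)
      = ((2 * Real.pi * Real.sinh ((Real.pi - μ) * t) / Real.sinh (Real.pi * t) : ℝ) : ℂ) := by
  obtain ⟨hi', hval⟩ := ba230_fourier_xi' t μ h0 h1 ht
  have hxiC : Integrable (fun x : ℝ => ((ba230_xi μ x : ℝ) : ℂ)) := (ba230_xi_integrable h0 h1).ofReal
  have hu : ∀ x : ℝ, HasDerivAt (fun x : ℝ => cexp (-(I * t * x)))
      (-(I * t) * cexp (-(I * t * x))) x := by
    intro x
    have h1 : HasDerivAt (fun z : ℂ => cexp (-(I * t * z))) (cexp (-(I * t * x)) * (-(I * t))) (x : ℂ) := by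
      have h2 : HasDerivAt (fun z : ℂ => -(I * t * z)) (-(I * t)) (x : ℂ) := by
        have h3 := ((hasDerivAt_id (x : ℂ)).const_mul (I * t)).neg
        rw [mul_one] at h3
        exact h3
      exact h2.cexp
    have h4 := h1.comp_ofReal
    rw [mul_comm (cexp _)] at h4
    exact h4
  have hv : ∀ x : ℝ, HasDerivAt (fun x : ℝ => ((ba230_xi μ x : ℝ) : ℂ)) ((ba230_xi' μ x : ℝ) : ℂ) x :=
    fun x => (ba230_xi_hasDerivAt h0 h1 x).ofReal_comp
  have hparts := integral_mul_deriv_eq_deriv_mul_of_integrable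
    (u := fun x : ℝ => cexp (-(I * t * x))) (u' := fun x : ℝ => -(I * t) * cexp (-(I * t * x)))
    (v := fun x : ℝ => ((ba230_xi μ x : ℝ) : ℂ)) (v' := fun x : ℝ => ((ba230_xi' μ x : ℝ) : ℂ))
    (fun x _ => hu x) (fun x _ => hv x) hi'
    (by
      have := (ba230_char_mul_integrable t hxiC).const_mul (-(I * t))
      refine this.congr (Eventually.of_forall fun x => ?_)
      simp only [Pi.mul_apply]; ring)
    (ba230_char_mul_integrable t hxiC)
  rw [hval] at hparts
  have h3 : ∫ x : ℝ, -(I * t) * cexp (-(I * t * x)) * ((ba230_xi μ x : ℝ) : ℂ)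
      = -(I * t) * ∫ x : ℝ, cexp (-(I * t * x)) * ((ba230_xi μ x : ℝ) : ℂ) := by
    rw [← integral_const_mul]; congr 1; funext x; ring
  rw [h3] at hparts
  set A := ∫ x : ℝ, cexp (-(I * t * x)) * ((ba230_xi μ x : ℝ) : ℂ)
  have htC : (t : ℂ) ≠ 0 := by exact_mod_cast ht
  have hI : (I : ℂ) ≠ 0 := Complex.I_ne_zero
  have h4 : (I * t) * A = (I * t) * ((2 * Real.pi * Real.sinh ((Real.pi - μ) * t) / Real.sinh (Real.pi * t) : ℝ) : ℂ) := by
    have : (I * t) * A = I * ((2 * Real.pi * t / Real.sinh (Real.pi * t) * Real.sinh ((Real.pi - μ) * t) : ℝ) : ℂ) := by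
      rw [hparts]; ring
    rw [this]
    push_cast
    ring
  exact mul_left_cancel₀ (mul_ne_zero hI htC) h4

/-! ## Sec. 5  all real `t`, total mass -/


/-- the Fourier transform of `ξ_μ` as a function of `t`. -/
noncomputable def ba230_F (μ t : ℝ) : ℂ := ∫ x : ℝ, cexp (-(I * t * x)) * ((ba230_xi μ x : ℝ) : ℂ)

lemma ba230_F_continuous {μ : ℝ} (h0 : 0 < μ) (h1 : μ < 2 * Real.pi) : Continuous (ba230_F μ) := by
  unfold ba230_F
  refine continuous_of_dominated (bound := fun x => |ba230_xi μ x|) (fun t => ?_) (fun t => ?_)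
    (ba230_xi_integrable h0 h1).abs (Eventually.of_forall fun x => by fun_prop)
  · exact (ba230_char_mul_integrable t (ba230_xi_integrable h0 h1).ofReal).aestronglyMeasurable
  · refine Eventually.of_forall fun x => ?_
    rw [norm_mul, Complex.norm_exp]
    have h3 : (-(I * t * x) : ℂ).re = 0 := by simp [Complex.mul_re, Complex.mul_im]
    rw [h3, Real.exp_zero, one_mul, Complex.norm_real, Real.norm_eq_abs]

lemma ba230_tendsto_sinh_div (c : ℝ) :
    Tendsto (fun t : ℝ => Real.sinh (c * t) / t) (𝓝[≠] 0) (𝓝 c) := by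
  have h : HasDerivAt (fun t : ℝ => Real.sinh (c * t)) c 0 := by
    have h1 : HasDerivAt (fun t : ℝ => c * t) c 0 := by
      simpa using (hasDerivAt_id (0 : ℝ)).const_mul c
    have h2 := h1.sinh
    simpa using h2
  have := h.tendsto_slope_zero
  refine this.congr (fun t => ?_)
  simp [div_eq_inv_mul]

/-- product form, valid for every real `t`. -/
theorem ba230_fourier_xi_mul (t μ : ℝ) (h0 : 0 < μ) (h1 : μ < 2 * Real.pi) :
    ((Real.sinh (Real.pi * t) : ℝ) : ℂ) * ba230_F μ t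
      = ((2 * Real.pi * Real.sinh ((Real.pi - μ) * t) : ℝ) : ℂ) := by
  rcases eq_or_ne t 0 with rfl | ht
  · simp
  · unfold ba230_F
    rw [ba230_fourier_xi t μ h0 h1 ht]
    have hsh : Real.sinh (Real.pi * t) ≠ 0 := by
      rw [Ne, Real.sinh_eq_zero]; exact mul_ne_zero Real.pi_ne_zero ht
    rw [← Complex.ofReal_mul]
    congr 1
    field_simp

/-- **total mass of the kernel.** -/
theorem ba230_integral_xi {μ : ℝ} (h0 : 0 < μ) (h1 : μ < 2 * Real.pi) :
    ∫ x : ℝ, ba230_xi μ x = 2 * (Real.pi - μ) := by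
  have hF0 : ba230_F μ 0 = ((∫ x : ℝ, ba230_xi μ x : ℝ) : ℂ) := by
    unfold ba230_F
    rw [← integral_complex_ofReal]
    simp
  have hlim1 : Tendsto (ba230_F μ) (𝓝[≠] 0) (𝓝 (ba230_F μ 0)) :=
    ((ba230_F_continuous h0 h1).tendsto 0).mono_left nhdsWithin_le_nhds
  have hlim2 : Tendsto (ba230_F μ) (𝓝[≠] 0) (𝓝 ((2 * (Real.pi - μ) : ℝ) : ℂ)) := by
    have ha := ba230_tendsto_sinh_div (Real.pi - μ)
    have hb := ba230_tendsto_sinh_div Real.pi
    have hq : Tendsto (fun t : ℝ => 2 * Real.pi * ((Real.sinh ((Real.pi - μ) * t) / t)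
        / (Real.sinh (Real.pi * t) / t))) (𝓝[≠] 0) (𝓝 (2 * Real.pi * ((Real.pi - μ) / Real.pi))) :=
      (ha.div hb Real.pi_ne_zero).const_mul _
    have hq2 : 2 * Real.pi * ((Real.pi - μ) / Real.pi) = 2 * (Real.pi - μ) := by
      field_simp
    rw [hq2] at hq
    have hq3 := (Complex.continuous_ofReal.tendsto _).comp hq
    refine hq3.congr' ?_
    filter_upwards [self_mem_nhdsWithin] with t ht
    have ht' : t ≠ 0 := ht
    unfold ba230_F
    rw [ba230_fourier_xi t μ h0 h1 ht']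
    simp only [Function.comp]
    congr 1
    have hsh : Real.sinh (Real.pi * t) ≠ 0 := by
      rw [Ne, Real.sinh_eq_zero]; exact mul_ne_zero Real.pi_ne_zero ht'
    field_simp
  have := tendsto_nhds_unique hlim1 hlim2
  rw [hF0] at this
  exact_mod_cast this

/-! ## Sec. 6  the normalisation of paper 290 (`ker`, `rho`), asked by 210 -/

lemma ba230_F_zero (μ : ℝ) : ba230_F μ 0 = ((∫ x : ℝ, ba230_xi μ x : ℝ) : ℂ) := by
  unfold ba230_F
  rw [← integral_complex_ofReal]
  simp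

/-- rescaled Fourier integral: `∫ e^{iwu} ξ_μ(r u) du = r⁻¹ F_μ(-w/r)` for `r > 0`. -/
lemma ba230_F_scale (μ w r : ℝ) (hr : 0 < r) :
    ∫ u : ℝ, cexp (I * w * u) * ((ba230_xi μ (r * u) : ℝ) : ℂ)
      = ((r⁻¹ : ℝ) : ℂ) * ba230_F μ (-(w / r)) := by
  have h := MeasureTheory.Measure.integral_comp_mul_left
    (fun x : ℝ => cexp (-(I * ((-(w / r) : ℝ) : ℂ) * x)) * ((ba230_xi μ x : ℝ) : ℂ)) r
  rw [abs_of_pos (inv_pos.2 hr), Complex.real_smul] at h
  unfold ba230_F
  rw [← h]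
  refine integral_congr_ae (Eventually.of_forall fun u => ?_)
  simp only []
  congr 2
  have hrC : (r : ℂ) ≠ 0 := by exact_mod_cast hr.ne'
  push_cast
  field_simp

/-- The kernel in the normalisation of paper 290 (eq. bare-kernels):
`ker a u = sin a / (π (cosh 2u - cos a))`; `s = ker λ`, `K = ker (2λ)`. -/
noncomputable def ba230_ker (a u : ℝ) : ℝ :=
  Real.sin a / (Real.pi * (Real.cosh (2 * u) - Real.cos a))

lemma ba230_ker_eq (a u : ℝ) : ba230_ker a u = Real.pi⁻¹ * ba230_xi a (2 * u) := by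
  unfold ba230_ker ba230_xi
  rw [div_mul_eq_div_div_swap, inv_mul_eq_div]

theorem ba230_ker_integrable {a : ℝ} (h0 : 0 < a) (h1 : a < 2 * Real.pi) :
    Integrable (ba230_ker a) := by
  have := ((ba230_xi_integrable h0 h1).comp_mul_left' (two_ne_zero)).const_mul Real.pi⁻¹
  exact this.congr (Eventually.of_forall fun u => (ba230_ker_eq a u).symm)

theorem ba230_ker_integral {a : ℝ} (h0 : 0 < a) (h1 : a < 2 * Real.pi) :
    ∫ u : ℝ, ba230_ker a u = 1 - a / Real.pi := by
  simp_rw [ba230_ker_eq]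
  rw [integral_const_mul, MeasureTheory.Measure.integral_comp_mul_left (ba230_xi a) 2,
    ba230_integral_xi h0 h1]
  have := Real.pi_ne_zero
  rw [abs_of_pos (by norm_num), smul_eq_mul]
  field_simp

theorem ba230_ker_fourier {a : ℝ} (h0 : 0 < a) (h1 : a < 2 * Real.pi) (w : ℝ) :
    ((Real.sinh (Real.pi * w / 2) : ℝ) : ℂ) * ∫ u : ℝ, cexp (I * w * u) * ((ba230_ker a u : ℝ) : ℂ)
      = ((Real.sinh ((Real.pi - a) * w / 2) : ℝ) : ℂ) := by
  have e : ∀ u : ℝ, cexp (I * w * u) * ((ba230_ker a u : ℝ) : ℂ)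
      = ((Real.pi⁻¹ : ℝ) : ℂ) * (cexp (I * w * u) * ((ba230_xi a (2 * u) : ℝ) : ℂ)) := by
    intro u; rw [ba230_ker_eq]; push_cast; ring
  simp_rw [e]
  rw [integral_const_mul, ba230_F_scale a w 2 two_pos]
  have h := ba230_fourier_xi_mul (-(w / 2)) a h0 h1
  have e1 : Real.sinh (Real.pi * -(w / 2)) = - Real.sinh (Real.pi * w / 2) := by
    rw [← Real.sinh_neg]; congr 1; ring
  have e2 : Real.sinh ((Real.pi - a) * -(w / 2)) = - Real.sinh ((Real.pi - a) * w / 2) := by
    rw [← Real.sinh_neg]; congr 1; ring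
  rw [e1, e2] at h
  have hpi : ((Real.pi : ℝ) : ℂ) ≠ 0 := by exact_mod_cast Real.pi_ne_zero
  set S := ((Real.sinh (Real.pi * w / 2) : ℝ) : ℂ)
  set T := ((Real.sinh ((Real.pi - a) * w / 2) : ℝ) : ℂ) with hT
  set Fv := ba230_F a (-(w / 2))
  have h' : -S * Fv = 2 * (Real.pi : ℂ) * (-T) := by
    have : ((2 * Real.pi * -Real.sinh ((Real.pi - a) * w / 2) : ℝ) : ℂ) = 2 * (Real.pi : ℂ) * (-T) := by
      rw [hT]; push_cast; ring
    rw [← this, ← h, Complex.ofReal_neg]
  push_cast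
  field_simp
  linear_combination (-1 : ℂ) * h'

/-- sech: `cosh(π s/2) F_{π/2}(s) = π` for every real `s`. -/
theorem ba230_fourier_sech (s : ℝ) :
    ((Real.cosh (Real.pi * s / 2) : ℝ) : ℂ) * ba230_F (Real.pi / 2) s = (Real.pi : ℂ) := by
  have h0 : (0 : ℝ) < Real.pi / 2 := by positivity
  have h1 : Real.pi / 2 < 2 * Real.pi := by linarith [Real.pi_pos]
  rcases eq_or_ne s 0 with rfl | hs
  · rw [ba230_F_zero, ba230_integral_xi h0 h1]
    simp
    ring
  · have h := ba230_fourier_xi_mul s (Real.pi / 2) h0 h1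
    have e1 : Real.sinh (Real.pi * s) = 2 * Real.sinh (Real.pi * s / 2) * Real.cosh (Real.pi * s / 2) := by
      rw [← Real.sinh_two_mul]; congr 1; ring
    have e2 : (Real.pi - Real.pi / 2) * s = Real.pi * s / 2 := by ring
    rw [e1, e2] at h
    have hsh : Real.sinh (Real.pi * s / 2) ≠ 0 := by
      rw [Ne, Real.sinh_eq_zero]
      have := mul_ne_zero Real.pi_ne_zero hs
      intro h; apply this; linarith
    have hshC : ((Real.sinh (Real.pi * s / 2) : ℝ) : ℂ) ≠ 0 := by exact_mod_cast hsh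
    have h2 : (2 * ((Real.sinh (Real.pi * s / 2) : ℝ) : ℂ)) *
        (((Real.cosh (Real.pi * s / 2) : ℝ) : ℂ) * ba230_F (Real.pi / 2) s)
        = (2 * ((Real.sinh (Real.pi * s / 2) : ℝ) : ℂ)) * (Real.pi : ℂ) := by
      have := h
      push_cast at this ⊢
      linear_combination this
    exact mul_left_cancel₀ (mul_ne_zero two_ne_zero hshC) h2

/-- the half-filling density, normalisation of paper 290. -/
noncomputable def ba230_rho (lam u : ℝ) : ℝ := 1 / (2 * lam * Real.cosh (Real.pi * u / lam))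

lemma ba230_rho_eq (lam u : ℝ) :
    ba230_rho lam u = (2 * lam)⁻¹ * ba230_xi (Real.pi / 2) (Real.pi / lam * u) := by
  unfold ba230_rho ba230_xi
  rw [Real.sin_pi_div_two, Real.cos_pi_div_two, sub_zero, one_div, mul_inv, one_div]
  congr 3
  ring

theorem ba230_rho_integrable {lam : ℝ} (hl : 0 < lam) : Integrable (ba230_rho lam) := by
  have h0 : (0 : ℝ) < Real.pi / 2 := by positivity
  have h1 : Real.pi / 2 < 2 * Real.pi := by linarith [Real.pi_pos]
  have := ((ba230_xi_integrable h0 h1).comp_mul_left'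
    (R := Real.pi / lam) (by positivity)).const_mul (2 * lam)⁻¹
  exact this.congr (Eventually.of_forall fun u => (ba230_rho_eq lam u).symm)

theorem ba230_rho_fourier {lam : ℝ} (hl : 0 < lam) (w : ℝ) :
    (2 * ((Real.cosh (lam * w / 2) : ℝ) : ℂ)) * ∫ u : ℝ, cexp (I * w * u) * ((ba230_rho lam u : ℝ) : ℂ)
      = 1 := by
  have e : ∀ u : ℝ, cexp (I * w * u) * ((ba230_rho lam u : ℝ) : ℂ)
      = (((2 * lam)⁻¹ : ℝ) : ℂ) * (cexp (I * w * u) * ((ba230_xi (Real.pi / 2) (Real.pi / lam * u) : ℝ) : ℂ)) := by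
    intro u; rw [ba230_rho_eq]; push_cast; ring
  simp_rw [e]
  rw [integral_const_mul, ba230_F_scale (Real.pi / 2) w (Real.pi / lam) (by positivity)]
  have h := ba230_fourier_sech (-(w / (Real.pi / lam)))
  have e1 : Real.cosh (Real.pi * -(w / (Real.pi / lam)) / 2) = Real.cosh (lam * w / 2) := by
    rw [← Real.cosh_neg]; congr 1
    have := Real.pi_ne_zero
    field_simp
  rw [e1] at h
  have hpi : ((Real.pi : ℝ) : ℂ) ≠ 0 := by exact_mod_cast Real.pi_ne_zero
  have hlC : (lam : ℂ) ≠ 0 := by exact_mod_cast hl.ne'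
  set Cv := ((Real.cosh (lam * w / 2) : ℝ) : ℂ)
  set Fv := ba230_F (Real.pi / 2) (-(w / (Real.pi / lam)))
  push_cast
  field_simp
  linear_combination h

theorem ba230_rho_integral {lam : ℝ} (hl : 0 < lam) : ∫ u : ℝ, ba230_rho lam u = 1 / 2 := by
  have h := ba230_rho_fourier hl 0
  have e : ∀ u : ℝ, cexp (I * ((0 : ℝ) : ℂ) * u) * ((ba230_rho lam u : ℝ) : ℂ) = ((ba230_rho lam u : ℝ) : ℂ) := by
    intro u; simp
  simp_rw [e] at h
  rw [integral_complex_ofReal] at h
  have h2 : (2 : ℂ) * ((∫ u : ℝ, ba230_rho lam u : ℝ) : ℂ) = 1 := by simpa using h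
  have h3 : 2 * (∫ u : ℝ, ba230_rho lam u) = 1 := by exact_mod_cast h2
  linarith

/-! ## Sec. 7  Fourier uniqueness and the convolution theorem in the normalisation `∫ e^{iwu} f(u) du` -/


/-- Fourier transform in the normalisation `∫ e^{iwu} f(u) du` of a REAL function. -/
noncomputable def ba230_ft (f : ℝ → ℝ) (w : ℝ) : ℂ := ∫ u : ℝ, cexp (I * w * u) * ((f u : ℝ) : ℂ)

lemma ba230_ft_eq_fourier (f : ℝ → ℝ) (w : ℝ) :
    ba230_ft f w = 𝓕 (fun u : ℝ => ((f u : ℝ) : ℂ)) (-(w / (2 * Real.pi))) := by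
  rw [Real.fourier_real_eq_integral_exp_smul]
  unfold ba230_ft
  refine integral_congr_ae (Eventually.of_forall fun u => ?_)
  simp only [smul_eq_mul]
  congr 2
  have hpi : ((Real.pi : ℝ) : ℂ) ≠ 0 := by exact_mod_cast Real.pi_ne_zero
  push_cast
  field_simp

lemma ba230_norm_cexp_I (w u : ℝ) : ‖cexp (I * w * u)‖ = 1 := by
  rw [Complex.norm_exp]
  have h3 : (I * w * u : ℂ).re = 0 := by simp [Complex.mul_re, Complex.mul_im]
  rw [h3, Real.exp_zero]

lemma ba230_ft_integrable {f : ℝ → ℝ} (hf : Integrable f) (w : ℝ) :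
    Integrable (fun u : ℝ => cexp (I * w * u) * ((f u : ℝ) : ℂ)) := by
  refine hf.ofReal.bdd_mul (c := 1) (Continuous.aestronglyMeasurable (by fun_prop))
    (Eventually.of_forall fun u => (ba230_norm_cexp_I w u).le)

lemma ba230_ft_continuous {f : ℝ → ℝ} (hf : Integrable f) : Continuous (ba230_ft f) := by
  unfold ba230_ft
  refine continuous_of_dominated (bound := fun x => |f x|) (fun w => ?_) (fun w => ?_)
    hf.abs (Eventually.of_forall fun x => by fun_prop)
  · exact (ba230_ft_integrable hf w).aestronglyMeasurable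
  · refine Eventually.of_forall fun x => ?_
    rw [norm_mul, ba230_norm_cexp_I, one_mul, Complex.norm_real, Real.norm_eq_abs]

lemma ba230_ft_add {f g : ℝ → ℝ} (hf : Integrable f) (hg : Integrable g) (w : ℝ) :
    ba230_ft (fun u => f u + g u) w = ba230_ft f w + ba230_ft g w := by
  unfold ba230_ft
  rw [← integral_add (ba230_ft_integrable hf w) (ba230_ft_integrable hg w)]
  refine integral_congr_ae (Eventually.of_forall fun u => ?_)
  simp only []; push_cast; ring

lemma ba230_ft_sub {f g : ℝ → ℝ} (hf : Integrable f) (hg : Integrable g) (w : ℝ) :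
    ba230_ft (fun u => f u - g u) w = ba230_ft f w - ba230_ft g w := by
  unfold ba230_ft
  rw [← integral_sub (ba230_ft_integrable hf w) (ba230_ft_integrable hg w)]
  refine integral_congr_ae (Eventually.of_forall fun u => ?_)
  simp only []; push_cast; ring

lemma ba230_ft_const_mul (c : ℝ) (f : ℝ → ℝ) (w : ℝ) :
    ba230_ft (fun u => c * f u) w = c * ba230_ft f w := by
  unfold ba230_ft
  rw [← integral_const_mul]
  refine integral_congr_ae (Eventually.of_forall fun u => ?_)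
  simp only []; push_cast; ring

lemma ba230_ft_zero_eq (f : ℝ → ℝ) : ba230_ft f 0 = ((∫ u, f u : ℝ) : ℂ) := by
  unfold ba230_ft
  rw [← integral_complex_ofReal]
  simp

/-- scaling: `(f(r ·))^(w) = r⁻¹ f^(w/r)` for `r > 0`. -/
lemma ba230_ft_scale (f : ℝ → ℝ) (w r : ℝ) (hr : 0 < r) :
    ba230_ft (fun u => f (r * u)) w = ((r⁻¹ : ℝ) : ℂ) * ba230_ft f (w / r) := by
  have h := MeasureTheory.Measure.integral_comp_mul_left
    (fun x : ℝ => cexp (I * ((w / r : ℝ) : ℂ) * x) * ((f x : ℝ) : ℂ)) r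
  rw [abs_of_pos (inv_pos.2 hr), Complex.real_smul] at h
  unfold ba230_ft
  rw [← h]
  refine integral_congr_ae (Eventually.of_forall fun u => ?_)
  simp only []
  congr 2
  have hrC : (r : ℂ) ≠ 0 := by exact_mod_cast hr.ne'
  push_cast
  field_simp

/-- **Fourier uniqueness** at a continuity point; the transform need only vanish off `0`. -/
theorem ba230_ft_unique {f : ℝ → ℝ} (hf : Integrable f) (h0 : ∀ w : ℝ, w ≠ 0 → ba230_ft f w = 0)
    {u : ℝ} (hu : ContinuousAt f u) : f u = 0 := by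
  have hall : ∀ w : ℝ, ba230_ft f w = 0 := by
    intro w
    rcases eq_or_ne w 0 with rfl | hw
    · have h1 : Tendsto (ba230_ft f) (𝓝[≠] 0) (𝓝 (ba230_ft f 0)) :=
        ((ba230_ft_continuous hf).tendsto 0).mono_left nhdsWithin_le_nhds
      have h2 : Tendsto (ba230_ft f) (𝓝[≠] 0) (𝓝 0) := by
        refine tendsto_const_nhds.congr' ?_
        filter_upwards [self_mem_nhdsWithin] with w hw
        exact (h0 w hw).symm
      exact tendsto_nhds_unique h1 h2
    · exact h0 w hw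
  have hF : 𝓕 (fun u : ℝ => ((f u : ℝ) : ℂ)) = fun _ => 0 := by
    funext ξ
    have := hall (-(2 * Real.pi * ξ))
    rw [ba230_ft_eq_fourier] at this
    have e : -(-(2 * Real.pi * ξ) / (2 * Real.pi)) = ξ := by
      have := Real.pi_ne_zero
      field_simp
    rwa [e] at this
  have hinv := MeasureTheory.Integrable.fourierInv_fourier_eq (f := fun u : ℝ => ((f u : ℝ) : ℂ))
    hf.ofReal (by rw [hF]; exact integrable_zero _ _ _) (v := u)
    (Complex.continuous_ofReal.continuousAt.comp hu)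
  rw [hF] at hinv
  have hz : 𝓕⁻ (fun _ : ℝ => (0 : ℂ)) u = 0 := by
    rw [Real.fourierInv_eq]
    simp
  rw [hz] at hinv
  exact_mod_cast hinv.symm

/-- real convolution `(K * f)(u) = ∫ K(u-v) f(v) dv`. -/
noncomputable def ba230_conv (K f : ℝ → ℝ) (u : ℝ) : ℝ := ∫ v : ℝ, K (u - v) * f v

lemma ba230_conv_eq (K f : ℝ → ℝ) :
    ba230_conv K f = (f ⋆[ContinuousLinearMap.mul ℝ ℝ, volume] K) := by
  funext u
  unfold ba230_conv
  rw [MeasureTheory.convolution_def]
  refine integral_congr_ae (Eventually.of_forall fun v => ?_)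
  simp [mul_comm]

lemma ba230_conv_integrable {K f : ℝ → ℝ} (hK : Integrable K) (hf : Integrable f) :
    Integrable (ba230_conv K f) := by
  rw [ba230_conv_eq]
  exact hf.integrable_convolution _ hK

lemma ba230_conv_continuous {K f : ℝ → ℝ} (hKc : Continuous K) {B : ℝ} (hKb : ∀ u, |K u| ≤ B)
    (hf : Integrable f) : Continuous (ba230_conv K f) := by
  rw [ba230_conv_eq]
  refine BddAbove.continuous_convolution_right_of_integrable _ ⟨B, ?_⟩ hf hKc
  rintro _ ⟨u, rfl⟩
  simpa using hKb u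

lemma ba230_ft_conv {K f : ℝ → ℝ} (hK : Integrable K) (hf : Integrable f) (w : ℝ) :
    ba230_ft (ba230_conv K f) w = ba230_ft K w * ba230_ft f w := by
  rw [ba230_ft_eq_fourier, ba230_ft_eq_fourier, ba230_ft_eq_fourier]
  have h : 𝓕 ((fun x : ℝ => ((f x : ℝ) : ℂ)) ⋆[ContinuousLinearMap.mul ℂ ℂ, volume]
      fun x : ℝ => ((K x : ℝ) : ℂ)) (-(w / (2 * Real.pi)))
      = 𝓕 (fun x : ℝ => ((f x : ℝ) : ℂ)) (-(w / (2 * Real.pi)))
        * 𝓕 (fun x : ℝ => ((K x : ℝ) : ℂ)) (-(w / (2 * Real.pi))) :=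
    Real.fourier_mul_convolution_eq (R := ℂ) hf.ofReal hK.ofReal (-(w / (2 * Real.pi)))
  rw [mul_comm (𝓕 (fun u : ℝ => ((K u : ℝ) : ℂ)) _), ← h]
  have hfun : (fun u : ℝ => ((ba230_conv K f u : ℝ) : ℂ))
      = ((fun x : ℝ => ((f x : ℝ) : ℂ)) ⋆[ContinuousLinearMap.mul ℂ ℂ, volume]
      fun x : ℝ => ((K x : ℝ) : ℂ)) := by
    funext u
    unfold ba230_conv
    rw [MeasureTheory.convolution_def, ← integral_complex_ofReal]
    refine integral_congr_ae (Eventually.of_forall fun v => ?_)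
    simp [mul_comm]
  rw [hfun]

/-! ## Sec. 8  master lemma; (E2) `ρ + K * ρ = s` -/


/-- **Master lemma**: a convolution identity read off from its Fourier transform. -/
theorem ba230_conv_identity {A B C K : ℝ → ℝ} (hA : Integrable A) (hB : Integrable B)
    (hC : Integrable C) (hK : Integrable K) (hKc : Continuous K) {b : ℝ} (hKb : ∀ u, |K u| ≤ b)
    (hft : ∀ w : ℝ, w ≠ 0 → ba230_ft A w + ba230_ft K w * ba230_ft B w = ba230_ft C w)
    {u : ℝ} (hAu : ContinuousAt A u) (hCu : ContinuousAt C u) :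
    A u + ba230_conv K B u = C u := by
  have hconv := ba230_conv_integrable hK hB
  have hint : Integrable (fun u => (A u + ba230_conv K B u) - C u) := (hA.add hconv).sub hC
  have h0 : ∀ w : ℝ, w ≠ 0 → ba230_ft (fun u => (A u + ba230_conv K B u) - C u) w = 0 := by
    intro w hw
    have hsum : Integrable (fun u => A u + ba230_conv K B u) := hA.add hconv
    rw [ba230_ft_sub hsum hC, ba230_ft_add hA hconv, ba230_ft_conv hK hB, hft w hw, sub_self]
  have hcont : ContinuousAt (fun u => (A u + ba230_conv K B u) - C u) u :=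
    (hAu.add (ba230_conv_continuous hKc hKb hB).continuousAt).sub hCu
  have := ba230_ft_unique hint h0 hcont
  linarith

lemma ba230_ker_continuous {a : ℝ} (h0 : 0 < a) (h1 : a < 2 * Real.pi) : Continuous (ba230_ker a) := by
  have : ba230_ker a = fun u => Real.pi⁻¹ * ba230_xi a (2 * u) := funext (ba230_ker_eq a)
  rw [this]
  exact continuous_const.mul ((ba230_xi_continuous h0 h1).comp (by fun_prop))

lemma ba230_ker_bdd {a : ℝ} (h0 : 0 < a) (h1 : a < 2 * Real.pi) : ∃ b : ℝ, ∀ u, |ba230_ker a u| ≤ b := by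
  obtain ⟨C, hC⟩ := ba230_xi_abs_le h0 h1
  refine ⟨Real.pi⁻¹ * |C|, fun u => ?_⟩
  rw [ba230_ker_eq, abs_mul, abs_of_pos (inv_pos.2 Real.pi_pos)]
  refine mul_le_mul_of_nonneg_left ?_ (inv_pos.2 Real.pi_pos).le
  refine (hC (2 * u)).trans ?_
  have h2 : Real.exp (-1 * |2 * u|) ≤ 1 := by
    rw [Real.exp_le_one_iff]; have := abs_nonneg (2 * u); linarith
  calc C * Real.exp (-1 * |2 * u|) ≤ |C| * Real.exp (-1 * |2 * u|) :=
        mul_le_mul_of_nonneg_right (le_abs_self C) (Real.exp_pos _).le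
    _ ≤ |C| * 1 := mul_le_mul_of_nonneg_left h2 (abs_nonneg C)
    _ = |C| := mul_one _

lemma ba230_ker_even (a u : ℝ) : ba230_ker a (-u) = ba230_ker a u := by
  unfold ba230_ker
  rw [mul_neg, Real.cosh_neg]

lemma ba230_rho_even (lam u : ℝ) : ba230_rho lam (-u) = ba230_rho lam u := by
  unfold ba230_rho
  rw [mul_neg, neg_div, Real.cosh_neg]

lemma ba230_rho_pos {lam : ℝ} (hl : 0 < lam) (u : ℝ) : 0 < ba230_rho lam u := by
  unfold ba230_rho
  have := Real.cosh_pos (Real.pi * u / lam)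
  positivity

lemma ba230_rho_continuous {lam : ℝ} (hl : 0 < lam) : Continuous (ba230_rho lam) := by
  unfold ba230_rho
  refine Continuous.div continuous_const (by fun_prop) (fun u => ?_)
  have := Real.cosh_pos (Real.pi * u / lam)
  positivity

lemma ba230_ft_ker {a : ℝ} (h0 : 0 < a) (h1 : a < 2 * Real.pi) (w : ℝ) :
    ((Real.sinh (Real.pi * w / 2) : ℝ) : ℂ) * ba230_ft (ba230_ker a) w
      = ((Real.sinh ((Real.pi - a) * w / 2) : ℝ) : ℂ) := ba230_ker_fourier h0 h1 w

lemma ba230_ft_rho {lam : ℝ} (hl : 0 < lam) (w : ℝ) :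
    (2 * ((Real.cosh (lam * w / 2) : ℝ) : ℂ)) * ba230_ft (ba230_rho lam) w = 1 :=
  ba230_rho_fourier hl w

lemma ba230_sinh_add_sinh (lam w : ℝ) :
    Real.sinh (Real.pi * w / 2) + Real.sinh ((Real.pi - 2 * lam) * w / 2)
      = 2 * Real.sinh ((Real.pi - lam) * w / 2) * Real.cosh (lam * w / 2) := by
  have e1 : Real.pi * w / 2 = (Real.pi - lam) * w / 2 + lam * w / 2 := by ring
  have e2 : (Real.pi - 2 * lam) * w / 2 = (Real.pi - lam) * w / 2 - lam * w / 2 := by ring
  rw [e1, e2, Real.sinh_add, Real.sinh_sub]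
  ring

lemma ba230_sinh_ne {c w : ℝ} (hc : c ≠ 0) (hw : w ≠ 0) : ((Real.sinh (c * w / 2) : ℝ) : ℂ) ≠ 0 := by
  have : Real.sinh (c * w / 2) ≠ 0 := by
    rw [Ne, Real.sinh_eq_zero]
    have := mul_ne_zero hc hw
    intro h; apply this; linarith
  exact_mod_cast this

lemma ba230_cosh_ne (x : ℝ) : ((Real.cosh x : ℝ) : ℂ) ≠ 0 := by
  exact_mod_cast (Real.cosh_pos x).ne'

/-- **(E2)** the half-filling density solves the full-line equation `ρ + K * ρ = s`. -/
theorem ba230_rho_solves {lam : ℝ} (h0 : 0 < lam) (h1 : lam < Real.pi) (u : ℝ) :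
    ba230_rho lam u + ba230_conv (ba230_ker (2 * lam)) (ba230_rho lam) u = ba230_ker lam u := by
  have hK0 : 0 < 2 * lam := by linarith
  have hK1 : 2 * lam < 2 * Real.pi := by linarith
  have hs1 : lam < 2 * Real.pi := by linarith
  obtain ⟨b, hb⟩ := ba230_ker_bdd hK0 hK1
  refine ba230_conv_identity (ba230_rho_integrable h0) (ba230_rho_integrable h0)
    (ba230_ker_integrable h0 hs1) (ba230_ker_integrable hK0 hK1) (ba230_ker_continuous hK0 hK1) hb
    (fun w hw => ?_) (ba230_rho_continuous h0).continuousAt (ba230_ker_continuous h0 hs1).continuousAt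
  have hK := ba230_ft_ker hK0 hK1 w
  have hs := ba230_ft_ker h0 hs1 w
  have hr := ba230_ft_rho h0 w
  have hid : ((Real.sinh (Real.pi * w / 2) : ℝ) : ℂ) + ((Real.sinh ((Real.pi - 2 * lam) * w / 2) : ℝ) : ℂ)
      = 2 * ((Real.sinh ((Real.pi - lam) * w / 2) : ℝ) : ℂ) * ((Real.cosh (lam * w / 2) : ℝ) : ℂ) := by
    exact_mod_cast ba230_sinh_add_sinh lam w
  have hS := ba230_sinh_ne Real.pi_ne_zero hw
  have hc := ba230_cosh_ne (lam * w / 2)
  set S := ((Real.sinh (Real.pi * w / 2) : ℝ) : ℂ)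
  set Sk := ((Real.sinh ((Real.pi - 2 * lam) * w / 2) : ℝ) : ℂ)
  set Ss := ((Real.sinh ((Real.pi - lam) * w / 2) : ℝ) : ℂ)
  set c := ((Real.cosh (lam * w / 2) : ℝ) : ℂ)
  have hid' : S + Sk = 2 * Ss * c := hid
  set Kh := ba230_ft (ba230_ker (2 * lam)) w
  set sh := ba230_ft (ba230_ker lam) w
  set rh := ba230_ft (ba230_rho lam) w
  have : (2 * c * S) * (rh + Kh * rh) = (2 * c * S) * sh := by
    linear_combination (S + S * Kh) * hr + hK + (-2 * c) * hs + hid'
  exact mul_left_cancel₀ (mul_ne_zero (mul_ne_zero two_ne_zero hc) hS) this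

/-! ## Sec. 9  (E4) the resolvent kernel `R = J * ρ` -/


lemma ba230_conv_even {K f : ℝ → ℝ} (hK : ∀ u, K (-u) = K u) (hf : ∀ u, f (-u) = f u) (u : ℝ) :
    ba230_conv K f (-u) = ba230_conv K f u := by
  unfold ba230_conv
  rw [← integral_neg_eq_self (fun v => K (-u - v) * f v)]
  refine integral_congr_ae (Eventually.of_forall fun v => ?_)
  simp only []
  rw [hf, ← hK]
  congr 2
  ring

lemma ba230_conv_abs_le {K f : ℝ → ℝ} {b : ℝ} (hKb : ∀ u, |K u| ≤ b) (hf : Integrable f) (u : ℝ) :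
    |ba230_conv K f u| ≤ b * ∫ v, |f v| := by
  unfold ba230_conv
  rw [← integral_const_mul]
  refine (abs_integral_le_integral_abs).trans ?_
  refine integral_mono_of_nonneg (Eventually.of_forall fun v => abs_nonneg _) (hf.abs.const_mul b)
    (Eventually.of_forall fun v => ?_)
  simp only []
  rw [abs_mul]
  exact mul_le_mul_of_nonneg_right (hKb _) (abs_nonneg _)

lemma ba230_conv_nonneg {K f : ℝ → ℝ} (hK : ∀ u, 0 ≤ K u) (hf : ∀ u, 0 ≤ f u) (u : ℝ) :
    0 ≤ ba230_conv K f u :=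
  integral_nonneg fun _ => mul_nonneg (hK _) (hf _)

lemma ba230_conv_nonpos {K f : ℝ → ℝ} (hK : ∀ u, K u ≤ 0) (hf : ∀ u, 0 ≤ f u) (u : ℝ) :
    ba230_conv K f u ≤ 0 :=
  integral_nonpos fun _ => mul_nonpos_of_nonpos_of_nonneg (hK _) (hf _)

lemma ba230_conv_integral {K f : ℝ → ℝ} (hK : Integrable K) (hf : Integrable f) :
    ∫ u, ba230_conv K f u = (∫ u, K u) * ∫ u, f u := by
  have h := ba230_ft_conv hK hf 0
  rw [ba230_ft_zero_eq, ba230_ft_zero_eq, ba230_ft_zero_eq] at h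
  exact_mod_cast h

lemma ba230_ker_den_pos {a : ℝ} (h0 : 0 < a) (h1 : a < 2 * Real.pi) (u : ℝ) :
    0 < Real.pi * (Real.cosh (2 * u) - Real.cos a) :=
  mul_pos Real.pi_pos (ba230_den_pos h0 h1 (2 * u))

lemma ba230_ker_nonneg {a : ℝ} (h0 : 0 < a) (h1 : a ≤ Real.pi) (u : ℝ) : 0 ≤ ba230_ker a u := by
  unfold ba230_ker
  exact div_nonneg (Real.sin_nonneg_of_nonneg_of_le_pi h0.le h1)
    (ba230_ker_den_pos h0 (by linarith [Real.pi_pos]) u).le

lemma ba230_ker_nonpos {a : ℝ} (h0 : Real.pi ≤ a) (h1 : a < 2 * Real.pi) (u : ℝ) :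
    ba230_ker a u ≤ 0 := by
  unfold ba230_ker
  refine div_nonpos_of_nonpos_of_nonneg ?_ (ba230_ker_den_pos (by linarith [Real.pi_pos]) h1 u).le
  have : Real.sin a = - Real.sin (a - Real.pi) := by rw [Real.sin_sub_pi, neg_neg]
  rw [this]
  have := Real.sin_nonneg_of_nonneg_of_le_pi (x := a - Real.pi) (by linarith) (by linarith)
  linarith

/-- the scale `r = π/(π-λ)` and the angle `g = πλ/(π-λ)` of the strip of width `π-λ`. -/
noncomputable def ba230_r (lam : ℝ) : ℝ := Real.pi / (Real.pi - lam)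
noncomputable def ba230_g (lam : ℝ) : ℝ := Real.pi * lam / (Real.pi - lam)

/-- `J^(w) = sinh((π-2λ)w/2)/sinh((π-λ)w/2)`. -/
noncomputable def ba230_J (lam u : ℝ) : ℝ := ba230_r lam * ba230_ker (ba230_g lam) (ba230_r lam * u)

/-- **The resolvent kernel** `R = J * ρ`, `R^ = K^/(1+K^)`. -/
noncomputable def ba230_R (lam : ℝ) : ℝ → ℝ := ba230_conv (ba230_J lam) (ba230_rho lam)

section
variable {lam : ℝ} (h0 : 0 < lam) (h1 : lam < 2 * Real.pi / 3)
include h0 h1

lemma ba230_pl_pos : 0 < Real.pi - lam := by linarith [Real.pi_pos]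

lemma ba230_r_pos : 0 < ba230_r lam := div_pos Real.pi_pos (ba230_pl_pos h0 h1)

lemma ba230_g_pos : 0 < ba230_g lam := div_pos (mul_pos Real.pi_pos h0) (ba230_pl_pos h0 h1)

lemma ba230_g_lt : ba230_g lam < 2 * Real.pi := by
  unfold ba230_g
  rw [div_lt_iff₀ (ba230_pl_pos h0 h1)]
  nlinarith [Real.pi_pos]

lemma ba230_J_integrable : Integrable (ba230_J lam) :=
  ((ba230_ker_integrable (ba230_g_pos h0 h1) (ba230_g_lt h0 h1)).comp_mul_left'
    (ba230_r_pos h0 h1).ne').const_mul _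

lemma ba230_J_continuous : Continuous (ba230_J lam) :=
  continuous_const.mul ((ba230_ker_continuous (ba230_g_pos h0 h1) (ba230_g_lt h0 h1)).comp
    (by fun_prop))

lemma ba230_J_bdd : ∃ b : ℝ, ∀ u, |ba230_J lam u| ≤ b := by
  obtain ⟨b, hb⟩ := ba230_ker_bdd (ba230_g_pos h0 h1) (ba230_g_lt h0 h1)
  refine ⟨ba230_r lam * b, fun u => ?_⟩
  unfold ba230_J
  rw [abs_mul, abs_of_pos (ba230_r_pos h0 h1)]
  exact mul_le_mul_of_nonneg_left (hb _) (ba230_r_pos h0 h1).le

omit h0 h1 in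
lemma ba230_J_even (u : ℝ) : ba230_J lam (-u) = ba230_J lam u := by
  unfold ba230_J
  rw [mul_neg, ba230_ker_even]

lemma ba230_ft_J (w : ℝ) :
    ((Real.sinh ((Real.pi - lam) * w / 2) : ℝ) : ℂ) * ba230_ft (ba230_J lam) w
      = ((Real.sinh ((Real.pi - 2 * lam) * w / 2) : ℝ) : ℂ) := by
  have hr := ba230_r_pos h0 h1
  have hpl := ba230_pl_pos h0 h1
  have e0 : ba230_ft (ba230_J lam) w = ba230_ft (ba230_ker (ba230_g lam)) (w / ba230_r lam) := by
    unfold ba230_J
    rw [ba230_ft_const_mul, ba230_ft_scale _ _ _ hr, ← mul_assoc, ← Complex.ofReal_mul,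
      mul_inv_cancel₀ hr.ne', Complex.ofReal_one, one_mul]
  rw [e0]
  have h := ba230_ft_ker (ba230_g_pos h0 h1) (ba230_g_lt h0 h1) (w / ba230_r lam)
  have e1 : Real.pi * (w / ba230_r lam) / 2 = (Real.pi - lam) * w / 2 := by
    unfold ba230_r
    have := Real.pi_ne_zero
    field_simp
  have e2 : (Real.pi - ba230_g lam) * (w / ba230_r lam) / 2 = (Real.pi - 2 * lam) * w / 2 := by
    unfold ba230_r ba230_g
    have := Real.pi_ne_zero
    have := hpl.ne'
    field_simp
    ring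
  rw [e1, e2] at h
  exact h

lemma ba230_J_integral : ∫ u, ba230_J lam u = (Real.pi - 2 * lam) / (Real.pi - lam) := by
  have hr := ba230_r_pos h0 h1
  have hpl := ba230_pl_pos h0 h1
  unfold ba230_J
  rw [integral_const_mul, MeasureTheory.Measure.integral_comp_mul_left (ba230_ker (ba230_g lam)),
    ba230_ker_integral (ba230_g_pos h0 h1) (ba230_g_lt h0 h1), abs_of_pos (inv_pos.2 hr), smul_eq_mul,
    ← mul_assoc, mul_inv_cancel₀ hr.ne', one_mul]
  unfold ba230_g
  have := Real.pi_ne_zero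
  have := hpl.ne'
  field_simp
  ring

theorem ba230_R_integrable : Integrable (ba230_R lam) :=
  ba230_conv_integrable (ba230_J_integrable h0 h1) (ba230_rho_integrable h0)

theorem ba230_R_continuous : Continuous (ba230_R lam) := by
  obtain ⟨b, hb⟩ := ba230_J_bdd h0 h1
  exact ba230_conv_continuous (ba230_J_continuous h0 h1) hb (ba230_rho_integrable h0)

theorem ba230_R_bdd : ∃ b : ℝ, ∀ u, |ba230_R lam u| ≤ b := by
  obtain ⟨b, hb⟩ := ba230_J_bdd h0 h1
  exact ⟨_, ba230_conv_abs_le hb (ba230_rho_integrable h0)⟩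

omit h0 h1 in
theorem ba230_R_even (u : ℝ) : ba230_R lam (-u) = ba230_R lam u :=
  ba230_conv_even ba230_J_even (ba230_rho_even lam) u

theorem ba230_ft_R (w : ℝ) :
    ba230_ft (ba230_R lam) w = ba230_ft (ba230_J lam) w * ba230_ft (ba230_rho lam) w :=
  ba230_ft_conv (ba230_J_integrable h0 h1) (ba230_rho_integrable h0) w

theorem ba230_R_integral : ∫ u, ba230_R lam u = (Real.pi - 2 * lam) / (2 * (Real.pi - lam)) := by
  unfold ba230_R
  rw [ba230_conv_integral (ba230_J_integrable h0 h1) (ba230_rho_integrable h0),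
    ba230_J_integral h0 h1, ba230_rho_integral h0]
  have := (ba230_pl_pos h0 h1).ne'
  field_simp

theorem ba230_R_nonneg (h2 : lam ≤ Real.pi / 2) (u : ℝ) : 0 ≤ ba230_R lam u := by
  refine ba230_conv_nonneg (fun v => ?_) (fun v => (ba230_rho_pos h0 v).le) u
  unfold ba230_J
  refine mul_nonneg (ba230_r_pos h0 h1).le (ba230_ker_nonneg (ba230_g_pos h0 h1) ?_ _)
  unfold ba230_g
  rw [div_le_iff₀ (ba230_pl_pos h0 h1)]
  nlinarith [Real.pi_pos]

theorem ba230_R_nonpos (h2 : Real.pi / 2 ≤ lam) (u : ℝ) : ba230_R lam u ≤ 0 := by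
  refine ba230_conv_nonpos (fun v => ?_) (fun v => (ba230_rho_pos h0 v).le) u
  unfold ba230_J
  refine mul_nonpos_of_nonneg_of_nonpos (ba230_r_pos h0 h1).le
    (ba230_ker_nonpos ?_ (ba230_g_lt h0 h1) _)
  unfold ba230_g
  rw [le_div_iff₀ (ba230_pl_pos h0 h1)]
  nlinarith [Real.pi_pos]

/-- `‖R‖₁ = |π-2λ|/(2(π-λ))`. -/
theorem ba230_R_norm : ∫ u, |ba230_R lam u| = |Real.pi - 2 * lam| / (2 * (Real.pi - lam)) := by
  rcases le_total lam (Real.pi / 2) with h2 | h2
  · have : ∀ u, |ba230_R lam u| = ba230_R lam u := fun u => abs_of_nonneg (ba230_R_nonneg h0 h1 h2 u)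
    simp_rw [this]
    rw [ba230_R_integral h0 h1, abs_of_nonneg (by linarith)]
  · have : ∀ u, |ba230_R lam u| = -ba230_R lam u := fun u => abs_of_nonpos (ba230_R_nonpos h0 h1 h2 u)
    simp_rw [this]
    rw [integral_neg, ba230_R_integral h0 h1, abs_of_nonpos (by linarith), neg_div]

/-- `‖R‖₁ < 1/2` : this is exactly `λ < 2π/3`, i.e. `c > 1`. -/
theorem ba230_R_norm_lt : ∫ u, |ba230_R lam u| < 1 / 2 := by
  rw [ba230_R_norm h0 h1, div_lt_iff₀ (by have := ba230_pl_pos h0 h1; linarith), abs_lt]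
  constructor <;> linarith

end

/-! ## Sec. 10  resolvent identities `R + K * R = K`, `ρ + R * s = s` -/


section
variable {lam : ℝ} (h0 : 0 < lam) (h1 : lam < 2 * Real.pi / 3)
include h0 h1

/-- the four Fourier symbols at `w ≠ 0`, solved for. -/
lemma ba230_symbols {w : ℝ} (hw : w ≠ 0) :
    ∃ S Sk Ss c : ℂ, S ≠ 0 ∧ Ss ≠ 0 ∧ c ≠ 0 ∧ S + Sk = 2 * Ss * c ∧
      S = ((Real.sinh (Real.pi * w / 2) : ℝ) : ℂ) ∧
      Sk = ((Real.sinh ((Real.pi - 2 * lam) * w / 2) : ℝ) : ℂ) ∧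
      Ss = ((Real.sinh ((Real.pi - lam) * w / 2) : ℝ) : ℂ) ∧
      c = ((Real.cosh (lam * w / 2) : ℝ) : ℂ) ∧
      ba230_ft (ba230_ker (2 * lam)) w = Sk / S ∧ ba230_ft (ba230_ker lam) w = Ss / S ∧
      ba230_ft (ba230_rho lam) w = 1 / (2 * c) ∧ ba230_ft (ba230_R lam) w = Sk / Ss * (1 / (2 * c)) := by
  have hpi := Real.pi_pos
  have hK0 : 0 < 2 * lam := by linarith
  have hK1 : 2 * lam < 2 * Real.pi := by linarith
  have hs1 : lam < 2 * Real.pi := by linarith
  have hK := ba230_ft_ker hK0 hK1 w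
  have hs := ba230_ft_ker h0 hs1 w
  have hr := ba230_ft_rho h0 w
  have hJ := ba230_ft_J h0 h1 w
  have hid : ((Real.sinh (Real.pi * w / 2) : ℝ) : ℂ) + ((Real.sinh ((Real.pi - 2 * lam) * w / 2) : ℝ) : ℂ)
      = 2 * ((Real.sinh ((Real.pi - lam) * w / 2) : ℝ) : ℂ) * ((Real.cosh (lam * w / 2) : ℝ) : ℂ) := by
    exact_mod_cast ba230_sinh_add_sinh lam w
  have hS := ba230_sinh_ne Real.pi_ne_zero hw
  have hSs := ba230_sinh_ne (ba230_pl_pos h0 h1).ne' hw
  have hc := ba230_cosh_ne (lam * w / 2)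
  refine ⟨_, _, _, _, hS, hSs, hc, hid, rfl, rfl, rfl, rfl, ?_, ?_, ?_, ?_⟩
  · rw [eq_div_iff hS, mul_comm]; exact hK
  · rw [eq_div_iff hS, mul_comm]; exact hs
  · rw [eq_div_iff (mul_ne_zero two_ne_zero hc), mul_comm]; exact hr
  · rw [ba230_ft_R h0 h1]
    congr 1
    · rw [eq_div_iff hSs, mul_comm]; exact hJ
    · rw [eq_div_iff (mul_ne_zero two_ne_zero hc), mul_comm]; exact hr

/-- **(E4)** resolvent identity `R + K * R = K`. -/
theorem ba230_R_resolvent (u : ℝ) :
    ba230_R lam u + ba230_conv (ba230_ker (2 * lam)) (ba230_R lam) u = ba230_ker (2 * lam) u := by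
  have hpi := Real.pi_pos
  have hK0 : 0 < 2 * lam := by linarith
  have hK1 : 2 * lam < 2 * Real.pi := by linarith
  obtain ⟨b, hb⟩ := ba230_ker_bdd hK0 hK1
  refine ba230_conv_identity (ba230_R_integrable h0 h1) (ba230_R_integrable h0 h1)
    (ba230_ker_integrable hK0 hK1) (ba230_ker_integrable hK0 hK1) (ba230_ker_continuous hK0 hK1) hb
    (fun w hw => ?_) (ba230_R_continuous h0 h1).continuousAt (ba230_ker_continuous hK0 hK1).continuousAt
  obtain ⟨S, Sk, Ss, c, hS, hSs, hc, hid, -, -, -, -, eK, -, -, eR⟩ := ba230_symbols h0 h1 hw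
  rw [eK, eR]
  field_simp
  linear_combination Sk * hid

/-- `ρ = s - R * s`. -/
theorem ba230_rho_eq_sub (u : ℝ) :
    ba230_rho lam u + ba230_conv (ba230_R lam) (ba230_ker lam) u = ba230_ker lam u := by
  have hpi := Real.pi_pos
  have hs1 : lam < 2 * Real.pi := by linarith
  obtain ⟨b, hb⟩ := ba230_R_bdd h0 h1
  refine ba230_conv_identity (ba230_rho_integrable h0) (ba230_ker_integrable h0 hs1)
    (ba230_ker_integrable h0 hs1) (ba230_R_integrable h0 h1) (ba230_R_continuous h0 h1) hb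
    (fun w hw => ?_) (ba230_rho_continuous h0).continuousAt (ba230_ker_continuous h0 hs1).continuousAt
  obtain ⟨S, Sk, Ss, c, hS, hSs, hc, hid, -, -, -, -, -, es, er, eR⟩ := ba230_symbols h0 h1 hw
  rw [es, er, eR]
  field_simp
  linear_combination hid

end

/-! ## Sec. 11  the logarithmic functions `E_a`, their Fourier transform (Fubini in the angle) -/


/-- `E_a(u) = (1/2) log((cosh 2u - cos a)/(cosh 2u - 1))`; `e0 = E_{2λ}`, `log coth|u| = E_π(u)`. -/
noncomputable def ba230_E (a u : ℝ) : ℝ :=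
  (1 / 2) * Real.log ((Real.cosh (2 * u) - Real.cos a) / (Real.cosh (2 * u) - 1))

lemma ba230_one_lt_cosh {u : ℝ} (hu : u ≠ 0) : 1 < Real.cosh (2 * u) :=
  Real.one_lt_cosh.2 (mul_ne_zero two_ne_zero hu)

lemma ba230_ker_measurable : Measurable (fun p : ℝ × ℝ => ba230_ker p.1 p.2) := by
  unfold ba230_ker
  refine Measurable.div (Real.measurable_sin.comp measurable_fst) ?_
  refine measurable_const.mul (Measurable.sub ?_ (Real.measurable_cos.comp measurable_fst))
  exact Real.measurable_cosh.comp (measurable_const.mul measurable_snd)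

lemma ba230_ker_abs_integral {a : ℝ} (h0 : 0 < a) (h1 : a < 2 * Real.pi) :
    ∫ u, |ba230_ker a u| = |1 - a / Real.pi| := by
  have hpi := Real.pi_pos
  rcases le_total a Real.pi with h2 | h2
  · have : ∀ u, |ba230_ker a u| = ba230_ker a u := fun u => abs_of_nonneg (ba230_ker_nonneg h0 h2 u)
    simp_rw [this]
    rw [ba230_ker_integral h0 h1, abs_of_nonneg]
    rw [sub_nonneg, div_le_one hpi]; exact h2
  · have : ∀ u, |ba230_ker a u| = -ba230_ker a u := fun u => abs_of_nonpos (ba230_ker_nonpos h2 h1 u)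
    simp_rw [this]
    rw [integral_neg, ba230_ker_integral h0 h1, abs_of_nonpos]
    rw [sub_nonpos, one_le_div hpi]; exact h2

/-- joint integrability of `(a', u) ↦ ker a' u` on `(0,a] × ℝ`. -/
lemma ba230_ker_prod_integrable {a : ℝ} (h1 : a < 2 * Real.pi) :
    Integrable (fun p : ℝ × ℝ => ba230_ker p.1 p.2) ((volume.restrict (Ioc 0 a)).prod volume) := by
  rw [integrable_prod_iff ba230_ker_measurable.aestronglyMeasurable]
  constructor
  · refine (ae_restrict_iff' measurableSet_Ioc).2 (Eventually.of_forall fun a' ha' => ?_)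
    exact ba230_ker_integrable ha'.1 (lt_of_le_of_lt ha'.2 h1)
  · have hc : IntegrableOn (fun a' : ℝ => |1 - a' / Real.pi|) (Ioc 0 a) :=
      (Continuous.integrableOn_Icc (by fun_prop)).mono_set Ioc_subset_Icc_self
    refine hc.congr ?_
    refine (ae_restrict_iff' measurableSet_Ioc).2 (Eventually.of_forall fun a' ha' => ?_)
    simp only [Real.norm_eq_abs]
    exact (ba230_ker_abs_integral ha'.1 (lt_of_le_of_lt ha'.2 h1)).symm

/-- `E_a(u) = (π/2) ∫_0^a ker a' u da'` for `u ≠ 0`. -/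
lemma ba230_E_eq_integral {u : ℝ} (hu : u ≠ 0) {a : ℝ} (ha : 0 ≤ a) :
    ∫ a' in Ioc 0 a, ba230_ker a' u = (2 / Real.pi) * ba230_E a u := by
  have hch := ba230_one_lt_cosh hu
  have hpos : ∀ a' : ℝ, 0 < Real.cosh (2 * u) - Real.cos a' := fun a' => by
    have := Real.cos_le_one a'; linarith
  have hder : ∀ a' ∈ uIcc 0 a, HasDerivAt
      (fun a' : ℝ => (1 / Real.pi) * Real.log (Real.cosh (2 * u) - Real.cos a')) (ba230_ker a' u) a' := by
    intro a' _
    have h1 : HasDerivAt (fun a' : ℝ => Real.cosh (2 * u) - Real.cos a') (Real.sin a') a' := by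
      simpa using (Real.hasDerivAt_cos a').const_sub (Real.cosh (2 * u))
    have h2 := (h1.log (hpos a').ne').const_mul (1 / Real.pi)
    refine h2.congr_deriv ?_
    unfold ba230_ker
    have := Real.pi_ne_zero
    have := (hpos a').ne'
    field_simp
  have hcont : Continuous (fun a' : ℝ => ba230_ker a' u) := by
    unfold ba230_ker
    refine Continuous.div (by fun_prop) (by fun_prop) (fun a' => ?_)
    exact (mul_pos Real.pi_pos (hpos a')).ne'
  have := intervalIntegral.integral_eq_sub_of_hasDerivAt hder (hcont.intervalIntegrable 0 a)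
  rw [intervalIntegral.integral_of_le ha] at this
  rw [this, Real.cos_zero]
  unfold ba230_E
  rw [Real.log_div (hpos a).ne' (by linarith)]
  have := Real.pi_ne_zero
  field_simp

lemma ba230_ae_ne_zero : ∀ᵐ u : ℝ, u ≠ 0 := by
  have : ({0}ᶜ : Set ℝ) ∈ ae (volume : Measure ℝ) := compl_mem_ae_iff.2 (measure_singleton 0)
  filter_upwards [this] with u hu using hu

theorem ba230_E_integrable {a : ℝ} (h0 : 0 ≤ a) (h1 : a < 2 * Real.pi) : Integrable (ba230_E a) := by
  have h := ((ba230_ker_prod_integrable h1).integral_prod_right).const_mul (Real.pi / 2)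
  refine h.congr ?_
  filter_upwards [ba230_ae_ne_zero] with u hu
  rw [ba230_E_eq_integral hu h0]
  have := Real.pi_ne_zero
  field_simp

lemma ba230_E_continuousAt (a : ℝ) {u : ℝ} (hu : u ≠ 0) : ContinuousAt (ba230_E a) u := by
  have hch := ba230_one_lt_cosh hu
  have hc := Real.cos_le_one a
  unfold ba230_E
  refine ContinuousAt.mul continuousAt_const (ContinuousAt.log ?_ ?_)
  · exact ContinuousAt.div (by fun_prop) (by fun_prop) (by linarith)
  · exact (div_pos (by linarith) (by linarith)).ne'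

lemma ba230_E_even (a u : ℝ) : ba230_E a (-u) = ba230_E a u := by
  unfold ba230_E
  rw [mul_neg, Real.cosh_neg]

/-- Fubini: `E_a^(w) = (π/2) ∫_0^a (ker a')^(w) da'`. -/
lemma ba230_ft_E_eq {a : ℝ} (h0 : 0 ≤ a) (h1 : a < 2 * Real.pi) (w : ℝ) :
    ba230_ft (ba230_E a) w = (Real.pi / 2 : ℝ) * ∫ a' in Ioc 0 a, ba230_ft (ba230_ker a') w := by
  have hint : Integrable (Function.uncurry fun (a' u : ℝ) => cexp (I * w * u) * ((ba230_ker a' u : ℝ) : ℂ))
      ((volume.restrict (Ioc 0 a)).prod volume) := by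
    refine (ba230_ker_prod_integrable h1).ofReal.bdd_mul (c := 1)
      (Continuous.aestronglyMeasurable (by fun_prop)) (Eventually.of_forall fun p => ?_)
    exact (ba230_norm_cexp_I w p.2).le
  have hswap := integral_integral_swap hint
  unfold ba230_ft
  rw [hswap, ← integral_const_mul]
  refine integral_congr_ae ?_
  filter_upwards [ba230_ae_ne_zero] with u hu
  rw [integral_const_mul, integral_complex_ofReal, ba230_E_eq_integral hu h0]
  have hpi : ((Real.pi : ℝ) : ℂ) ≠ 0 := by exact_mod_cast Real.pi_ne_zero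
  push_cast
  field_simp

lemma ba230_integral_sinh {a w : ℝ} (h0 : 0 ≤ a) (hw : w ≠ 0) :
    ∫ a' in Ioc 0 a, Real.sinh ((Real.pi - a') * w / 2)
      = (2 / w) * (Real.cosh (Real.pi * w / 2) - Real.cosh ((Real.pi - a) * w / 2)) := by
  have hder : ∀ a' ∈ uIcc 0 a, HasDerivAt
      (fun a' : ℝ => -(2 / w) * Real.cosh ((Real.pi - a') * w / 2))
      (Real.sinh ((Real.pi - a') * w / 2)) a' := by
    intro a' _
    have h1 : HasDerivAt (fun a' : ℝ => (Real.pi - a') * w / 2) (-(w / 2)) a' := by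
      have := (((hasDerivAt_id a').const_sub Real.pi).mul_const w).div_const 2
      refine this.congr_deriv ?_
      ring
    have h2 := (h1.cosh).const_mul (-(2 / w))
    refine h2.congr_deriv ?_
    field_simp
  have hcont : Continuous (fun a' : ℝ => Real.sinh ((Real.pi - a') * w / 2)) := by fun_prop
  have := intervalIntegral.integral_eq_sub_of_hasDerivAt hder (hcont.intervalIntegrable 0 a)
  rw [intervalIntegral.integral_of_le h0] at this
  rw [this]
  simp only [sub_zero]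
  ring

/-- **Fourier transform of `E_a`.** -/
theorem ba230_ft_E {a : ℝ} (h0 : 0 ≤ a) (h1 : a < 2 * Real.pi) {w : ℝ} (hw : w ≠ 0) :
    ((Real.sinh (Real.pi * w / 2) : ℝ) : ℂ) * ba230_ft (ba230_E a) w
      = ((Real.pi / w * (Real.cosh (Real.pi * w / 2) - Real.cosh ((Real.pi - a) * w / 2)) : ℝ) : ℂ) := by
  rw [ba230_ft_E_eq h0 h1, mul_left_comm, ← integral_const_mul]
  have : ∫ a' in Ioc 0 a, ((Real.sinh (Real.pi * w / 2) : ℝ) : ℂ) * ba230_ft (ba230_ker a') w
      = ∫ a' in Ioc 0 a, ((Real.sinh ((Real.pi - a') * w / 2) : ℝ) : ℂ) := by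
    refine setIntegral_congr_fun measurableSet_Ioc (fun a' ha' => ?_)
    exact ba230_ft_ker ha'.1 (lt_of_le_of_lt ha'.2 h1) w
  rw [this, integral_complex_ofReal, ba230_integral_sinh h0 hw, ← Complex.ofReal_mul]
  congr 1
  field_simp

/-! ## Sec. 12  (E3) bare and dressed energy: `ε + K * ε = e0`, `ε + R * e0 = e0` -/


/-- bare energy `e0(u) = (1/2) log((cosh 2u - cos 2λ)/(cosh 2u - 1)) = log|sinh(u - iλ)/sinh u|`. -/
noncomputable def ba230_e0 (lam u : ℝ) : ℝ := ba230_E (2 * lam) u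

/-- dressed energy `ε(u) = log coth(π|u|/(2λ))`. -/
noncomputable def ba230_eps (lam u : ℝ) : ℝ := ba230_E Real.pi (Real.pi / (2 * lam) * u)

lemma ba230_E_pi (y : ℝ) : ba230_E Real.pi y = Real.log (Real.cosh y / Real.sinh y) := by
  unfold ba230_E
  have h1 : Real.cosh (2 * y) - Real.cos Real.pi = 2 * Real.cosh y ^ 2 := by
    rw [Real.cos_pi, Real.cosh_two_mul, Real.cosh_sq y]; ring
  have h2 : Real.cosh (2 * y) - 1 = 2 * Real.sinh y ^ 2 := by
    rw [Real.cosh_two_mul, Real.cosh_sq y]; ring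
  rw [h1, h2, mul_div_mul_left _ _ two_ne_zero, ← div_pow, Real.log_pow]
  push_cast
  ring

theorem ba230_eps_eq (lam u : ℝ) :
    ba230_eps lam u = Real.log (Real.cosh (Real.pi / (2 * lam) * u) / Real.sinh (Real.pi / (2 * lam) * u)) :=
  ba230_E_pi _

lemma ba230_eps_even (lam u : ℝ) : ba230_eps lam (-u) = ba230_eps lam u := by
  unfold ba230_eps
  rw [mul_neg, ba230_E_even]

lemma ba230_e0_even (lam u : ℝ) : ba230_e0 lam (-u) = ba230_e0 lam u := ba230_E_even _ _

theorem ba230_e0_integrable {lam : ℝ} (h0 : 0 < lam) (h1 : lam < Real.pi) : Integrable (ba230_e0 lam) :=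
  ba230_E_integrable (by linarith) (by linarith)

theorem ba230_eps_integrable {lam : ℝ} (h0 : 0 < lam) : Integrable (ba230_eps lam) :=
  (ba230_E_integrable Real.pi_pos.le (by linarith [Real.pi_pos])).comp_mul_left'
    (by have := Real.pi_pos; positivity)

lemma ba230_e0_continuousAt (lam : ℝ) {u : ℝ} (hu : u ≠ 0) : ContinuousAt (ba230_e0 lam) u :=
  ba230_E_continuousAt _ hu

lemma ba230_eps_continuousAt {lam : ℝ} (h0 : 0 < lam) {u : ℝ} (hu : u ≠ 0) :
    ContinuousAt (ba230_eps lam) u := by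
  have hr : Real.pi / (2 * lam) ≠ 0 := by have := Real.pi_pos; positivity
  have h := ba230_E_continuousAt Real.pi (mul_ne_zero hr hu)
  exact ContinuousAt.comp (f := fun u : ℝ => Real.pi / (2 * lam) * u) h (by fun_prop)

/-- `e0^(w) = (π/w) 2 sinh((π-λ)w/2) sinh(λw/2) / sinh(πw/2)`. -/
lemma ba230_ft_e0 {lam : ℝ} (h0 : 0 < lam) (h1 : lam < Real.pi) {w : ℝ} (hw : w ≠ 0) :
    ba230_ft (ba230_e0 lam) w = ((Real.pi / w : ℝ) : ℂ) *
      (2 * ((Real.sinh ((Real.pi - lam) * w / 2) : ℝ) : ℂ) * ((Real.sinh (lam * w / 2) : ℝ) : ℂ))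
        / ((Real.sinh (Real.pi * w / 2) : ℝ) : ℂ) := by
  have h := ba230_ft_E (a := 2 * lam) (by linarith) (by linarith) hw
  have hS := ba230_sinh_ne Real.pi_ne_zero hw
  rw [eq_div_iff hS, mul_comm]
  unfold ba230_e0
  rw [h]
  have e1 : Real.pi * w / 2 = (Real.pi - lam) * w / 2 + lam * w / 2 := by ring
  have e2 : (Real.pi - 2 * lam) * w / 2 = (Real.pi - lam) * w / 2 - lam * w / 2 := by ring
  rw [e1, e2, Real.cosh_add, Real.cosh_sub]
  push_cast
  ring

/-- `ε^(w) = (π/w) tanh(λw/2)`. -/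
lemma ba230_ft_eps {lam : ℝ} (h0 : 0 < lam) {w : ℝ} (hw : w ≠ 0) :
    ba230_ft (ba230_eps lam) w = ((Real.pi / w : ℝ) : ℂ) * ((Real.sinh (lam * w / 2) : ℝ) : ℂ)
        / ((Real.cosh (lam * w / 2) : ℝ) : ℂ) := by
  have hpi := Real.pi_pos
  have hr : 0 < Real.pi / (2 * lam) := by positivity
  have hw' : w / (Real.pi / (2 * lam)) ≠ 0 := div_ne_zero hw hr.ne'
  have h := ba230_ft_E (a := Real.pi) hpi.le (by linarith) hw'
  have e1 : Real.pi * (w / (Real.pi / (2 * lam))) / 2 = 2 * (lam * w / 2) := by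
    field_simp
  have e2 : (Real.pi - Real.pi) * (w / (Real.pi / (2 * lam))) / 2 = 0 := by ring
  rw [e1, e2, Real.cosh_zero, Real.sinh_two_mul, Real.cosh_two_mul, Real.cosh_sq (lam * w / 2)] at h
  have hsh := ba230_sinh_ne h0.ne' hw
  have hc := ba230_cosh_ne (lam * w / 2)
  unfold ba230_eps
  rw [ba230_ft_scale _ _ _ hr, eq_div_iff hc]
  set X := ba230_ft (ba230_E Real.pi) (w / (Real.pi / (2 * lam)))
  set sh := Real.sinh (lam * w / 2) with hshd
  set c := Real.cosh (lam * w / 2) with hcd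
  have hwC : (w : ℂ) ≠ 0 := by exact_mod_cast hw
  have hlC : (lam : ℂ) ≠ 0 := by exact_mod_cast h0.ne'
  have hpC : ((Real.pi : ℝ) : ℂ) ≠ 0 := by exact_mod_cast hpi.ne'
  have h' : (2 * (sh : ℂ) * c) * X = (Real.pi : ℂ) / (w / (Real.pi / (2 * lam))) * (2 * (sh : ℂ) ^ 2) := by
    have := h
    push_cast at this
    rw [this]
    ring
  have h'' : (2 * (sh : ℂ)) * ((((Real.pi / (2 * lam))⁻¹ : ℝ) : ℂ) * X * c)
      = (2 * (sh : ℂ)) * (((Real.pi / w : ℝ) : ℂ) * sh) := by
    push_cast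
    have : (2 * (sh : ℂ)) * (((Real.pi : ℂ) / (2 * lam))⁻¹ * X * c)
        = ((Real.pi : ℂ) / (2 * lam))⁻¹ * ((2 * (sh : ℂ) * c) * X) := by ring
    rw [this, h']
    field_simp
  exact mul_left_cancel₀ (mul_ne_zero two_ne_zero hsh) h''

section
variable {lam : ℝ} (h0 : 0 < lam) (h1 : lam < 2 * Real.pi / 3)
include h0 h1

/-- **(E3)** `ε + K * ε = e0` off the origin. -/
theorem ba230_eps_solves {u : ℝ} (hu : u ≠ 0) :
    ba230_eps lam u + ba230_conv (ba230_ker (2 * lam)) (ba230_eps lam) u = ba230_e0 lam u := by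
  have hpi := Real.pi_pos
  have hK0 : 0 < 2 * lam := by linarith
  have hK1 : 2 * lam < 2 * Real.pi := by linarith
  have hl : lam < Real.pi := by linarith
  obtain ⟨b, hb⟩ := ba230_ker_bdd hK0 hK1
  refine ba230_conv_identity (ba230_eps_integrable h0) (ba230_eps_integrable h0)
    (ba230_e0_integrable h0 hl) (ba230_ker_integrable hK0 hK1) (ba230_ker_continuous hK0 hK1) hb
    (fun w hw => ?_) (ba230_eps_continuousAt h0 hu) (ba230_e0_continuousAt lam hu)
  obtain ⟨S, Sk, Ss, c, hS, hSs, hc, hid, eS, -, eSs, ec, eK, -, -, -⟩ := ba230_symbols h0 h1 hw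
  rw [eK, ba230_ft_eps h0 hw, ba230_ft_e0 h0 hl hw, ← eS, ← eSs, ← ec]
  generalize ((Real.pi / w : ℝ) : ℂ) = p
  generalize ((Real.sinh (lam * w / 2) : ℝ) : ℂ) = sh
  field_simp
  linear_combination (p * sh) * hid

/-- `ε = e0 - R * e0` off the origin. -/
theorem ba230_eps_eq_sub {u : ℝ} (hu : u ≠ 0) :
    ba230_eps lam u + ba230_conv (ba230_R lam) (ba230_e0 lam) u = ba230_e0 lam u := by
  have hpi := Real.pi_pos
  have hl : lam < Real.pi := by linarith
  obtain ⟨b, hb⟩ := ba230_R_bdd h0 h1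
  refine ba230_conv_identity (ba230_eps_integrable h0) (ba230_e0_integrable h0 hl)
    (ba230_e0_integrable h0 hl) (ba230_R_integrable h0 h1) (ba230_R_continuous h0 h1) hb
    (fun w hw => ?_) (ba230_eps_continuousAt h0 hu) (ba230_e0_continuousAt lam hu)
  obtain ⟨S, Sk, Ss, c, hS, hSs, hc, hid, eS, -, eSs, ec, -, -, -, eR⟩ := ba230_symbols h0 h1 hw
  rw [eR, ba230_ft_eps h0 hw, ba230_ft_e0 h0 hl hw, ← eS, ← eSs, ← ec]
  generalize ((Real.pi / w : ℝ) : ℂ) = p
  generalize ((Real.sinh (lam * w / 2) : ℝ) : ℂ) = sh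
  field_simp
  linear_combination (p * sh) * hid

end

/-! ## Sec. 13  edge asymptotics (inputs `hrinf`, `heps` of `ba6h200_asym`), measurability -/


lemma ba230_tendsto_exp_neg {κ : ℝ} (hκ : 0 < κ) :
    Tendsto (fun l : ℝ => Real.exp (-(κ * l))) atTop (𝓝 0) := by
  refine Real.tendsto_exp_atBot.comp ?_
  exact tendsto_neg_atTop_atBot.comp (tendsto_id.const_mul_atTop hκ)

/-- edge asymptotics of the density: `ρ(l) e^{κ l} → 1/λ`, `κ = π/λ`. -/
theorem ba230_rho_edge {lam : ℝ} (h0 : 0 < lam) :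
    Tendsto (fun l : ℝ => ba230_rho lam l * Real.exp (Real.pi / lam * l)) atTop (𝓝 (1 / lam)) := by
  have hκ : 0 < 2 * (Real.pi / lam) := by have := Real.pi_pos; positivity
  have h1 := ba230_tendsto_exp_neg hκ
  have h2 : Tendsto (fun l : ℝ => 1 / (lam * (1 + Real.exp (-(2 * (Real.pi / lam) * l))))) atTop
      (𝓝 (1 / (lam * (1 + 0)))) := by
    refine Tendsto.div tendsto_const_nhds ((h1.const_add 1).const_mul lam) ?_
    simp [h0.ne']
  rw [add_zero, mul_one] at h2
  refine h2.congr (fun l => ?_)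
  unfold ba230_rho
  have e : Real.pi * l / lam = Real.pi / lam * l := by ring
  rw [e, Real.cosh_eq]
  set y := Real.pi / lam * l
  have e2 : Real.exp (-(2 * (Real.pi / lam) * l)) = Real.exp (-y) * Real.exp (-y) := by
    rw [← Real.exp_add]; congr 1; ring
  have e3 : Real.exp y * Real.exp (-y) = 1 := by rw [← Real.exp_add]; simp
  rw [e2]
  have hy := Real.exp_pos y
  have hy' := Real.exp_pos (-y)
  have hE : Real.exp y = (Real.exp (-y))⁻¹ := by
    field_simp; linarith
  rw [hE]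
  field_simp

/-- two-sided bound: `0 ≤ e^{-κu}/λ - ρ(u) ≤ e^{-3κu}/λ`. -/
theorem ba230_rho_edge_bound {lam : ℝ} (h0 : 0 < lam) (u : ℝ) :
    0 ≤ Real.exp (-(Real.pi / lam * u)) / lam - ba230_rho lam u ∧
      Real.exp (-(Real.pi / lam * u)) / lam - ba230_rho lam u
        ≤ Real.exp (-(3 * (Real.pi / lam * u))) / lam := by
  unfold ba230_rho
  have e : Real.pi * u / lam = Real.pi / lam * u := by ring
  rw [e, Real.cosh_eq]
  set y := Real.pi / lam * u
  have e3 : Real.exp y * Real.exp (-y) = 1 := by rw [← Real.exp_add]; simp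
  have e4 : Real.exp (-(3 * y)) = Real.exp (-y) ^ 3 := by
    rw [← Real.exp_nat_mul]; congr 1; push_cast; ring
  rw [e4]
  have hy' := Real.exp_pos (-y)
  have hE : Real.exp y = (Real.exp (-y))⁻¹ := by
    field_simp; linarith
  rw [hE]
  set t := Real.exp (-y)
  have key : t / lam - 1 / (2 * lam * ((t⁻¹ + t) / 2)) = t ^ 3 / (lam * (1 + t ^ 2)) := by
    field_simp
    ring
  rw [key]
  constructor
  · positivity
  · rw [div_le_div_iff₀ (by positivity) h0]
    have : 0 < t ^ 3 * lam * t ^ 2 := by positivity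
    nlinarith

lemma ba230_hasDerivAt_artanh :
    HasDerivAt (fun t : ℝ => Real.log ((1 + t) / (1 - t))) 2 0 := by
  have h1 : HasDerivAt (fun t : ℝ => (1 + t) / (1 - t)) 2 0 := by
    have a1 : HasDerivAt (fun t : ℝ => 1 + t) 1 0 := (hasDerivAt_id (0:ℝ)).const_add 1
    have a2 : HasDerivAt (fun t : ℝ => 1 - t) (-1) 0 := (hasDerivAt_id (0:ℝ)).const_sub 1
    have := a1.div a2 (by norm_num)
    refine this.congr_deriv ?_
    norm_num
  have h2 := h1.log (by norm_num)
  refine h2.congr_deriv ?_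
  norm_num

/-- `ε(u) = log((1+t)/(1-t))`, `t = e^{-κ u}`. -/
lemma ba230_eps_eq_artanh (lam u : ℝ) :
    ba230_eps lam u = Real.log ((1 + Real.exp (-(Real.pi / lam * u))) / (1 - Real.exp (-(Real.pi / lam * u)))) := by
  rw [ba230_eps_eq, Real.cosh_eq, Real.sinh_eq]
  set y := Real.pi / (2 * lam) * u
  have e1 : Real.pi / lam * u = y + y := by
    simp only [y]; ring
  have e2 : Real.exp (-(Real.pi / lam * u)) = Real.exp (-y) * Real.exp (-y) := by
    rw [← Real.exp_add, e1]; congr 1; ring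
  have e3 : Real.exp y * Real.exp (-y) = 1 := by rw [← Real.exp_add]; simp
  have hy' := Real.exp_pos (-y)
  have hE : Real.exp y = (Real.exp (-y))⁻¹ := by
    field_simp; linarith
  rw [e2, hE]
  set t := Real.exp (-y)
  congr 1
  by_cases h : 1 - t * t = 0
  · have h' : t⁻¹ - t = 0 := by
      field_simp; linarith
    rw [h, h']; simp
  · have h' : t⁻¹ - t ≠ 0 := by
      intro h2; apply h
      have : t * (t⁻¹ - t) = 0 := by rw [h2, mul_zero]
      rw [mul_sub, mul_inv_cancel₀ hy'.ne'] at this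
      exact this
    field_simp

/-- edge asymptotics of the dressed energy: `ε(l) e^{κ l} → 2`. -/
theorem ba230_eps_edge {lam : ℝ} (h0 : 0 < lam) :
    Tendsto (fun l : ℝ => ba230_eps lam l * Real.exp (Real.pi / lam * l)) atTop (𝓝 2) := by
  have hκ : 0 < Real.pi / lam := by have := Real.pi_pos; positivity
  have h1 : Tendsto (fun l : ℝ => Real.exp (-(Real.pi / lam * l))) atTop (𝓝[≠] 0) := by
    rw [tendsto_nhdsWithin_iff]
    exact ⟨ba230_tendsto_exp_neg hκ, Eventually.of_forall fun l => (Real.exp_pos _).ne'⟩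
  have h2 := ba230_hasDerivAt_artanh.tendsto_slope_zero
  have h3 := h2.comp h1
  refine h3.congr (fun l => ?_)
  simp only [Function.comp, zero_add, add_zero, sub_zero, div_one, Real.log_one, smul_eq_mul]
  rw [ba230_eps_eq_artanh, Real.exp_neg, inv_inv, mul_comm]

lemma ba230_E_measurable (a : ℝ) : Measurable (ba230_E a) := by
  unfold ba230_E
  refine measurable_const.mul (Real.measurable_log.comp ?_)
  refine Measurable.div ?_ ?_
  · exact (Real.measurable_cosh.comp (measurable_const.mul measurable_id)).sub measurable_const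
  · exact (Real.measurable_cosh.comp (measurable_const.mul measurable_id)).sub measurable_const

lemma ba230_eps_measurable (lam : ℝ) : Measurable (ba230_eps lam) :=
  (ba230_E_measurable Real.pi).comp (measurable_const.mul measurable_id)

lemma ba230_e0_measurable (lam : ℝ) : Measurable (ba230_e0 lam) := ba230_E_measurable _

/-! ## Sec. 14  rescaling (for 210), `ba6h200_asym` instantiated -/


/-- rescaling asked by 210: `λ R_λ(λ x) = (P_a * ρ₁)(x)`, `P_a(x) = a ker_a(a x)`, `a = πλ/(π-λ)`. -/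
theorem ba230_R_rescale {lam : ℝ} (h0 : 0 < lam) (x : ℝ) :
    lam * ba230_R lam (lam * x)
      = ba230_conv (fun y => ba230_g lam * ba230_ker (ba230_g lam) (ba230_g lam * y)) (ba230_rho 1) x := by
  unfold ba230_R ba230_conv
  have h := MeasureTheory.Measure.integral_comp_mul_left
    (fun v : ℝ => ba230_J lam (lam * x - v) * ba230_rho lam v) lam
  rw [abs_of_pos (inv_pos.2 h0), smul_eq_mul] at h
  have h' : ∫ v : ℝ, ba230_J lam (lam * x - v) * ba230_rho lam v
      = lam * ∫ y : ℝ, ba230_J lam (lam * x - lam * y) * ba230_rho lam (lam * y) := by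
    rw [h, ← mul_assoc, mul_inv_cancel₀ h0.ne', one_mul]
  rw [h', ← mul_assoc, ← integral_const_mul]
  refine integral_congr_ae (Eventually.of_forall fun y => ?_)
  simp only []
  have e1 : ba230_g lam = ba230_r lam * lam := by unfold ba230_g ba230_r; ring
  have e2 : lam * ba230_rho lam (lam * y) = ba230_rho 1 y := by
    unfold ba230_rho
    have : Real.pi * (lam * y) / lam = Real.pi * y / 1 := by field_simp
    rw [this]
    field_simp
  have e3 : lam * ba230_J lam (lam * x - lam * y)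
      = ba230_g lam * ba230_ker (ba230_g lam) (ba230_g lam * (x - y)) := by
    unfold ba230_J
    rw [e1]
    have : ba230_r lam * (lam * x - lam * y) = ba230_r lam * lam * (x - y) := by ring
    rw [this]; ring
  calc lam * lam * (ba230_J lam (lam * x - lam * y) * ba230_rho lam (lam * y))
      = (lam * ba230_J lam (lam * x - lam * y)) * (lam * ba230_rho lam (lam * y)) := by ring
    _ = _ := by rw [e2, e3]

section
variable {lam : ℝ} (h0 : 0 < lam) (h1 : lam < 2 * Real.pi / 3)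
include h0 h1

/-- `Z = 1 - ∫ R = π/(2(π-λ))`. -/
lemma ba230_Z_eq : 1 - ∫ u, ba230_R lam u = Real.pi / (2 * (Real.pi - lam)) := by
  rw [ba230_R_integral h0 h1]
  have := (ba230_pl_pos h0 h1).ne'
  field_simp
  ring

/-- **ASYM for the concrete kernels**: `ba6h200_asym` instantiated; the limit is `π - λ = 2 arcsin(c/2)`. -/
theorem ba230_asym {rQ : ℝ → ℝ → ℝ} (hrQi : ∀ Q, IntegrableOn (rQ Q) (Ioi Q))
    (hrQev : ∀ Q x, rQ Q (-x) = rQ Q x)
    (hcomp : ∀ Q, 0 ≤ Q → ∀ x, rQ Q x = ba230_rho lam x + (∫ y in Ioi Q, ba230_R lam (x - y) * rQ Q y) +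
      ∫ y in Iio (-Q), ba230_R lam (x - y) * rQ Q y)
    {Dq Eq : ℝ → ℝ} {Dinf Einf : ℝ}
    (hD : ∀ Q, 0 ≤ Q → Dinf - Dq Q = 2 * (1 - ∫ u, ba230_R lam u) * ∫ y in Ioi Q, rQ Q y)
    (hE : ∀ Q, 0 ≤ Q → Einf - Eq Q = 2 * ∫ y in Ioi Q, ba230_eps lam y * rQ Q y) :
    Tendsto (fun Q => (Einf - Eq Q) / (Dinf - Dq Q) ^ 2) atTop (𝓝 (Real.pi - lam)) := by
  obtain ⟨M, hM⟩ := ba230_R_bdd h0 h1
  have hκ : 0 < Real.pi / lam := div_pos Real.pi_pos h0
  have h := ba6h200_asym (ba230_R_integrable h0 h1) (ba230_R_continuous h0 h1).measurable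
    ba230_R_even hM (lt_trans (ba230_R_norm_lt h0 h1) (by norm_num)) hκ
    (one_div_ne_zero h0.ne') (ba230_rho_edge h0) (ba230_eps_measurable lam) (ba230_eps_edge h0)
    hrQi hrQev hcomp hD hE
  have hval : 2 / (1 / lam) * (Real.pi / lam) / (4 * (1 - ∫ u, ba230_R lam u)) = Real.pi - lam := by
    rw [ba230_Z_eq h0 h1]
    have := (ba230_pl_pos h0 h1).ne'
    have := Real.pi_ne_zero
    field_simp
    ring
  rwa [hval] at h

end

/-! ## Sec. 15  the truncated equation for the concrete kernels: integrability, bound, COMPLEMENT FORM -/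


lemma ba230_op_eq_conv (K f : ℝ → ℝ) {A : Set ℝ} (hA : MeasurableSet A) (u : ℝ) :
    c1x150_op K A f u = ba230_conv K (A.indicator f) u := c1x150_op_ind hA u

lemma ba230_op_univ_eq_conv (K f : ℝ → ℝ) (u : ℝ) : c1x150_op K univ f u = ba230_conv K f u := by
  unfold c1x150_op ba230_conv
  rw [setIntegral_univ]

lemma ba230_K_norm {lam : ℝ} (h0 : 0 < lam) (h1 : lam < Real.pi) :
    ∫ w, |ba230_ker (2 * lam) w| = |1 - 2 * lam / Real.pi| ∧ |1 - 2 * lam / Real.pi| < 1 := by
  have hpi := Real.pi_pos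
  refine ⟨ba230_ker_abs_integral (by linarith) (by linarith), ?_⟩
  rw [abs_lt]
  constructor
  · have : 2 * lam / Real.pi < 2 := by rw [div_lt_iff₀ hpi]; linarith
    linarith
  · have : 0 < 2 * lam / Real.pi := by positivity
    linarith

section
variable {lam : ℝ} (h0 : 0 < lam) (h1 : lam < 2 * Real.pi / 3)
include h0 h1

/-- a continuous solution of the truncated equation is integrable on the line. -/
lemma ba230_sol_integrable {Q : ℝ} {f : ℝ → ℝ} (hfc : Continuous f)
    (hf : ∀ u, f u + c1x150_op (ba230_ker (2 * lam)) (Icc (-Q) Q) f u = ba230_ker lam u) :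
    Integrable f := by
  have hpi := Real.pi_pos
  exact c1x150_sol_integrable (ba230_ker_integrable (by linarith) (by linarith)) measurableSet_Icc
    hfc.integrableOn_Icc (ba230_ker_integrable h0 (by linarith)) hf

/-- a continuous solution of the truncated equation is bounded on the line. -/
lemma ba230_sol_bdd {Q : ℝ} {f : ℝ → ℝ} (hfc : Continuous f)
    (hf : ∀ u, f u + c1x150_op (ba230_ker (2 * lam)) (Icc (-Q) Q) f u = ba230_ker lam u) :
    ∃ M : ℝ, 0 ≤ M ∧ ∀ u, |f u| ≤ M := by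
  have hpi := Real.pi_pos
  obtain ⟨MA, hMA⟩ := (isCompact_Icc (a := -Q) (b := Q)).exists_bound_of_continuousOn hfc.continuousOn
  obtain ⟨bs, hbs⟩ := ba230_ker_bdd h0 (by linarith : lam < 2 * Real.pi)
  have hMA' : ∀ v ∈ Icc (-Q) Q, |f v| ≤ |MA| := fun v hv =>
    (by simpa using hMA v hv : |f v| ≤ MA).trans (le_abs_self _)
  have hK := ba230_ker_integrable (a := 2 * lam) (by linarith) (by linarith)
  have hbs0 : 0 ≤ bs := (abs_nonneg _).trans (hbs 0)
  have hn : 0 ≤ ∫ w, |ba230_ker (2 * lam) w| := integral_nonneg fun _ => abs_nonneg _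
  refine ⟨bs + (∫ w, |ba230_ker (2 * lam) w|) * |MA|, by positivity, fun u => ?_⟩
  have e : f u = ba230_ker lam u - c1x150_op (ba230_ker (2 * lam)) (Icc (-Q) Q) f u := by
    linarith [hf u]
  rw [e]
  exact (abs_sub _ _).trans (add_le_add (hbs u)
    (c1x150_op_abs_le hK measurableSet_Icc (abs_nonneg MA) hMA' u))

/-- **Complement form** (leaf C2, concrete): `r_Q = ρ + R 1_{|y|>Q} r_Q` on the whole line. -/
theorem ba230_comp {Q : ℝ} {f : ℝ → ℝ} (hfc : Continuous f)
    (hf : ∀ u, f u + c1x150_op (ba230_ker (2 * lam)) (Icc (-Q) Q) f u = ba230_ker lam u) (x : ℝ) :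
    ba230_rho lam x + c1x150_op (ba230_R lam) (Icc (-Q) Q)ᶜ f x = f x := by
  have hpi := Real.pi_pos
  have hK := ba230_ker_integrable (a := 2 * lam) (by linarith) (by linarith)
  have hs := ba230_ker_integrable h0 (by linarith : lam < 2 * Real.pi)
  have hA : MeasurableSet (Icc (-Q) Q) := measurableSet_Icc
  have hfi := ba230_sol_integrable h0 h1 hfc hf
  have hin : Integrable ((Icc (-Q) Q).indicator f) := hfi.indicator hA
  have hout : Integrable ((Icc (-Q) Q)ᶜ.indicator f) := hfi.indicator hA.compl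
  have hsplit : ∀ u, f u = (Icc (-Q) Q).indicator f u + (Icc (-Q) Q)ᶜ.indicator f u := by
    intro u
    by_cases hu : u ∈ Icc (-Q) Q
    · rw [indicator_of_mem hu, indicator_of_notMem (by simpa using hu)]; ring
    · rw [indicator_of_notMem hu, indicator_of_mem (by simpa using hu)]; ring
  obtain ⟨b, hb⟩ := ba230_R_bdd h0 h1
  rw [ba230_op_eq_conv _ _ hA.compl]
  refine ba230_conv_identity (ba230_rho_integrable h0) hout hfi (ba230_R_integrable h0 h1)
    (ba230_R_continuous h0 h1) hb (fun w hw => ?_) (ba230_rho_continuous h0).continuousAt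
    hfc.continuousAt
  have e1 : ba230_ft f w + ba230_ft (ba230_ker (2 * lam)) w * ba230_ft ((Icc (-Q) Q).indicator f) w
      = ba230_ft (ba230_ker lam) w := by
    rw [← ba230_ft_conv hK hin, ← ba230_ft_add hfi (ba230_conv_integrable hK hin)]
    congr 1
    funext u
    rw [← ba230_op_eq_conv _ _ hA, hf u]
  have e2 : ba230_ft f w = ba230_ft ((Icc (-Q) Q).indicator f) w
      + ba230_ft ((Icc (-Q) Q)ᶜ.indicator f) w := by
    rw [← ba230_ft_add hin hout]
    congr 1
    funext u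
    exact hsplit u
  obtain ⟨S, Sk, Ss, c, hS, hSs, hc, hid, -, -, -, -, eK, es, er, eR⟩ := ba230_symbols h0 h1 hw
  rw [er, eR, e2]
  rw [e2, eK, es] at e1
  generalize ba230_ft ((Icc (-Q) Q).indicator f) w = a at e1 ⊢
  generalize ba230_ft ((Icc (-Q) Q)ᶜ.indicator f) w = bb at e1 ⊢
  field_simp at e1 ⊢
  linear_combination (-1 : ℂ) * e1 + (a + bb) * hid

end

/-! ## Sec. 16  the density `r_Q`: existence, evenness, uniqueness, POSITIVITY (both signs of `K`) -/


section
variable {lam : ℝ} (h0 : 0 < lam) (h1 : lam < 2 * Real.pi / 3)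
include h0 h1

/-- existence of the density `r_Q` (leaf C1, concrete). -/
theorem ba230_rQ_exists (Q : ℝ) : ∃ r : ℝ → ℝ, Continuous r ∧
    ∀ u, r u + c1x150_op (ba230_ker (2 * lam)) (Icc (-Q) Q) r u = ba230_ker lam u := by
  have hpi := Real.pi_pos
  have hl : lam < Real.pi := by linarith
  obtain ⟨hn, hn1⟩ := ba230_K_norm h0 hl
  obtain ⟨bs, hbs⟩ := ba230_ker_bdd h0 (by linarith : lam < 2 * Real.pi)
  obtain ⟨F, hFc, -, hF⟩ := c1x150_exists (ba230_ker_integrable (a := 2 * lam) (by linarith) (by linarith))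
    hn.le hn1 (measurableSet_Icc (a := -Q) (b := Q)) (c1x150_frontier_Icc _ _)
    (ba230_ker_continuous h0 (by linarith : lam < 2 * Real.pi)) hbs
  exact ⟨F, hFc, hF⟩

/-- evenness of the density. -/
theorem ba230_sol_even {Q : ℝ} {f : ℝ → ℝ} (hfc : Continuous f)
    (hf : ∀ u, f u + c1x150_op (ba230_ker (2 * lam)) (Icc (-Q) Q) f u = ba230_ker lam u) (u : ℝ) :
    f (-u) = f u := by
  have hpi := Real.pi_pos
  have hl : lam < Real.pi := by linarith
  obtain ⟨hn, hn1⟩ := ba230_K_norm h0 hl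
  obtain ⟨M, hM0, hM⟩ := ba230_sol_bdd h0 h1 hfc hf
  exact c1x150_even (ba230_ker_integrable (a := 2 * lam) (by linarith) (by linarith))
    (ba230_ker_even _) hn.le hn1 measurableSet_Icc (c1x150_Icc_symm Q) hfc.measurable hM0
    (fun v _ => hM v) (ba230_ker_even _) hf u

/-- uniqueness of the density. -/
theorem ba230_sol_unique {Q : ℝ} {f g : ℝ → ℝ} (hfc : Continuous f) (hgc : Continuous g)
    (hf : ∀ u, f u + c1x150_op (ba230_ker (2 * lam)) (Icc (-Q) Q) f u = ba230_ker lam u)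
    (hg : ∀ u, g u + c1x150_op (ba230_ker (2 * lam)) (Icc (-Q) Q) g u = ba230_ker lam u) (u : ℝ) :
    f u = g u := by
  have hpi := Real.pi_pos
  have hl : lam < Real.pi := by linarith
  obtain ⟨hn, hn1⟩ := ba230_K_norm h0 hl
  obtain ⟨M, hM0, hM⟩ := ba230_sol_bdd h0 h1 hfc hf
  obtain ⟨N, hN0, hN⟩ := ba230_sol_bdd h0 h1 hgc hg
  exact c1x150_unique (ba230_ker_integrable (a := 2 * lam) (by linarith) (by linarith))
    hn.le hn1 measurableSet_Icc hfc.measurable hgc.measurable hM0 hN0 (fun v _ => hM v)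
    (fun v _ => hN v) hf hg u

/-- **positivity of the density, both signs of `K`**: `r_Q ≥ min(s, ρ) > 0`. -/
theorem ba230_sol_pos {Q : ℝ} {f : ℝ → ℝ} (hfc : Continuous f)
    (hf : ∀ u, f u + c1x150_op (ba230_ker (2 * lam)) (Icc (-Q) Q) f u = ba230_ker lam u) (u : ℝ) :
    0 < f u := by
  have hpi := Real.pi_pos
  have hl : lam < Real.pi := by linarith
  obtain ⟨M, hM0, hM⟩ := ba230_sol_bdd h0 h1 hfc hf
  rcases le_total lam (Real.pi / 2) with h2 | h2
  · -- `K ≥ 0`: complement form with the kernel `-R ≤ 0`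
    have hR := ba230_R_integrable h0 h1
    have hRn : ∫ w, |(fun u => -ba230_R lam u) w| ≤ 1 / 2 := by
      simp only [abs_neg]
      exact (ba230_R_norm_lt h0 h1).le
    have heq : ∀ x, f x + c1x150_op (fun u => -ba230_R lam u) (Icc (-Q) Q)ᶜ f x = ba230_rho lam x := by
      intro x
      have := ba230_comp h0 h1 hfc hf x
      have e : c1x150_op (fun u => -ba230_R lam u) (Icc (-Q) Q)ᶜ f x
          = - c1x150_op (ba230_R lam) (Icc (-Q) Q)ᶜ f x := by
        unfold c1x150_op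
        rw [← integral_neg]
        congr 1
        funext v
        ring
      rw [e]; linarith
    have := c1x150_source_le (K := fun u => -ba230_R lam u) hR.neg hRn (by norm_num) (fun w => by
      have := ba230_R_nonneg h0 h1 h2 w; linarith) measurableSet_Icc.compl
      hfc.measurable hM0 (fun v _ => hM v) (fun v => (ba230_rho_pos h0 v).le) heq u
    exact lt_of_lt_of_le (ba230_rho_pos h0 u) this
  · -- `K ≤ 0`
    obtain ⟨hn, hn1⟩ := ba230_K_norm h0 hl
    have hspos : ∀ v, 0 < ba230_ker lam v := by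
      intro v
      unfold ba230_ker
      exact div_pos (Real.sin_pos_of_pos_of_lt_pi h0 hl) (ba230_ker_den_pos h0 (by linarith) v)
    have := c1x150_source_le (ba230_ker_integrable (a := 2 * lam) (by linarith) (by linarith))
      hn.le hn1 (ba230_ker_nonpos (by linarith) (by linarith)) measurableSet_Icc
      hfc.measurable hM0 (fun v _ => hM v) (fun v => (hspos v).le) hf u
    exact lt_of_lt_of_le (hspos u) this

end

/-! ## Sec. 17  mass and energy defects, ASYM closed -/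

section
variable {lam : ℝ} (h0 : 0 < lam) (h1 : lam < 2 * Real.pi / 3)
include h0 h1

/-- **mass defect** (hypothesis `hD` of `ba6h200_asym`). -/
theorem ba230_mass_id {Q : ℝ} (hQ : 0 ≤ Q) {f : ℝ → ℝ} (hfc : Continuous f)
    (hf : ∀ u, f u + c1x150_op (ba230_ker (2 * lam)) (Icc (-Q) Q) f u = ba230_ker lam u) :
    1 / 2 - ∫ u in Icc (-Q) Q, f u = 2 * (1 - ∫ u, ba230_R lam u) * ∫ y in Ioi Q, f y := by
  have hpi := Real.pi_pos
  have hpl := ba230_pl_pos h0 h1
  have hK0 : 0 < 2 * lam := by linarith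
  have hK1 : 2 * lam < 2 * Real.pi := by linarith
  have hZ : Real.pi / (2 * (Real.pi - lam)) * (1 + ∫ w, ba230_ker (2 * lam) w) = 1 := by
    rw [ba230_ker_integral hK0 hK1]
    field_simp
    ring
  have h := c1x150_mass_defect hQ (ba230_ker_integrable hK0 hK1) (ba230_ker_even _) hZ
    (ba230_sol_integrable h0 h1 hfc hf) (ba230_sol_even h0 h1 hfc hf) hf
  rw [c1x150_Ioi_shift, ba230_ker_integral h0 (by linarith)] at h
  rw [ba230_Z_eq h0 h1, ← h]
  congr 1
  field_simp

/-- **energy defect** (hypothesis `hE` of `ba6h200_asym`). -/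
theorem ba230_energy_id {Q : ℝ} (hQ : 0 ≤ Q) {f : ℝ → ℝ} (hfc : Continuous f)
    (hf : ∀ u, f u + c1x150_op (ba230_ker (2 * lam)) (Icc (-Q) Q) f u = ba230_ker lam u) :
    (∫ u, ba230_rho lam u * ba230_e0 lam u) - ∫ u in Icc (-Q) Q, f u * ba230_e0 lam u
      = 2 * ∫ y in Ioi Q, ba230_eps lam y * f y := by
  have hpi := Real.pi_pos
  have hK0 : 0 < 2 * lam := by linarith
  have hK1 : 2 * lam < 2 * Real.pi := by linarith
  have hK := ba230_ker_integrable hK0 hK1
  obtain ⟨M, hM0, hM⟩ := ba230_sol_bdd h0 h1 hfc hf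
  have he : ∀ᵐ u, ba230_eps lam u + c1x150_op (ba230_ker (2 * lam)) univ (ba230_eps lam) u
      = ba230_e0 lam u := by
    filter_upwards [ba230_ae_ne_zero] with u hu
    rw [ba230_op_univ_eq_conv]
    exact ba230_eps_solves h0 h1 hu
  have h := c1x150_energy_defect hQ hK (ba230_ker_even _) hfc.measurable hM
    (ba230_sol_even h0 h1 hfc hf) hf (ba230_eps_integrable h0) (ba230_eps_even lam) he
  have hrb : ∀ u, |ba230_rho lam u| ≤ 1 / (2 * lam) := by
    intro u
    rw [abs_of_pos (ba230_rho_pos h0 u)]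
    unfold ba230_rho
    have := Real.one_le_cosh (Real.pi * u / lam)
    apply div_le_div_of_nonneg_left zero_le_one (by positivity)
    nlinarith
  have hsym := c1x150_full_symm (s := ba230_ker lam) hK (ba230_ker_even _)
    (ba230_rho_continuous h0).measurable hrb
    (fun u => by rw [ba230_op_univ_eq_conv]; exact ba230_rho_solves h0 (by linarith) u)
    (ba230_eps_integrable h0) he
  rw [← hsym, h, c1x150_Ioi_shift (fun y => ba230_eps lam y * f y)]

/-- complement form in the shape `hcomp` of `ba6h200_asym`. -/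
theorem ba230_comp' {Q : ℝ} (hQ : 0 ≤ Q) {f : ℝ → ℝ} (hfc : Continuous f)
    (hf : ∀ u, f u + c1x150_op (ba230_ker (2 * lam)) (Icc (-Q) Q) f u = ba230_ker lam u) (x : ℝ) :
    f x = ba230_rho lam x + (∫ y in Ioi Q, ba230_R lam (x - y) * f y) +
      ∫ y in Iio (-Q), ba230_R lam (x - y) * f y := by
  have h := ba230_comp h0 h1 hfc hf x
  obtain ⟨b, hb⟩ := ba230_R_bdd h0 h1
  have hint : Integrable (fun y => ba230_R lam (x - y) * f y) := by
    refine (ba230_sol_integrable h0 h1 hfc hf).bdd_mul (c := b)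
      (((ba230_R_continuous h0 h1).comp (by fun_prop : Continuous fun y : ℝ => x - y)).aestronglyMeasurable)
      (Eventually.of_forall fun y => by simpa using hb (x - y))
  have hd : Disjoint (Iio (-Q)) (Ioi Q) := by
    rw [Set.disjoint_left]
    intro u hu hu'
    simp only [mem_Iio, mem_Ioi] at hu hu'
    linarith
  unfold c1x150_op at h
  rw [c1x150_compl_Icc, setIntegral_union hd measurableSet_Ioi hint.integrableOn hint.integrableOn] at h
  linarith

/-- **ASYM, closed for the concrete kernels** (`1 < c < 2`, `c = 2 cos(λ/2)`): for ANY family of continuous solutions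
of the truncated equations, `(E(∞) - E(Q)) / (1/2 - D(Q))² → π - λ = 2 arcsin(c/2)`. -/
theorem ba230_ASYM {r : ℝ → ℝ → ℝ} (hc : ∀ Q, Continuous (r Q))
    (heq : ∀ Q u, r Q u + c1x150_op (ba230_ker (2 * lam)) (Icc (-Q) Q) (r Q) u = ba230_ker lam u) :
    Tendsto (fun Q => ((∫ u, ba230_rho lam u * ba230_e0 lam u) - ∫ u in Icc (-Q) Q, r Q u * ba230_e0 lam u)
      / (1 / 2 - ∫ u in Icc (-Q) Q, r Q u) ^ 2) atTop (𝓝 (Real.pi - lam)) :=
  ba230_asym h0 h1 (rQ := r) (Dq := fun Q => ∫ u in Icc (-Q) Q, r Q u)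
    (Eq := fun Q => ∫ u in Icc (-Q) Q, r Q u * ba230_e0 lam u)
    (fun Q => (ba230_sol_integrable h0 h1 (hc Q) (heq Q)).integrableOn)
    (fun Q => ba230_sol_even h0 h1 (hc Q) (heq Q))
    (fun Q hQ => ba230_comp' h0 h1 hQ (hc Q) (heq Q))
    (fun Q hQ => ba230_mass_id h0 h1 hQ (hc Q) (heq Q))
    (fun Q hQ => ba230_energy_id h0 h1 hQ (hc Q) (heq Q))

end

/-! ## Sec. 18  the structures of pen 150 instantiated; `D(Q) → 1/2`; EXIT OF BLOCK C -/


lemma ba230_tail_tendsto {F : ℝ → ℝ} (hF : Integrable F) :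
    Tendsto (fun Q : ℝ => ∫ x in Ioi Q, F x) atTop (𝓝 0) := by
  have h := ba6h200_tail_tendsto (F := fun x => F (-x)) hF.comp_neg
  have h2 : Tendsto (fun Q : ℝ => Q / 2) atTop atTop := tendsto_id.atTop_div_const (by norm_num)
  have h3 := h.comp h2
  refine h3.congr (fun Q => ?_)
  simp only [Function.comp]
  rw [integral_comp_neg_Iic]
  congr 2
  ring_nf

section
variable {lam : ℝ} (h0 : 0 < lam) (h1 : lam < 2 * Real.pi / 3)
include h0 h1

/-- the hypotheses `C1x150Ker` of pen 150 for the concrete kernels. -/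
theorem ba230_Ker : ∃ C : ℝ, C1x150Ker (ba230_ker (2 * lam)) (ba230_ker lam) |1 - 2 * lam / Real.pi| C := by
  have hpi := Real.pi_pos
  have hl : lam < Real.pi := by linarith
  obtain ⟨hn, hn1⟩ := ba230_K_norm h0 hl
  obtain ⟨bs, hbs⟩ := ba230_ker_bdd h0 (by linarith : lam < 2 * Real.pi)
  exact ⟨bs, ⟨ba230_ker_integrable (by linarith) (by linarith), ba230_ker_even _, hn.le, hn1,
    ba230_ker_continuous h0 (by linarith), hbs, ba230_ker_even _, ba230_ker_integrable h0 (by linarith)⟩⟩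

/-- the hypotheses `C1x150Res` of pen 150 for the concrete kernels. -/
theorem ba230_Res : C1x150Res (ba230_ker (2 * lam)) (ba230_ker lam) (ba230_R lam) (ba230_rho lam)
    (ba230_eps lam) (ba230_e0 lam) where
  R_int := ba230_R_integrable h0 h1
  R_meas := (ba230_R_continuous h0 h1).measurable
  R_res := fun u => by rw [ba230_op_univ_eq_conv]; exact ba230_R_resolvent h0 h1 u
  rinf_meas := (ba230_rho_continuous h0).measurable
  rinf_bdd := ⟨1 / (2 * lam), fun u => by
    rw [abs_of_pos (ba230_rho_pos h0 u)]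
    unfold ba230_rho
    have := Real.one_le_cosh (Real.pi * u / lam)
    apply div_le_div_of_nonneg_left zero_le_one (by positivity)
    nlinarith⟩
  rinf_eq := fun u => by
    rw [ba230_op_univ_eq_conv]; exact ba230_rho_solves h0 (by linarith [Real.pi_pos]) u
  eps_int := ba230_eps_integrable h0
  eps_even := ba230_eps_even lam
  eps_eq := by
    filter_upwards [ba230_ae_ne_zero] with u hu
    rw [ba230_op_univ_eq_conv]
    exact ba230_eps_solves h0 h1 hu

/-- `L¹` bound outside: `∫_{|u|>Q} |r_Q| ≤ 2 ∫_{|u|>Q} ρ`. -/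
theorem ba230_out_bound {Q : ℝ} {f : ℝ → ℝ} (hfc : Continuous f)
    (hf : ∀ u, f u + c1x150_op (ba230_ker (2 * lam)) (Icc (-Q) Q) f u = ba230_ker lam u) :
    ∫ u in (Icc (-Q) Q)ᶜ, |f u| ≤ 2 * ∫ u in (Icc (-Q) Q)ᶜ, ba230_rho lam u := by
  have hfi := ba230_sol_integrable h0 h1 hfc hf
  have hA : MeasurableSet (Icc (-Q) Q)ᶜ := measurableSet_Icc.compl
  obtain ⟨hoi, hob⟩ := c1x150_op_L1 (ba230_R_integrable h0 h1) hA hfi.integrableOn
  have hR := ba230_R_norm_lt h0 h1
  have hI0 : 0 ≤ ∫ u in (Icc (-Q) Q)ᶜ, |f u| := integral_nonneg fun _ => abs_nonneg _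
  have h2 : ∫ u in (Icc (-Q) Q)ᶜ, |f u| ≤ (∫ u in (Icc (-Q) Q)ᶜ, ba230_rho lam u)
      + ∫ u in (Icc (-Q) Q)ᶜ, |c1x150_op (ba230_R lam) (Icc (-Q) Q)ᶜ f u| := by
    rw [← integral_add (ba230_rho_integrable h0).integrableOn hoi.abs.integrableOn]
    refine integral_mono hfi.abs.integrableOn
      ((ba230_rho_integrable h0).integrableOn.add hoi.abs.integrableOn) (fun u => ?_)
    have := ba230_comp h0 h1 hfc hf u
    simp only []
    rw [← this]
    refine (abs_add_le _ _).trans ?_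
    rw [abs_of_pos (ba230_rho_pos h0 u)]
  have h3 : ∫ u in (Icc (-Q) Q)ᶜ, |c1x150_op (ba230_R lam) (Icc (-Q) Q)ᶜ f u|
      ≤ ∫ u, |c1x150_op (ba230_R lam) (Icc (-Q) Q)ᶜ f u| :=
    setIntegral_le_integral hoi.abs (Eventually.of_forall fun _ => abs_nonneg _)
  have h4 : (∫ w, |ba230_R lam w|) * ∫ v in (Icc (-Q) Q)ᶜ, |f v|
      ≤ (1 / 2) * ∫ v in (Icc (-Q) Q)ᶜ, |f v| := mul_le_mul_of_nonneg_right hR.le hI0
  linarith

/-- `D(Q) → 1/2`. -/
theorem ba230_D_tendsto {r : ℝ → ℝ → ℝ} (hc : ∀ Q, Continuous (r Q))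
    (heq : ∀ Q u, r Q u + c1x150_op (ba230_ker (2 * lam)) (Icc (-Q) Q) (r Q) u = ba230_ker lam u) :
    Tendsto (fun Q => ∫ u in Icc (-Q) Q, r Q u) atTop (𝓝 (1 / 2)) := by
  have hpl := ba230_pl_pos h0 h1
  have hZ0 : 0 < 1 - ∫ u, ba230_R lam u := by
    rw [ba230_Z_eq h0 h1]; have := Real.pi_pos; positivity
  have htail := ba230_tail_tendsto (ba230_rho_integrable h0)
  have hb : Tendsto (fun Q : ℝ => 2 * (1 - ∫ u, ba230_R lam u) * (4 * ∫ x in Ioi Q, ba230_rho lam x))
      atTop (𝓝 0) := by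
    have := (htail.const_mul 4).const_mul (2 * (1 - ∫ u, ba230_R lam u))
    simpa using this
  have key : Tendsto (fun Q => 1 / 2 - ∫ u in Icc (-Q) Q, r Q u) atTop (𝓝 0) := by
    refine squeeze_zero' ?_ ?_ hb
    · filter_upwards [eventually_ge_atTop (0 : ℝ)] with Q hQ
      rw [ba230_mass_id h0 h1 hQ (hc Q) (heq Q)]
      have : 0 ≤ ∫ y in Ioi Q, r Q y :=
        integral_nonneg fun y => (ba230_sol_pos h0 h1 (hc Q) (heq Q) y).le
      positivity
    · filter_upwards [eventually_ge_atTop (0 : ℝ)] with Q hQ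
      rw [ba230_mass_id h0 h1 hQ (hc Q) (heq Q)]
      refine mul_le_mul_of_nonneg_left ?_ (by positivity)
      have hfi := ba230_sol_integrable h0 h1 (hc Q) (heq Q)
      have h1' : ∫ y in Ioi Q, r Q y ≤ ∫ u in (Icc (-Q) Q)ᶜ, |r Q u| := by
        calc ∫ y in Ioi Q, r Q y ≤ ∫ y in Ioi Q, |r Q y| :=
              integral_mono hfi.integrableOn hfi.abs.integrableOn fun y => le_abs_self _
          _ ≤ ∫ u in (Icc (-Q) Q)ᶜ, |r Q u| := by
              refine setIntegral_mono_set hfi.abs.integrableOn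
                (Eventually.of_forall fun _ => abs_nonneg _) (LE.le.eventuallyLE ?_)
              rw [c1x150_compl_Icc]
              exact subset_union_right
      have h2' := ba230_out_bound h0 h1 (hc Q) (heq Q)
      have h3' : ∫ u in (Icc (-Q) Q)ᶜ, ba230_rho lam u = 2 * ∫ x in Ioi Q, ba230_rho lam x := by
        rw [c1x150_compl_even hQ (ba230_rho_integrable h0).integrableOn (ba230_rho_even lam),
          c1x150_Ioi_shift]
      linarith
  have := (tendsto_const_nhds (x := (1 / 2 : ℝ))).sub key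
  simpa using this

/-- **EXIT OF BLOCK C, concrete kernels, `1 < c < 2`** (`c = 2 cos(λ/2)`): canonical filling `c1x150_Dq`, energy `c1x150_Eq`
of pen 150; a function `φ` of the filling with the second order expansion at `1/2`, constant `π - λ = 2 arcsin(c/2)`. -/
theorem ba230_C_exit :
    ∃ φ : ℝ → ℝ,
      (∀ d, 0 < d → d < 1 / 2 → ∃ Q, 0 < Q ∧ c1x150_Dq (ba230_ker (2 * lam)) (ba230_ker lam) Q = d ∧
        φ d = c1x150_Eq (ba230_ker (2 * lam)) (ba230_ker lam) (ba230_e0 lam) Q) ∧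
      ∀ ε : ℝ, 0 < ε → ∃ δ : ℝ, 0 < δ ∧ ∀ d, 1 / 2 - δ < d → d < 1 / 2 →
        |(∫ u, ba230_rho lam u * ba230_e0 lam u) - φ d - (Real.pi - lam) * (1 / 2 - d) ^ 2|
          ≤ ε * (1 / 2 - d) ^ 2 := by
  obtain ⟨C, H⟩ := ba230_Ker h0 h1
  have hc := c1x150_rQ_continuous H
  have heq := c1x150_rQ_eq H
  refine c1x150_exit (c1x150_Dq_continuousOn H) c1x150_Dq_zero
    (ba230_D_tendsto h0 h1 hc heq) (fun Q hQ => ?_) (ba230_ASYM h0 h1 hc heq)
  have hm := ba230_mass_id h0 h1 hQ (hc Q) (heq Q)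
  have hZ0 : 0 < 1 - ∫ u, ba230_R lam u := by
    rw [ba230_Z_eq h0 h1]; have := Real.pi_pos; have := ba230_pl_pos h0 h1; positivity
  have hpos : 0 < ∫ y in Ioi Q, c1x150_rQ (ba230_ker (2 * lam)) (ba230_ker lam) Q y := by
    rw [setIntegral_pos_iff_support_of_nonneg_ae
      (Eventually.of_forall fun u => (ba230_sol_pos h0 h1 (hc Q) (heq Q) u).le)
      (ba230_sol_integrable h0 h1 (hc Q) (heq Q)).integrableOn]
    have : Function.support (c1x150_rQ (ba230_ker (2 * lam)) (ba230_ker lam) Q) = univ := by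
      ext u; simp [(ba230_sol_pos h0 h1 (hc Q) (heq Q) u).ne']
    rw [this, univ_inter]
    simp
  have : 0 < 2 * (1 - ∫ u, ba230_R lam u) *
      ∫ y in Ioi Q, c1x150_rQ (ba230_ker (2 * lam)) (ba230_ker lam) Q y := by positivity
  unfold c1x150_Dq
  linarith

end

/-! ## Sec. 19  adapters to hub B of 271 (interval integrals, `Bh271Dens`, `bh271_D`, `bh271_Phi`) -/

lemma ba230_Icc_interval (g : ℝ → ℝ) {Q : ℝ} (hQ : 0 ≤ Q) :
    ∫ v in Icc (-Q) Q, g v = ∫ v in (-Q)..Q, g v := by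
  rw [intervalIntegral.integral_of_le (by linarith), integral_Icc_eq_integral_Ioc]

section
variable {lam : ℝ} (h0 : 0 < lam) (h1 : lam < 2 * Real.pi / 3)
include h0 h1

/-- the four fields of `Bh271Dens lam Q r` (hub B of 271) for the canonical density. -/
theorem ba230_dens {Q : ℝ} (hQ : 0 ≤ Q) :
    Continuous (c1x150_rQ (ba230_ker (2 * lam)) (ba230_ker lam) Q) ∧
    (∀ u, 0 < c1x150_rQ (ba230_ker (2 * lam)) (ba230_ker lam) Q u) ∧
    (∀ u, c1x150_rQ (ba230_ker (2 * lam)) (ba230_ker lam) Q (-u)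
      = c1x150_rQ (ba230_ker (2 * lam)) (ba230_ker lam) Q u) ∧
    ∀ u, c1x150_rQ (ba230_ker (2 * lam)) (ba230_ker lam) Q u
      + ∫ v in (-Q)..Q, ba230_ker (2 * lam) (u - v) * c1x150_rQ (ba230_ker (2 * lam)) (ba230_ker lam) Q v
      = ba230_ker lam u := by
  obtain ⟨C, H⟩ := ba230_Ker h0 h1
  have hc := c1x150_rQ_continuous H Q
  have heq := c1x150_rQ_eq H Q
  refine ⟨hc, ba230_sol_pos h0 h1 hc heq, ba230_sol_even h0 h1 hc heq, fun u => ?_⟩
  rw [← ba230_Icc_interval _ hQ]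
  exact heq u

omit h0 h1 in
theorem ba230_D_interval {Q : ℝ} (hQ : 0 ≤ Q) :
    ∫ u in (-Q)..Q, c1x150_rQ (ba230_ker (2 * lam)) (ba230_ker lam) Q u
      = c1x150_Dq (ba230_ker (2 * lam)) (ba230_ker lam) Q := by
  rw [← ba230_Icc_interval _ hQ]; rfl

omit h0 h1 in
theorem ba230_Phi_interval {Q : ℝ} (hQ : 0 ≤ Q) :
    ∫ u in (-Q)..Q, Real.log ((Real.cosh (2 * u) - Real.cos (2 * lam)) / (Real.cosh (2 * u) - 1)) / 2
        * c1x150_rQ (ba230_ker (2 * lam)) (ba230_ker lam) Q u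
      = c1x150_Eq (ba230_ker (2 * lam)) (ba230_ker lam) (ba230_e0 lam) Q := by
  rw [← ba230_Icc_interval _ hQ]
  unfold c1x150_Eq ba230_e0 ba230_E
  congr 1
  funext u
  ring

/-- any density in the sense of hub B is the canonical one. -/
theorem ba230_dens_unique {Q : ℝ} (hQ : 0 ≤ Q) {r : ℝ → ℝ} (hrc : Continuous r)
    (hr : ∀ u, r u + ∫ v in (-Q)..Q, ba230_ker (2 * lam) (u - v) * r v = ba230_ker lam u) (u : ℝ) :
    r u = c1x150_rQ (ba230_ker (2 * lam)) (ba230_ker lam) Q u := by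
  obtain ⟨C, H⟩ := ba230_Ker h0 h1
  refine ba230_sol_unique h0 h1 hrc (c1x150_rQ_continuous H Q) (fun u => ?_) (c1x150_rQ_eq H Q) u
  unfold c1x150_op
  rw [ba230_Icc_interval _ hQ]
  exact hr u

end

/-! ## Sec. 20  the contracts T2 and (4/6 of) T1 of `Bethe/Thermo.lean` (116), exact shapes -/


section
variable {lam : ℝ} (h0 : 0 < lam) (h1 : lam < 2 * Real.pi / 3)
include h0 h1

/-- `D(Q) < 1/2`. -/
theorem ba230_Dq_lt {Q : ℝ} (hQ : 0 ≤ Q) :
    c1x150_Dq (ba230_ker (2 * lam)) (ba230_ker lam) Q < 1 / 2 := by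
  obtain ⟨C, H⟩ := ba230_Ker h0 h1
  have hc := c1x150_rQ_continuous H
  have heq := c1x150_rQ_eq H
  have hm := ba230_mass_id h0 h1 hQ (hc Q) (heq Q)
  have hZ0 : 0 < 1 - ∫ u, ba230_R lam u := by
    rw [ba230_Z_eq h0 h1]; have := Real.pi_pos; have := ba230_pl_pos h0 h1; positivity
  have hpos : 0 < ∫ y in Ioi Q, c1x150_rQ (ba230_ker (2 * lam)) (ba230_ker lam) Q y := by
    rw [setIntegral_pos_iff_support_of_nonneg_ae
      (Eventually.of_forall fun u => (ba230_sol_pos h0 h1 (hc Q) (heq Q) u).le)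
      (ba230_sol_integrable h0 h1 (hc Q) (heq Q)).integrableOn]
    have : Function.support (c1x150_rQ (ba230_ker (2 * lam)) (ba230_ker lam) Q) = univ := by
      ext u; simp [(ba230_sol_pos h0 h1 (hc Q) (heq Q) u).ne']
    rw [this, univ_inter]
    simp
  have : 0 < 2 * (1 - ∫ u, ba230_R lam u) *
      ∫ y in Ioi Q, c1x150_rQ (ba230_ker (2 * lam)) (ba230_ker lam) Q y := by positivity
  unfold c1x150_Dq
  linarith

/-- four of the six conjuncts of **T1** (`ba_t1` of 116's `Thermo.lean`), exact shape after unfolding `baDq`. -/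
theorem ba230_t1_part :
    ContinuousOn (c1x150_Dq (ba230_ker (2 * lam)) (ba230_ker lam)) (Ici 0) ∧
      c1x150_Dq (ba230_ker (2 * lam)) (ba230_ker lam) 0 = 0 ∧
      (∀ Q, 0 < Q → c1x150_Dq (ba230_ker (2 * lam)) (ba230_ker lam) Q < 1 / 2) ∧
      Tendsto (c1x150_Dq (ba230_ker (2 * lam)) (ba230_ker lam)) atTop (𝓝 (1 / 2)) := by
  obtain ⟨C, H⟩ := ba230_Ker h0 h1
  exact ⟨c1x150_Dq_continuousOn H, c1x150_Dq_zero, fun Q hQ => ba230_Dq_lt h0 h1 hQ.le,
    ba230_D_tendsto h0 h1 (c1x150_rQ_continuous H) (c1x150_rQ_eq H)⟩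

/-- **T2** (`ba_t2` of 116's `Thermo.lean`), exact shape after unfolding `baEinf`, `baEq`, `baDq`. -/
theorem ba230_t2 :
    Tendsto (fun Q => ((∫ u, ba230_ker lam u * ba230_eps lam u)
        - c1x150_Eq (ba230_ker (2 * lam)) (ba230_ker lam) (ba230_e0 lam) Q)
      / (1 / 2 - c1x150_Dq (ba230_ker (2 * lam)) (ba230_ker lam) Q) ^ 2) atTop (𝓝 (Real.pi - lam)) := by
  obtain ⟨C, H⟩ := ba230_Ker h0 h1
  rw [c1x150_Einf_eq H (ba230_Res h0 h1)]
  exact ba230_ASYM h0 h1 (c1x150_rQ_continuous H) (c1x150_rQ_eq H)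

end

end Claimed.Agent.R292
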