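import Claimed.Agent.R292.Bethe.Soft110
import Claimed.Agent.R292.Bethe.BA1x140
import Claimed.Agent.R292.Bethe.BA4x120
import Claimed.Agent.R292.Bethe.BA4Ana120
import Claimed.Agent.R292.Bethe.BA4Wire120
import Claimed.Agent.R292.Bethe.B1c160
import Claimed.Agent.R292.Bethe.Dict140
import Claimed.Agent.R292.Bethe.B1w160
import Claimed.Agent.R292.Bethe.Four230

/-!
# Rows 292 / 290, cell C1, unit BETHE: HUB, BLOCK B (the lattice side, "LAT")      (helper271; prefix `bh271_`)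

Text: `origin/helper271:notes/R292/BETHE_BLUEPRINT_271.md` (LAT, L1-L5), paper 290 Lemma 2.2 and Lemma 3.1 (2).

Parametrisation: `c = 2 cos (lam / 2)`, `2 Δ = 2 - c² = - 2 cos lam`, `lam = bh271_lam c ∈ (0, 2π/3)` for `1 < c < 2`.
Rapidity `u ∈ ℝ`; momentum `2π S (u)`, `S' = s = ba230_ker lam`; phase `2π Θ (u)`, `Θ' = K = ba230_ker (2 lam)`.
`z (u) = exp (2π i S u) = sinh (i lam / 2 - u) / sinh (i lam / 2 + u)`, `|L (z u)| = |M (z u)| = exp (e0 u)`.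

## The contracts (each one a `Prop`; a leaf PROVES the `Prop`)
* `Bh271B2` : (leaves B2a / B2b / B3a) real, symmetric, ordered roots exist for `N ≥ N₀`, some even `n` within `2` of `D N`, analytic along
  the segment of parameters from `lam` to the free-fermion point `π / 2`, and close to the quantiles of the density at `lam`.
* `Bh271B4` : (leaf B4) condensation, for the observable `e0` (logarithmic singularity at `0` included).
## The wiring (theorems of this file)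
* `bh271_BE`, `bh271_z_*`, `bh271_Lam_eq` : DICTIONARY rapidities `→` multiplicative roots: logarithmic equations `⟹ ba2a270_BE`,
  `z ≠ 1`, analyticity, the seed, `Λ = 2 ∏ exp (e0 (y j))`.
* `bh271_B3`   : (leaf B3c) a family of good roots `⟹` `(1/M) log Z (M, N, n) → log 2 + ∑ e0 (y j)`   (over `ba1d_wiring_log` of 140 = `ba120_wiring_log` of 120 + `b1c160_eigen` of 160).
* `bh271_exit` : `B2 + B4 ⟹ bs110_FE c D (Q) Φ (Q)`, the input (BA⋆) of block A (`Soft110`), for every density `r` of block C.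
* `bh271_reg_of_FE`, `bh271_cond_of_FE` : SOFT: (BA⋆) pointwise in `Q` + continuity of `D`, `Φ` `⟹` the condensation clause of `BaThermo`
  (uniform on compacts of `Q`, every `n = N D (Q)`), by row insertion (`bs110_transfer`) and compactness.
* `bh271_thermo_at` : `B2 + B4 +` the continuum family (`Bh271Dens`, `D`, `Φ` continuous, `D` strictly increasing `→ 1/2`, the asymptotics)
  `⟹` the body of `BaThermo c`, `1 < c < 2`.
* `bh271_PA` : (abstract) the Fermi point of constant filling along a path of parameters: exists, unique, continuous, in a compact of `(0,∞)`.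
-/

set_option autoImplicit false

namespace Claimed.Agent.R292

open MeasureTheory Filter Topology Matrix

/-! ## 1. vocabulary -/

/-- `c = 2 cos (lam / 2)` -/
noncomputable def bh271_lam (c : ℝ) : ℝ := 2 * Real.arccos (c / 2)

/-- momentum / `2π`; odd, increasing, `S' = ba230_ker lam` -/
noncomputable def bh271_S (lam u : ℝ) : ℝ :=
  Real.arctan (Real.cos (lam / 2) / Real.sin (lam / 2) * Real.tanh u) / Real.pi

/-- two-body phase / `2π`; odd, `Θ' = ba230_ker (2 lam)`, `Θ = 0` at `lam = π / 2` -/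
noncomputable def bh271_Th (lam u : ℝ) : ℝ :=
  Real.arctan (Real.cos lam / Real.sin lam * Real.tanh u) / Real.pi

/-- the energy `e0 u = log |sinh (u + i lam) / sinh u|` -/
noncomputable def bh271_e0 (lam u : ℝ) : ℝ :=
  Real.log ((Real.cosh (2 * u) - Real.cos (2 * lam)) / (Real.cosh (2 * u) - 1)) / 2

/-- the multiplicative root -/
noncomputable def bh271_z (lam u : ℝ) : ℂ := Complex.exp (2 * Real.pi * Complex.I * (bh271_S lam u : ℂ))

/-- **the logarithmic Bethe equations**, quantum numbers `j - (n - 1) / 2`, `j = 0, …, n - 1` -/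
def Bh271Roots (lam : ℝ) (N n : ℕ) (y : Fin n → ℝ) : Prop :=
  ∀ j : Fin n, (N : ℝ) * bh271_S lam (y j) - ∑ k : Fin n, bh271_Th lam (y j - y k) = ((j : ℕ) : ℝ) - ((n : ℝ) - 1) / 2

/-- a good configuration of roots: solves the equations, symmetric, strictly ordered -/
structure Bh271Good (lam : ℝ) (N n : ℕ) (y : Fin n → ℝ) : Prop where
  roots : Bh271Roots lam N n y
  symm : ∀ j : Fin n, y (Fin.rev j) = - y j
  mono : StrictMono y

/-- **the density of block C**: `r + K *_{[-Q,Q]} r = s` ON THE WHOLE LINE (so `r` is `r_Q` on `[-Q,Q]` and its natural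
extension outside), continuous, positive, even. -/
structure Bh271Dens (lam Q : ℝ) (r : ℝ → ℝ) : Prop where
  cont : Continuous r
  pos : ∀ u, 0 < r u
  even : ∀ u, r (-u) = r u
  eq : ∀ u, r u + ∫ v in (-Q)..Q, ba230_ker (2 * lam) (u - v) * r v = ba230_ker lam u

/-- filling `D (Q)` -/
noncomputable def bh271_D (Q : ℝ) (r : ℝ → ℝ) : ℝ := ∫ u in (-Q)..Q, r u

/-- free energy `Φ (Q)` -/
noncomputable def bh271_Phi (lam Q : ℝ) (r : ℝ → ℝ) : ℝ := ∫ u in (-Q)..Q, bh271_e0 lam u * r u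

/-! ## 2. the contracts -/

/-- **CONTRACT B2** (leaves B2a / B2b / B3a). -/
def Bh271B2 : Prop :=
  ∀ (c Q : ℝ) (r : ℝ → ℝ), 1 < c → c < 2 → 0 < Q → Bh271Dens (bh271_lam c) Q r →
    ∃ (C : ℝ) (N₀ : ℕ), ∀ N : ℕ, N₀ ≤ N → ∃ n : ℕ, Even n ∧ 0 < n ∧ 2 * n ≤ N ∧ |(n : ℝ) - bh271_D Q r * N| ≤ 2 ∧
      ∃ y : ℝ → Fin n → ℝ,
        (∀ t ∈ Set.uIcc (bh271_lam c) (Real.pi / 2), Bh271Good t N n (y t)) ∧
        (∀ j, AnalyticOnNhd ℝ (fun t => y t j) (Set.uIcc (bh271_lam c) (Real.pi / 2))) ∧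
        ∀ j : Fin n, |(∫ u in (0 : ℝ)..(y (bh271_lam c) j), r u) - (((j : ℕ) : ℝ) - ((n : ℝ) - 1) / 2) / N| ≤ C / N

/-- the contract B2 at ONE weight `c` (so that the two signs of `K` can be delivered separately). -/
def Bh271B2at (c : ℝ) : Prop :=
  ∀ (Q : ℝ) (r : ℝ → ℝ), 0 < Q → Bh271Dens (bh271_lam c) Q r →
    ∃ (C : ℝ) (N₀ : ℕ), ∀ N : ℕ, N₀ ≤ N → ∃ n : ℕ, Even n ∧ 0 < n ∧ 2 * n ≤ N ∧ |(n : ℝ) - bh271_D Q r * N| ≤ 2 ∧
      ∃ y : ℝ → Fin n → ℝ,
        (∀ t ∈ Set.uIcc (bh271_lam c) (Real.pi / 2), Bh271Good t N n (y t)) ∧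
        (∀ j, AnalyticOnNhd ℝ (fun t => y t j) (Set.uIcc (bh271_lam c) (Real.pi / 2))) ∧
        ∀ j : Fin n, |(∫ u in (0 : ℝ)..(y (bh271_lam c) j), r u) - (((j : ℕ) : ℝ) - ((n : ℝ) - 1) / 2) / N| ≤ C / N

theorem bh271_B2at_of (h : Bh271B2) {c : ℝ} (hc1 : 1 < c) (hc2 : c < 2) : Bh271B2at c :=
  fun Q r hQ hr => h c Q r hc1 hc2 hQ hr

/-- **CONTRACT B4** (leaf B4). -/
def Bh271B4 : Prop :=
  ∀ (lam Q : ℝ) (r : ℝ → ℝ), 0 < lam → lam < Real.pi → 0 < Q → Bh271Dens lam Q r → ∀ C ε : ℝ, 0 < ε →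
    ∃ N₁ : ℕ, ∀ (N n : ℕ) (y : Fin n → ℝ), N₁ ≤ N → Even n → |(n : ℝ) - bh271_D Q r * N| ≤ 2 → Bh271Good lam N n y →
      (∀ j : Fin n, |(∫ u in (0 : ℝ)..(y j), r u) - (((j : ℕ) : ℝ) - ((n : ℝ) - 1) / 2) / N| ≤ C / N) →
        |(∑ j, bh271_e0 lam (y j)) / N - bh271_Phi lam Q r| ≤ ε

/-! ## 3. the dictionary rapidities → multiplicative roots -/

theorem bh271_one_sub_ne (x : ℝ) : (1 : ℂ) - Complex.I * x ≠ 0 := by
  intro h
  have := congrArg Complex.re h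
  simp at this

/-- `exp (2 i arctan x) = (1 + i x) / (1 - i x)` -/
theorem bh271_exp_arctan (x : ℝ) :
    Complex.exp (2 * Complex.I * (Real.arctan x : ℂ)) = (1 + Complex.I * x) / (1 - Complex.I * x) := by
  set θ : ℝ := Real.arctan x with hθ
  have hc : (Complex.cos θ) ≠ 0 := by
    rw [← Complex.ofReal_cos]
    exact Complex.ofReal_ne_zero.mpr (Real.cos_arctan_pos x).ne'
  have hx : (x : ℂ) = Complex.sin θ / Complex.cos θ := by
    rw [← Complex.ofReal_sin, ← Complex.ofReal_cos, ← Complex.ofReal_div, ← Real.tan_eq_sin_div_cos, hθ,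
      Real.tan_arctan]
  have e1 : Complex.exp (θ * Complex.I) = Complex.cos θ + Complex.sin θ * Complex.I := Complex.exp_mul_I _
  have e2 : Complex.exp (-(θ : ℂ) * Complex.I) = Complex.cos θ - Complex.sin θ * Complex.I := by
    rw [Complex.exp_mul_I, Complex.cos_neg, Complex.sin_neg]; ring
  have e3 : Complex.exp (2 * Complex.I * (θ : ℂ)) =
      Complex.exp (θ * Complex.I) / Complex.exp (-(θ : ℂ) * Complex.I) := by
    rw [← Complex.exp_sub]; congr 1; ring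
  have hne := bh271_one_sub_ne x
  have hne2 : Complex.cos θ - Complex.sin θ * Complex.I ≠ 0 := by
    rw [← e2]; exact Complex.exp_ne_zero _
  rw [e3, e1, e2, div_eq_div_iff hne2 hne, hx]
  field_simp

theorem bh271_z_eq (lam u : ℝ) :
    bh271_z lam u = (1 + Complex.I * ((Real.cos (lam / 2) / Real.sin (lam / 2) * Real.tanh u : ℝ) : ℂ)) /
      (1 - Complex.I * ((Real.cos (lam / 2) / Real.sin (lam / 2) * Real.tanh u : ℝ) : ℂ)) := by
  rw [← bh271_exp_arctan]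
  unfold bh271_z bh271_S
  congr 1
  have : (Real.pi : ℂ) ≠ 0 := Complex.ofReal_ne_zero.mpr Real.pi_ne_zero
  push_cast
  field_simp

theorem bh271_expTh_eq (lam u : ℝ) :
    Complex.exp (2 * Real.pi * Complex.I * (bh271_Th lam u : ℂ)) =
      (1 + Complex.I * ((Real.cos lam / Real.sin lam * Real.tanh u : ℝ) : ℂ)) /
      (1 - Complex.I * ((Real.cos lam / Real.sin lam * Real.tanh u : ℝ) : ℂ)) := by
  rw [← bh271_exp_arctan]
  unfold bh271_Th
  congr 1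
  have : (Real.pi : ℂ) ≠ 0 := Complex.ofReal_ne_zero.mpr Real.pi_ne_zero
  push_cast
  field_simp

theorem bh271_tanh_sub (u v : ℝ) :
    Real.tanh (u - v) = (Real.tanh u - Real.tanh v) / (1 - Real.tanh u * Real.tanh v) := by
  have h1 := (Real.cosh_pos u).ne'
  have h2 := (Real.cosh_pos v).ne'
  have h3 := (Real.cosh_pos (u - v)).ne'
  have h4 : Real.cosh u * Real.cosh v - Real.sinh u * Real.sinh v ≠ 0 := by
    rw [← Real.cosh_sub]; exact h3
  rw [Real.tanh_eq_sinh_div_cosh, Real.tanh_eq_sinh_div_cosh, Real.tanh_eq_sinh_div_cosh, Real.sinh_sub,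
    Real.cosh_sub]
  field_simp

theorem bh271_one_sub_tanh_mul_ne (u v : ℝ) : 1 - Real.tanh u * Real.tanh v ≠ 0 := by
  have h1 := (Real.cosh_pos u).ne'
  have h2 := (Real.cosh_pos v).ne'
  have h3 := (Real.cosh_pos (u - v)).ne'
  rw [Real.cosh_sub] at h3
  rw [Real.tanh_eq_sinh_div_cosh, Real.tanh_eq_sinh_div_cosh]
  intro h
  apply h3
  field_simp at h
  linarith

theorem bh271_frac (d N1 D1 N2 D2 : ℂ) (h1 : D1 ≠ 0) (h2 : D2 ≠ 0) :
    1 - d * (N1 / D1) + (N1 / D1) * (N2 / D2) = (D1 * D2 - d * N1 * D2 + N1 * N2) / (D1 * D2) := by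
  field_simp

/-- numerator of the scattering factor -/
theorem bh271_s_num (p q a b : ℂ) (hpq : p ^ 2 + q ^ 2 = 1) (h1 : q - Complex.I * p * a ≠ 0)
    (h2 : q - Complex.I * p * b ≠ 0) :
    ba2a270_s (2 - (2 * p) ^ 2) ((q + Complex.I * p * a) / (q - Complex.I * p * a))
        ((q + Complex.I * p * b) / (q - Complex.I * p * b)) =
      2 * p * q * (2 * p * q * (1 - a * b) + Complex.I * ((2 * p ^ 2 - 1) * (a - b))) /
        ((q - Complex.I * p * a) * (q - Complex.I * p * b)) := by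
  have num : (q - Complex.I * p * a) * (q - Complex.I * p * b)
      - (2 - (2 * p) ^ 2) * (q + Complex.I * p * a) * (q - Complex.I * p * b)
      + (q + Complex.I * p * a) * (q + Complex.I * p * b) =
      2 * p * q * (2 * p * q * (1 - a * b) + Complex.I * ((2 * p ^ 2 - 1) * (a - b))) := by
    have hI := Complex.I_sq
    linear_combination (4 * p ^ 2 * a * b) * hpq +
      (2 * p ^ 2 * a * b - 2 * (2 * p ^ 2 - 1) * p ^ 2 * a * b) * hI
  rw [← num]
  unfold ba2a270_s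
  exact bh271_frac _ _ _ _ _ h1 h2

theorem bh271_fin (A X Y DD : ℂ) (hX : X ≠ 0) (h : 1 - Complex.I * (Y / X) ≠ 0) :
    A * (X + Complex.I * Y) / DD =
      (1 + Complex.I * (Y / X)) / (1 - Complex.I * (Y / X)) * (A * (X - Complex.I * Y) / DD) := by
  have e1 : X - Complex.I * Y = X * (1 - Complex.I * (Y / X)) := by field_simp
  have h2 : X - Complex.I * Y ≠ 0 := by rw [e1]; exact mul_ne_zero hX h
  have e2 : (1 + Complex.I * (Y / X)) / (1 - Complex.I * (Y / X)) = (X + Complex.I * Y) / (X - Complex.I * Y) := by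
    rw [div_eq_div_iff h h2]
    field_simp
  rw [e2]
  field_simp

/-- `z` in the form numerator / denominator -/
theorem bh271_z_eq' {t : ℝ} (hq : Real.sin (t / 2) ≠ 0) (u : ℝ) :
    bh271_z t u = ((Real.sin (t / 2) : ℂ) + Complex.I * (Real.cos (t / 2) : ℂ) * (Real.tanh u : ℂ)) /
      ((Real.sin (t / 2) : ℂ) - Complex.I * (Real.cos (t / 2) : ℂ) * (Real.tanh u : ℂ)) ∧
    ((Real.sin (t / 2) : ℂ) - Complex.I * (Real.cos (t / 2) : ℂ) * (Real.tanh u : ℂ)) ≠ 0 := by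
  have hq' : (Real.sin (t / 2) : ℂ) ≠ 0 := Complex.ofReal_ne_zero.mpr hq
  have hne := bh271_one_sub_ne (Real.cos (t / 2) / Real.sin (t / 2) * Real.tanh u)
  have e1 : ((Real.sin (t / 2) : ℂ) - Complex.I * (Real.cos (t / 2) : ℂ) * (Real.tanh u : ℂ)) =
      (Real.sin (t / 2) : ℂ) * (1 - Complex.I * ((Real.cos (t / 2) / Real.sin (t / 2) * Real.tanh u : ℝ) : ℂ)) := by
    simp only [Complex.ofReal_mul, Complex.ofReal_div]
    field_simp
  have h2 : ((Real.sin (t / 2) : ℂ) - Complex.I * (Real.cos (t / 2) : ℂ) * (Real.tanh u : ℂ)) ≠ 0 := by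
    rw [e1]; exact mul_ne_zero hq' hne
  refine ⟨?_, h2⟩
  rw [bh271_z_eq, div_eq_div_iff hne h2]
  simp only [Complex.ofReal_mul, Complex.ofReal_div]
  field_simp

theorem bh271_d_eq (t : ℝ) : ba120d t = 2 - (2 * (Real.cos (t / 2) : ℂ)) ^ 2 := by
  unfold ba120d ba120c
  push_cast
  ring

theorem bh271_half_pos {t : ℝ} (ht0 : 0 < t) (htπ : t < Real.pi) :
    0 < Real.sin (t / 2) ∧ 0 < Real.cos (t / 2) ∧ 0 < Real.sin t :=
  ⟨Real.sin_pos_of_pos_of_lt_pi (by linarith) (by linarith),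
    Real.cos_pos_of_mem_Ioo ⟨by linarith, by linarith⟩, Real.sin_pos_of_pos_of_lt_pi ht0 htπ⟩

/-- **the exchange relation of the scattering factors** -/
theorem bh271_s_swap {t : ℝ} (ht0 : 0 < t) (htπ : t < Real.pi) (u v : ℝ) :
    ba2a270_s (ba120d t) (bh271_z t u) (bh271_z t v) =
      Complex.exp (2 * Real.pi * Complex.I * (bh271_Th t (u - v) : ℂ)) *
        ba2a270_s (ba120d t) (bh271_z t v) (bh271_z t u) := by
  obtain ⟨hq, hp, hs⟩ := bh271_half_pos ht0 htπ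
  obtain ⟨zu, hu⟩ := bh271_z_eq' hq.ne' u
  obtain ⟨zv, hv⟩ := bh271_z_eq' hq.ne' v
  set p : ℂ := (Real.cos (t / 2) : ℂ) with hpdef
  set q : ℂ := (Real.sin (t / 2) : ℂ) with hqdef
  set a : ℂ := (Real.tanh u : ℂ) with hadef
  set b : ℂ := (Real.tanh v : ℂ) with hbdef
  have hpq : p ^ 2 + q ^ 2 = 1 := by
    rw [hpdef, hqdef, ← Complex.ofReal_pow, ← Complex.ofReal_pow, ← Complex.ofReal_add, Real.cos_sq_add_sin_sq]
    simp
  have hp' : p ≠ 0 := Complex.ofReal_ne_zero.mpr hp.ne'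
  have hq' : q ≠ 0 := Complex.ofReal_ne_zero.mpr hq.ne'
  have hab : 1 - a * b ≠ 0 := by
    rw [hadef, hbdef, ← Complex.ofReal_mul, ← Complex.ofReal_one, ← Complex.ofReal_sub]
    exact Complex.ofReal_ne_zero.mpr (bh271_one_sub_tanh_mul_ne u v)
  have hX : 2 * p * q * (1 - a * b) ≠ 0 := mul_ne_zero (mul_ne_zero (mul_ne_zero two_ne_zero hp') hq') hab
  have hcast : ((Real.cos t / Real.sin t * Real.tanh (u - v) : ℝ) : ℂ) =
      ((2 * p ^ 2 - 1) * (a - b)) / (2 * p * q * (1 - a * b)) := by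
    have h1 : Real.cos t = 2 * Real.cos (t / 2) ^ 2 - 1 := by
      rw [← Real.cos_two_mul]; congr 1; ring
    have h2 : Real.sin t = 2 * Real.sin (t / 2) * Real.cos (t / 2) := by
      rw [← Real.sin_two_mul]; congr 1; ring
    rw [h1, h2, bh271_tanh_sub]
    simp only [Complex.ofReal_mul, Complex.ofReal_div, Complex.ofReal_sub, Complex.ofReal_pow, Complex.ofReal_one,
      Complex.ofReal_ofNat]
    rw [div_mul_div_comm]
    congr 1
    ring
  have hne := bh271_one_sub_ne (Real.cos t / Real.sin t * Real.tanh (u - v))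
  rw [bh271_expTh_eq, hcast] 
  rw [hcast] at hne
  rw [bh271_d_eq, zu, zv, bh271_s_num p q a b hpq hu hv, bh271_s_num p q b a hpq hv hu]
  have := bh271_fin (2 * p * q) (2 * p * q * (1 - a * b)) ((2 * p ^ 2 - 1) * (a - b))
    ((q - Complex.I * p * a) * (q - Complex.I * p * b)) hX hne
  rw [this]
  congr 1
  rw [mul_comm (q - Complex.I * p * b) (q - Complex.I * p * a)]
  congr 1
  ring

theorem bh271_Th_zero (t : ℝ) : bh271_Th t 0 = 0 := by
  unfold bh271_Th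
  simp

theorem bh271_exp_qn (n : ℕ) (j : Fin n) :
    Complex.exp (2 * Real.pi * Complex.I * ((((j : ℕ) : ℝ) - ((n : ℝ) - 1) / 2 : ℝ) : ℂ)) = (-1) ^ (n - 1) := by
  have hn : 1 ≤ n := by have := j.2; omega
  obtain ⟨k, rfl⟩ : ∃ k, n = k + 1 := ⟨n - 1, by omega⟩
  have e : 2 * Real.pi * Complex.I * ((((j : ℕ) : ℝ) - (((k + 1 : ℕ) : ℝ) - 1) / 2 : ℝ) : ℂ) =
      ((j : ℕ) : ℂ) * (2 * Real.pi * Complex.I) + (k : ℂ) * (-(Real.pi * Complex.I)) := by
    push_cast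
    ring
  rw [e, Complex.exp_add, Complex.exp_nat_mul, Complex.exp_nat_mul, Complex.exp_two_pi_mul_I, one_pow, one_mul,
    Complex.exp_neg, Complex.exp_pi_mul_I]
  simp

/-- **DICTIONARY 1**: the logarithmic Bethe equations give the polynomial Bethe equations of 270. -/
theorem bh271_BE {t : ℝ} (ht0 : 0 < t) (htπ : t < Real.pi) {N n : ℕ} {y : Fin n → ℝ}
    (hy : Bh271Roots t N n y) : ba2a270_BE (ba120d t) N (fun j => bh271_z t (y j)) := by
  intro j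
  have h1 : ∏ l ∈ Finset.univ.erase j, ba2a270_s (ba120d t) (bh271_z t (y j)) (bh271_z t (y l)) =
      (∏ l ∈ Finset.univ.erase j, Complex.exp (2 * Real.pi * Complex.I * (bh271_Th t (y j - y l) : ℂ))) *
        ∏ l ∈ Finset.univ.erase j, ba2a270_s (ba120d t) (bh271_z t (y l)) (bh271_z t (y j)) := by
    rw [← Finset.prod_mul_distrib]
    exact Finset.prod_congr rfl fun l _ => bh271_s_swap ht0 htπ (y j) (y l)
  have h2 : ∏ l ∈ Finset.univ.erase j, Complex.exp (2 * Real.pi * Complex.I * (bh271_Th t (y j - y l) : ℂ)) =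
      Complex.exp (2 * Real.pi * Complex.I * ((∑ l, bh271_Th t (y j - y l) : ℝ) : ℂ)) := by
    rw [← Complex.exp_sum, ← Finset.mul_sum]
    congr 2
    rw [Complex.ofReal_sum, ← Finset.add_sum_erase _ _ (Finset.mem_univ j), sub_self, bh271_Th_zero]
    simp
  have h3 : bh271_z t (y j) ^ N =
      (-1) ^ (n - 1) * Complex.exp (2 * Real.pi * Complex.I * ((∑ l, bh271_Th t (y j - y l) : ℝ) : ℂ)) := by
    rw [← bh271_exp_qn n j, ← Complex.exp_add, ← hy j]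
    unfold bh271_z
    rw [← Complex.exp_nat_mul]
    congr 1
    push_cast
    ring
  show bh271_z t (y j) ^ N * _ = _
  rw [h1, h2, h3]
  ring

theorem bh271_y_ne_zero {t : ℝ} {N n : ℕ} {y : Fin n → ℝ} (hn : Even n) (hy : Bh271Good t N n y) (j : Fin n) :
    y j ≠ 0 := by
  intro h0
  have h1 : y (Fin.rev j) = y j := by rw [hy.symm j, h0, neg_zero]
  have h2 : Fin.rev j = j := hy.mono.injective h1
  have h3 : ((Fin.rev j : Fin n) : ℕ) = (j : ℕ) := congrArg _ h2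
  rw [Fin.val_rev] at h3
  obtain ⟨k, hk⟩ := hn
  have := j.2
  omega

theorem bh271_tanh_ne_zero {u : ℝ} (hu : u ≠ 0) : Real.tanh u ≠ 0 := by
  rw [Real.tanh_eq_sinh_div_cosh]
  exact div_ne_zero (fun h => hu (Real.sinh_eq_zero.mp h)) (Real.cosh_pos u).ne'

theorem bh271_z_ne_one {t : ℝ} (ht0 : 0 < t) (htπ : t < Real.pi) {u : ℝ} (hu : u ≠ 0) : bh271_z t u ≠ 1 := by
  obtain ⟨hq, hp, -⟩ := bh271_half_pos ht0 htπ
  rw [bh271_z_eq]
  set x : ℝ := Real.cos (t / 2) / Real.sin (t / 2) * Real.tanh u with hx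
  have hx0 : x ≠ 0 := mul_ne_zero (div_ne_zero hp.ne' hq.ne') (bh271_tanh_ne_zero hu)
  intro h
  rw [div_eq_one_iff_eq (bh271_one_sub_ne x)] at h
  have := congrArg Complex.im h
  simp at this
  exact hx0 (by linarith)

/-- **DICTIONARY 2**: analyticity of the multiplicative roots -/
theorem bh271_z_analyticAt {t : ℝ} (ht0 : 0 < t) (htπ : t < Real.pi) {y : ℝ → ℝ} (hy : AnalyticAt ℝ y t) :
    AnalyticAt ℝ (fun s => bh271_z s (y s)) t := by
  obtain ⟨hq, -, -⟩ := bh271_half_pos ht0 htπ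
  have hhalf : AnalyticAt ℝ (fun s : ℝ => s / 2) t := analyticAt_id.div analyticAt_const (by norm_num)
  have hcos : AnalyticAt ℝ (fun s : ℝ => Real.cos (s / 2)) t :=
    AnalyticAt.comp (g := Real.cos) (f := fun s : ℝ => s / 2) Real.analyticAt_cos hhalf
  have hsin : AnalyticAt ℝ (fun s : ℝ => Real.sin (s / 2)) t :=
    AnalyticAt.comp (g := Real.sin) (f := fun s : ℝ => s / 2) Real.analyticAt_sin hhalf
  have htanh : AnalyticAt ℝ (fun s : ℝ => Real.tanh (y s)) t := by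
    have h1 : AnalyticAt ℝ (fun s : ℝ => Real.sinh (y s)) t :=
      AnalyticAt.comp (g := Real.sinh) (f := y) Real.analyticAt_sinh hy
    have h2 : AnalyticAt ℝ (fun s : ℝ => Real.cosh (y s)) t :=
      AnalyticAt.comp (g := Real.cosh) (f := y) Real.analyticAt_cosh hy
    have h3 := h1.div h2 (Real.cosh_pos _).ne'
    refine h3.congr (Eventually.of_forall fun s => ?_)
    simp [Real.tanh_eq_sinh_div_cosh]
  have hx : AnalyticAt ℝ (fun s : ℝ => Real.cos (s / 2) / Real.sin (s / 2) * Real.tanh (y s)) t :=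
    (hcos.div hsin hq.ne').mul htanh
  have hxc : AnalyticAt ℝ (fun s : ℝ => ((Real.cos (s / 2) / Real.sin (s / 2) * Real.tanh (y s) : ℝ) : ℂ)) t :=
    AnalyticAt.comp (g := fun r : ℝ => (r : ℂ))
      (f := fun s : ℝ => Real.cos (s / 2) / Real.sin (s / 2) * Real.tanh (y s)) (Complex.ofRealCLM.analyticAt _) hx
  have hnum : AnalyticAt ℝ (fun s : ℝ => (1 : ℂ) + Complex.I *
      ((Real.cos (s / 2) / Real.sin (s / 2) * Real.tanh (y s) : ℝ) : ℂ)) t :=
    analyticAt_const.add (analyticAt_const.mul hxc)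
  have hden : AnalyticAt ℝ (fun s : ℝ => (1 : ℂ) - Complex.I *
      ((Real.cos (s / 2) / Real.sin (s / 2) * Real.tanh (y s) : ℝ) : ℂ)) t :=
    analyticAt_const.sub (analyticAt_const.mul hxc)
  have h4 := hnum.div hden (bh271_one_sub_ne _)
  exact h4.congr (Eventually.of_forall fun s => (bh271_z_eq s (y s)).symm)

/-- **DICTIONARY 3**: the seed -/
theorem bh271_seed {N n : ℕ} (hN : 0 < N) {y : Fin n → ℝ} (hy : Bh271Roots (Real.pi / 2) N n y) :
    (fun j => bh271_z (Real.pi / 2) (y j)) = ba120Z0 N n := by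
  funext j
  have h := hy j
  have h0 : ∀ u, bh271_Th (Real.pi / 2) u = 0 := by
    intro u
    unfold bh271_Th
    simp
  simp only [h0, Finset.sum_const_zero, sub_zero] at h
  have hN' : (N : ℝ) ≠ 0 := by exact_mod_cast hN.ne'
  have hS : bh271_S (Real.pi / 2) (y j) = (((j : ℕ) : ℝ) - ((n : ℝ) - 1) / 2) / N := by
    rw [eq_div_iff hN', ← h]; ring
  unfold bh271_z ba120Z0
  rw [hS]
  congr 1
  push_cast
  ring

theorem bh271_L_alg (p q a : ℂ) (hD : q - Complex.I * p * a ≠ 0) (ha : a ≠ 0) (hp : p ≠ 0) :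
    ba2a270_L (2 * p) ((q + Complex.I * p * a) / (q - Complex.I * p * a)) =
      (-(2 * p ^ 2 - 1) * a + (2 * q * p) * Complex.I) / a := by
  have h1 : 1 - (q + Complex.I * p * a) / (q - Complex.I * p * a) =
      (-2 * Complex.I * p * a) / (q - Complex.I * p * a) := by
    rw [eq_div_iff hD, sub_mul, div_mul_cancel₀ _ hD]; ring
  have hI : Complex.I ≠ 0 := Complex.I_ne_zero
  have h2 : -2 * Complex.I * p * a ≠ 0 := by
    simp [hI, hp, ha]
  unfold ba2a270_L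
  rw [h1, mul_div_assoc, div_div_div_cancel_right₀ hD, eq_div_iff ha]
  have h3 : (q + Complex.I * p * a) / (-2 * Complex.I * p * a) = Complex.I * (q + Complex.I * p * a) / (2 * p * a) := by
    rw [div_eq_div_iff h2 (by simp [hp, ha])]
    linear_combination ((q + Complex.I * p * a) * (2 * p * a)) * Complex.I_sq
  rw [h3]
  field_simp
  linear_combination (2 * p ^ 2 * a) * Complex.I_sq

theorem bh271_M_alg (p q a : ℂ) (hD : q - Complex.I * p * a ≠ 0) (ha : a ≠ 0) (hp : p ≠ 0) :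
    ba2a270_M (2 * p) ((q + Complex.I * p * a) / (q - Complex.I * p * a)) =
      (-(2 * p ^ 2 - 1) * a - (2 * q * p) * Complex.I) / a := by
  have h1 : 1 - (q + Complex.I * p * a) / (q - Complex.I * p * a) =
      (-2 * Complex.I * p * a) / (q - Complex.I * p * a) := by
    rw [eq_div_iff hD, sub_mul, div_mul_cancel₀ _ hD]; ring
  have hI : Complex.I ≠ 0 := Complex.I_ne_zero
  have h2 : -2 * Complex.I * p * a ≠ 0 := by
    simp [hI, hp, ha]
  unfold ba2a270_M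
  rw [h1, eq_div_iff ha]
  have h3 : (2 * p) ^ 2 / ((-2 * Complex.I * p * a) / (q - Complex.I * p * a)) =
      2 * p * Complex.I * (q - Complex.I * p * a) / a := by
    rw [div_div_eq_mul_div, div_eq_div_iff h2 ha]
    linear_combination ((2 * p) ^ 2 * (q - Complex.I * p * a) * a) * Complex.I_sq
  rw [h3]
  field_simp
  linear_combination (2 * p ^ 2 * a) * Complex.I_sq

theorem bh271_c_cast (t : ℝ) : ((ba120c t : ℝ) : ℂ) = 2 * (Real.cos (t / 2) : ℂ) := by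
  unfold ba120c
  simp only [Complex.ofReal_mul, Complex.ofReal_ofNat]

theorem bh271_L_eq {t : ℝ} (ht0 : 0 < t) (htπ : t < Real.pi) {u : ℝ} (hu : u ≠ 0) :
    ba2a270_L ((ba120c t : ℝ) : ℂ) (bh271_z t u) =
      (((-(Real.cos t) * Real.tanh u : ℝ) : ℂ) + ((Real.sin t : ℝ) : ℂ) * Complex.I) / ((Real.tanh u : ℝ) : ℂ) := by
  obtain ⟨hq, hp, -⟩ := bh271_half_pos ht0 htπ
  obtain ⟨zu, hD⟩ := bh271_z_eq' hq.ne' u
  have h1 : Real.cos t = 2 * Real.cos (t / 2) ^ 2 - 1 := by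
    rw [← Real.cos_two_mul]; congr 1; ring
  have h2 : Real.sin t = 2 * Real.sin (t / 2) * Real.cos (t / 2) := by
    rw [← Real.sin_two_mul]; congr 1; ring
  rw [bh271_c_cast, zu, bh271_L_alg _ _ _ hD (Complex.ofReal_ne_zero.mpr (bh271_tanh_ne_zero hu))
    (Complex.ofReal_ne_zero.mpr hp.ne'), h1, h2]
  simp only [Complex.ofReal_mul, Complex.ofReal_neg, Complex.ofReal_sub, Complex.ofReal_pow, Complex.ofReal_one,
    Complex.ofReal_ofNat]

theorem bh271_M_eq {t : ℝ} (ht0 : 0 < t) (htπ : t < Real.pi) {u : ℝ} (hu : u ≠ 0) :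
    ba2a270_M ((ba120c t : ℝ) : ℂ) (bh271_z t u) =
      (((-(Real.cos t) * Real.tanh u : ℝ) : ℂ) - ((Real.sin t : ℝ) : ℂ) * Complex.I) / ((Real.tanh u : ℝ) : ℂ) := by
  obtain ⟨hq, hp, -⟩ := bh271_half_pos ht0 htπ
  obtain ⟨zu, hD⟩ := bh271_z_eq' hq.ne' u
  have h1 : Real.cos t = 2 * Real.cos (t / 2) ^ 2 - 1 := by
    rw [← Real.cos_two_mul]; congr 1; ring
  have h2 : Real.sin t = 2 * Real.sin (t / 2) * Real.cos (t / 2) := by
    rw [← Real.sin_two_mul]; congr 1; ring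
  rw [bh271_c_cast, zu, bh271_M_alg _ _ _ hD (Complex.ofReal_ne_zero.mpr (bh271_tanh_ne_zero hu))
    (Complex.ofReal_ne_zero.mpr hp.ne'), h1, h2]
  simp only [Complex.ofReal_mul, Complex.ofReal_neg, Complex.ofReal_sub, Complex.ofReal_pow, Complex.ofReal_one,
    Complex.ofReal_ofNat]

theorem bh271_M_eq_conj {t : ℝ} (ht0 : 0 < t) (htπ : t < Real.pi) {u : ℝ} (hu : u ≠ 0) :
    ba2a270_M ((ba120c t : ℝ) : ℂ) (bh271_z t u) =
      (starRingEnd ℂ) (ba2a270_L ((ba120c t : ℝ) : ℂ) (bh271_z t u)) := by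
  rw [bh271_M_eq ht0 htπ hu, bh271_L_eq ht0 htπ hu, map_div₀, map_add, map_mul, Complex.conj_ofReal,
    Complex.conj_ofReal, Complex.conj_ofReal, Complex.conj_I]
  ring

theorem bh271_M_eq_neg {t : ℝ} (ht0 : 0 < t) (htπ : t < Real.pi) {u : ℝ} (hu : u ≠ 0) :
    ba2a270_M ((ba120c t : ℝ) : ℂ) (bh271_z t u) = ba2a270_L ((ba120c t : ℝ) : ℂ) (bh271_z t (-u)) := by
  have ha : ((Real.tanh u : ℝ) : ℂ) ≠ 0 := Complex.ofReal_ne_zero.mpr (bh271_tanh_ne_zero hu)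
  rw [bh271_M_eq ht0 htπ hu, bh271_L_eq ht0 htπ (neg_ne_zero.mpr hu), Real.tanh_neg]
  simp only [Complex.ofReal_mul, Complex.ofReal_neg]
  field_simp
  ring

theorem bh271_norm_L {t : ℝ} (ht0 : 0 < t) (htπ : t < Real.pi) {u : ℝ} (hu : u ≠ 0) :
    ‖ba2a270_L ((ba120c t : ℝ) : ℂ) (bh271_z t u)‖ = Real.exp (bh271_e0 t u) := by
  have hsh : Real.sinh u ≠ 0 := fun h => hu (Real.sinh_eq_zero.mp h)
  have hch := (Real.cosh_pos u).ne'
  have hs := (bh271_half_pos ht0 htπ).2.2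
  have hch2 : Real.cosh u ^ 2 = Real.sinh u ^ 2 + 1 := Real.cosh_sq u
  have hsc : Real.sin t ^ 2 + Real.cos t ^ 2 = 1 := Real.sin_sq_add_cos_sq t
  have hden : Real.cosh (2 * u) - 1 = 2 * Real.sinh u ^ 2 := by
    rw [Real.cosh_two_mul]; linarith
  have hnum : Real.cosh (2 * u) - Real.cos (2 * t) = 2 * (Real.sinh u ^ 2 + Real.sin t ^ 2) := by
    rw [Real.cosh_two_mul, Real.cos_two_mul]; linarith
  have hsh2 : 0 < Real.sinh u ^ 2 := by positivity
  have hR : 0 < (Real.cosh (2 * u) - Real.cos (2 * t)) / (Real.cosh (2 * u) - 1) := by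
    rw [hden, hnum]; positivity
  have h1 : ‖ba2a270_L ((ba120c t : ℝ) : ℂ) (bh271_z t u)‖ ^ 2 =
      (Real.cosh (2 * u) - Real.cos (2 * t)) / (Real.cosh (2 * u) - 1) := by
    rw [bh271_L_eq ht0 htπ hu, norm_div, div_pow, ← Complex.normSq_eq_norm_sq, Complex.normSq_add_mul_I,
      Complex.norm_real, Real.norm_eq_abs, sq_abs, hden, hnum, Real.tanh_eq_sinh_div_cosh]
    field_simp
    linear_combination (Real.sin t ^ 2) * hch2 + (Real.sinh u ^ 2) * hsc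
  have h2 : Real.exp (bh271_e0 t u) ^ 2 =
      (Real.cosh (2 * u) - Real.cos (2 * t)) / (Real.cosh (2 * u) - 1) := by
    unfold bh271_e0
    rw [← Real.exp_nat_mul]
    have : ((2 : ℕ) : ℝ) * (Real.log ((Real.cosh (2 * u) - Real.cos (2 * t)) / (Real.cosh (2 * u) - 1)) / 2) =
        Real.log ((Real.cosh (2 * u) - Real.cos (2 * t)) / (Real.cosh (2 * u) - 1)) := by
      push_cast; ring
    rw [this, Real.exp_log hR]
  exact (sq_eq_sq₀ (norm_nonneg _) (Real.exp_pos _).le).mp (h1.trans h2.symm)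

/-- **DICTIONARY 4**: the Bethe eigenvalue of a symmetric configuration without root `0`. -/
theorem bh271_Lam_re {t : ℝ} (ht0 : 0 < t) (htπ : t < Real.pi) {n : ℕ} {y : Fin n → ℝ}
    (hsymm : ∀ j, y (Fin.rev j) = - y j) (h0 : ∀ j, y j ≠ 0)
    (hpos : 0 < (ba120Lam ((ba120c t : ℝ) : ℂ) (fun j => bh271_z t (y j))).re) :
    (ba120Lam ((ba120c t : ℝ) : ℂ) (fun j => bh271_z t (y j))).re = 2 * Real.exp (∑ j, bh271_e0 t (y j)) := by
  set P : ℂ := ∏ j, ba2a270_L ((ba120c t : ℝ) : ℂ) (bh271_z t (y j)) with hP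
  have hM1 : ∏ j, ba2a270_M ((ba120c t : ℝ) : ℂ) (bh271_z t (y j)) = P := by
    rw [hP, ← Equiv.prod_comp Fin.revPerm]
    refine Finset.prod_congr rfl fun j _ => ?_
    rw [Fin.revPerm_apply, bh271_M_eq_neg ht0 htπ (h0 _), hsymm j, neg_neg]
  have hM2 : ∏ j, ba2a270_M ((ba120c t : ℝ) : ℂ) (bh271_z t (y j)) = (starRingEnd ℂ) P := by
    rw [hP, map_prod]
    exact Finset.prod_congr rfl fun j _ => bh271_M_eq_conj ht0 htπ (h0 j)
  have him : P.im = 0 := by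
    have h := hM1.symm.trans hM2
    have := congrArg Complex.im h
    rw [Complex.conj_im] at this
    linarith
  have hLam : ba120Lam ((ba120c t : ℝ) : ℂ) (fun j => bh271_z t (y j)) = 2 * P := by
    unfold ba120Lam
    rw [hM1, ← hP]; ring
  rw [hLam] at hpos ⊢
  have hre : (2 * P).re = 2 * P.re := by simp
  rw [hre] at hpos ⊢
  have hPre : 0 < P.re := by linarith
  have hnorm : ‖P‖ = Real.exp (∑ j, bh271_e0 t (y j)) := by
    rw [hP, norm_prod, Real.exp_sum]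
    exact Finset.prod_congr rfl fun j _ => bh271_norm_L ht0 htπ (h0 j)
  have hPeq : P = ((P.re : ℝ) : ℂ) := Complex.ext (by simp) (by simp [him])
  rw [← hnorm, hPeq, Complex.norm_real, Real.norm_eq_abs, abs_of_pos (by simpa using hPre)]
  simp

/-! ## 4. the wiring -/

theorem bh271_lam_spec {c : ℝ} (hc1 : 1 < c) (hc2 : c < 2) :
    0 < bh271_lam c ∧ bh271_lam c < Real.pi ∧ ba120c (bh271_lam c) = c := by
  have h1 : 0 < Real.arccos (c / 2) := Real.arccos_pos.mpr (by linarith)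
  have h2 : Real.arccos (c / 2) < Real.pi / 2 := Real.arccos_lt_pi_div_two.mpr (by linarith)
  refine ⟨by unfold bh271_lam; linarith, by unfold bh271_lam; linarith, ?_⟩
  unfold ba120c bh271_lam
  rw [mul_div_cancel_left₀ _ (two_ne_zero), Real.cos_arccos (by linarith) (by linarith)]
  ring

theorem bh271_mem_seg {a t : ℝ} (ha0 : 0 < a) (haπ : a < Real.pi) (ht : t ∈ Set.uIcc a (Real.pi / 2)) :
    0 < t ∧ t < Real.pi := by
  have hπ := Real.pi_pos
  rcases Set.mem_uIcc.mp ht with h | h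
  · exact ⟨by linarith [h.1], by linarith [h.2]⟩
  · exact ⟨by linarith [h.1], by linarith [h.2]⟩

/-- **LEAF B3c (wiring)**: the Bethe eigenvalue is the top eigenvalue. -/
theorem bh271_B3 (c : ℝ) (hc1 : 1 < c) (hc2 : c < 2) (N n : ℕ) (hn : Even n) (hn0 : 0 < n)
    (hnN : 2 * n ≤ N) (y : ℝ → Fin n → ℝ)
    (hy : ∀ t ∈ Set.uIcc (bh271_lam c) (Real.pi / 2), Bh271Good t N n (y t))
    (ha : ∀ j, AnalyticOnNhd ℝ (fun t => y t j) (Set.uIcc (bh271_lam c) (Real.pi / 2))) :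
    Tendsto (fun M : ℕ => Real.log (baZ c M N n) / M) atTop
      (𝓝 (Real.log 2 + ∑ j, bh271_e0 (bh271_lam c) (y (bh271_lam c) j))) := by
  obtain ⟨m, rfl⟩ : ∃ m, n = m + 1 := ⟨n - 1, by omega⟩
  have hN0 : 0 < N := by omega
  have : NeZero N := ⟨hN0.ne'⟩
  obtain ⟨hl0, hlπ, hlc⟩ := bh271_lam_spec hc1 hc2
  have hseg : ∀ t ∈ Set.uIcc (bh271_lam c) (Real.pi / 2), 0 < t ∧ t < Real.pi :=
    fun t ht => bh271_mem_seg hl0 hlπ ht
  have key := ba1d_wiring_log (L := N) (m := m) hnN (I := Set.uIcc (bh271_lam c) (Real.pi / 2))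
    isPreconnected_uIcc Set.right_mem_uIcc
    (fun t ht => by
      have := (bh271_half_pos (hseg t ht).1 (hseg t ht).2).2.1
      unfold ba120c; linarith)
    (z := fun t j => bh271_z t (y t j))
    (fun j t ht => bh271_z_analyticAt (hseg t ht).1 (hseg t ht).2 (ha j t ht))
    (fun t ht j => bh271_z_ne_one (hseg t ht).1 (hseg t ht).2 (bh271_y_ne_zero hn (hy t ht) j))
    (bh271_seed hN0 (hy _ Set.right_mem_uIcc).roots)
    (fun t ht => bh271_BE (hseg t ht).1 (hseg t ht).2 (hy t ht).roots)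
    (bh271_lam c) Set.left_mem_uIcc
  obtain ⟨hpos, hlim⟩ := key
  have hgood := hy _ (Set.left_mem_uIcc (a := bh271_lam c) (b := Real.pi / 2))
  rw [bh271_Lam_re hl0 hlπ hgood.symm (bh271_y_ne_zero hn hgood) hpos, hlc,
    Real.log_mul two_ne_zero (Real.exp_pos _).ne', Real.log_exp] at hlim
  exact hlim

/-- **EXIT OF BLOCK B**: the input (BA⋆) of block A at the filling `D (Q)`, with the free energy `Φ (Q)`. -/
theorem bh271_exit_at (c : ℝ) (hc1 : 1 < c) (hc2 : c < 2) (h2 : Bh271B2at c) (h4 : Bh271B4)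
    (Q : ℝ) (hQ : 0 < Q) (r : ℝ → ℝ) (hr : Bh271Dens (bh271_lam c) Q r) :
    bs110_FE c (bh271_D Q r) (bh271_Phi (bh271_lam c) Q r) := by
  intro ε hε
  obtain ⟨hl0, hlπ, -⟩ := bh271_lam_spec hc1 hc2
  obtain ⟨C, N₀, hB2⟩ := h2 Q r hQ hr
  obtain ⟨N₁, hB4⟩ := h4 (bh271_lam c) Q r hl0 hlπ hQ hr C (ε / 3) (by positivity)
  obtain ⟨N₂, hN₂⟩ := exists_nat_gt (Real.log 2 / (ε / 3))
  refine ⟨max (max N₀ N₁) (max N₂ 1), fun N hN => ?_⟩
  have hNa : N₀ ≤ N := le_trans (le_trans (le_max_left _ _) (le_max_left _ _)) hN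
  have hNb : N₁ ≤ N := le_trans (le_trans (le_max_right _ _) (le_max_left _ _)) hN
  have hNc : N₂ ≤ N := le_trans (le_trans (le_max_left _ _) (le_max_right _ _)) hN
  have hNd : 1 ≤ N := le_trans (le_trans (le_max_right _ _) (le_max_right _ _)) hN
  have hNpos : (0 : ℝ) < N := by exact_mod_cast hNd
  obtain ⟨n, hne, hn0, hnN, hnD, y, hy, ha, hq⟩ := hB2 N hNa
  refine ⟨n, hnD, ?_⟩
  have hlim := bh271_B3 c hc1 hc2 N n hne hn0 hnN y hy ha
  have hcond := hB4 N n (y (bh271_lam c)) hNb hne hnD (hy _ Set.left_mem_uIcc) hq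
  set S₀ : ℝ := ∑ j, bh271_e0 (bh271_lam c) (y (bh271_lam c) j) with hS₀
  have hlog2 : Real.log 2 / N ≤ ε / 3 := by
    have h1 : Real.log 2 / (ε / 3) < N := lt_of_lt_of_le hN₂ (by exact_mod_cast hNc)
    rw [div_lt_iff₀ (by positivity)] at h1
    rw [div_le_iff₀ hNpos]
    linarith
  have hlog2' : 0 ≤ Real.log 2 / N := div_nonneg (Real.log_nonneg (by norm_num)) hNpos.le
  have hev : ∀ᶠ M : ℕ in atTop, |Real.log (baZ c M N n) / M - (Real.log 2 + S₀)| < ε / 3 * N := by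
    have := (tendsto_order.1 ((hlim.sub_const (Real.log 2 + S₀)).abs)).2 (ε / 3 * N) (by
      rw [sub_self, abs_zero]; positivity)
    exact this
  obtain ⟨M₀, hM₀⟩ := eventually_atTop.1 hev
  refine ⟨M₀, fun M hM => ?_⟩
  have h5 := hM₀ M hM
  have e1 : Real.log (baZ c M N n) / ((M : ℝ) * N) - bh271_Phi (bh271_lam c) Q r =
      (Real.log (baZ c M N n) / M - (Real.log 2 + S₀)) / N + Real.log 2 / N +
        (S₀ / N - bh271_Phi (bh271_lam c) Q r) := by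
    rw [← div_div]
    field_simp
    ring
  rw [e1]
  have h6 : |(Real.log (baZ c M N n) / M - (Real.log 2 + S₀)) / N| ≤ ε / 3 := by
    rw [abs_div, abs_of_pos hNpos, div_le_iff₀ hNpos]
    exact h5.le
  calc _ ≤ |(Real.log (baZ c M N n) / M - (Real.log 2 + S₀)) / N| + |Real.log 2 / N| +
        |S₀ / N - bh271_Phi (bh271_lam c) Q r| := abs_add_three _ _ _
    _ ≤ ε / 3 + ε / 3 + ε / 3 := by
        rw [abs_of_nonneg hlog2']
        exact add_le_add (add_le_add h6 hlog2) hcond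
    _ = ε := by ring

theorem bh271_exit (h2 : Bh271B2) (h4 : Bh271B4) (c : ℝ) (hc1 : 1 < c) (hc2 : c < 2)
    (Q : ℝ) (hQ : 0 < Q) (r : ℝ → ℝ) (hr : Bh271Dens (bh271_lam c) Q r) :
    bs110_FE c (bh271_D Q r) (bh271_Phi (bh271_lam c) Q r) :=
  bh271_exit_at c hc1 hc2 (bh271_B2at_of h2 hc1 hc2) h4 Q hQ r hr

/-! ## 5. from (BA⋆) to the condensation clause of `BaThermo` (soft: row insertion + compactness) -/

/-- (BA⋆) at ONE density `d` controls `baF c N n / N` for ALL pairs `(N, n)` of density close to `d`. -/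
theorem bh271_reg_of_FE (c : ℝ) (hc : 0 < c) (d φ : ℝ) (hd0 : 0 < d) (hd1 : d < 1 / 2) (h : bs110_FE c d φ)
    (η : ℝ) (hη : 0 < η) :
    ∃ δ : ℝ, 0 < δ ∧ ∃ N₀ : ℕ, ∀ N n : ℕ, N₀ ≤ N → |(n : ℝ) - d * N| ≤ δ * N → |baF c N n / N - φ| ≤ η := by
  have hφ : 0 ≤ φ := bs110_FE_nonneg c hc d φ (by linarith) h
  set ε : ℝ := η / 12 with hε
  have hε0 : 0 < ε := by positivity
  set θ : ℝ := min (1 / 2) (η / (4 * (φ + 1))) with hθ
  have hθ0 : 0 < θ := lt_min (by norm_num) (by positivity)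
  have hθ2 : θ ≤ 1 / 2 := min_le_left _ _
  have hθφ : θ * φ ≤ η / 4 := by
    have h1 : θ ≤ η / (4 * (φ + 1)) := min_le_right _ _
    have h2 : θ * (4 * (φ + 1)) ≤ η := by rwa [le_div_iff₀ (by positivity)] at h1
    nlinarith
  obtain ⟨K, hK⟩ : ∃ K : ℝ, K = 2 / d + 1 := ⟨_, rfl⟩
  have hK1 : 0 ≤ K - 1 := by
    have := div_pos two_pos hd0
    rw [hK]; linarith
  have hK0 : 0 < K := by linarith
  have hdK : d * (K - 1) = 2 := by rw [hK]; field_simp; ring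
  obtain ⟨N₀', hN₀'⟩ := bs110_transfer c hc d φ (by linarith) h ε hε0
  obtain ⟨Na, hNa⟩ := exists_nat_ge (2 * ((N₀' : ℝ) + K))
  obtain ⟨Nb, hNb⟩ := exists_nat_ge (4 * K * φ / η)
  obtain ⟨Nc, hNc⟩ := exists_nat_ge K
  refine ⟨θ * d, by positivity, max (max Na Nb) (max Nc 2), fun N n hN hn => ?_⟩
  have hN1 : (Na : ℝ) ≤ N := by exact_mod_cast le_trans (le_trans (le_max_left _ _) (le_max_left _ _)) hN
  have hN2 : (Nb : ℝ) ≤ N := by exact_mod_cast le_trans (le_trans (le_max_right _ _) (le_max_left _ _)) hN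
  have hN3 : (Nc : ℝ) ≤ N := by exact_mod_cast le_trans (le_trans (le_max_left _ _) (le_max_right _ _)) hN
  have hN4 : 2 ≤ N := le_trans (le_trans (le_max_right _ _) (le_max_right _ _)) hN
  have hNpos : (0 : ℝ) < N := by
    have : (2 : ℝ) ≤ N := by exact_mod_cast hN4
    linarith
  have hKN : K ≤ N := hNc.trans hN3
  have hKφ : K * φ ≤ η / 4 * N := by
    have h1 : 4 * K * φ / η ≤ N := hNb.trans hN2
    rw [div_le_iff₀ hη] at h1
    linarith
  rw [abs_le] at hn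
  obtain ⟨hn1, hn2⟩ := hn
  -- the two comparison heights
  obtain ⟨x₁, hx₁⟩ : ∃ x : ℝ, x = N * (1 - θ) - (K - 1) := ⟨_, rfl⟩
  obtain ⟨x₂, hx₂⟩ : ∃ x : ℝ, x = N * (1 + θ) + (K - 1) := ⟨_, rfl⟩
  have hNθ0 : 0 ≤ (N : ℝ) * θ := by positivity
  have hNθ2 : (N : ℝ) * θ ≤ N * (1 / 2) := mul_le_mul_of_nonneg_left hθ2 hNpos.le
  have hx₁big : (N₀' : ℝ) + 1 ≤ x₁ := by
    have : 2 * ((N₀' : ℝ) + K) ≤ N := hNa.trans hN1
    rw [hx₁]
    linarith
  have hx₁0 : 0 ≤ x₁ := by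
    have : (0 : ℝ) ≤ N₀' := Nat.cast_nonneg _
    linarith
  set N₁ : ℕ := ⌊x₁⌋₊ with hN₁
  set N₂ : ℕ := ⌈x₂⌉₊ with hN₂
  have f1 : (N₁ : ℝ) ≤ x₁ := Nat.floor_le hx₁0
  have f2 : x₁ < N₁ + 1 := Nat.lt_floor_add_one x₁
  have g1 : x₂ ≤ N₂ := Nat.le_ceil x₂
  have g2 : (N₂ : ℝ) < x₂ + 1 := Nat.ceil_lt_add_one (by rw [hx₂]; linarith)
  have c0 : N₀' ≤ N₁ := by
    have : (N₀' : ℝ) < N₁ + 1 := by linarith
    have : N₀' < N₁ + 1 := by exact_mod_cast this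
    omega
  have h1d : d ≤ 1 - d := by linarith
  have a1 : d * N₁ + 2 ≤ n := by
    have : d * N₁ ≤ d * x₁ := mul_le_mul_of_nonneg_left f1 hd0.le
    have e : d * x₁ = d * N - θ * d * N - 2 := by rw [hx₁, ← hdK]; ring
    linarith
  have a2 : (1 - d) * N₁ + 2 ≤ (N : ℝ) - n := by
    have h3 : (1 - d) * N₁ ≤ (1 - d) * x₁ := mul_le_mul_of_nonneg_left f1 (by linarith)
    have e : (1 - d) * x₁ = (1 - d) * N - (1 - d) * (θ * N) - (1 - d) * (K - 1) := by rw [hx₁]; ring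
    have h4 : d * (θ * N) ≤ (1 - d) * (θ * N) := mul_le_mul_of_nonneg_right h1d (by positivity)
    have h5 : d * (K - 1) ≤ (1 - d) * (K - 1) := mul_le_mul_of_nonneg_right h1d hK1
    linarith
  have b1 : (n : ℝ) + 2 ≤ d * N₂ := by
    have : d * x₂ ≤ d * N₂ := mul_le_mul_of_nonneg_left g1 hd0.le
    have e : d * x₂ = d * N + θ * d * N + 2 := by rw [hx₂, ← hdK]; ring
    linarith
  have b2 : (N : ℝ) - n + 2 ≤ (1 - d) * N₂ := by
    have h3 : (1 - d) * x₂ ≤ (1 - d) * N₂ := mul_le_mul_of_nonneg_left g1 (by linarith)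
    have e : (1 - d) * x₂ = (1 - d) * N + (1 - d) * (θ * N) + (1 - d) * (K - 1) := by rw [hx₂]; ring
    have h4 : d * (θ * N) ≤ (1 - d) * (θ * N) := mul_le_mul_of_nonneg_right h1d (by positivity)
    have h5 : d * (K - 1) ≤ (1 - d) * (K - 1) := mul_le_mul_of_nonneg_right h1d hK1
    linarith
  have c12 : N₁ ≤ N₂ := by
    have : (N₁ : ℝ) ≤ N₂ := by
      have : x₁ ≤ x₂ := by rw [hx₁, hx₂]; linarith
      linarith
    exact_mod_cast this
  obtain ⟨M₀, hM₀⟩ := hN₀' N n N₁ N₂ c0 a1 a2 b1 b2 c12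
  have hnN : n ≤ N := by
    have : (n : ℝ) ≤ N := by
      have h3 : θ * d * N ≤ 1 / 2 * (1 / 2) * N := by
        refine mul_le_mul_of_nonneg_right ?_ hNpos.le
        exact mul_le_mul hθ2 hd1.le hd0.le (by norm_num)
      have h4 : d * N ≤ 1 / 2 * N := mul_le_mul_of_nonneg_right hd1.le hNpos.le
      linarith
    exact_mod_cast this
  have hlim := b1w160_lim c hc N n hN4 hnN
  have lo : (N₁ : ℝ) * (φ - ε) ≤ baF c N n :=
    ge_of_tendsto hlim (eventually_atTop.2 ⟨M₀, fun M hM => (hM₀ M hM).1⟩)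
  have hi : baF c N n ≤ N₂ * (φ + ε) :=
    le_of_tendsto hlim (eventually_atTop.2 ⟨M₀, fun M hM => (hM₀ M hM).2⟩)
  have hN₁N : (N₁ : ℝ) ≤ N := by
    have : x₁ ≤ N := by rw [hx₁]; linarith
    linarith
  have hηN : 0 < η * N := by positivity
  rw [abs_le]
  constructor
  · rw [le_sub_iff_add_le, le_div_iff₀ hNpos]
    have h6 : (x₁ - 1) * φ ≤ N₁ * φ := mul_le_mul_of_nonneg_right (by linarith) hφ
    have h7 : (N₁ : ℝ) * ε ≤ N * ε := mul_le_mul_of_nonneg_right hN₁N hε0.le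
    have e : (x₁ - 1) * φ = N * φ - N * (θ * φ) - K * φ := by rw [hx₁]; ring
    have h8 : (N : ℝ) * (θ * φ) ≤ N * (η / 4) := mul_le_mul_of_nonneg_left hθφ hNpos.le
    have e2 : (N₁ : ℝ) * (φ - ε) = N₁ * φ - N₁ * ε := by ring
    have e3 : (N : ℝ) * ε = N * (η / 12) := by rw [hε]
    linarith
  · rw [sub_le_iff_le_add, div_le_iff₀ hNpos]
    have h6 : (N₂ : ℝ) * (φ + ε) ≤ (x₂ + 1) * (φ + ε) := mul_le_mul_of_nonneg_right g2.le (by linarith)
    have e : (x₂ + 1) * (φ + ε) = N * φ + N * (θ * φ) + K * φ + ε * (N + N * θ + K) := by rw [hx₂]; ring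
    have h8 : (N : ℝ) * (θ * φ) ≤ N * (η / 4) := mul_le_mul_of_nonneg_left hθφ hNpos.le
    have h9 : ε * (N + N * θ + K) ≤ ε * (N + N * (1 / 2) + N) := by
      refine mul_le_mul_of_nonneg_left ?_ hε0.le
      linarith
    have e3 : ε * (N + N * (1 / 2) + N) = 5 / 24 * η * N := by rw [hε]; ring
    linarith

/-- **THE CONDENSATION CLAUSE OF `BaThermo` FROM (BA⋆) POINTWISE IN `Q`**: no uniformity in `Q`, no parity, no exact filling is asked
from the lattice side. -/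
theorem bh271_cond_of_FE (c : ℝ) (hc : 0 < c) (Dq Eq : ℝ → ℝ)
    (hD : ContinuousOn Dq (Set.Ioi 0)) (hE : ContinuousOn Eq (Set.Ioi 0))
    (hD01 : ∀ Q, 0 < Q → 0 < Dq Q ∧ Dq Q < 1 / 2)
    (hFE : ∀ Q, 0 < Q → bs110_FE c (Dq Q) (Eq Q)) :
    ∀ Q₁ Q₂ : ℝ, 0 < Q₁ → Q₁ ≤ Q₂ → ∀ ε : ℝ, 0 < ε → ∃ N₀ : ℕ, ∀ N n : ℕ, N₀ ≤ N → Even n →
      ∀ Q ∈ Set.Icc Q₁ Q₂, (n : ℝ) = N * Dq Q → |baF c N n / N - Eq Q| ≤ ε := by
  intro Q₁ Q₂ hQ₁ _ ε hε
  have key : ∃ N₀ : ℕ, ∀ N n : ℕ, N₀ ≤ N → ∀ Q ∈ Set.Icc Q₁ Q₂, (n : ℝ) = N * Dq Q →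
      |baF c N n / N - Eq Q| ≤ ε := by
    refine IsCompact.induction_on (s := Set.Icc Q₁ Q₂) isCompact_Icc
      (p := fun s => ∃ N₀ : ℕ, ∀ N n : ℕ, N₀ ≤ N → ∀ Q ∈ s, (n : ℝ) = N * Dq Q → |baF c N n / N - Eq Q| ≤ ε)
      ⟨0, fun _ _ _ Q hQ => absurd hQ (Set.notMem_empty Q)⟩ ?_ ?_ ?_
    · rintro s t hst ⟨N₀, h⟩
      exact ⟨N₀, fun N n hN Q hQ => h N n hN Q (hst hQ)⟩
    · rintro s t ⟨Ns, hs⟩ ⟨Nt, ht⟩
      refine ⟨max Ns Nt, fun N n hN Q hQ => ?_⟩
      rcases hQ with hQ | hQ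
      · exact hs N n (le_trans (le_max_left _ _) hN) Q hQ
      · exact ht N n (le_trans (le_max_right _ _) hN) Q hQ
    · intro Q' hQ'
      have hQ'0 : 0 < Q' := lt_of_lt_of_le hQ₁ hQ'.1
      obtain ⟨δ, hδ, N₀, hN₀⟩ := bh271_reg_of_FE c hc (Dq Q') (Eq Q') (hD01 Q' hQ'0).1 (hD01 Q' hQ'0).2
        (hFE Q' hQ'0) (ε / 2) (by positivity)
      have hDc : ContinuousAt Dq Q' := hD.continuousAt (Ioi_mem_nhds hQ'0)
      have hEc : ContinuousAt Eq Q' := hE.continuousAt (Ioi_mem_nhds hQ'0)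
      have h1 : ∀ᶠ Q in 𝓝 Q', |Dq Q - Dq Q'| < δ := by
        have := (Metric.tendsto_nhds.1 hDc) δ hδ
        simpa [Real.dist_eq] using this
      have h2 : ∀ᶠ Q in 𝓝 Q', |Eq Q - Eq Q'| < ε / 2 := by
        have := (Metric.tendsto_nhds.1 hEc) (ε / 2) (by positivity)
        simpa [Real.dist_eq] using this
      refine ⟨{Q | |Dq Q - Dq Q'| < δ ∧ |Eq Q - Eq Q'| < ε / 2}, mem_nhdsWithin_of_mem_nhds (h1.and h2), N₀,
        fun N n hN Q hQ hn => ?_⟩
      have h3 : |(n : ℝ) - Dq Q' * N| ≤ δ * N := by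
        have e : (n : ℝ) - Dq Q' * N = (Dq Q - Dq Q') * N := by rw [hn]; ring
        rw [e, abs_mul, Nat.abs_cast]
        exact mul_le_mul_of_nonneg_right hQ.1.le (Nat.cast_nonneg N)
      have h4 := hN₀ N n hN h3
      have h5 := hQ.2
      calc |baF c N n / N - Eq Q| = |(baF c N n / N - Eq Q') - (Eq Q - Eq Q')| := by congr 1; ring
        _ ≤ |baF c N n / N - Eq Q'| + |Eq Q - Eq Q'| := abs_sub _ _
        _ ≤ ε / 2 + ε / 2 := add_le_add h4 h5.le
        _ = ε := by ring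
  obtain ⟨N₀, h⟩ := key
  exact ⟨N₀, fun N n hN _ Q hQ hn => h N n hN Q hQ hn⟩

/-- **`BaThermo c` (verbatim its body: the only open node of `Bethe/Top.lean` of 116) FROM THE TWO LATTICE CONTRACTS AND THE CONTINUUM FAMILY `r Q`.** -/
theorem bh271_thermo_at (c : ℝ) (hc1 : 1 < c) (hc2 : c < 2) (h2 : Bh271B2at c) (h4 : Bh271B4) (r : ℝ → ℝ → ℝ) (Einf : ℝ)
    (hr : ∀ Q, 0 < Q → Bh271Dens (bh271_lam c) Q (r Q))
    (hD : ContinuousOn (fun Q => bh271_D Q (r Q)) (Set.Ioi 0))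
    (hE : ContinuousOn (fun Q => bh271_Phi (bh271_lam c) Q (r Q)) (Set.Ioi 0))
    (hmono : StrictMonoOn (fun Q => bh271_D Q (r Q)) (Set.Ioi 0))
    (hhalf : ∀ Q, 0 < Q → bh271_D Q (r Q) < 1 / 2)
    (hlim : Tendsto (fun Q => bh271_D Q (r Q)) atTop (𝓝 (1 / 2)))
    (hasym : Tendsto (fun Q => (Einf - bh271_Phi (bh271_lam c) Q (r Q)) / (1 / 2 - bh271_D Q (r Q)) ^ 2) atTop
      (𝓝 (2 * Real.arcsin (c / 2)))) :
    ∃ (Dq Eq : ℝ → ℝ) (Einf : ℝ),
      ContinuousOn Dq (Set.Ioi 0) ∧ ContinuousOn Eq (Set.Ioi 0) ∧ StrictMonoOn Dq (Set.Ioi 0) ∧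
      (∀ Q, 0 < Q → 0 < Dq Q ∧ Dq Q < 1 / 2) ∧ Tendsto Dq atTop (𝓝 (1 / 2)) ∧
      (∀ Q₁ Q₂ : ℝ, 0 < Q₁ → Q₁ ≤ Q₂ → ∀ ε : ℝ, 0 < ε → ∃ N₀ : ℕ, ∀ N n : ℕ, N₀ ≤ N → Even n →
        ∀ Q ∈ Set.Icc Q₁ Q₂, (n : ℝ) = N * Dq Q → |baF c N n / N - Eq Q| ≤ ε) ∧
      Tendsto (fun Q => (Einf - Eq Q) / (1 / 2 - Dq Q) ^ 2) atTop (𝓝 (2 * Real.arcsin (c / 2))) := by
  have hpos : ∀ Q, 0 < Q → 0 < bh271_D Q (r Q) := by
    intro Q hQ
    unfold bh271_D
    exact intervalIntegral.intervalIntegral_pos_of_pos ((hr Q hQ).cont.intervalIntegrable _ _)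
      (fun u => (hr Q hQ).pos u) (by linarith)
  refine ⟨fun Q => bh271_D Q (r Q), fun Q => bh271_Phi (bh271_lam c) Q (r Q), Einf, hD, hE, hmono,
    fun Q hQ => ⟨hpos Q hQ, hhalf Q hQ⟩, hlim, ?_, hasym⟩
  exact bh271_cond_of_FE c (by linarith) _ _ hD hE (fun Q hQ => ⟨hpos Q hQ, hhalf Q hQ⟩)
    (fun Q hQ => bh271_exit_at c hc1 hc2 h2 h4 Q hQ (r Q) (hr Q hQ))

/-! ## 6. (PA) the Fermi point of constant filling along a path of parameters (abstract) -/

section PA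

open Set

/-- **(PA)**  `Dq t` continuous and strictly increasing on `[0,∞)`, `Dq t 0 = 0`, `Dq t → Dtop`; `t ↦ Dq t Q` continuous for each FIXED `Q`
(only SEPARATE continuity).  Then the Fermi point `Qp t` of filling `D0 ∈ (0, Dtop)` exists, is unique, continuous in `t`, and stays in a
compact subset of `(0,∞)`. -/
theorem bh271_PA {t1 t2 D0 Dtop : ℝ} (Dq : ℝ → ℝ → ℝ)
    (hc : ∀ t ∈ Icc t1 t2, ContinuousOn (Dq t) (Ici 0))
    (h0 : ∀ t ∈ Icc t1 t2, Dq t 0 = 0)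
    (hm : ∀ t ∈ Icc t1 t2, StrictMonoOn (Dq t) (Ici 0))
    (hl : ∀ t ∈ Icc t1 t2, Tendsto (Dq t) atTop (𝓝 Dtop))
    (ht : ∀ Q, 0 ≤ Q → ContinuousOn (fun t => Dq t Q) (Icc t1 t2))
    (hD0 : 0 < D0) (hD1 : D0 < Dtop) :
    ∃ Qp : ℝ → ℝ,
      (∀ t ∈ Icc t1 t2, 0 < Qp t ∧ Dq t (Qp t) = D0 ∧ ∀ q, 0 ≤ q → Dq t q = D0 → q = Qp t) ∧
      ContinuousOn Qp (Icc t1 t2) ∧
      ∃ Qmin Qmax : ℝ, 0 < Qmin ∧ ∀ t ∈ Icc t1 t2, Qmin ≤ Qp t ∧ Qp t ≤ Qmax := by
  classical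
  -- existence, pointwise
  have hex : ∀ t ∈ Icc t1 t2, ∃ q : ℝ, 0 < q ∧ Dq t q = D0 := by
    intro t htI
    have h1 : ∀ᶠ Q in atTop, D0 < Dq t Q := (tendsto_order.1 (hl t htI)).1 D0 hD1
    obtain ⟨Qb, hQb, hQb0⟩ := (h1.and (eventually_ge_atTop (0 : ℝ))).exists
    have h2 : D0 ∈ Icc (Dq t 0) (Dq t Qb) := ⟨by rw [h0 t htI]; exact hD0.le, hQb.le⟩
    obtain ⟨q, hq, hqD⟩ := intermediate_value_Icc hQb0 ((hc t htI).mono Icc_subset_Ici_self) h2
    refine ⟨q, lt_of_le_of_ne hq.1 ?_, hqD⟩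
    intro h
    rw [← h, h0 t htI] at hqD
    exact hD0.ne hqD
  set Qp : ℝ → ℝ := fun t => if h : t ∈ Icc t1 t2 then (hex t h).choose else 1 with hQp
  have hQpos : ∀ t ∈ Icc t1 t2, 0 < Qp t := by
    intro t h
    simp only [hQp, dif_pos h]
    exact (hex t h).choose_spec.1
  have hQeq : ∀ t ∈ Icc t1 t2, Dq t (Qp t) = D0 := by
    intro t h
    simp only [hQp, dif_pos h]
    exact (hex t h).choose_spec.2
  have hlt : ∀ t ∈ Icc t1 t2, ∀ q, 0 ≤ q → (Dq t q < D0 ↔ q < Qp t) := by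
    intro t h q hq
    rw [← hQeq t h]
    exact (hm t h).lt_iff_lt (mem_Ici.2 hq) (mem_Ici.2 (hQpos t h).le)
  have hgt : ∀ t ∈ Icc t1 t2, ∀ q, 0 ≤ q → (D0 < Dq t q ↔ Qp t < q) := by
    intro t h q hq
    rw [← hQeq t h]
    exact (hm t h).lt_iff_lt (mem_Ici.2 (hQpos t h).le) (mem_Ici.2 hq)
  have hcont : ContinuousOn Qp (Icc t1 t2) := by
    intro t₀ h₀
    refine tendsto_order.2 ⟨fun a ha => ?_, fun b hb => ?_⟩
    · rcases lt_or_ge a 0 with ha0 | ha0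
      · filter_upwards [self_mem_nhdsWithin] with t h
        exact lt_trans ha0 (hQpos t h)
      · have h1 : Dq t₀ a < D0 := (hlt t₀ h₀ a ha0).2 ha
        have h2 := (tendsto_order.1 (ht a ha0 t₀ h₀)).2 D0 h1
        filter_upwards [h2, self_mem_nhdsWithin] with t h3 h
        exact (hlt t h a ha0).1 h3
    · have hb0 : 0 ≤ b := (hQpos t₀ h₀).le.trans hb.le
      have h1 : D0 < Dq t₀ b := (hgt t₀ h₀ b hb0).2 hb
      have h2 := (tendsto_order.1 (ht b hb0 t₀ h₀)).1 D0 h1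
      filter_upwards [h2, self_mem_nhdsWithin] with t h3 h
      exact (hgt t h b hb0).1 h3
  refine ⟨Qp, fun t h => ⟨hQpos t h, hQeq t h, fun q hq hqD => ?_⟩, hcont, ?_⟩
  · exact (hm t h).injOn (mem_Ici.2 hq) (mem_Ici.2 (hQpos t h).le) (hqD.trans (hQeq t h).symm)
  · rcases (Icc t1 t2).eq_empty_or_nonempty with he | hne
    · exact ⟨1, 1, one_pos, fun t h => by rw [he] at h; exact absurd h (notMem_empty t)⟩
    · obtain ⟨ta, hta, hmin⟩ := isCompact_Icc.exists_isMinOn hne hcont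
      obtain ⟨tb, htb, hmax⟩ := isCompact_Icc.exists_isMaxOn hne hcont
      exact ⟨Qp ta, Qp tb, hQpos ta hta, fun t h => ⟨hmin h, hmax h⟩⟩

end PA

end Claimed.Agent.R292
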