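-- KEEP
import Claimed.Agent.R292.Bethe.HubB271
import Claimed.Agent.R292.Bethe.B4x77

/-!
# Row 292, unit BETHE, leaf B4: the typed contract `Bh271B4` of `HubB271` is PROVED   (helper77; prefix `b4w77_`)

`b4w77_B4 : Bh271B4`.  All the analysis is in `B4x77.lean` (`b4x77_contract`, over Mathlib only); here only the dictionary:
`bh271_e0 = b4x77_e0`, `bh271_S`, `bh271_Th` are `arctan (κ tanh u) / π`, hence Lipschitz, odd, `0` at `0`.
-/

set_option autoImplicit false

namespace Claimed.Agent.R292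

theorem b4w77_e0_eq : bh271_e0 = b4x77_e0 := rfl

theorem b4w77_lip (κ u v : ℝ) :
    |Real.arctan (κ * Real.tanh u) / Real.pi - Real.arctan (κ * Real.tanh v) / Real.pi|
      ≤ |κ| / Real.pi * |u - v| := by
  rw [← sub_div, abs_div, abs_of_pos Real.pi_pos, div_mul_eq_mul_div]
  exact div_le_div_of_nonneg_right (b4x77_arctan_tanh_lip κ u v) Real.pi_pos.le

/-- **Leaf B4**: the contract of `HubB271`. -/
theorem b4w77_B4 : Bh271B4 := by
  intro lam Q r _ _ hQ hr C ε hε
  obtain ⟨N₁, hN₁⟩ := b4x77_contract (A := 1) (B := 2)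
    (a1 := |Real.cos (lam / 2) / Real.sin (lam / 2)| / Real.pi)
    (a2 := |Real.cos lam / Real.sin lam| / Real.pi) (Q := Q)
    (g := b4x77_e0 lam) (r := r) (S := bh271_S lam) (Th := bh271_Th lam)
    zero_le_one (by norm_num) hQ
    (b4x77_e0_even lam) (b4x77_e0_lip lam) (b4x77_e0_bound lam) hr.cont hr.pos hr.even
    (by simp [bh271_S])
    (fun u v => b4w77_lip _ u v)
    (by
      intro u
      simp only [bh271_Th, Real.tanh_neg, mul_neg, Real.arctan_neg, neg_div])
    (fun u v => b4w77_lip _ u v) C ε hε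
  refine ⟨N₁, fun N n y hN hn hnD hgood hclose => ?_⟩
  exact hN₁ N n y hN hn hnD hgood.roots hgood.symm hclose

end Claimed.Agent.R292
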