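import Claimed.Agent.R292.Defs.Top
import Claimed.Agent.R290.SymPF31

/-!
# Row 292, unit BETHE, block BA1 (helper70, prefix `ba70`): the sector transfer matrices

Everything here is proved (0 sorry).

* `ba70_cycle_sum`        : `∑_{s : ZMod M → S} ∏_a K (s (a-1)) (s a) = trace (K ^ M)`.
* `ba70T c L n`           : the column transfer matrix on `ZMod L → Bool`, cut to the sector of the
                            columns with `n` arrows `true`; symmetric (`ba70T_symm`), entries `≥ 0`,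
                            diagonal `≥ 1` on the sector, rows `0` off the sector.
* `ba70_svZN_eq_trace`    : `svZN c M L n = trace (ba70T c L n ^ M)`.
* `Ba70IsTop T μ`         : `μ` is an eigenvalue of `T` and no eigenvalue is larger.
* `ba70_trace_bounds`     : `μ ^ (M-1) ≤ trace (T ^ M) ≤ card * μ ^ M` (no irreducibility needed).
* `ba70_top_of_pos`       : an eigenvector `≥ 0`, `> 0` on the sector, belongs to the top eigenvalue.
* `ba70Lam c L n`         : the top eigenvalue `Λ(L, n)`; `ba70Lam_spec`, `ba70Lam_eq_of_isTop`,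
                            `ba70Lam_eq_of_pos`.
* `ba70_log_svZN_tendsto` : `(1/M) log svZN c M L n → log Λ(L, n)`.
* `ba70_stiff_of_lam`     : REDUCTION of the contract `sv_bethe`: `Ba70StiffLam c A → SvStiff c A`.
-/

set_option autoImplicit false
set_option linter.unusedSectionVars false

namespace Claimed.Agent.R292

open Matrix Filter Topology
open Claims Claims.C0466

/-! ## A. The trace formula for cyclic chains -/

section Chain

variable {S : Type*} [Fintype S] [DecidableEq S]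

theorem ba70_sum_cons {n : ℕ} (F : (Fin (n + 1) → S) → ℝ) :
    ∑ p, F p = ∑ z : S, ∑ q : Fin n → S, F (Fin.cons z q) := by
  rw [← Fintype.sum_prod_type']
  exact (Fintype.sum_equiv (Fin.consEquiv (fun _ : Fin (n + 1) => S)) _ _ (fun _ => rfl)).symm

/-- Sum over open chains of length `n` started at `x`. -/
theorem ba70_chain_sum (K : Matrix S S ℝ) (n : ℕ) (x : S) (g : S → ℝ) :
    ∑ p : Fin n → S, (∏ i : Fin n, K ((Fin.cons x p : Fin (n + 1) → S) i.castSucc) (p i)) *
        g ((Fin.cons x p : Fin (n + 1) → S) (Fin.last n)) = ∑ y, (K ^ n) x y * g y := by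
  induction n generalizing x with
  | zero =>
    simp [Matrix.one_apply]
  | succ n ih =>
    rw [ba70_sum_cons]
    have h1 : ∀ (z : S) (q : Fin n → S),
        (∏ i : Fin (n + 1), K ((Fin.cons x (Fin.cons z q : Fin (n + 1) → S) :
            Fin (n + 1 + 1) → S) i.castSucc) ((Fin.cons z q : Fin (n + 1) → S) i)) *
          g ((Fin.cons x (Fin.cons z q : Fin (n + 1) → S) : Fin (n + 1 + 1) → S)
            (Fin.last (n + 1))) =
        K x z * ((∏ i : Fin n, K ((Fin.cons z q : Fin (n + 1) → S) i.castSucc) (q i)) *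
          g ((Fin.cons z q : Fin (n + 1) → S) (Fin.last n))) := by
      intro z q
      rw [Fin.prod_univ_succ, ← Fin.succ_last, Fin.cons_succ]
      simp only [Fin.castSucc_zero, Fin.cons_zero, Fin.cons_succ, ← Fin.succ_castSucc]
      ring
    simp only [h1]
    simp only [← Finset.mul_sum, ih]
    rw [pow_succ']
    simp only [Matrix.mul_apply, Finset.sum_mul, Finset.mul_sum]
    rw [Finset.sum_comm]
    refine Finset.sum_congr rfl fun y _ => Finset.sum_congr rfl fun z _ => ?_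
    ring

theorem ba70_cons_castSucc {n : ℕ} (p : Fin (n + 1) → S) (i : Fin (n + 1)) :
    (Fin.cons (p (Fin.last n)) p : Fin (n + 1 + 1) → S) i.castSucc = p (i - 1) := by
  refine Fin.cases ?_ (fun j => ?_) i
  · rw [Fin.castSucc_zero, Fin.cons_zero]
    congr 1
    ext
    rw [Fin.coe_sub_one, if_pos rfl, Fin.val_last]
  · rw [← Fin.succ_castSucc, Fin.cons_succ]
    congr 1
    ext
    rw [Fin.coe_sub_one, if_neg (Fin.succ_ne_zero j)]
    simp

/-- The trace formula on `Fin (n + 1)`. -/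
theorem ba70_cycle_sum_fin (K : Matrix S S ℝ) (n : ℕ) :
    ∑ s : Fin (n + 1) → S, ∏ i : Fin (n + 1), K (s (i - 1)) (s i) = (K ^ (n + 1)).trace := by
  classical
  have h : ∀ x : S, (K ^ (n + 1)) x x = ∑ p : Fin (n + 1) → S,
      (∏ i : Fin (n + 1), K ((Fin.cons x p : Fin (n + 1 + 1) → S) i.castSucc) (p i)) *
        (if p (Fin.last n) = x then 1 else 0) := by
    intro x
    have := ba70_chain_sum K (n + 1) x (fun y => if y = x then 1 else 0)
    simp only [← Fin.succ_last, Fin.cons_succ] at this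
    rw [this]
    simp
  rw [Matrix.trace]
  simp only [Matrix.diag_apply, h]
  rw [Finset.sum_comm]
  refine Finset.sum_congr rfl fun p _ => ?_
  rw [Finset.sum_eq_single (p (Fin.last n))]
  · simp only [if_true, mul_one, ba70_cons_castSucc]
  · intro x _ hx
    rw [if_neg (Ne.symm hx), mul_zero]
  · intro hx
    exact absurd (Finset.mem_univ _) hx

/-- **The trace formula**: the sum over cyclic chains is the trace of the power. -/
theorem ba70_cycle_sum (K : Matrix S S ℝ) (M : ℕ) [NeZero M] :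
    ∑ s : ZMod M → S, ∏ a : ZMod M, K (s (a - 1)) (s a) = (K ^ M).trace := by
  cases M with
  | zero => exact absurd rfl (NeZero.ne 0)
  | succ n => exact ba70_cycle_sum_fin K n

end Chain

/-! ## B. The torus weight as a product over the columns -/

section Bridge

/-- Sums over `range L` of a function of the class mod `L`. -/
theorem ba70_sum_range_zmod (L : ℕ) [NeZero L] {β : Type*} [AddCommMonoid β] (F : ZMod L → β) :
    ∑ j ∈ Finset.range L, F (j : ZMod L) = ∑ b : ZMod L, F b := by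
  refine Finset.sum_nbij' (fun j => (j : ZMod L)) (fun b => b.val) ?_ ?_ ?_ ?_ ?_
  · intro j _; exact Finset.mem_univ _
  · intro b _; exact Finset.mem_range.2 (ZMod.val_lt b)
  · intro j hj; exact ZMod.val_natCast_of_lt (Finset.mem_range.1 hj)
  · intro b _; exact ZMod.natCast_zmod_val b
  · intro j _; rfl

variable {M L : ℕ}

/-- In-count at the vertex `b` of a column of vertices: left edge `σ b`, right edge `σ' b`, lower
edge `v (b - 1)`, upper edge `v b`. -/
def ba70In (σ σ' v : ZMod L → Bool) (b : ZMod L) : ℕ :=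
  (if σ b then 1 else 0) + (if σ' b then 0 else 1) + (if v (b - 1) then 1 else 0) +
    (if v b then 0 else 1)

/-- Number of arrows `true` in a column of horizontal edges. -/
def ba70Cnt [NeZero L] (σ : ZMod L → Bool) : ℕ :=
  (Finset.univ.filter (fun b => σ b = true)).card

/-- Number of places where two columns differ (= number of vertices of type `c`). -/
def ba70Dif [NeZero L] (σ σ' : ZMod L → Bool) : ℕ :=
  (Finset.univ.filter (fun b => σ b ≠ σ' b)).card

open Classical in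
/-- Weight of a column of vertices, cut to the sector `n`. -/
noncomputable def ba70W [NeZero L] (c : ℝ) (n : ℕ) (σ σ' v : ZMod L → Bool) : ℝ :=
  if (∀ b, ba70In σ σ' v b = 2) ∧ ba70Cnt σ = n ∧ ba70Cnt σ' = n then c ^ ba70Dif σ σ' else 0

/-- **The column transfer matrix of the sector `n`.** -/
noncomputable def ba70T (c : ℝ) (L n : ℕ) [NeZero L] :
    Matrix (ZMod L → Bool) (ZMod L → Bool) ℝ :=
  fun σ σ' => ∑ v : ZMod L → Bool, ba70W c n σ σ' v

/-- A configuration = its horizontal and its vertical edges, column by column. -/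
def ba70Split (M L : ℕ) : (ZMod M × ZMod L × Bool → Bool) ≃
    (ZMod M → ZMod L → Bool) × (ZMod M → ZMod L → Bool) where
  toFun ω := (fun a b => ω (a, b, false), fun a b => ω (a, b, true))
  invFun hv := fun e => match e with
    | (a, b, false) => hv.1 a b
    | (a, b, true) => hv.2 a b
  left_inv ω := by
    funext ⟨a, b, d⟩
    cases d <;> rfl
  right_inv hv := rfl

theorem ba70_inCount (ω : ZMod M × ZMod L × Bool → Bool) (a b : ℤ) :
    svInCount ω a b = ba70In ((ba70Split M L ω).1 ((a : ZMod M) - 1)) ((ba70Split M L ω).1 a)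
      ((ba70Split M L ω).2 a) (b : ZMod L) := by
  simp only [svInCount, svH, svV, ba70In, ba70Split, Equiv.coe_fn_mk, Int.cast_sub, Int.cast_one]
  rfl

theorem ba70_cnt [NeZero L] (ω : ZMod M × ZMod L × Bool → Bool) (i : ℤ) :
    ((Finset.range L).filter (fun j : ℕ => svH ω i (j : ℤ) = true)).card =
      ba70Cnt ((ba70Split M L ω).1 (i : ZMod M)) := by
  rw [ba70Cnt, Finset.card_filter, Finset.card_filter,
    ← ba70_sum_range_zmod L (fun b => if (ba70Split M L ω).1 (i : ZMod M) b = true then 1 else 0)]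
  simp only [svH, ba70Split, Equiv.coe_fn_mk, Int.cast_natCast]
  rfl

theorem ba70_numC [NeZero M] [NeZero L] (ω : ZMod M × ZMod L × Bool → Bool) :
    svNumC ω = ∑ a : ZMod M, ba70Dif ((ba70Split M L ω).1 (a - 1)) ((ba70Split M L ω).1 a) := by
  classical
  rw [svNumC, Finset.card_filter, Finset.sum_product,
    ← ba70_sum_range_zmod M
      (fun a => ba70Dif ((ba70Split M L ω).1 (a - 1)) ((ba70Split M L ω).1 a))]
  refine Finset.sum_congr rfl fun a _ => ?_
  rw [ba70Dif, Finset.card_filter,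
    ← ba70_sum_range_zmod L (fun b => if (ba70Split M L ω).1 ((a : ZMod M) - 1) b ≠
      (ba70Split M L ω).1 (a : ZMod M) b then 1 else 0)]
  refine Finset.sum_congr rfl fun b _ => ?_
  have : svIsC ω (a : ℤ) (b : ℤ) ↔ (ba70Split M L ω).1 ((a : ZMod M) - 1) (b : ZMod L) ≠
      (ba70Split M L ω).1 (a : ZMod M) (b : ZMod L) := by
    simp only [svIsC, svH, ba70Split, Equiv.coe_fn_mk, Int.cast_sub, Int.cast_one,
      Int.cast_natCast]
    cases ω ((a : ZMod M) - 1, (b : ZMod L), false) <;> cases ω ((a : ZMod M), (b : ZMod L), false)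
      <;> simp
  simp only [this]

theorem ba70_admN [NeZero M] [NeZero L] (n : ℕ) (ω : ZMod M × ZMod L × Bool → Bool) :
    svAdmN n ω ↔ ∀ a : ZMod M,
      (∀ b, ba70In ((ba70Split M L ω).1 (a - 1)) ((ba70Split M L ω).1 a)
        ((ba70Split M L ω).2 a) b = 2) ∧
      ba70Cnt ((ba70Split M L ω).1 (a - 1)) = n ∧ ba70Cnt ((ba70Split M L ω).1 a) = n := by
  constructor
  · rintro ⟨h1, h2⟩ a
    obtain ⟨a', rfl⟩ := ZMod.intCast_surjective a
    refine ⟨fun b => ?_, ?_, ?_⟩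
    · obtain ⟨b', rfl⟩ := ZMod.intCast_surjective b
      rw [← ba70_inCount]; exact h1 a' b'
    · have := h2 (a' - 1)
      rw [ba70_cnt] at this
      simpa using this
    · have := h2 a'
      rwa [ba70_cnt] at this
  · intro h
    refine ⟨fun a b => ?_, fun i => ?_⟩
    · rw [ba70_inCount]; exact (h a).1 b
    · rw [ba70_cnt]; exact (h i).2.2

/-- The weight of a torus configuration is the product of the weights of its columns. -/
theorem ba70_weight [NeZero M] [NeZero L] (c : ℝ) (n : ℕ)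
    (ω : ZMod M × ZMod L × Bool → Bool) [Decidable (svAdmN n ω)] :
    (if svAdmN n ω then c ^ svNumC ω else 0) =
      ∏ a : ZMod M, ba70W c n ((ba70Split M L ω).1 (a - 1)) ((ba70Split M L ω).1 a)
        ((ba70Split M L ω).2 a) := by
  by_cases h : svAdmN n ω
  · rw [if_pos h, ba70_numC, ← Finset.prod_pow_eq_pow_sum]
    refine Finset.prod_congr rfl fun a _ => ?_
    rw [ba70W, if_pos ((ba70_admN n ω).1 h a)]
  · rw [if_neg h]
    have h' := h
    rw [ba70_admN] at h'
    rw [not_forall] at h'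
    obtain ⟨a, ha⟩ := h'
    symm
    apply Finset.prod_eq_zero (Finset.mem_univ a)
    rw [ba70W, if_neg]
    exact ha

/-- **The partition function of the sector `n` is the trace of the power of the transfer
matrix.** -/
theorem ba70_svZN_eq_trace (c : ℝ) (M L n : ℕ) [NeZero M] [NeZero L] :
    svZN c M L n = (ba70T c L n ^ M).trace := by
  classical
  rw [svZN, tsum_fintype, ← ba70_cycle_sum]
  simp only [ba70_weight]
  rw [Fintype.sum_equiv (ba70Split M L) _
    (fun hv : (ZMod M → ZMod L → Bool) × (ZMod M → ZMod L → Bool) =>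
      ∏ a : ZMod M, ba70W c n (hv.1 (a - 1)) (hv.1 a) (hv.2 a)) (fun _ => rfl),
    Fintype.sum_prod_type]
  refine Finset.sum_congr rfl fun h _ => ?_
  simp only [ba70T]
  rw [Finset.prod_univ_sum, Fintype.piFinset_univ]

/-! ## C. Properties of the sector transfer matrix -/

/-- Reversal of the vertical arrows of a column. -/
def ba70Not (L : ℕ) : (ZMod L → Bool) ≃ (ZMod L → Bool) where
  toFun v := fun b => !v b
  invFun v := fun b => !v b
  left_inv v := by funext b; simp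
  right_inv v := by funext b; simp

theorem ba70_bool_aux (s1 s2 s3 s4 : Bool) :
    ((if s2 then 1 else 0) + (if s1 then 0 else 1) + (if (!s3) then 1 else 0) +
      (if (!s4) then 0 else 1)) +
    ((if s1 then 1 else 0) + (if s2 then 0 else 1) + (if s3 then 1 else 0) +
      (if s4 then 0 else 1)) = 4 := by
  cases s1 <;> cases s2 <;> cases s3 <;> cases s4 <;> rfl

theorem ba70In_swap (σ σ' v : ZMod L → Bool) (b : ZMod L) :
    ba70In σ' σ (ba70Not L v) b + ba70In σ σ' v b = 4 :=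
  ba70_bool_aux (σ b) (σ' b) (v (b - 1)) (v b)

theorem ba70Dif_comm [NeZero L] (σ σ' : ZMod L → Bool) : ba70Dif σ σ' = ba70Dif σ' σ := by
  simp only [ba70Dif, ne_comm]

theorem ba70W_swap [NeZero L] (c : ℝ) (n : ℕ) (σ σ' v : ZMod L → Bool) :
    ba70W c n σ' σ (ba70Not L v) = ba70W c n σ σ' v := by
  have h : ((∀ b, ba70In σ' σ (ba70Not L v) b = 2) ∧ ba70Cnt σ' = n ∧ ba70Cnt σ = n) ↔
      ((∀ b, ba70In σ σ' v b = 2) ∧ ba70Cnt σ = n ∧ ba70Cnt σ' = n) := by
    refine and_congr (forall_congr' fun b => ?_) and_comm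
    have := ba70In_swap σ σ' v b
    omega
  simp only [ba70W, h, ba70Dif_comm σ' σ]

theorem ba70T_symm (c : ℝ) (L n : ℕ) [NeZero L] : (ba70T c L n).IsSymm := by
  ext σ σ'
  rw [Matrix.transpose_apply, ba70T, ba70T, ← (ba70Not L).sum_comp]
  exact Finset.sum_congr rfl fun v _ => ba70W_swap c n σ σ' v

theorem ba70W_nonneg [NeZero L] {c : ℝ} (hc : 0 ≤ c) (n : ℕ) (σ σ' v : ZMod L → Bool) :
    0 ≤ ba70W c n σ σ' v := by
  rw [ba70W]
  split_ifs
  · exact pow_nonneg hc _
  · exact le_rfl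

theorem ba70T_nonneg {c : ℝ} (hc : 0 ≤ c) (L n : ℕ) [NeZero L] (σ σ' : ZMod L → Bool) :
    0 ≤ ba70T c L n σ σ' :=
  Finset.sum_nonneg fun v _ => ba70W_nonneg hc n σ σ' v

theorem ba70T_diag {c : ℝ} (hc : 0 ≤ c) (L n : ℕ) [NeZero L] (σ : ZMod L → Bool)
    (hσ : ba70Cnt σ = n) : 1 ≤ ba70T c L n σ σ := by
  have h1 : ba70W c n σ σ (fun _ => true) = 1 := by
    rw [ba70W, if_pos]
    · have : ba70Dif σ σ = 0 := by simp [ba70Dif]
      rw [this, pow_zero]
    · refine ⟨fun b => ?_, hσ, hσ⟩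
      simp only [ba70In]
      cases σ b <;> rfl
  rw [← h1]
  exact Finset.single_le_sum (f := fun v => ba70W c n σ σ v)
    (fun v _ => ba70W_nonneg hc n σ σ v) (Finset.mem_univ _)

theorem ba70T_row_zero (c : ℝ) (L n : ℕ) [NeZero L] (σ σ' : ZMod L → Bool)
    (hσ : ba70Cnt σ ≠ n) : ba70T c L n σ σ' = 0 := by
  refine Finset.sum_eq_zero fun v _ => ?_
  rw [ba70W, if_neg]
  rintro ⟨_, h, _⟩
  exact hσ h

end Bridge

/-! ## D. The top eigenvalue of a symmetric matrix with entries `≥ 0` -/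

section Top

open Claimed.Agent.R290

variable {X : Type*} [Fintype X] [DecidableEq X]

/-- `μ` is the top eigenvalue of `T`. -/
def Ba70IsTop (T : Matrix X X ℝ) (μ : ℝ) : Prop :=
  (∃ v : X → ℝ, v ≠ 0 ∧ T *ᵥ v = μ • v) ∧
    ∀ (ν : ℝ) (v : X → ℝ), v ≠ 0 → T *ᵥ v = ν • v → ν ≤ μ

theorem Ba70IsTop.unique {T : Matrix X X ℝ} {μ μ' : ℝ} (h : Ba70IsTop T μ) (h' : Ba70IsTop T μ') :
    μ = μ' := by
  obtain ⟨⟨v, hv, hTv⟩, hub⟩ := h
  obtain ⟨⟨v', hv', hTv'⟩, hub'⟩ := h'
  exact le_antisymm (hub' μ v hv hTv) (hub μ' v' hv' hTv')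

theorem ba70_dot_self_pos {v : X → ℝ} (hv : v ≠ 0) : 0 < v ⬝ᵥ v := by
  have h0 : 0 ≤ v ⬝ᵥ v := Finset.sum_nonneg fun i _ => mul_self_nonneg (v i)
  refine lt_of_le_of_ne h0 fun h => hv ?_
  exact dotProduct_self_eq_zero.1 h.symm

/-- The columns of `U` are eigenvectors. -/
theorem ba70_col_eig (U : Matrix X X ℝ) (lam : X → ℝ) (h1 : Uᵀ * U = 1) (j : X) :
    (U * diagonal lam * Uᵀ) *ᵥ (U *ᵥ Pi.single j 1) = lam j • (U *ᵥ Pi.single j 1) := by
  rw [mulVec_mulVec, Matrix.mul_assoc, h1, Matrix.mul_one, ← mulVec_mulVec, ← mulVec_smul]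
  congr 1
  ext i
  simp only [mulVec_diagonal, Pi.single_apply, Pi.smul_apply, smul_eq_mul, mul_ite, mul_one,
    mul_zero]
  by_cases h : i = j
  · rw [if_pos h, if_pos h, h]
  · rw [if_neg h, if_neg h]

theorem ba70_col_ne_zero (U : Matrix X X ℝ) (h1 : Uᵀ * U = 1) (j : X) :
    U *ᵥ Pi.single j (1 : ℝ) ≠ 0 := by
  intro h
  have h2 : Uᵀ *ᵥ (U *ᵥ Pi.single j (1 : ℝ)) = 0 := by rw [h, mulVec_zero]
  rw [mulVec_mulVec, h1, one_mulVec] at h2
  have := congrFun h2 j
  simp at this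

theorem ba70_col_dot (U : Matrix X X ℝ) (h1 : Uᵀ * U = 1) (j : X) :
    (U *ᵥ Pi.single j (1 : ℝ)) ⬝ᵥ (U *ᵥ Pi.single j (1 : ℝ)) = 1 := by
  rw [dotProduct_mulVec, ← mulVec_transpose, mulVec_mulVec, h1, one_mulVec]
  simp

/-- The data of a symmetric matrix: diagonalisation with a largest eigenvalue. -/
theorem ba70_top_data [Nonempty X] (T : Matrix X X ℝ) (hs : T.IsSymm) :
    ∃ (U : Matrix X X ℝ) (lam : X → ℝ) (j₀ : X), Uᵀ * U = 1 ∧ U * Uᵀ = 1 ∧
      T = U * diagonal lam * Uᵀ ∧ (∀ j, lam j ≤ lam j₀) ∧ Ba70IsTop T (lam j₀) ∧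
      ∀ y : X → ℝ, y ⬝ᵥ (T *ᵥ y) ≤ lam j₀ * (y ⬝ᵥ y) := by
  obtain ⟨U, lam, h1, h2, hT⟩ := sympf31_diag T hs
  obtain ⟨j₀, -, hj₀⟩ := Finset.exists_max_image Finset.univ lam Finset.univ_nonempty
  have hmax : ∀ j, lam j ≤ lam j₀ := fun j => hj₀ j (Finset.mem_univ j)
  have hray : ∀ y : X → ℝ, y ⬝ᵥ (T *ᵥ y) ≤ lam j₀ * (y ⬝ᵥ y) := by
    intro y
    rw [hT, sympf31_quad, sympf31_norm U h2 y, Finset.mul_sum]
    exact Finset.sum_le_sum fun j _ => mul_le_mul_of_nonneg_right (hmax j) (sq_nonneg _)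
  refine ⟨U, lam, j₀, h1, h2, hT, hmax, ⟨⟨U *ᵥ Pi.single j₀ 1, ba70_col_ne_zero U h1 j₀, ?_⟩, ?_⟩,
    hray⟩
  · rw [hT]; exact ba70_col_eig U lam h1 j₀
  · intro ν v hv hTv
    have h3 := hray v
    rw [hTv, dotProduct_smul, smul_eq_mul] at h3
    exact le_of_mul_le_mul_right h3 (ba70_dot_self_pos hv)

theorem ba70_quad_expand (T : Matrix X X ℝ) (y : X → ℝ) :
    y ⬝ᵥ (T *ᵥ y) = ∑ x, ∑ z, y x * T x z * y z := by
  simp only [dotProduct, mulVec, Finset.mul_sum, mul_assoc]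

/-- All eigenvalues are bounded in absolute value by the largest one (entries `≥ 0`). -/
theorem ba70_abs_le (T : Matrix X X ℝ) (hnn : ∀ x y, 0 ≤ T x y) (U : Matrix X X ℝ) (lam : X → ℝ)
    (μ : ℝ) (h1 : Uᵀ * U = 1) (hT : T = U * diagonal lam * Uᵀ) (hmax : ∀ j, lam j ≤ μ)
    (hray : ∀ y : X → ℝ, y ⬝ᵥ (T *ᵥ y) ≤ μ * (y ⬝ᵥ y)) (j : X) : |lam j| ≤ μ := by
  rw [abs_le]
  refine ⟨?_, hmax j⟩
  set v := U *ᵥ Pi.single j (1 : ℝ) with hv
  have hvv : v ⬝ᵥ v = 1 := ba70_col_dot U h1 j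
  have hTv : T *ᵥ v = lam j • v := by rw [hT]; exact ba70_col_eig U lam h1 j
  have hq : v ⬝ᵥ (T *ᵥ v) = lam j := by rw [hTv, dotProduct_smul, hvv, smul_eq_mul, mul_one]
  have hw : (fun x => |v x|) ⬝ᵥ (fun x => |v x|) = 1 := by
    rw [← hvv]
    simp only [dotProduct, abs_mul_abs_self]
  have h2 := hray (fun x => |v x|)
  rw [hw, mul_one, ba70_quad_expand] at h2
  rw [ba70_quad_expand] at hq
  have h3 : -(∑ x, ∑ z, v x * T x z * v z) ≤ ∑ x, ∑ z, |v x| * T x z * |v z| := by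
    rw [← Finset.sum_neg_distrib]
    refine Finset.sum_le_sum fun x _ => ?_
    rw [← Finset.sum_neg_distrib]
    refine Finset.sum_le_sum fun z _ => ?_
    have h4 : -(v x * T x z * v z) = T x z * (-(v x * v z)) := by ring
    have h5 : |v x| * T x z * |v z| = T x z * |v x * v z| := by rw [abs_mul]; ring
    rw [h4, h5]
    exact mul_le_mul_of_nonneg_left (neg_le_abs _) (hnn x z)
  rw [hq] at h3
  linarith

theorem ba70_trace_pow (U : Matrix X X ℝ) (lam : X → ℝ) (h1 : Uᵀ * U = 1) (h2 : U * Uᵀ = 1)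
    (m : ℕ) : ((U * diagonal lam * Uᵀ) ^ m).trace = ∑ j, lam j ^ m := by
  rw [sympf31_pow U lam h1 m h2, Matrix.trace_mul_comm, ← Matrix.mul_assoc, h1, Matrix.one_mul,
    Matrix.trace_diagonal]

theorem ba70_pow_nonneg (T : Matrix X X ℝ) (hnn : ∀ x y, 0 ≤ T x y) (m : ℕ) (x y : X) :
    0 ≤ (T ^ m) x y := by
  induction m generalizing x y with
  | zero =>
    rw [pow_zero, Matrix.one_apply]
    split_ifs <;> norm_num
  | succ m ih =>
    rw [pow_succ, Matrix.mul_apply]
    exact Finset.sum_nonneg fun z _ => mul_nonneg (ih x z) (hnn z y)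

theorem ba70_pow_row_zero (T : Matrix X X ℝ) (x : X) (h0 : ∀ y, T x y = 0) (m : ℕ) (y : X) :
    (T ^ (m + 1)) x y = 0 := by
  rw [pow_succ', Matrix.mul_apply]
  exact Finset.sum_eq_zero fun z _ => by rw [h0 z, zero_mul]

/-- **Two-sided bound of the traces of the powers by the powers of the top eigenvalue**; no
irreducibility is needed. -/
theorem ba70_trace_bounds (T : Matrix X X ℝ) (hs : T.IsSymm) (hnn : ∀ x y, 0 ≤ T x y)
    (P : X → Prop) (hP1 : ∀ x, P x → 1 ≤ T x x) (hP0 : ∀ x, ¬ P x → ∀ y, T x y = 0)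
    (hne : ∃ x, P x) :
    ∃ μ : ℝ, Ba70IsTop T μ ∧ 1 ≤ μ ∧
      ∀ M : ℕ, 1 ≤ M → μ ^ (M - 1) ≤ (T ^ M).trace ∧ (T ^ M).trace ≤ Fintype.card X * μ ^ M := by
  classical
  obtain ⟨x₀, hx₀⟩ := hne
  have : Nonempty X := ⟨x₀⟩
  obtain ⟨U, lam, j₀, h1, h2, hT, hmax, htop, hray⟩ := ba70_top_data T hs
  have habs := ba70_abs_le T hnn U lam (lam j₀) h1 hT hmax hray
  have hμ1 : 1 ≤ lam j₀ := by
    have h3 := hray (Pi.single x₀ 1)
    have h4 : (Pi.single x₀ (1 : ℝ) : X → ℝ) ⬝ᵥ (T *ᵥ Pi.single x₀ 1) = T x₀ x₀ := by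
      simp [mulVec_single]
    have h5 : (Pi.single x₀ (1 : ℝ) : X → ℝ) ⬝ᵥ Pi.single x₀ 1 = 1 := by simp
    rw [h4, h5, mul_one] at h3
    exact (hP1 x₀ hx₀).trans h3
  have hμ0 : 0 ≤ lam j₀ := zero_le_one.trans hμ1
  have htr : ∀ m, (T ^ m).trace = ∑ j, lam j ^ m := by
    intro m
    rw [hT]; exact ba70_trace_pow U lam h1 h2 m
  have heven : ∀ k, lam j₀ ^ (2 * k) ≤ (T ^ (2 * k)).trace := by
    intro k
    rw [htr]
    exact Finset.single_le_sum (f := fun j => lam j ^ (2 * k))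
      (fun j _ => (even_two_mul k).pow_nonneg _) (Finset.mem_univ j₀)
  have hstep : ∀ m, (∑ x, if P x then (T ^ m) x x else 0) ≤ (T ^ (m + 1)).trace := by
    intro m
    rw [Matrix.trace]
    refine Finset.sum_le_sum fun x _ => ?_
    rw [Matrix.diag_apply, pow_succ, Matrix.mul_apply]
    have h3 : (T ^ m) x x * T x x ≤ ∑ z, (T ^ m) x z * T z x :=
      Finset.single_le_sum (f := fun z => (T ^ m) x z * T z x)
        (fun z _ => mul_nonneg (ba70_pow_nonneg T hnn m x z) (hnn z x)) (Finset.mem_univ x)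
    refine le_trans ?_ h3
    by_cases hx : P x
    · rw [if_pos hx]
      exact le_mul_of_one_le_right (ba70_pow_nonneg T hnn m x x) (hP1 x hx)
    · rw [if_neg hx]
      exact mul_nonneg (ba70_pow_nonneg T hnn m x x) (hnn x x)
  have hD : ∀ k, lam j₀ ^ (2 * k) ≤ ∑ x, if P x then (T ^ (2 * k)) x x else 0 := by
    intro k
    rcases Nat.eq_zero_or_pos k with rfl | hk
    · simp only [mul_zero, pow_zero, Matrix.one_apply_eq]
      have h6 : (if P x₀ then (1 : ℝ) else 0) ≤ ∑ x, if P x then (1 : ℝ) else 0 :=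
        Finset.single_le_sum (f := fun x => if P x then (1 : ℝ) else 0)
          (fun x _ => by split_ifs <;> norm_num) (Finset.mem_univ x₀)
      rwa [if_pos hx₀] at h6
    · refine (heven k).trans (le_of_eq ?_)
      rw [Matrix.trace]
      refine Finset.sum_congr rfl fun x _ => ?_
      rw [Matrix.diag_apply]
      by_cases hx : P x
      · rw [if_pos hx]
      · rw [if_neg hx]
        obtain ⟨m, hm⟩ : ∃ m, 2 * k = m + 1 := ⟨2 * k - 1, by omega⟩
        rw [hm]
        exact ba70_pow_row_zero T x (hP0 x hx) m x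
  refine ⟨lam j₀, htop, hμ1, fun M hM => ⟨?_, ?_⟩⟩
  · rcases Nat.even_or_odd' M with ⟨k, rfl | rfl⟩
    · exact (pow_le_pow_right₀ hμ1 (Nat.sub_le _ _)).trans (heven k)
    · rw [Nat.add_sub_cancel]
      exact (hD k).trans (hstep (2 * k))
  · rw [htr]
    calc ∑ j, lam j ^ M ≤ ∑ _j : X, lam j₀ ^ M := by
          refine Finset.sum_le_sum fun j _ => ?_
          calc lam j ^ M ≤ |lam j ^ M| := le_abs_self _
            _ = |lam j| ^ M := abs_pow _ _
            _ ≤ lam j₀ ^ M := pow_le_pow_left₀ (abs_nonneg _) (habs j) M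
      _ = Fintype.card X * lam j₀ ^ M := by
          rw [Finset.sum_const, Finset.card_univ, nsmul_eq_mul]

/-- Exponential growth rate from two-sided bounds. -/
theorem ba70_log_tendsto (z : ℕ → ℝ) (μ C : ℝ) (hμ : 1 ≤ μ) (hC : 0 < C)
    (h : ∀ M : ℕ, 1 ≤ M → μ ^ (M - 1) ≤ z M ∧ z M ≤ C * μ ^ M) :
    Tendsto (fun M : ℕ => Real.log (z M) / M) atTop (𝓝 (Real.log μ)) := by
  have hμ0 : 0 < μ := zero_lt_one.trans_le hμ
  have hinv : Tendsto (fun M : ℕ => ((M : ℝ))⁻¹) atTop (𝓝 0) := tendsto_inv_atTop_nhds_zero_nat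
  have hlo : Tendsto (fun M : ℕ => Real.log μ - Real.log μ * ((M : ℝ))⁻¹) atTop
      (𝓝 (Real.log μ)) := by
    have := (tendsto_const_nhds (x := Real.log μ)).sub (hinv.const_mul (Real.log μ))
    simpa using this
  have hhi : Tendsto (fun M : ℕ => Real.log μ + Real.log C * ((M : ℝ))⁻¹) atTop
      (𝓝 (Real.log μ)) := by
    have := (tendsto_const_nhds (x := Real.log μ)).add (hinv.const_mul (Real.log C))
    simpa using this
  refine tendsto_of_tendsto_of_tendsto_of_le_of_le' hlo hhi ?_ ?_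
  · filter_upwards [eventually_ge_atTop 1] with M hM
    have hM0 : (0 : ℝ) < M := by exact_mod_cast hM
    have h1 := (h M hM).1
    have h2 : Real.log (μ ^ (M - 1)) ≤ Real.log (z M) := Real.log_le_log (pow_pos hμ0 _) h1
    rw [Real.log_pow, Nat.cast_sub hM, Nat.cast_one] at h2
    rw [le_div_iff₀ hM0]
    have h3 : (Real.log μ - Real.log μ * ((M : ℝ))⁻¹) * M = (M - 1) * Real.log μ := by
      field_simp
    rw [h3]; exact h2
  · filter_upwards [eventually_ge_atTop 1] with M hM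
    have hM0 : (0 : ℝ) < M := by exact_mod_cast hM
    have hz : 0 < z M := (pow_pos hμ0 _).trans_le (h M hM).1
    have h2 : Real.log (z M) ≤ Real.log (C * μ ^ M) := Real.log_le_log hz (h M hM).2
    rw [Real.log_mul hC.ne' (pow_pos hμ0 _).ne', Real.log_pow] at h2
    rw [div_le_iff₀ hM0]
    have h3 : (Real.log μ + Real.log C * ((M : ℝ))⁻¹) * M = Real.log C + M * Real.log μ := by
      field_simp
      ring
    rw [h3]; exact h2

theorem ba70_pow_mulVec (T : Matrix X X ℝ) (ψ : X → ℝ) (lam : ℝ) (h : T *ᵥ ψ = lam • ψ) (m : ℕ) :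
    (T ^ m) *ᵥ ψ = lam ^ m • ψ := by
  induction m with
  | zero => simp
  | succ m ih => rw [pow_succ, ← mulVec_mulVec, h, mulVec_smul, ih, smul_smul, pow_succ, mul_comm]

/-- **Perron-Frobenius criterion without irreducibility**: an eigenvector that is `≥ 0` and `> 0` on
the sector belongs to the top eigenvalue. -/
theorem ba70_top_of_pos (T : Matrix X X ℝ) (hs : T.IsSymm) (hnn : ∀ x y, 0 ≤ T x y)
    (P : X → Prop) (hP1 : ∀ x, P x → 1 ≤ T x x) (hP0 : ∀ x, ¬ P x → ∀ y, T x y = 0)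
    (hne : ∃ x, P x) (ψ : X → ℝ) (lam : ℝ) (hψ0 : ∀ x, 0 ≤ ψ x) (hψ : ∀ x, P x → 0 < ψ x)
    (hT : T *ᵥ ψ = lam • ψ) : Ba70IsTop T lam := by
  classical
  obtain ⟨μ, htop, hμ1, hb⟩ := ba70_trace_bounds T hs hnn P hP1 hP0 hne
  obtain ⟨x₀, hx₀⟩ := hne
  have hψne : ψ ≠ 0 := fun h => (hψ x₀ hx₀).ne' (congrFun h x₀)
  have hle : lam ≤ μ := htop.2 lam ψ hψne hT
  have hμ0 : 0 < μ := zero_lt_one.trans_le hμ1
  -- diagonal entries of the powers are at most `lam ^ m`
  have hdiag : ∀ (m : ℕ) (x : X), (T ^ (m + 1)) x x ≤ lam ^ (m + 1) := by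
    intro m x
    by_cases hx : P x
    · have h1 := congrFun (ba70_pow_mulVec T ψ lam hT (m + 1)) x
      rw [Pi.smul_apply, smul_eq_mul, mulVec, dotProduct] at h1
      have h2 : (T ^ (m + 1)) x x * ψ x ≤ ∑ z, (T ^ (m + 1)) x z * ψ z :=
        Finset.single_le_sum (f := fun z => (T ^ (m + 1)) x z * ψ z)
          (fun z _ => mul_nonneg (ba70_pow_nonneg T hnn _ x z) (hψ0 z)) (Finset.mem_univ x)
      rw [h1] at h2
      exact le_of_mul_le_mul_right h2 (hψ x hx)
    · rw [ba70_pow_row_zero T x (hP0 x hx) m x]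
      have h1 := congrFun hT x₀
      rw [Pi.smul_apply, smul_eq_mul, mulVec, dotProduct] at h1
      have h2 : T x₀ x₀ * ψ x₀ ≤ ∑ z, T x₀ z * ψ z :=
        Finset.single_le_sum (f := fun z => T x₀ z * ψ z)
          (fun z _ => mul_nonneg (hnn x₀ z) (hψ0 z)) (Finset.mem_univ x₀)
      rw [h1] at h2
      have h3 : 0 ≤ lam := by
        have h4 : 0 ≤ lam * ψ x₀ := (mul_nonneg (hnn x₀ x₀) (hψ0 x₀)).trans h2
        exact nonneg_of_mul_nonneg_left h4 (hψ x₀ hx₀)
      exact pow_nonneg h3 _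
  have hlam1 : 1 ≤ lam := by
    have h1 := hdiag 0 x₀
    rw [zero_add, pow_one, pow_one] at h1
    exact (hP1 x₀ hx₀).trans h1
  have hlam0 : 0 < lam := zero_lt_one.trans_le hlam1
  -- hence `μ ^ m ≤ card * lam ^ (m + 1)` for all `m`
  have hkey : ∀ m : ℕ, (μ / lam) ^ m ≤ Fintype.card X * lam := by
    intro m
    have h1 := (hb (m + 1) (Nat.succ_le_succ (Nat.zero_le m))).1
    rw [Nat.add_sub_cancel] at h1
    have h2 : (T ^ (m + 1)).trace ≤ Fintype.card X * lam ^ (m + 1) := by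
      rw [Matrix.trace]
      calc ∑ x, (T ^ (m + 1)).diag x ≤ ∑ _x : X, lam ^ (m + 1) :=
            Finset.sum_le_sum fun x _ => hdiag m x
        _ = Fintype.card X * lam ^ (m + 1) := by
            rw [Finset.sum_const, Finset.card_univ, nsmul_eq_mul]
    rw [div_pow, div_le_iff₀ (pow_pos hlam0 m)]
    calc μ ^ m ≤ Fintype.card X * lam ^ (m + 1) := h1.trans h2
      _ = Fintype.card X * lam * lam ^ m := by rw [pow_succ]; ring
  have hge : μ ≤ lam := by
    by_contra hlt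
    rw [not_le] at hlt
    have h1 : 1 < μ / lam := (one_lt_div hlam0).2 hlt
    obtain ⟨m, hm⟩ := ((tendsto_pow_atTop_atTop_of_one_lt h1).eventually_gt_atTop
      (Fintype.card X * lam)).exists
    exact absurd (hkey m) (not_le.2 hm)
  rw [le_antisymm hle hge]
  exact htop

end Top

/-! ## E. The top eigenvalue of the sector and the reduction of the contract `sv_bethe` -/

section Final

/-- The sector `n ≤ L` is not empty. -/
theorem ba70_exists_cnt (L n : ℕ) [NeZero L] (hn : n ≤ L) :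
    ∃ σ : ZMod L → Bool, ba70Cnt σ = n := by
  refine ⟨fun b => decide (b.val < n), ?_⟩
  rw [ba70Cnt, Finset.card_filter,
    ← ba70_sum_range_zmod L (fun b => if decide (b.val < n) = true then 1 else 0)]
  have h1 : ∀ j ∈ Finset.range L,
      (if decide (((j : ZMod L)).val < n) = true then 1 else 0) = if j < n then 1 else 0 := by
    intro j hj
    rw [ZMod.val_natCast_of_lt (Finset.mem_range.1 hj)]
    simp
  rw [Finset.sum_congr rfl h1, ← Finset.card_filter]
  have h2 : (Finset.range L).filter (· < n) = Finset.range n := by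
    ext j
    simp only [Finset.mem_filter, Finset.mem_range]
    omega
  rw [h2, Finset.card_range]

/-- **The top eigenvalue `Λ(L, n)` of the column transfer matrix of the sector `n`** (junk `1` for
`L = 0`). -/
noncomputable def ba70Lam (c : ℝ) (L n : ℕ) : ℝ :=
  if h : L = 0 then 1 else
    haveI : NeZero L := ⟨h⟩
    sSup {μ : ℝ | ∃ v : (ZMod L → Bool) → ℝ, v ≠ 0 ∧ ba70T c L n *ᵥ v = μ • v}

theorem ba70Lam_eq_of_isTop (c : ℝ) (L n : ℕ) [NeZero L] {μ : ℝ}
    (h : Ba70IsTop (ba70T c L n) μ) : ba70Lam c L n = μ := by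
  rw [ba70Lam, dif_neg (NeZero.ne L)]
  have hg : IsGreatest {μ : ℝ | ∃ v : (ZMod L → Bool) → ℝ, v ≠ 0 ∧ ba70T c L n *ᵥ v = μ • v} μ :=
    ⟨h.1, fun ν ⟨v, hv, hTv⟩ => h.2 ν v hv hTv⟩
  exact hg.csSup_eq

/-- `Λ(L, n)` is the top eigenvalue, it is `≥ 1`, and it governs the partition functions. -/
theorem ba70Lam_spec {c : ℝ} (hc : 0 ≤ c) (L n : ℕ) [NeZero L] (hn : n ≤ L) :
    Ba70IsTop (ba70T c L n) (ba70Lam c L n) ∧ 1 ≤ ba70Lam c L n ∧
      ∀ M : ℕ, 1 ≤ M → ba70Lam c L n ^ (M - 1) ≤ svZN c M L n ∧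
        svZN c M L n ≤ Fintype.card (ZMod L → Bool) * ba70Lam c L n ^ M := by
  obtain ⟨μ, htop, hμ1, hb⟩ := ba70_trace_bounds (ba70T c L n) (ba70T_symm c L n)
    (ba70T_nonneg hc L n) (fun σ => ba70Cnt σ = n) (fun σ hσ => ba70T_diag hc L n σ hσ)
    (fun σ hσ σ' => ba70T_row_zero c L n σ σ' hσ) (ba70_exists_cnt L n hn)
  rw [ba70Lam_eq_of_isTop c L n htop]
  refine ⟨htop, hμ1, fun M hM => ?_⟩
  have : NeZero M := ⟨by omega⟩
  rw [ba70_svZN_eq_trace]
  exact hb M hM

/-- An eigenvector `≥ 0` that is `> 0` on the sector has the eigenvalue `Λ(L, n)` (for BA4). -/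
theorem ba70Lam_eq_of_pos {c : ℝ} (hc : 0 ≤ c) (L n : ℕ) [NeZero L] (hn : n ≤ L)
    (ψ : (ZMod L → Bool) → ℝ) (lam : ℝ) (hψ0 : ∀ σ, 0 ≤ ψ σ) (hψ : ∀ σ, ba70Cnt σ = n → 0 < ψ σ)
    (hT : ba70T c L n *ᵥ ψ = lam • ψ) : ba70Lam c L n = lam :=
  ba70Lam_eq_of_isTop c L n (ba70_top_of_pos (ba70T c L n) (ba70T_symm c L n)
    (ba70T_nonneg hc L n) (fun σ => ba70Cnt σ = n) (fun σ hσ => ba70T_diag hc L n σ hσ)
    (fun σ hσ σ' => ba70T_row_zero c L n σ σ' hσ) (ba70_exists_cnt L n hn) ψ lam hψ0 hψ hT)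

/-- **`(1/M) log Z(M, L, n) → log Λ(L, n)`.** -/
theorem ba70_log_svZN_tendsto {c : ℝ} (hc : 0 ≤ c) (L n : ℕ) [NeZero L] (hn : n ≤ L) :
    Tendsto (fun M : ℕ => Real.log (svZN c M L n) / M) atTop (𝓝 (Real.log (ba70Lam c L n))) := by
  obtain ⟨-, h1, hb⟩ := ba70Lam_spec hc L n hn
  exact ba70_log_tendsto _ _ (Fintype.card (ZMod L → Bool)) h1
    (by exact_mod_cast Fintype.card_pos) hb

/-- The stiffness in terms of the top eigenvalues. -/
def Ba70StiffLam (c A : ℝ) : Prop :=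
  ∀ ε : ℝ, 0 < ε → ∃ s₀ : ℝ, 0 < s₀ ∧ ∀ s : ℝ, 0 < s → s < s₀ →
    ∀ᶠ L : ℕ in atTop,
      |(Real.log (ba70Lam c (2 * L) (L - ⌊s * L⌋₊)) - Real.log (ba70Lam c (2 * L) L)) / (2 * L)
        + A / 2 * s ^ 2| ≤ ε * s ^ 2

/-- **REDUCTION of the contract `sv_bethe`**: the torus stiffness follows from the same estimate
for the top eigenvalues of the sector transfer matrices. -/
theorem ba70_stiff_of_lam {c A : ℝ} (hc : 0 ≤ c) (h : Ba70StiffLam c A) : SvStiff c A := by
  intro ε hε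
  obtain ⟨s₀, hs₀, H⟩ := h (ε / 2) (half_pos hε)
  refine ⟨s₀, hs₀, fun s hs hss => ?_⟩
  filter_upwards [H s hs hss, eventually_ge_atTop 1] with L hL hL1
  have : NeZero (2 * L) := ⟨by omega⟩
  have t1 := ba70_log_svZN_tendsto hc (2 * L) (L - ⌊s * L⌋₊) (by omega)
  have t2 := ba70_log_svZN_tendsto hc (2 * L) L (by omega)
  have t3 := (((t1.sub t2).div_const (2 * (L : ℝ))).add_const (A / 2 * s ^ 2)).abs
  have hlt : |(Real.log (ba70Lam c (2 * L) (L - ⌊s * L⌋₊)) - Real.log (ba70Lam c (2 * L) L)) /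
      (2 * L) + A / 2 * s ^ 2| < ε * s ^ 2 := by
    refine lt_of_le_of_lt hL ?_
    have hs2 : 0 < s ^ 2 := by positivity
    nlinarith
  filter_upwards [t3.eventually_lt_const hlt, eventually_ge_atTop 1] with M hM hM1
  have hM0 : (M : ℝ) ≠ 0 := by
    have : (0 : ℝ) < M := by exact_mod_cast hM1
    exact this.ne'
  have hL0 : (L : ℝ) ≠ 0 := by
    have : (0 : ℝ) < L := by exact_mod_cast hL1
    exact this.ne'
  have heq : (Real.log (svZN c M (2 * L) (L - ⌊s * L⌋₊)) - Real.log (svZN c M (2 * L) L)) /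
      (2 * L * M) = (Real.log (svZN c M (2 * L) (L - ⌊s * L⌋₊)) / M -
        Real.log (svZN c M (2 * L) L) / M) / (2 * L) := by
    field_simp
  rw [heq]
  exact hM.le

end Final

end Claimed.Agent.R292
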