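import Claimed.Agent.R292.Bethe.BA3x80

/-!
# Row 292, unit BETHE, block BA3 (helper80), Part C: the repulsive sign `K ≥ 0`

The a priori estimate which closes the continuity method of `BA3x80.lean` for `K ≥ 0`:
a root list whose counting derivative `ρ` is `≥ 0` on the hull of the roots has
`ρ ≥ L r_∞ - C` on the whole line.

* quadrature: the cells between consecutive roots have `ρ`-mass one;
* resolvent identity as an operator identity (one Fubini);
* exterior equation `ρ = L r_∞ + (e - R₀ * e) + R₀ * (ρ 1_out)` and positivity of `R₀`.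
-/

set_option autoImplicit false

namespace Claimed.Agent.R292

open Set Filter Topology MeasureTheory
open scoped ContDiff

section Quadrature

/-- Quadrature over cells of mass one against a function of controlled variation. -/
theorem ba3x80_quad (ρ f W : ℝ → ℝ) (hρc : Continuous ρ) (hfc : Continuous f)
    (hW : Monotone W) (hfW : ∀ v v', v ≤ v' → |f v' - f v| ≤ W v' - W v)
    (x : ℕ → ℝ) (m : ℕ) (hx : ∀ k < m, x k ≤ x (k + 1))
    (hρ : ∀ u ∈ Icc (x 0) (x m), 0 ≤ ρ u)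
    (hcell : ∀ k < m, ∫ v in (x k)..(x (k + 1)), ρ v = 1) :
    |∑ k ∈ Finset.range m, f (x k) - ∫ v in (x 0)..(x m), f v * ρ v| ≤ W (x m) - W (x 0) := by
  induction m with
  | zero => simp
  | succ m ih =>
    have hx0 : ∀ k ≤ m, x 0 ≤ x k := by
      intro k hk
      induction k with
      | zero => exact le_rfl
      | succ k ihk => exact (ihk (by omega)).trans (hx k (by omega))
    have hm : x m ≤ x (m + 1) := hx m (by omega)
    have ih' := ih (fun k hk => hx k (by omega))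
      (fun u hu => hρ u ⟨hu.1, hu.2.trans hm⟩) (fun k hk => hcell k (by omega))
    have hint : ∀ a b : ℝ, IntervalIntegrable (fun v => f v * ρ v) volume a b :=
      fun a b => (hfc.mul hρc).intervalIntegrable a b
    have hsplit : ∫ v in (x 0)..(x (m + 1)), f v * ρ v
        = (∫ v in (x 0)..(x m), f v * ρ v) + ∫ v in (x m)..(x (m + 1)), f v * ρ v :=
      (intervalIntegral.integral_add_adjacent_intervals (hint _ _) (hint _ _)).symm
    have hc1 : f (x m) = ∫ v in (x m)..(x (m + 1)), f (x m) * ρ v := by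
      rw [intervalIntegral.integral_const_mul, hcell m (by omega), mul_one]
    have hcellb : |f (x m) - ∫ v in (x m)..(x (m + 1)), f v * ρ v|
        ≤ W (x (m + 1)) - W (x m) := by
      have e1 : f (x m) - ∫ v in (x m)..(x (m + 1)), f v * ρ v
          = ∫ v in (x m)..(x (m + 1)), (f (x m) - f v) * ρ v := by
        conv_lhs => rw [hc1]
        have hi1 : IntervalIntegrable (fun v => f (x m) * ρ v) volume (x m) (x (m + 1)) :=
          (continuous_const.mul hρc).intervalIntegrable _ _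
        rw [← intervalIntegral.integral_sub hi1 (hint _ _)]
        congr 1
        funext v
        ring
      rw [e1]
      have e2 : |∫ v in (x m)..(x (m + 1)), (f (x m) - f v) * ρ v|
          ≤ ∫ v in (x m)..(x (m + 1)), |(f (x m) - f v) * ρ v| :=
        intervalIntegral.abs_integral_le_integral_abs hm
      have e3 : ∫ v in (x m)..(x (m + 1)), |(f (x m) - f v) * ρ v|
          ≤ ∫ v in (x m)..(x (m + 1)), (W (x (m + 1)) - W (x m)) * ρ v := by
        apply intervalIntegral.integral_mono_on hm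
        · exact (((continuous_const.sub hfc).mul hρc).abs).intervalIntegrable _ _
        · exact (continuous_const.mul hρc).intervalIntegrable _ _
        · intro v hv
          have hρv : 0 ≤ ρ v := hρ v ⟨(hx0 m le_rfl).trans hv.1, hv.2⟩
          rw [abs_mul, abs_of_nonneg hρv]
          apply mul_le_mul_of_nonneg_right _ hρv
          have h1 := hfW (x m) v hv.1
          have h2 := hW hv.2
          rw [abs_sub_comm]
          linarith
      rw [intervalIntegral.integral_const_mul, hcell m (by omega), mul_one] at e3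
      exact e2.trans e3
    rw [Finset.sum_range_succ, hsplit]
    have e4 : ∑ k ∈ Finset.range m, f (x k) + f (x m)
        - ((∫ v in (x 0)..(x m), f v * ρ v) + ∫ v in (x m)..(x (m + 1)), f v * ρ v)
        = (∑ k ∈ Finset.range m, f (x k) - ∫ v in (x 0)..(x m), f v * ρ v)
          + (f (x m) - ∫ v in (x m)..(x (m + 1)), f v * ρ v) := by ring
    rw [e4]
    have := abs_add_le (∑ k ∈ Finset.range m, f (x k) - ∫ v in (x 0)..(x m), f v * ρ v)
      (f (x m) - ∫ v in (x m)..(x (m + 1)), f v * ρ v)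
    linarith

end Quadrature

section Resolvent

/-- integrability of `R₀(u - ·) φ` for bounded measurable `φ`. -/
theorem ba3x80_int_R (R0 : ℝ → ℝ) (hRi : Integrable R0) (φ : ℝ → ℝ)
    (hφm : AEStronglyMeasurable φ volume) (C : ℝ) (hφ : ∀ v, |φ v| ≤ C) (u : ℝ) :
    Integrable (fun v => R0 (u - v) * φ v) :=
  (hRi.comp_sub_left u).mul_bdd hφm (Eventually.of_forall fun v => by
    simpa [Real.norm_eq_abs] using hφ v)

/-- The resolvent identity `R₀ + R₀ * K = K` as an operator identity. -/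
theorem ba3x80_resolvent_op (K R0 : ℝ → ℝ) (K0 : ℝ) (hKc : Continuous K)
    (hKb : ∀ x, |K x| ≤ K0) (hRi : Integrable R0)
    (hres : ∀ x, R0 x + ∫ t, R0 (x - t) * K t = K x)
    (g : ℝ → ℝ) (hg : Integrable g) (B : ℝ) (hgb : ∀ v, |g v| ≤ B) (u : ℝ) :
    ∫ v, R0 (u - v) * (∫ w, K (v - w) * g w)
      = (∫ w, K (u - w) * g w) - ∫ w, R0 (u - w) * g w := by
  have hprod : Integrable (fun z : ℝ × ℝ => R0 (u - z.1) * (K (z.1 - z.2) * g z.2))
      (volume.prod volume) := by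
    have h1 : Integrable (fun z : ℝ × ℝ => R0 (u - z.1) * g z.2) (volume.prod volume) :=
      (hRi.comp_sub_left u).mul_prod hg
    have h2 : Integrable (fun z : ℝ × ℝ => (R0 (u - z.1) * g z.2) * K (z.1 - z.2))
        (volume.prod volume) := by
      apply h1.mul_bdd (c := K0)
      · exact (hKc.comp (continuous_fst.sub continuous_snd)).aestronglyMeasurable
      · exact Eventually.of_forall fun z => by simpa [Real.norm_eq_abs] using hKb _
    refine h2.congr (Eventually.of_forall fun z => ?_)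
    simp only
    ring
  have e1 : ∫ v, R0 (u - v) * (∫ w, K (v - w) * g w)
      = ∫ v, ∫ w, R0 (u - v) * (K (v - w) * g w) := by
    congr 1
    funext v
    rw [integral_const_mul]
  rw [e1, integral_integral_swap (f := fun v w => R0 (u - v) * (K (v - w) * g w)) hprod]
  have e2 : ∀ w, ∫ v, R0 (u - v) * (K (v - w) * g w) = (K (u - w) - R0 (u - w)) * g w := by
    intro w
    have h1 : ∫ v, R0 (u - v) * (K (v - w) * g w) = (∫ v, R0 (u - v) * K (v - w)) * g w := by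
      rw [← integral_mul_const]
      congr 1
      funext v
      ring
    have h2 : ∫ v, R0 (u - v) * K (v - w) = ∫ t, R0 ((u - w) - t) * K t := by
      rw [← integral_add_right_eq_self (fun v => R0 (u - v) * K (v - w)) w]
      congr 1
      funext t
      congr 2
      · ring
      · ring
    rw [h1, h2]
    have := hres (u - w)
    congr 1
    linarith
  simp_rw [e2]
  have i1 : Integrable (fun w => K (u - w) * g w) := by
    apply hg.bdd_mul (c := K0)
    · exact (hKc.comp (continuous_const.sub continuous_id)).aestronglyMeasurable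
    · exact Eventually.of_forall fun z => by simpa [Real.norm_eq_abs] using hKb _
  have i2 : Integrable (fun w => R0 (u - w) * g w) :=
    ba3x80_int_R R0 hRi g hg.aestronglyMeasurable B hgb u
  rw [← integral_sub i1 i2]
  congr 1
  funext w
  ring

/-- **Exterior equation and lower bound.**  A bounded continuous `ρ` which solves the truncated
equation on `[a,b]` up to an error `Ee` (on the whole line) is `≥ L r_∞ - (1+τ) Ee / (1-τ)`. -/
theorem ba3x80_exterior_lower (K R0 s rinf ρ : ℝ → ℝ) (K0 τ Ee B Lr s0 a b : ℝ) (hab : a ≤ b)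
    (hKc : Continuous K) (hKb : ∀ x, |K x| ≤ K0)
    (hRi : Integrable R0) (hRpos : ∀ x, 0 ≤ R0 x) (hRτ : ∫ x, R0 x ≤ τ) (hτ : τ < 1)
    (hres : ∀ x, R0 x + ∫ t, R0 (x - t) * K t = K x)
    (hsc : Continuous s) (hsb : ∀ x, |s x| ≤ s0)
    (hrinf : ∀ x, s x - ∫ t, R0 (x - t) * s t = rinf x) (hrpos : ∀ x, 0 ≤ rinf x)
    (hL : 0 ≤ Lr) (hρc : Continuous ρ) (hρb : ∀ u, |ρ u| ≤ B)
    (hEq : ∀ u, |ρ u - Lr * s u + ∫ v in a..b, K (u - v) * ρ v| ≤ Ee) :
    ∀ u, Lr * rinf u - (1 + τ) * Ee / (1 - τ) ≤ ρ u := by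
  classical
  have hB : 0 ≤ B := (abs_nonneg _).trans (hρb 0)
  have hEe : 0 ≤ Ee := (abs_nonneg _).trans (hEq 0)
  have hR0 : 0 ≤ ∫ x, R0 x := integral_nonneg hRpos
  have hτ0 : 0 ≤ τ := hR0.trans hRτ
  set g : ℝ → ℝ := (Ioc a b).indicator ρ with hg
  set h : ℝ → ℝ := (Ioc a b)ᶜ.indicator ρ with hh
  have hgh : ∀ v, g v + h v = ρ v := fun v => by
    by_cases hv : v ∈ Ioc a b
    · have hv' : v ∉ (Ioc a b)ᶜ := fun h' => h' hv
      simp only [hg, hh, Set.indicator_of_mem hv, Set.indicator_of_notMem hv', add_zero]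
    · have hv' : v ∈ (Ioc a b)ᶜ := hv
      simp only [hg, hh, Set.indicator_of_mem hv', Set.indicator_of_notMem hv, zero_add]
  have hgi : Integrable g := (hρc.integrableOn_Ioc).integrable_indicator measurableSet_Ioc
  have hgb : ∀ v, |g v| ≤ B := by
    intro v
    by_cases hv : v ∈ Ioc a b
    · simp only [hg, Set.indicator_of_mem hv]; exact hρb v
    · simp only [hg, Set.indicator_of_notMem hv, abs_zero]; exact hB
  have hhb : ∀ v, |h v| ≤ B := by
    intro v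
    by_cases hv : v ∈ (Ioc a b)ᶜ
    · simp only [hh, Set.indicator_of_mem hv]; exact hρb v
    · simp only [hh, Set.indicator_of_notMem hv, abs_zero]; exact hB
  have hhm : AEStronglyMeasurable h volume :=
    (hρc.measurable.indicator measurableSet_Ioc.compl).aestronglyMeasurable
  have hKg : ∀ v, ∫ w, K (v - w) * g w = ∫ w in a..b, K (v - w) * ρ w := by
    intro v
    rw [intervalIntegral.integral_of_le hab, ← integral_indicator measurableSet_Ioc]
    congr 1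
    funext w
    rw [hg, Set.indicator_mul_right]
  set e : ℝ → ℝ := fun u => ρ u - Lr * s u + ∫ v in a..b, K (u - v) * ρ v with he
  have hKgc : Continuous fun u => ∫ v in a..b, K (u - v) * ρ v := by
    apply intervalIntegral.continuous_parametric_intervalIntegral_of_continuous'
    exact (hKc.comp (continuous_fst.sub continuous_snd)).mul (hρc.comp continuous_snd)
  have hec : Continuous e := (hρc.sub (continuous_const.mul hsc)).add hKgc
  have heb : ∀ u, |e u| ≤ Ee := hEq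
  have hKgb : ∀ u, |∫ v in a..b, K (u - v) * ρ v| ≤ Ee + B + Lr * s0 := by
    intro u
    have h1 : ∫ v in a..b, K (u - v) * ρ v = e u - ρ u + Lr * s u := by simp only [he]; ring
    rw [h1]
    have h2 := heb u
    have h3 := hρb u
    have h4 : |Lr * s u| ≤ Lr * s0 := by
      rw [abs_mul, abs_of_nonneg hL]
      exact mul_le_mul_of_nonneg_left (hsb u) hL
    have h5 := abs_add_le (e u - ρ u) (Lr * s u)
    have h6 := abs_sub (e u) (ρ u)
    linarith
  -- the exterior equation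
  have hext : ∀ u, ρ u = Lr * rinf u + (e u - ∫ v, R0 (u - v) * e v) + ∫ v, R0 (u - v) * h v := by
    intro u
    have ig := ba3x80_int_R R0 hRi g hgi.aestronglyMeasurable B hgb u
    have ih := ba3x80_int_R R0 hRi h hhm B hhb u
    have is := ba3x80_int_R R0 hRi s hsc.aestronglyMeasurable s0 hsb u
    have ie := ba3x80_int_R R0 hRi e hec.aestronglyMeasurable Ee heb u
    have iK := ba3x80_int_R R0 hRi (fun v => ∫ w in a..b, K (v - w) * ρ w)
      hKgc.aestronglyMeasurable _ hKgb u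
    have hop := ba3x80_resolvent_op K R0 K0 hKc hKb hRi hres g hgi B hgb u
    simp_rw [hKg] at hop
    have hpt : ∀ v, R0 (u - v) * g v + R0 (u - v) * (∫ w in a..b, K (v - w) * ρ w)
        = Lr * (R0 (u - v) * s v) + R0 (u - v) * e v - R0 (u - v) * h v := by
      intro v
      have h1 := hgh v
      simp only [he]
      have h2 : g v = ρ v - h v := by linarith
      rw [h2]
      ring
    have hI : (∫ v, R0 (u - v) * g v) + ∫ v, R0 (u - v) * (∫ w in a..b, K (v - w) * ρ w)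
        = Lr * (∫ v, R0 (u - v) * s v) + (∫ v, R0 (u - v) * e v) - ∫ v, R0 (u - v) * h v := by
      have i3 : Integrable (fun v => Lr * (R0 (u - v) * s v) + R0 (u - v) * e v) :=
        (is.const_mul Lr).add ie
      rw [← integral_add ig iK, ← integral_const_mul, ← integral_add (is.const_mul Lr) ie,
        ← integral_sub i3 ih]
      congr 1
      funext v
      exact hpt v
    have h3 := hrinf u
    have h4 : e u = ρ u - Lr * s u + ∫ v in a..b, K (u - v) * ρ v := rfl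
    rw [hop] at hI
    have h5 : Lr * rinf u = Lr * s u - Lr * ∫ t, R0 (u - t) * s t := by rw [← h3]; ring
    rw [h5]
    linarith
  have hTe : ∀ u, |∫ v, R0 (u - v) * e v| ≤ τ * Ee := by
    intro u
    have h1 : |∫ v, R0 (u - v) * e v| ≤ ∫ v, |R0 (u - v) * e v| := abs_integral_le_integral_abs
    have h2 : ∫ v, |R0 (u - v) * e v| ≤ ∫ v, R0 (u - v) * Ee := by
      apply integral_mono
      · exact (ba3x80_int_R R0 hRi e hec.aestronglyMeasurable Ee heb u).abs
      · exact (hRi.comp_sub_left u).mul_const Ee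
      · intro v
        simp only
        rw [abs_mul, abs_of_nonneg (hRpos _)]
        exact mul_le_mul_of_nonneg_left (heb v) (hRpos _)
    rw [integral_mul_const, integral_sub_left_eq_self R0 volume u] at h2
    have h3 : (∫ x, R0 x) * Ee ≤ τ * Ee := mul_le_mul_of_nonneg_right hRτ hEe
    linarith
  set N : ℝ → ℝ := fun v => max 0 (-h v) with hN
  have hNb : BddAbove (Set.range N) := by
    refine ⟨B, ?_⟩
    rintro _ ⟨v, rfl⟩
    apply max_le hB
    have := hhb v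
    exact (neg_le_abs _).trans this
  set M : ℝ := ⨆ v, N v with hM
  have hM0 : 0 ≤ M := (le_max_left _ _).trans (le_ciSup hNb 0)
  have hhM : ∀ v, -M ≤ h v := by
    intro v
    have h1 : N v ≤ M := le_ciSup hNb v
    have h2 : -h v ≤ N v := le_max_right _ _
    linarith
  have hTh : ∀ u, -(τ * M) ≤ ∫ v, R0 (u - v) * h v := by
    intro u
    have h2 : ∫ v, R0 (u - v) * (-M) ≤ ∫ v, R0 (u - v) * h v := by
      apply integral_mono
      · exact (hRi.comp_sub_left u).mul_const _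
      · exact ba3x80_int_R R0 hRi h hhm B hhb u
      · intro v
        exact mul_le_mul_of_nonneg_left (hhM v) (hRpos _)
    rw [integral_mul_const, integral_sub_left_eq_self R0 volume u] at h2
    have h3 : (∫ x, R0 x) * M ≤ τ * M := mul_le_mul_of_nonneg_right hRτ hM0
    linarith
  have hlow : ∀ u, Lr * rinf u - (1 + τ) * Ee - τ * M ≤ ρ u := by
    intro u
    have h1 := hext u
    have h2 := abs_le.1 (hTe u)
    have h3 := abs_le.1 (heb u)
    have h4 := hTh u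
    linarith [h2.1, h2.2, h3.1, h3.2]
  have hMle : M ≤ (1 + τ) * Ee + τ * M := by
    apply ciSup_le
    intro v
    have hrhs : 0 ≤ (1 + τ) * Ee + τ * M := by positivity
    apply max_le hrhs
    by_cases hv : v ∈ (Ioc a b)ᶜ
    · have h1 : h v = ρ v := by simp only [hh, Set.indicator_of_mem hv]
      rw [h1]
      have h2 := hlow v
      have h3 : 0 ≤ Lr * rinf v := mul_nonneg hL (hrpos v)
      linarith
    · have h1 : h v = 0 := by simp only [hh, Set.indicator_of_notMem hv]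
      rw [h1, neg_zero]
      exact hrhs
  have h1τ : 0 < 1 - τ := by linarith
  set X : ℝ := (1 + τ) * Ee / (1 - τ) with hX
  have hXe : X * (1 - τ) = (1 + τ) * Ee := by rw [hX]; field_simp
  have hMX : M ≤ X := by
    rw [hX, le_div_iff₀ h1τ]
    linarith
  intro u
  have h1 := hlow u
  have h2 : τ * M ≤ τ * X := mul_le_mul_of_nonneg_left hMX hτ0
  nlinarith [hXe]

end Resolvent

section Improve

variable {m : ℕ}

theorem ba3x80_rho_continuous (Lr : ℝ) (s K : ℝ → ℝ → ℝ) (μ : ℝ) (hsc : Continuous (s μ))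
    (hKc : Continuous (K μ)) {n : ℕ} (y : Fin n → ℝ) : Continuous (ba3x80_rho Lr s K μ y) := by
  unfold ba3x80_rho
  exact (continuous_const.mul hsc).sub
    (continuous_finsetSum _ fun k _ => hKc.comp (continuous_id.sub continuous_const))

/-- the counting function has derivative `ρ`. -/
theorem ba3x80_xi_hasDerivAt (Lr : ℝ) (S Θ s K : ℝ → ℝ → ℝ) (μ : ℝ)
    (hs : ∀ u, HasDerivAt (S μ) (s μ u) u) (hK : ∀ u, HasDerivAt (Θ μ) (K μ u) u)
    {n : ℕ} (y : Fin n → ℝ) (u : ℝ) :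
    HasDerivAt (fun u => Lr * S μ u - ∑ k, Θ μ (u - y k)) (ba3x80_rho Lr s K μ y u) u := by
  unfold ba3x80_rho
  refine ((hs u).const_mul Lr).sub (HasDerivAt.fun_sum fun k _ => ?_)
  have h1 : HasDerivAt (fun u => u - y k) 1 u := (hasDerivAt_id u).sub_const (y k)
  have h2 := (hK (u - y k)).comp u h1
  rw [mul_one] at h2
  exact h2

/-- **Improvement.**  A monotone root list with consecutive levels whose counting derivative is
`≥ 0` on the hull has `ρ ≥ L r_∞ - (1+τ)(V+K0)/(1-τ)` on the whole line. -/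
theorem ba3x80_improve (Lr : ℝ) (hL : 0 ≤ Lr) (S Θ s K : ℝ → ℝ → ℝ) (I : Fin (m + 1) → ℝ)
    (μ : ℝ) (hI : ∀ k : Fin m, I k.succ = I k.castSucc + 1)
    (hs : ∀ u, HasDerivAt (S μ) (s μ u) u) (hK : ∀ u, HasDerivAt (Θ μ) (K μ u) u)
    (s0 K0 V τ : ℝ) (hsc : Continuous (s μ)) (hsb : ∀ x, |s μ x| ≤ s0)
    (hKc : Continuous (K μ)) (hK0 : ∀ x, 0 ≤ K μ x) (hKb : ∀ x, K μ x ≤ K0)
    (W : ℝ → ℝ) (hW : Monotone W) (hKW : ∀ v v', v ≤ v' → |K μ v' - K μ v| ≤ W v' - W v)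
    (hWV : ∀ v v', W v' - W v ≤ V)
    (R0 rinf : ℝ → ℝ) (hRi : Integrable R0) (hRpos : ∀ x, 0 ≤ R0 x) (hRτ : ∫ x, R0 x ≤ τ)
    (hτ : τ < 1) (hres : ∀ x, R0 x + ∫ t, R0 (x - t) * K μ t = K μ x)
    (hrinf : ∀ x, s μ x - ∫ t, R0 (x - t) * s μ t = rinf x) (hrpos : ∀ x, 0 ≤ rinf x)
    (y : Fin (m + 1) → ℝ) (hy : Monotone y) (hz : ba3x80_F Lr S Θ I (μ, y) = 0)
    (hρ : ∀ u ∈ Icc (y 0) (y (Fin.last m)), 0 ≤ ba3x80_rho Lr s K μ y u) :
    ∀ u, Lr * rinf u - (1 + τ) * (V + K0) / (1 - τ) ≤ ba3x80_rho Lr s K μ y u := by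
  classical
  set ρ := ba3x80_rho Lr s K μ y with hρdef
  have hρc : Continuous ρ := ba3x80_rho_continuous Lr s K μ hsc hKc y
  set x : ℕ → ℝ := fun k => y ⟨min k m, by omega⟩ with hx
  have hxfin : ∀ i : Fin (m + 1), x i = y i := by
    intro i
    simp only [hx]
    congr 1
    apply Fin.ext
    simp only
    have := i.2
    omega
  have hx0 : x 0 = y 0 := hxfin 0
  have hxm : x m = y (Fin.last m) := by
    have := hxfin (Fin.last m)
    simpa using this
  have hxmono : ∀ k < m, x k ≤ x (k + 1) := by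
    intro k hk
    apply hy
    simp only [Fin.le_def]
    omega
  have hξ : ∀ j : Fin (m + 1), Lr * S μ (y j) - ∑ k, Θ μ (y j - y k) = I j := by
    intro j
    have := congrFun hz j
    simp only [ba3x80_F, Pi.zero_apply] at this
    linarith
  have hcell : ∀ k < m, ∫ v in (x k)..(x (k + 1)), ρ v = 1 := by
    intro k hk
    rw [intervalIntegral.integral_eq_sub_of_hasDerivAt
      (f := fun u => Lr * S μ u - ∑ k, Θ μ (u - y k))
      (fun u _ => ba3x80_xi_hasDerivAt Lr S Θ s K μ hs hK y u) (hρc.intervalIntegrable _ _)]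
    have h1 : x k = y (Fin.castSucc ⟨k, hk⟩) := by
      have := hxfin (Fin.castSucc ⟨k, hk⟩)
      simpa using this
    have h2 : x (k + 1) = y (Fin.succ ⟨k, hk⟩) := by
      have := hxfin (Fin.succ ⟨k, hk⟩)
      simpa using this
    simp only [h1, h2]
    rw [hξ, hξ, hI ⟨k, hk⟩]
    ring
  have hKabs : ∀ x, |K μ x| ≤ K0 := fun x => by rw [abs_of_nonneg (hK0 x)]; exact hKb x
  have hK00 : 0 ≤ K0 := (hK0 0).trans (hKb 0)
  have hρb : ∀ u, |ρ u| ≤ Lr * s0 + (m + 1) * K0 := by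
    intro u
    simp only [hρdef, ba3x80_rho]
    have h1 : |Lr * s μ u| ≤ Lr * s0 := by
      rw [abs_mul, abs_of_nonneg hL]
      exact mul_le_mul_of_nonneg_left (hsb u) hL
    have h2 : |∑ k, K μ (u - y k)| ≤ (m + 1) * K0 := by
      refine (Finset.abs_sum_le_sum_abs _ _).trans ?_
      refine (Finset.sum_le_sum fun k _ => hKabs (u - y k)).trans ?_
      simp
    have h3 := abs_sub (Lr * s μ u) (∑ k, K μ (u - y k))
    linarith
  have hEq : ∀ u, |ρ u - Lr * s μ u + ∫ v in (y 0)..(y (Fin.last m)), K μ (u - v) * ρ v|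
      ≤ V + K0 := by
    intro u
    have hq := ba3x80_quad ρ (fun v => K μ (u - v)) (fun v => -W (u - v)) hρc
      (hKc.comp (continuous_const.sub continuous_id))
      (fun v v' hvv => by
        have := hW (sub_le_sub_left hvv u)
        simp only
        linarith)
      (fun v v' hvv => by
        have := hKW (u - v') (u - v) (sub_le_sub_left hvv u)
        rw [abs_sub_comm]
        linarith)
      x m hxmono (by rw [hx0, hxm]; exact hρ) hcell
    rw [hx0, hxm] at hq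
    have hsum : ∑ k, K μ (u - y k) = ∑ k ∈ Finset.range m, K μ (u - x k) + K μ (u - x m) := by
      rw [← Finset.sum_range_succ, ← Fin.sum_univ_eq_sum_range (fun k => K μ (u - x k)) (m + 1)]
      exact Finset.sum_congr rfl fun i _ => by rw [hxfin i]
    have h1 : ρ u - Lr * s μ u + ∫ v in (y 0)..(y (Fin.last m)), K μ (u - v) * ρ v
        = -(∑ k ∈ Finset.range m, K μ (u - x k)
            - ∫ v in (y 0)..(y (Fin.last m)), K μ (u - v) * ρ v) - K μ (u - x m) := by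
      simp only [hρdef, ba3x80_rho] at hsum ⊢
      rw [hsum]
      ring
    rw [h1]
    have h2 := hWV (u - y (Fin.last m)) (u - y 0)
    have h3 := abs_sub (-(∑ k ∈ Finset.range m, K μ (u - x k)
            - ∫ v in (y 0)..(y (Fin.last m)), K μ (u - v) * ρ v)) (K μ (u - x m))
    rw [abs_neg] at h3
    have h4 := hKabs (u - x m)
    linarith
  exact ba3x80_exterior_lower (K μ) R0 (s μ) rinf ρ K0 τ (V + K0) _ Lr s0 (y 0) (y (Fin.last m))
    (hy (Fin.zero_le _)) hKc hKabs hRi hRpos hRτ hτ hres hsc hsb hrinf hrpos hL hρc hρb hEq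

theorem ba3x80_rho_continuousAt (Lr : ℝ) (s K : ℝ → ℝ → ℝ) (μ : ℝ)
    (hsc2 : ∀ u, ContinuousAt (fun q : ℝ × ℝ => s q.1 q.2) (μ, u))
    (hKc2 : ∀ u, ContinuousAt (fun q : ℝ × ℝ => K q.1 q.2) (μ, u))
    {n : ℕ} (y : Fin n → ℝ) (u : ℝ) :
    ContinuousAt (fun z : (ℝ × (Fin n → ℝ)) × ℝ => ba3x80_rho Lr s K z.1.1 z.1.2 z.2)
      ((μ, y), u) := by
  unfold ba3x80_rho
  have h1 : ContinuousAt (fun z : (ℝ × (Fin n → ℝ)) × ℝ => s z.1.1 z.2) ((μ, y), u) :=
    ContinuousAt.comp (f := fun z : (ℝ × (Fin n → ℝ)) × ℝ => ((z.1.1, z.2) : ℝ × ℝ))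
      (x := ((μ, y), u)) (hsc2 u) (by fun_prop)
  have h2 : ∀ k : Fin n,
      ContinuousAt (fun z : (ℝ × (Fin n → ℝ)) × ℝ => K z.1.1 (z.2 - z.1.2 k)) ((μ, y), u) := by
    intro k
    exact ContinuousAt.comp
      (f := fun z : (ℝ × (Fin n → ℝ)) × ℝ => ((z.1.1, z.2 - z.1.2 k) : ℝ × ℝ))
      (x := ((μ, y), u)) (hKc2 (u - y k)) (by fun_prop)
  exact (continuousAt_const.mul h1).sub (tendsto_finsetSum _ fun k _ => h2 k)

/-- a monotone root list with distinct levels is strictly monotone. -/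
theorem ba3x80_strictMono_of_zero (Lr : ℝ) (S Θ : ℝ → ℝ → ℝ) (I : Fin (m + 1) → ℝ) (μ : ℝ)
    (hI : ∀ k : Fin m, I k.succ = I k.castSucc + 1) (y : Fin (m + 1) → ℝ) (hy : Monotone y)
    (hz : ba3x80_F Lr S Θ I (μ, y) = 0) : StrictMono y := by
  rw [Fin.strictMono_iff_lt_succ]
  intro k
  have hle : y k.castSucc ≤ y k.succ := hy (Fin.castSucc_lt_succ).le
  refine lt_of_le_of_ne hle ?_
  intro heq
  have h1 := congrFun hz k.castSucc
  have h2 := congrFun hz k.succ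
  simp only [ba3x80_F, Pi.zero_apply] at h1 h2
  rw [← heq] at h2
  have := hI k
  linarith

/-- **Roots, repulsive sign (`K ≥ 0`).** -/
theorem ba3x80_roots_pos {a b c : ℝ} (hc : c ∈ Icc a b) (Lr : ℝ) (hL : 0 < Lr)
    (S Θ s K : ℝ → ℝ → ℝ) (I : Fin (m + 1) → ℝ)
    (hI : ∀ k : Fin m, I k.succ = I k.castSucc + 1)
    (hSan : ∀ μ ∈ Icc a b, ∀ u, ContDiffAt ℝ ω (fun q : ℝ × ℝ => S q.1 q.2) (μ, u))
    (hΘan : ∀ μ ∈ Icc a b, ∀ u, ContDiffAt ℝ ω (fun q : ℝ × ℝ => Θ q.1 q.2) (μ, u))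
    (hs : ∀ μ ∈ Icc a b, ∀ u, HasDerivAt (S μ) (s μ u) u)
    (hK : ∀ μ ∈ Icc a b, ∀ u, HasDerivAt (Θ μ) (K μ u) u)
    (hsc2 : ∀ μ ∈ Icc a b, ∀ u, ContinuousAt (fun q : ℝ × ℝ => s q.1 q.2) (μ, u))
    (hKc2 : ∀ μ ∈ Icc a b, ∀ u, ContinuousAt (fun q : ℝ × ℝ => K q.1 q.2) (μ, u))
    (s0 K0 V τ Q rmin : ℝ) (hsb : ∀ μ ∈ Icc a b, ∀ x, |s μ x| ≤ s0)
    (hK0 : ∀ μ ∈ Icc a b, ∀ x, 0 ≤ K μ x) (hKb : ∀ μ ∈ Icc a b, ∀ x, K μ x ≤ K0)
    (W : ℝ → ℝ → ℝ) (hW : ∀ μ ∈ Icc a b, Monotone (W μ))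
    (hKW : ∀ μ ∈ Icc a b, ∀ v v', v ≤ v' → |K μ v' - K μ v| ≤ W μ v' - W μ v)
    (hWV : ∀ μ ∈ Icc a b, ∀ v v', W μ v' - W μ v ≤ V)
    (R0 rinf : ℝ → ℝ → ℝ) (hRi : ∀ μ ∈ Icc a b, Integrable (R0 μ))
    (hRpos : ∀ μ ∈ Icc a b, ∀ x, 0 ≤ R0 μ x) (hRτ : ∀ μ ∈ Icc a b, ∫ x, R0 μ x ≤ τ)
    (hτ : τ < 1)
    (hres : ∀ μ ∈ Icc a b, ∀ x, R0 μ x + ∫ t, R0 μ (x - t) * K μ t = K μ x)
    (hrinf : ∀ μ ∈ Icc a b, ∀ x, s μ x - ∫ t, R0 μ (x - t) * s μ t = rinf μ x)
    (hrpos : ∀ μ ∈ Icc a b, ∀ x, 0 ≤ rinf μ x)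
    (hpsd : ∀ μ ∈ Icc a b, ∀ y v : Fin (m + 1) → ℝ,
      0 ≤ ∑ j, ∑ k, K μ (y j - y k) * v j * v k)
    (hQ : ∀ μ ∈ Icc a b, ∀ y : Fin (m + 1) → ℝ, Monotone y →
      ba3x80_F Lr S Θ I (μ, y) = 0 → ∀ j, |y j| ≤ Q)
    (hrmin : ∀ μ ∈ Icc a b, ∀ u, |u| ≤ Q → rmin ≤ rinf μ u)
    (hbig : (1 + τ) * (V + K0) / (1 - τ) < Lr * rmin)
    (hseed : ∃! y : Fin (m + 1) → ℝ, Monotone y ∧
      (∀ u ∈ Icc (y 0) (y (Fin.last m)), 0 ≤ ba3x80_rho Lr s K c y u) ∧
      ba3x80_F Lr S Θ I (c, y) = 0) :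
    ∃ y : ℝ → Fin (m + 1) → ℝ,
      (∀ μ ∈ Icc a b, ba3x80_F Lr S Θ I (μ, y μ) = 0 ∧ StrictMono (y μ) ∧ (∀ j, |y μ j| ≤ Q) ∧
        (∀ u, Lr * rinf μ u - (1 + τ) * (V + K0) / (1 - τ) ≤ ba3x80_rho Lr s K μ (y μ) u) ∧
        ∀ z : Fin (m + 1) → ℝ, Monotone z →
          (∀ u ∈ Icc (z 0) (z (Fin.last m)), 0 ≤ ba3x80_rho Lr s K μ z u) →
          ba3x80_F Lr S Θ I (μ, z) = 0 → z = y μ) ∧
      ContinuousOn y (Icc a b) ∧ ∀ μ ∈ Ioo a b, ContDiffAt ℝ ω y μ := by
  classical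
  set F := ba3x80_F Lr S Θ I with hFdef
  set C : ℝ := (1 + τ) * (V + K0) / (1 - τ) with hC
  have hcont1 : ∀ μ ∈ Icc a b, Continuous (s μ) := by
    intro μ hμ
    rw [continuous_iff_continuousAt]
    intro u
    exact ContinuousAt.comp (f := fun u : ℝ => ((μ, u) : ℝ × ℝ)) (x := u) (hsc2 μ hμ u)
      (by fun_prop)
  have hcont2 : ∀ μ ∈ Icc a b, Continuous (K μ) := by
    intro μ hμ
    rw [continuous_iff_continuousAt]
    intro u
    exact ContinuousAt.comp (f := fun u : ℝ => ((μ, u) : ℝ × ℝ)) (x := u) (hKc2 μ hμ u)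
      (by fun_prop)
  -- improvement
  have himp : ∀ μ ∈ Icc a b, ∀ y : Fin (m + 1) → ℝ, Monotone y →
      (∀ u ∈ Icc (y 0) (y (Fin.last m)), 0 ≤ ba3x80_rho Lr s K μ y u) → F (μ, y) = 0 →
      ∀ u, Lr * rinf μ u - C ≤ ba3x80_rho Lr s K μ y u := by
    intro μ hμ y hy hρ hz
    exact ba3x80_improve Lr hL.le S Θ s K I μ hI (hs μ hμ) (hK μ hμ) s0 K0 V τ (hcont1 μ hμ)
      (hsb μ hμ) (hcont2 μ hμ) (hK0 μ hμ) (hKb μ hμ) (W μ) (hW μ hμ) (hKW μ hμ) (hWV μ hμ)
      (R0 μ) (rinf μ) (hRi μ hμ) (hRpos μ hμ) (hRτ μ hμ) hτ (hres μ hμ) (hrinf μ hμ)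
      (hrpos μ hμ) y hy hz hρ
  have hpos : ∀ μ ∈ Icc a b, ∀ y : Fin (m + 1) → ℝ, Monotone y →
      (∀ u ∈ Icc (y 0) (y (Fin.last m)), 0 ≤ ba3x80_rho Lr s K μ y u) → F (μ, y) = 0 →
      ∀ u ∈ Icc (y 0) (y (Fin.last m)), 0 < ba3x80_rho Lr s K μ y u := by
    intro μ hμ y hy hρ hz u hu
    have h1 := himp μ hμ y hy hρ hz u
    have hq0 := abs_le.1 (hQ μ hμ y hy hz 0)
    have hq1 := abs_le.1 (hQ μ hμ y hy hz (Fin.last m))
    have h2 : |u| ≤ Q := abs_le.2 ⟨by linarith [hu.1], by linarith [hu.2]⟩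
    have h3 := hrmin μ hμ u h2
    have h4 : Lr * rmin ≤ Lr * rinf μ u := mul_le_mul_of_nonneg_left h3 hL.le
    linarith
  set 𝒦 : Set (ℝ × (Fin (m + 1) → ℝ)) := {p | p.1 ∈ Icc a b ∧ (∀ j, |p.2 j| ≤ Q) ∧ Monotone p.2 ∧
    ∀ u ∈ Icc (p.2 0) (p.2 (Fin.last m)), 0 ≤ ba3x80_rho Lr s K p.1 p.2 u} with h𝒦
  have han : ∀ p : ℝ × (Fin (m + 1) → ℝ), p.1 ∈ Icc a b → ContDiffAt ℝ ω F p := by
    rintro ⟨μ, y⟩ hμ
    exact ba3x80_F_contDiffAt Lr S Θ I μ (hSan μ hμ) (hΘan μ hμ) y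
  -- continuity of the parametrised counting derivative
  have hpar : ∀ p : ℝ × (Fin (m + 1) → ℝ), p.1 ∈ Icc a b → ∀ t : ℝ,
      ContinuousAt (fun z : (ℝ × (Fin (m + 1) → ℝ)) × ℝ =>
        ba3x80_rho Lr s K z.1.1 z.1.2 ((1 - z.2) * z.1.2 0 + z.2 * z.1.2 (Fin.last m))) (p, t) := by
    rintro ⟨μ, y⟩ hμ t
    exact ContinuousAt.comp
      (f := fun z : (ℝ × (Fin (m + 1) → ℝ)) × ℝ =>
        ((z.1, (1 - z.2) * z.1.2 0 + z.2 * z.1.2 (Fin.last m)) : (ℝ × (Fin (m + 1) → ℝ)) × ℝ))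
      (x := ((μ, y), t))
      (ba3x80_rho_continuousAt Lr s K μ (hsc2 μ hμ) (hKc2 μ hμ) y _) (by fun_prop)
  have hseg : ∀ (y : Fin (m + 1) → ℝ), y 0 ≤ y (Fin.last m) → ∀ u,
      u ∈ Icc (y 0) (y (Fin.last m)) ↔
        ∃ t ∈ Icc (0 : ℝ) 1, (1 - t) * y 0 + t * y (Fin.last m) = u := by
    intro y hy u
    rw [← segment_eq_Icc hy, segment_eq_image]
    simp [Set.mem_image]
  have hKclosed : IsClosed 𝒦 := by
    apply isClosed_of_closure_subset
    intro p hp
    set C1 : Set (ℝ × (Fin (m + 1) → ℝ)) :=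
      Icc a b ×ˢ ({y | ∀ j, |y j| ≤ Q} ∩ {y | Monotone y}) with hC1
    have hC1c : IsClosed C1 := by
      refine isClosed_Icc.prod (IsClosed.inter ?_ isClosed_monotone)
      simp only [Set.ofPred_forall]
      exact isClosed_iInter fun j =>
        isClosed_le (continuous_abs.comp (continuous_apply j)) continuous_const
    have hsub : 𝒦 ⊆ C1 := fun q hq => ⟨hq.1, hq.2.1, hq.2.2.1⟩
    have hp1 : p ∈ C1 := closure_minimal hsub hC1c hp
    refine ⟨hp1.1, hp1.2.1, hp1.2.2, ?_⟩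
    intro u hu
    have hmono : Monotone p.2 := hp1.2.2
    obtain ⟨t, ht, rfl⟩ := (hseg p.2 (hmono (Fin.zero_le _)) u).1 hu
    have hct : ContinuousAt (fun q : ℝ × (Fin (m + 1) → ℝ) =>
        ba3x80_rho Lr s K q.1 q.2 ((1 - t) * q.2 0 + t * q.2 (Fin.last m))) p :=
      ContinuousAt.comp (f := fun q : ℝ × (Fin (m + 1) → ℝ) => (q, t)) (x := p)
        (hpar p hp1.1 t) (by fun_prop)
    have hfreq : ∃ᶠ q in 𝓝 p, q ∈ 𝒦 := mem_closure_iff_frequently.1 hp
    refine ge_of_tendsto_of_frequently hct.tendsto (hfreq.mono ?_)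
    intro q hq
    exact hq.2.2.2 _ ((hseg q.2 (hq.2.2.1 (Fin.zero_le _)) _).2 ⟨t, ht, rfl⟩)
  have hKcomp : IsCompact 𝒦 := by
    refine ((isCompact_Icc (a := a) (b := b)).prod (isCompact_Icc (a := fun _ : Fin (m + 1) => -Q)
      (b := fun _ => Q))).of_isClosed_subset hKclosed ?_
    intro q hq
    exact ⟨hq.1, fun j => (abs_le.1 (hq.2.1 j)).1, fun j => (abs_le.1 (hq.2.1 j)).2⟩
  obtain ⟨y, hy, hyc, hya⟩ := ba3x80_continuity_method (E := Fin (m + 1) → ℝ) hc F 𝒦 hKcomp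
    (fun p hp => (han p hp.1).continuousAt.continuousWithinAt)
    (fun p _ hp _ => han p hp)
    (by
      rintro ⟨μ, y⟩ hp hμ hz v hv
      have hp' := hpos μ hμ y hp.2.2.1 hp.2.2.2 hz
      apply ba3x80_inj_pos (fun j => Lr * s μ (y j)) (fun j k => K μ (y j - y k))
        (fun j => hp' (y j) ⟨hp.2.2.1 (Fin.zero_le _), hp.2.2.1 (Fin.le_last _)⟩)
        (fun v => hpsd μ hμ y v) v
      intro j
      have h1 := ba3x80_F_line Lr S Θ s K I μ (hs μ hμ) (hK μ hμ) y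
        ((han (μ, y) hμ).differentiableAt (by simp)) v j
      rw [hv] at h1
      exact h1.symm)
    (by
      rintro ⟨μ, y⟩ hp hμ hz
      have hp' := hpos μ hμ y hp.2.2.1 hp.2.2.2 hz
      have hsm : StrictMono y := ba3x80_strictMono_of_zero Lr S Θ I μ hI y hp.2.2.1 hz
      -- order is an open condition
      have e1 : ∀ᶠ q : ℝ × (Fin (m + 1) → ℝ) in 𝓝 (μ, y),
          ∀ k : Fin m, q.2 k.castSucc < q.2 k.succ := by
        rw [eventually_all]
        intro k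
        have hlt : y k.castSucc < y k.succ := hsm Fin.castSucc_lt_succ
        have c1 : ContinuousAt (fun q : ℝ × (Fin (m + 1) → ℝ) => q.2 k.castSucc) (μ, y) := by
          fun_prop
        have c2 : ContinuousAt (fun q : ℝ × (Fin (m + 1) → ℝ) => q.2 k.succ) (μ, y) := by
          fun_prop
        exact c1.eventually_lt c2 hlt
      -- positivity on the hull is an open condition
      have e2 : ∀ᶠ q : ℝ × (Fin (m + 1) → ℝ) in 𝓝 (μ, y), ∀ t ∈ Icc (0 : ℝ) 1,
          0 < ba3x80_rho Lr s K q.1 q.2 ((1 - t) * q.2 0 + t * q.2 (Fin.last m)) := by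
        apply isCompact_Icc.eventually_forall_of_forall_eventually
        intro t ht
        have h0 : 0 < ba3x80_rho Lr s K μ y ((1 - t) * y 0 + t * y (Fin.last m)) :=
          hp' _ ((hseg y (hp.2.2.1 (Fin.zero_le _)) _).2 ⟨t, ht, rfl⟩)
        exact (hpar (μ, y) hμ t).eventually (lt_mem_nhds h0)
      filter_upwards [e1, e2] with q h1 h2 hqJ hqz
      have hqm : Monotone q.2 := (Fin.strictMono_iff_lt_succ.2 h1).monotone
      refine ⟨hqJ, hQ q.1 hqJ q.2 hqm hqz, hqm, ?_⟩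
      intro u hu
      obtain ⟨t, ht, rfl⟩ := (hseg q.2 (hqm (Fin.zero_le _)) u).1 hu
      exact (h2 t ht).le)
    (by
      obtain ⟨y0, ⟨hm0, hρ0, hz0⟩, hu0⟩ := hseed
      refine ⟨y0, ⟨⟨hc, hQ c hc y0 hm0 hz0, hm0, hρ0⟩, hz0⟩, ?_⟩
      rintro z ⟨hz1, hz2⟩
      exact hu0 z ⟨hz1.2.2.1, hz1.2.2.2, hz2⟩)
  refine ⟨y, ?_, hyc, hya⟩
  intro μ hμ
  obtain ⟨h1, h2, h3⟩ := hy μ hμ
  refine ⟨h2, ba3x80_strictMono_of_zero Lr S Θ I μ hI _ h1.2.2.1 h2, h1.2.1,
    himp μ hμ _ h1.2.2.1 h1.2.2.2 h2, ?_⟩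
  intro z hzm hzρ hzz
  exact h3 z ⟨hμ, hQ μ hμ z hzm hzz, hzm, hzρ⟩ hzz

end Improve

end Claimed.Agent.R292
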