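import Claimed.Agent.R292.Bethe.Four230
import Claimed.Agent.R292.Bethe.Ba2Amp270

/-!
# Row 292, unit BETHE: the rapidity dictionary   (helper130, prefix `ba3x130_`)

Textbook layer under the leaves B2b / B3a / B1c.  Variable `u` of paper 290 (`ba230_ker a u = sin a / (π (cosh 2u - cos a))`).

* `ba3x130_phi a u = 2 arctan (cot (a/2) tanh u)`;  momentum `k = phi lam`, scattering phase `θ = phi (2 lam)`;
* derivative `2 π ker a u`, oddness, limits `± (π - a)`, bounds, monotonicity, joint analyticity;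
* `exp (i phi a u) = - sinh (u - i a/2) / sinh (u + i a/2)`;
* the real logarithmic Bethe equations imply the polynomial Bethe equations `ba2a270_BE` of BA2;
* `L (z (u)) = - sinh (u - i lam) / sinh u`, its modulus, `M (z (-u)) = L (z (u))`.
-/

set_option autoImplicit false

namespace Claimed.Agent.R292

open Filter Topology

/-- `phi a u = 2 arctan (cot (a/2) tanh u)`. -/
noncomputable def ba3x130_phi (a u : ℝ) : ℝ :=
  2 * Real.arctan (Real.cos (a / 2) / Real.sin (a / 2) * Real.tanh u)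

theorem ba3x130_sin_half_pos {a : ℝ} (h0 : 0 < a) (h1 : a < 2 * Real.pi) : 0 < Real.sin (a / 2) :=
  Real.sin_pos_of_pos_of_lt_pi (by linarith) (by linarith)

theorem ba3x130_hasDerivAt_tanh (u : ℝ) : HasDerivAt Real.tanh (1 / Real.cosh u ^ 2) u := by
  have h := (Real.hasDerivAt_sinh u).div (Real.hasDerivAt_cosh u) (Real.cosh_pos u).ne'
  have h2 : (Real.cosh u * Real.cosh u - Real.sinh u * Real.sinh u) / Real.cosh u ^ 2 = 1 / Real.cosh u ^ 2 := by
    congr 1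
    nlinarith [Real.cosh_sq u]
  rw [h2] at h
  have h3 : Real.tanh = fun x => Real.sinh x / Real.cosh x := by
    funext x; exact Real.tanh_eq_sinh_div_cosh x
  rw [h3]
  exact h

theorem ba3x130_den_eq (a u : ℝ) :
    Real.sin (a / 2) ^ 2 * Real.cosh u ^ 2 + Real.cos (a / 2) ^ 2 * Real.sinh u ^ 2
      = (Real.cosh (2 * u) - Real.cos a) / 2 := by
  have h1 : Real.cos a = 2 * Real.cos (a / 2) ^ 2 - 1 := by
    rw [← Real.cos_two_mul]; congr 1; ring
  have h2 : Real.cosh (2 * u) = Real.cosh u ^ 2 + Real.sinh u ^ 2 := Real.cosh_two_mul u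
  have h3 := Real.sin_sq_add_cos_sq (a / 2)
  have h4 := Real.cosh_sq u
  rw [h1, h2]
  nlinarith

/-- `phi a` has derivative `2 π ker a`. -/
theorem ba3x130_phi_hasDerivAt {a : ℝ} (h0 : 0 < a) (h1 : a < 2 * Real.pi) (u : ℝ) :
    HasDerivAt (ba3x130_phi a) (2 * Real.pi * ba230_ker a u) u := by
  have hs := ba3x130_sin_half_pos h0 h1
  have hc := Real.cosh_pos u
  have h := (((ba3x130_hasDerivAt_tanh u).const_mul (Real.cos (a / 2) / Real.sin (a / 2))).arctan).const_mul 2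
  have hden := ba3x130_den_eq a u
  have hpos := ba230_den_pos h0 h1 (2 * u)
  have hsa : Real.sin a = 2 * Real.sin (a / 2) * Real.cos (a / 2) := by
    rw [← Real.sin_two_mul]; congr 1; ring
  have key : 2 * Real.pi * ba230_ker a u
      = 2 * (1 / (1 + (Real.cos (a / 2) / Real.sin (a / 2) * Real.tanh u) ^ 2)
          * (Real.cos (a / 2) / Real.sin (a / 2) * (1 / Real.cosh u ^ 2))) := by
    unfold ba230_ker
    rw [Real.tanh_eq_sinh_div_cosh, hsa]
    have hden2 : Real.cosh (2 * u) - Real.cos a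
        = 2 * (Real.sin (a / 2) ^ 2 * Real.cosh u ^ 2 + Real.cos (a / 2) ^ 2 * Real.sinh u ^ 2) := by
      rw [hden]; ring
    have hpos2 : 0 < Real.sin (a / 2) ^ 2 * Real.cosh u ^ 2 + Real.cos (a / 2) ^ 2 * Real.sinh u ^ 2 := by
      rw [hden]; linarith
    rw [hden2]
    have hpi := Real.pi_pos.ne'
    have h5 : 1 + (Real.cos (a / 2) / Real.sin (a / 2) * (Real.sinh u / Real.cosh u)) ^ 2
        = (Real.sin (a / 2) ^ 2 * Real.cosh u ^ 2 + Real.cos (a / 2) ^ 2 * Real.sinh u ^ 2)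
          / (Real.sin (a / 2) ^ 2 * Real.cosh u ^ 2) := by
      field_simp
    rw [h5]
    field_simp
  rw [key]
  exact h

theorem ba3x130_phi_neg (a u : ℝ) : ba3x130_phi a (-u) = -ba3x130_phi a u := by
  unfold ba3x130_phi
  rw [Real.tanh_neg, mul_neg, Real.arctan_neg, mul_neg]

theorem ba3x130_phi_zero (a : ℝ) : ba3x130_phi a 0 = 0 := by
  unfold ba3x130_phi
  simp

theorem ba3x130_phi_continuous {a : ℝ} (h0 : 0 < a) (h1 : a < 2 * Real.pi) : Continuous (ba3x130_phi a) :=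
  continuous_iff_continuousAt.2 fun u => (ba3x130_phi_hasDerivAt h0 h1 u).continuousAt

/-! ## joint analyticity -/

theorem ba3x130_phi_contDiffAt {n : WithTop ℕ∞} {a : ℝ} (h0 : 0 < a) (h1 : a < 2 * Real.pi) (u : ℝ) :
    ContDiffAt ℝ n (fun p : ℝ × ℝ => ba3x130_phi p.1 p.2) (a, u) := by
  have hs := (ba3x130_sin_half_pos h0 h1).ne'
  have hc := (Real.cosh_pos u).ne'
  have hfst : ContDiffAt ℝ n (fun p : ℝ × ℝ => p.1 / 2) (a, u) := contDiffAt_fst.div_const 2
  have hsnd : ContDiffAt ℝ n (fun p : ℝ × ℝ => p.2) (a, u) := contDiffAt_snd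
  have h1' : ContDiffAt ℝ n (fun p : ℝ × ℝ => Real.cos (p.1 / 2)) (a, u) :=
    Real.contDiff_cos.contDiffAt.comp (a, u) hfst
  have h2' : ContDiffAt ℝ n (fun p : ℝ × ℝ => Real.sin (p.1 / 2)) (a, u) :=
    Real.contDiff_sin.contDiffAt.comp (a, u) hfst
  have h3' : ContDiffAt ℝ n (fun p : ℝ × ℝ => Real.sinh p.2) (a, u) :=
    Real.contDiff_sinh.contDiffAt.comp (a, u) hsnd
  have h4' : ContDiffAt ℝ n (fun p : ℝ × ℝ => Real.cosh p.2) (a, u) :=
    Real.contDiff_cosh.contDiffAt.comp (a, u) hsnd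
  have h5 : ContDiffAt ℝ n (fun p : ℝ × ℝ => Real.cos (p.1 / 2) / Real.sin (p.1 / 2) * (Real.sinh p.2 / Real.cosh p.2))
      (a, u) := (h1'.div h2' hs).mul (h3'.div h4' hc)
  have h6 := (Real.contDiff_arctan.contDiffAt.comp (a, u) h5).const_smul (2 : ℝ)
  refine h6.congr_of_eventuallyEq (Eventually.of_forall fun p => ?_)
  show ba3x130_phi p.1 p.2 = (2 : ℝ) • Real.arctan _
  unfold ba3x130_phi
  rw [Real.tanh_eq_sinh_div_cosh, smul_eq_mul]

/-- `phi` is jointly real analytic on `0 < a < 2 π`. -/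
theorem ba3x130_phi_analyticAt {a : ℝ} (h0 : 0 < a) (h1 : a < 2 * Real.pi) (u : ℝ) :
    AnalyticAt ℝ (fun p : ℝ × ℝ => ba3x130_phi p.1 p.2) (a, u) :=
  (ba3x130_phi_contDiffAt (n := ⊤) h0 h1 u).analyticAt

/-! ## the exponential dictionary -/

open Complex in
/-- `exp (2 i arctan t) = (1 + i t) / (1 - i t)`. -/
theorem ba3x130_exp_arctan (t : ℝ) :
    Complex.exp (((2 * Real.arctan t : ℝ) : ℂ) * Complex.I) = (1 + (t : ℂ) * Complex.I) / (1 - (t : ℂ) * Complex.I) := by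
  have hpos : 0 < 1 + t ^ 2 := by positivity
  have hsq : Real.sqrt (1 + t ^ 2) ^ 2 = 1 + t ^ 2 := Real.sq_sqrt hpos.le
  have hs0 : Real.sqrt (1 + t ^ 2) ≠ 0 := (Real.sqrt_pos.2 hpos).ne'
  have h1 : Complex.exp (((Real.arctan t : ℝ) : ℂ) * Complex.I)
      = (1 + (t : ℂ) * Complex.I) / ((Real.sqrt (1 + t ^ 2) : ℝ) : ℂ) := by
    rw [Complex.exp_mul_I, ← Complex.ofReal_cos, ← Complex.ofReal_sin, Real.cos_arctan, Real.sin_arctan]
    push_cast
    ring
  have h2 : (((2 * Real.arctan t : ℝ) : ℂ) * Complex.I)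
      = ((Real.arctan t : ℝ) : ℂ) * Complex.I + ((Real.arctan t : ℝ) : ℂ) * Complex.I := by
    push_cast; ring
  rw [h2, Complex.exp_add, h1]
  have hs0' : ((Real.sqrt (1 + t ^ 2) : ℝ) : ℂ) ≠ 0 := by exact_mod_cast hs0
  have hsq' : ((Real.sqrt (1 + t ^ 2) : ℝ) : ℂ) ^ 2 = 1 + (t : ℂ) ^ 2 := by exact_mod_cast hsq
  have hden : (1 - (t : ℂ) * Complex.I) ≠ 0 := by
    intro h
    have := congrArg Complex.re h
    simp at this
  rw [div_mul_div_comm, div_eq_div_iff (mul_ne_zero hs0' hs0') hden]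
  have : ((Real.sqrt (1 + t ^ 2) : ℝ) : ℂ) * ((Real.sqrt (1 + t ^ 2) : ℝ) : ℂ) = 1 + (t : ℂ) ^ 2 := by
    rw [← hsq']; ring
  rw [this]
  linear_combination (-(1 + (t : ℂ) * Complex.I) * (t : ℂ) ^ 2) * Complex.I_mul_I

/-- `sinh (u + i a/2)`, written out. -/
noncomputable def ba3x130_D (a u : ℝ) : ℂ :=
  ((Real.sinh u * Real.cos (a / 2) : ℝ) : ℂ) + ((Real.cosh u * Real.sin (a / 2) : ℝ) : ℂ) * Complex.I

/-- `sinh (u - i a/2)`, written out. -/
noncomputable def ba3x130_Nm (a u : ℝ) : ℂ :=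
  ((Real.sinh u * Real.cos (a / 2) : ℝ) : ℂ) - ((Real.cosh u * Real.sin (a / 2) : ℝ) : ℂ) * Complex.I

theorem ba3x130_D_ne_zero {a : ℝ} (h0 : 0 < a) (h1 : a < 2 * Real.pi) (u : ℝ) : ba3x130_D a u ≠ 0 := by
  intro h
  have := congrArg Complex.im h
  unfold ba3x130_D at this
  simp only [Complex.add_im, Complex.ofReal_im, Complex.mul_im, Complex.ofReal_re, Complex.I_im, mul_one,
    Complex.I_re, mul_zero, add_zero, zero_add, Complex.zero_im] at this
  exact absurd this (mul_pos (Real.cosh_pos u) (ba3x130_sin_half_pos h0 h1)).ne'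

theorem ba3x130_Nm_ne_zero {a : ℝ} (h0 : 0 < a) (h1 : a < 2 * Real.pi) (u : ℝ) : ba3x130_Nm a u ≠ 0 := by
  intro h
  have := congrArg Complex.im h
  unfold ba3x130_Nm at this
  simp only [Complex.sub_im, Complex.ofReal_im, Complex.mul_im, Complex.ofReal_re, Complex.I_im, mul_one,
    Complex.I_re, mul_zero, add_zero, zero_sub, Complex.zero_im, neg_eq_zero] at this
  exact absurd this (mul_pos (Real.cosh_pos u) (ba3x130_sin_half_pos h0 h1)).ne'

theorem ba3x130_D_eq_sinh (a u : ℝ) : ba3x130_D a u = Complex.sinh ((u : ℂ) + ((a / 2 : ℝ) : ℂ) * Complex.I) := by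
  unfold ba3x130_D
  rw [Complex.sinh_add, Complex.sinh_mul_I, Complex.cosh_mul_I]
  push_cast
  ring

theorem ba3x130_Nm_eq_sinh (a u : ℝ) : ba3x130_Nm a u = Complex.sinh ((u : ℂ) - ((a / 2 : ℝ) : ℂ) * Complex.I) := by
  unfold ba3x130_Nm
  rw [Complex.sinh_sub, Complex.sinh_mul_I, Complex.cosh_mul_I]
  push_cast
  ring

theorem ba3x130_one_sub_ne_zero (t : ℝ) : (1 - (t : ℂ) * Complex.I) ≠ 0 := by
  intro h
  have := congrArg Complex.re h
  simp at this

theorem ba3x130_moebius (C S p q : ℝ) (hS : S ≠ 0) (hq : q ≠ 0) :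
    (1 + ((C / S * (p / q) : ℝ) : ℂ) * Complex.I) / (1 - ((C / S * (p / q) : ℝ) : ℂ) * Complex.I)
      = -(((p * C : ℝ) : ℂ) - ((q * S : ℝ) : ℂ) * Complex.I) / (((p * C : ℝ) : ℂ) + ((q * S : ℝ) : ℂ) * Complex.I) := by
  have hD : (((p * C : ℝ) : ℂ) + ((q * S : ℝ) : ℂ) * Complex.I) ≠ 0 := by
    intro h
    have := congrArg Complex.im h
    simp only [Complex.add_im, Complex.ofReal_im, Complex.mul_im, Complex.ofReal_re, Complex.I_im, mul_one,
      Complex.I_re, mul_zero, add_zero, zero_add, Complex.zero_im] at this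
    exact absurd this (mul_ne_zero hq hS)
  rw [div_eq_div_iff (ba3x130_one_sub_ne_zero _) hD]
  have hS' : (S : ℂ) ≠ 0 := by exact_mod_cast hS
  have hq' : (q : ℂ) ≠ 0 := by exact_mod_cast hq
  push_cast
  field_simp
  linear_combination (2 * (S : ℂ) * C * p * q) * Complex.I_mul_I

/-- **`exp (i phi a u) = - sinh (u - i a/2) / sinh (u + i a/2)`.** -/
theorem ba3x130_exp_phi {a : ℝ} (h0 : 0 < a) (h1 : a < 2 * Real.pi) (u : ℝ) :
    Complex.exp (((ba3x130_phi a u : ℝ) : ℂ) * Complex.I) = -ba3x130_Nm a u / ba3x130_D a u := by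
  have hs := (ba3x130_sin_half_pos h0 h1).ne'
  have hc := (Real.cosh_pos u).ne'
  unfold ba3x130_phi
  rw [ba3x130_exp_arctan, Real.tanh_eq_sinh_div_cosh]
  exact ba3x130_moebius _ _ _ _ hs hc

/-! ## Bethe roots: from rapidities to the variables of BA2 -/

/-- `z (u) = exp (i k (u))`, `k = phi lam`. -/
noncomputable def ba3x130_z (lam u : ℝ) : ℂ := Complex.exp (((ba3x130_phi lam u : ℝ) : ℂ) * Complex.I)

/-- the weight `c = 2 cos (lam / 2)`, as a complex number. -/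
noncomputable def ba3x130_c (lam : ℝ) : ℂ := ((2 * Real.cos (lam / 2) : ℝ) : ℂ)

theorem ba3x130_z_eq {lam : ℝ} (h0 : 0 < lam) (h1 : lam < 2 * Real.pi) (u : ℝ) :
    ba3x130_z lam u = -ba3x130_Nm lam u / ba3x130_D lam u := ba3x130_exp_phi h0 h1 u

theorem ba3x130_scatter_alg (C S pj qj pl ql : ℂ) (hCS : C ^ 2 + S ^ 2 = 1) :
    (pj * C + qj * S * Complex.I) * (pl * C + ql * S * Complex.I)
      + (2 - (2 * C) ^ 2) * (pj * C - qj * S * Complex.I) * (pl * C + ql * S * Complex.I)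
      + (pj * C - qj * S * Complex.I) * (pl * C - ql * S * Complex.I)
    = -Complex.I * (2 * S * C) * ((pj * ql - qj * pl) * (C ^ 2 - S ^ 2)
        - (qj * ql - pj * pl) * (2 * S * C) * Complex.I) := by
  linear_combination (-(2 * pj * pl * C ^ 2 - 2 * qj * ql * S ^ 2)
      - 2 * (pj * C - qj * S * Complex.I) * (pl * C + ql * S * Complex.I)) * hCS
    + (2 * qj * ql * S ^ 2 + 2 * (C ^ 2 - S ^ 2) * qj * ql * S ^ 2
        - 4 * S ^ 2 * C ^ 2 * (qj * ql - pj * pl)) * Complex.I_mul_I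

theorem ba3x130_cos_eq (lam : ℝ) : Real.cos (2 * lam / 2) = Real.cos (lam / 2) ^ 2 - Real.sin (lam / 2) ^ 2 := by
  have h : 2 * lam / 2 = 2 * (lam / 2) := by ring
  rw [h, Real.cos_two_mul]
  nlinarith [Real.sin_sq_add_cos_sq (lam / 2)]

theorem ba3x130_sin_eq (lam : ℝ) : Real.sin (2 * lam / 2) = 2 * Real.sin (lam / 2) * Real.cos (lam / 2) := by
  have h : 2 * lam / 2 = 2 * (lam / 2) := by ring
  rw [h, Real.sin_two_mul]

/-- the scattering factor in rapidities: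
`s (z_j, z_l) sinh (u_j + i lam/2) sinh (u_l + i lam/2) = - i sin lam sinh (u_j - u_l - i lam)`. -/
theorem ba3x130_s_mul {lam : ℝ} (h0 : 0 < lam) (h1 : lam < 2 * Real.pi) (uj ul : ℝ) :
    ba2a270_s (2 - ba3x130_c lam ^ 2) (ba3x130_z lam uj) (ba3x130_z lam ul)
        * (ba3x130_D lam uj * ba3x130_D lam ul)
      = -Complex.I * ((Real.sin (2 * lam / 2) : ℝ) : ℂ) * ba3x130_Nm (2 * lam) (uj - ul) := by
  have hDj := ba3x130_D_ne_zero h0 h1 uj
  have hDl := ba3x130_D_ne_zero h0 h1 ul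
  rw [ba3x130_z_eq h0 h1, ba3x130_z_eq h0 h1]
  unfold ba2a270_s
  have hCS : ((Real.cos (lam / 2) : ℝ) : ℂ) ^ 2 + ((Real.sin (lam / 2) : ℝ) : ℂ) ^ 2 = 1 := by
    have := Real.sin_sq_add_cos_sq (lam / 2)
    have h2 : Real.cos (lam / 2) ^ 2 + Real.sin (lam / 2) ^ 2 = 1 := by linarith
    exact_mod_cast h2
  have halg := ba3x130_scatter_alg ((Real.cos (lam / 2) : ℝ) : ℂ) ((Real.sin (lam / 2) : ℝ) : ℂ)
    ((Real.sinh uj : ℝ) : ℂ) ((Real.cosh uj : ℝ) : ℂ) ((Real.sinh ul : ℝ) : ℂ) ((Real.cosh ul : ℝ) : ℂ) hCS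
  have hlhs : (1 - (2 - ba3x130_c lam ^ 2) * (-ba3x130_Nm lam uj / ba3x130_D lam uj)
        + -ba3x130_Nm lam uj / ba3x130_D lam uj * (-ba3x130_Nm lam ul / ba3x130_D lam ul))
        * (ba3x130_D lam uj * ba3x130_D lam ul)
      = ba3x130_D lam uj * ba3x130_D lam ul
        + (2 - ba3x130_c lam ^ 2) * ba3x130_Nm lam uj * ba3x130_D lam ul
        + ba3x130_Nm lam uj * ba3x130_Nm lam ul := by
    field_simp
    ring
  rw [hlhs]
  unfold ba3x130_D ba3x130_Nm ba3x130_c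
  rw [Real.sinh_sub, Real.cosh_sub, ba3x130_cos_eq, ba3x130_sin_eq]
  simp only [Complex.ofReal_mul, Complex.ofReal_sub, Complex.ofReal_pow, Complex.ofReal_ofNat]
  linear_combination halg

theorem ba3x130_Nm_neg (a u : ℝ) : ba3x130_Nm a (-u) = -ba3x130_D a u := by
  unfold ba3x130_Nm ba3x130_D
  rw [Real.sinh_neg, Real.cosh_neg]
  push_cast
  ring

theorem ba3x130_D_neg (a u : ℝ) : ba3x130_D a (-u) = -ba3x130_Nm a u := by
  unfold ba3x130_Nm ba3x130_D
  rw [Real.sinh_neg, Real.cosh_neg]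
  push_cast
  ring

/-- `s (z_j, z_l) = exp (i θ (u_j - u_l)) s (z_l, z_j)`, `θ = phi (2 lam)`. -/
theorem ba3x130_s_ratio {lam : ℝ} (h0 : 0 < lam) (h1 : lam < Real.pi) (uj ul : ℝ) :
    ba2a270_s (2 - ba3x130_c lam ^ 2) (ba3x130_z lam uj) (ba3x130_z lam ul)
      = Complex.exp (((ba3x130_phi (2 * lam) (uj - ul) : ℝ) : ℂ) * Complex.I)
        * ba2a270_s (2 - ba3x130_c lam ^ 2) (ba3x130_z lam ul) (ba3x130_z lam uj) := by
  have h1' : lam < 2 * Real.pi := by linarith [Real.pi_pos]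
  have hDj := ba3x130_D_ne_zero h0 h1' uj
  have hDl := ba3x130_D_ne_zero h0 h1' ul
  have h20 : 0 < 2 * lam := by linarith
  have h21 : 2 * lam < 2 * Real.pi := by linarith
  have hD2 := ba3x130_D_ne_zero h20 h21 (uj - ul)
  have e1 := ba3x130_s_mul h0 h1' uj ul
  have e2 := ba3x130_s_mul h0 h1' ul uj
  have hneg : ul - uj = -(uj - ul) := by ring
  rw [hneg, ba3x130_Nm_neg] at e2
  rw [ba3x130_exp_phi h20 h21]
  apply mul_right_cancel₀ (mul_ne_zero hDj hDl)
  rw [e1]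
  have e3 : -ba3x130_Nm (2 * lam) (uj - ul) / ba3x130_D (2 * lam) (uj - ul)
        * ba2a270_s (2 - ba3x130_c lam ^ 2) (ba3x130_z lam ul) (ba3x130_z lam uj)
        * (ba3x130_D lam uj * ba3x130_D lam ul)
      = -ba3x130_Nm (2 * lam) (uj - ul) / ba3x130_D (2 * lam) (uj - ul)
        * (ba2a270_s (2 - ba3x130_c lam ^ 2) (ba3x130_z lam ul) (ba3x130_z lam uj)
        * (ba3x130_D lam ul * ba3x130_D lam uj)) := by ring
  rw [e3, e2]
  field_simp

theorem ba3x130_s_ne_zero {lam : ℝ} (h0 : 0 < lam) (h1 : lam < Real.pi) (uj ul : ℝ) :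
    ba2a270_s (2 - ba3x130_c lam ^ 2) (ba3x130_z lam uj) (ba3x130_z lam ul) ≠ 0 := by
  have h1' : lam < 2 * Real.pi := by linarith [Real.pi_pos]
  intro h
  have e1 := ba3x130_s_mul h0 h1' uj ul
  rw [h, zero_mul] at e1
  have hs : Real.sin (2 * lam / 2) ≠ 0 := by
    have : 2 * lam / 2 = lam := by ring
    rw [this]
    exact (Real.sin_pos_of_pos_of_lt_pi h0 h1).ne'
  have hs' : ((Real.sin (2 * lam / 2) : ℝ) : ℂ) ≠ 0 := by exact_mod_cast hs
  have hN := ba3x130_Nm_ne_zero (a := 2 * lam) (by linarith) (by linarith) (uj - ul)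
  exact absurd e1.symm (mul_ne_zero (mul_ne_zero (neg_ne_zero.2 Complex.I_ne_zero) hs') hN)

theorem ba3x130_exp_sign (n : ℕ) (hn : 0 < n) (j : ℕ) :
    Complex.exp (((2 * Real.pi * ((j : ℝ) + 1 - ((n : ℝ) + 1) / 2) : ℝ) : ℂ) * Complex.I) = (-1) ^ (n - 1) := by
  obtain ⟨m, rfl⟩ : ∃ m, n = m + 1 := ⟨n - 1, by omega⟩
  rw [Nat.add_sub_cancel]
  have h1 : ((-1 : ℂ)) ^ m = Complex.exp ((m : ℂ) * ((Real.pi : ℂ) * Complex.I)) := by
    rw [Complex.exp_nat_mul, Complex.exp_pi_mul_I]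
  rw [h1, Complex.exp_eq_exp_iff_exists_int]
  refine ⟨(j : ℤ) - m, ?_⟩
  push_cast
  ring

/-- **The real logarithmic Bethe equations imply the polynomial Bethe equations of BA2.** -/
theorem ba3x130_BE {n N : ℕ} {lam : ℝ} (h0 : 0 < lam) (h1 : lam < Real.pi) (u : Fin n → ℝ)
    (hBE : ∀ j : Fin n, (N : ℝ) * ba3x130_phi lam (u j) - ∑ l, ba3x130_phi (2 * lam) (u j - u l)
      = 2 * Real.pi * (((j : ℕ) : ℝ) + 1 - ((n : ℝ) + 1) / 2)) :
    ba2a270_BE (2 - ba3x130_c lam ^ 2) N (fun j => ba3x130_z lam (u j)) := by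
  intro j
  have hn : 0 < n := lt_of_le_of_lt (Nat.zero_le _) j.2
  have hprod : ∏ l ∈ Finset.univ.erase j,
        ba2a270_s (2 - ba3x130_c lam ^ 2) (ba3x130_z lam (u j)) (ba3x130_z lam (u l))
      = Complex.exp (((∑ l, ba3x130_phi (2 * lam) (u j - u l) : ℝ) : ℂ) * Complex.I)
        * ∏ l ∈ Finset.univ.erase j,
          ba2a270_s (2 - ba3x130_c lam ^ 2) (ba3x130_z lam (u l)) (ba3x130_z lam (u j)) := by
    have hsum : ∑ l, ba3x130_phi (2 * lam) (u j - u l)
        = ∑ l ∈ Finset.univ.erase j, ba3x130_phi (2 * lam) (u j - u l) := by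
      rw [← Finset.add_sum_erase _ _ (Finset.mem_univ j), sub_self, ba3x130_phi_zero, zero_add]
    rw [hsum, Complex.ofReal_sum, Finset.sum_mul, Complex.exp_sum, ← Finset.prod_mul_distrib]
    exact Finset.prod_congr rfl fun l _ => ba3x130_s_ratio h0 h1 (u j) (u l)
  show ba3x130_z lam (u j) ^ N * _ = _
  rw [hprod]
  have hz : ba3x130_z lam (u j) ^ N
      = (-1) ^ (n - 1) * Complex.exp (((∑ l, ba3x130_phi (2 * lam) (u j - u l) : ℝ) : ℂ) * Complex.I) := by
    unfold ba3x130_z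
    rw [← Complex.exp_nat_mul, ← ba3x130_exp_sign n hn j, ← Complex.exp_add]
    congr 1
    have := hBE j
    have h2 : (N : ℝ) * ba3x130_phi lam (u j)
        = 2 * Real.pi * (((j : ℕ) : ℝ) + 1 - ((n : ℝ) + 1) / 2) + ∑ l, ba3x130_phi (2 * lam) (u j - u l) := by
      linarith
    have h3 : ((N : ℂ)) * (((ba3x130_phi lam (u j) : ℝ) : ℂ) * Complex.I)
        = (((N : ℝ) * ba3x130_phi lam (u j) : ℝ) : ℂ) * Complex.I := by
      push_cast; ring
    rw [h3, h2]
    push_cast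
    ring
  rw [hz]
  ring

/-! ## the roots `z`: analyticity, `z ≠ 1`, injectivity, the free fermion point -/

theorem ba3x130_phi_comp_analyticAt {y : ℝ → ℝ} {t : ℝ} (h0 : 0 < t) (h1 : t < 2 * Real.pi)
    (hy : AnalyticAt ℝ y t) : AnalyticAt ℝ (fun lam => ba3x130_phi lam (y lam)) t := by
  have h := ba3x130_phi_analyticAt h0 h1 (y t)
  have h2 : AnalyticAt ℝ (fun lam : ℝ => (lam, y lam)) t := AnalyticAt.prod analyticAt_id hy
  exact AnalyticAt.comp (g := fun p : ℝ × ℝ => ba3x130_phi p.1 p.2) (f := fun lam : ℝ => (lam, y lam)) h h2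

/-- the scattering phase along two analytic branches. -/
theorem ba3x130_theta_comp_analyticAt {y y' : ℝ → ℝ} {t : ℝ} (h0 : 0 < t) (h1 : t < Real.pi)
    (hy : AnalyticAt ℝ y t) (hy' : AnalyticAt ℝ y' t) :
    AnalyticAt ℝ (fun lam => ba3x130_phi (2 * lam) (y lam - y' lam)) t := by
  have h := ba3x130_phi_analyticAt (a := 2 * t) (by linarith) (by linarith) (y t - y' t)
  have h2 : AnalyticAt ℝ (fun lam : ℝ => (2 * lam, y lam - y' lam)) t :=
    AnalyticAt.prod (analyticAt_const.mul analyticAt_id) (hy.sub hy')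
  exact AnalyticAt.comp (g := fun p : ℝ × ℝ => ba3x130_phi p.1 p.2)
    (f := fun lam : ℝ => (2 * lam, y lam - y' lam)) h h2

/-- `z` along an analytic branch of rapidities is analytic. -/
theorem ba3x130_z_comp_analyticAt {y : ℝ → ℝ} {t : ℝ} (h0 : 0 < t) (h1 : t < 2 * Real.pi)
    (hy : AnalyticAt ℝ y t) : AnalyticAt ℝ (fun lam => ba3x130_z lam (y lam)) t := by
  have h := ba3x130_phi_comp_analyticAt h0 h1 hy
  have h2 : AnalyticAt ℝ (fun lam => ((ba3x130_phi lam (y lam) : ℝ) : ℂ)) t :=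
    (Complex.ofRealCLM.analyticAt _).comp h
  have h3 : AnalyticAt ℝ (fun lam => ((ba3x130_phi lam (y lam) : ℝ) : ℂ) * Complex.I) t :=
    h2.mul analyticAt_const
  have h4 : AnalyticAt ℝ Complex.exp (((ba3x130_phi t (y t) : ℝ) : ℂ) * Complex.I) :=
    (analyticAt_cexp).restrictScalars
  exact AnalyticAt.comp (g := Complex.exp) h4 h3

theorem ba3x130_cos_half_pos {lam : ℝ} (h0 : 0 < lam) (h1 : lam < Real.pi) : 0 < Real.cos (lam / 2) :=
  Real.cos_pos_of_mem_Ioo ⟨by linarith, by linarith⟩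

theorem ba3x130_D_add_Nm (a u : ℝ) :
    ba3x130_D a u + ba3x130_Nm a u = ((2 * (Real.sinh u * Real.cos (a / 2)) : ℝ) : ℂ) := by
  unfold ba3x130_D ba3x130_Nm
  push_cast
  ring

/-- `1 - z = 2 sinh u cos (lam/2) / sinh (u + i lam/2)`. -/
theorem ba3x130_one_sub_z {lam : ℝ} (h0 : 0 < lam) (h1 : lam < 2 * Real.pi) (u : ℝ) :
    1 - ba3x130_z lam u = ((2 * (Real.sinh u * Real.cos (lam / 2)) : ℝ) : ℂ) / ba3x130_D lam u := by
  have hD := ba3x130_D_ne_zero h0 h1 u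
  rw [ba3x130_z_eq h0 h1, ← ba3x130_D_add_Nm]
  field_simp
  ring

theorem ba3x130_z_ne_one {lam : ℝ} (h0 : 0 < lam) (h1 : lam < Real.pi) {u : ℝ} (hu : u ≠ 0) :
    ba3x130_z lam u ≠ 1 := by
  have h1' : lam < 2 * Real.pi := by linarith [Real.pi_pos]
  intro h
  have e := ba3x130_one_sub_z h0 h1' u
  rw [h, sub_self] at e
  have hD := ba3x130_D_ne_zero h0 h1' u
  have hne : (2 * (Real.sinh u * Real.cos (lam / 2)) : ℝ) ≠ 0 :=
    mul_ne_zero two_ne_zero (mul_ne_zero (fun h => hu (Real.sinh_eq_zero.1 h)) (ba3x130_cos_half_pos h0 h1).ne')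
  have hne' : ((2 * (Real.sinh u * Real.cos (lam / 2)) : ℝ) : ℂ) ≠ 0 := by exact_mod_cast hne
  exact absurd e.symm (div_ne_zero hne' hD)

theorem ba3x130_z_zero (lam : ℝ) : ba3x130_z lam 0 = 1 := by
  unfold ba3x130_z
  rw [ba3x130_phi_zero]
  simp

theorem ba3x130_z_injective {lam : ℝ} (h0 : 0 < lam) (h1 : lam < Real.pi) :
    Function.Injective (ba3x130_z lam) := by
  have h1' : lam < 2 * Real.pi := by linarith [Real.pi_pos]
  intro u v h
  rw [ba3x130_z_eq h0 h1', ba3x130_z_eq h0 h1',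
    div_eq_div_iff (ba3x130_D_ne_zero h0 h1' u) (ba3x130_D_ne_zero h0 h1' v)] at h
  have him := congrArg Complex.im h
  unfold ba3x130_D ba3x130_Nm at him
  simp only [Complex.neg_im, Complex.mul_im, Complex.sub_im, Complex.add_im, Complex.sub_re, Complex.add_re,
    Complex.neg_re, Complex.ofReal_im, Complex.ofReal_re, Complex.mul_re, Complex.I_im, Complex.I_re, mul_one,
    mul_zero, add_zero, sub_zero, zero_add, zero_sub] at him
  have hC := ba3x130_cos_half_pos h0 h1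
  have hS := ba3x130_sin_half_pos h0 h1'
  have hsinh : Real.sinh (u - v) = 0 := by
    rw [Real.sinh_sub]
    have hCS : 0 < Real.cos (lam / 2) * Real.sin (lam / 2) := mul_pos hC hS
    have : (Real.cos (lam / 2) * Real.sin (lam / 2)) * (Real.sinh u * Real.cosh v - Real.cosh u * Real.sinh v) = 0 := by
      nlinarith
    rcases mul_eq_zero.1 this with h' | h'
    · exact absurd h' hCS.ne'
    · exact h'
  have := Real.sinh_eq_zero.1 hsinh
  linarith

theorem ba3x130_phi_pi (u : ℝ) : ba3x130_phi (2 * (Real.pi / 2)) u = 0 := by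
  unfold ba3x130_phi
  have : 2 * (Real.pi / 2) / 2 = Real.pi / 2 := by ring
  rw [this, Real.cos_pi_div_two]
  simp

/-- at the free fermion point `lam = π/2` the roots are the free fermion roots (`ba120Z0`). -/
theorem ba3x130_seed {n N : ℕ} (hN : 0 < N) (u : Fin n → ℝ) (j : Fin n)
    (hBE : (N : ℝ) * ba3x130_phi (Real.pi / 2) (u j) - ∑ l, ba3x130_phi (2 * (Real.pi / 2)) (u j - u l)
      = 2 * Real.pi * (((j : ℕ) : ℝ) + 1 - ((n : ℝ) + 1) / 2)) :
    ba3x130_z (Real.pi / 2) (u j)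
      = Complex.exp (2 * Real.pi * Complex.I * (((j : ℕ) : ℂ) - ((n : ℂ) - 1) / 2) / N) := by
  simp only [ba3x130_phi_pi, Finset.sum_const_zero, sub_zero] at hBE
  have hN' : (N : ℝ) ≠ 0 := by exact_mod_cast hN.ne'
  have hphi : ba3x130_phi (Real.pi / 2) (u j) = 2 * Real.pi * (((j : ℕ) : ℝ) + 1 - ((n : ℝ) + 1) / 2) / N := by
    field_simp
    linarith
  unfold ba3x130_z
  rw [hphi]
  congr 1
  push_cast
  ring

/-! ## the eigenvalue factors `L`, `M` -/

/-- `L (z (u)) = - sinh (u - i lam) / sinh u`. -/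
theorem ba3x130_L_eq {lam : ℝ} (h0 : 0 < lam) (h1 : lam < Real.pi) {u : ℝ} (hu : u ≠ 0) :
    ba2a270_L (ba3x130_c lam) (ba3x130_z lam u) = -ba3x130_Nm (2 * lam) u / ((Real.sinh u : ℝ) : ℂ) := by
  have h1' : lam < 2 * Real.pi := by linarith [Real.pi_pos]
  have hD := ba3x130_D_ne_zero h0 h1' u
  have hp : Real.sinh u ≠ 0 := fun h => hu (Real.sinh_eq_zero.1 h)
  have hC := (ba3x130_cos_half_pos h0 h1).ne'
  have hp' : ((Real.sinh u : ℝ) : ℂ) ≠ 0 := by exact_mod_cast hp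
  have hC' : ((Real.cos (lam / 2) : ℝ) : ℂ) ≠ 0 := by exact_mod_cast hC
  unfold ba2a270_L
  rw [ba3x130_one_sub_z h0 h1', ba3x130_z_eq h0 h1']
  have hCS : ((Real.cos (lam / 2) : ℝ) : ℂ) ^ 2 + ((Real.sin (lam / 2) : ℝ) : ℂ) ^ 2 = 1 := by
    have h2 : Real.cos (lam / 2) ^ 2 + Real.sin (lam / 2) ^ 2 = 1 := by
      linarith [Real.sin_sq_add_cos_sq (lam / 2)]
    exact_mod_cast h2
  have e1 : ba3x130_c lam ^ 2 * (-ba3x130_Nm lam u / ba3x130_D lam u)
        / (((2 * (Real.sinh u * Real.cos (lam / 2)) : ℝ) : ℂ) / ba3x130_D lam u)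
      = -(2 * ((Real.cos (lam / 2) : ℝ) : ℂ) * ba3x130_Nm lam u) / ((Real.sinh u : ℝ) : ℂ) := by
    unfold ba3x130_c
    push_cast
    field_simp
  rw [e1]
  unfold ba3x130_Nm
  rw [ba3x130_cos_eq, ba3x130_sin_eq]
  simp only [Complex.ofReal_mul, Complex.ofReal_sub, Complex.ofReal_pow, Complex.ofReal_ofNat]
  field_simp
  linear_combination (-((Real.sinh u : ℝ) : ℂ)) * hCS

theorem ba3x130_z_neg {lam : ℝ} (h0 : 0 < lam) (h1 : lam < 2 * Real.pi) (u : ℝ) :
    ba3x130_z lam (-u) = -ba3x130_D lam u / ba3x130_Nm lam u := by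
  rw [ba3x130_z_eq h0 h1, ba3x130_Nm_neg, ba3x130_D_neg]
  have hN := ba3x130_Nm_ne_zero h0 h1 u
  field_simp

/-- `M (z (-u)) = L (z (u))`. -/
theorem ba3x130_M_neg {lam : ℝ} (h0 : 0 < lam) (h1 : lam < Real.pi) {u : ℝ} (hu : u ≠ 0) :
    ba2a270_M (ba3x130_c lam) (ba3x130_z lam (-u)) = ba2a270_L (ba3x130_c lam) (ba3x130_z lam u) := by
  have h1' : lam < 2 * Real.pi := by linarith [Real.pi_pos]
  have hD := ba3x130_D_ne_zero h0 h1' u
  have hN := ba3x130_Nm_ne_zero h0 h1' u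
  have hp : Real.sinh u ≠ 0 := fun h => hu (Real.sinh_eq_zero.1 h)
  have hC := (ba3x130_cos_half_pos h0 h1).ne'
  have hsum : ba3x130_D lam u + ba3x130_Nm lam u ≠ 0 := by
    rw [ba3x130_D_add_Nm]
    exact_mod_cast mul_ne_zero two_ne_zero (mul_ne_zero hp hC)
  unfold ba2a270_M ba2a270_L
  rw [ba3x130_z_neg h0 h1', ba3x130_z_eq h0 h1']
  have e1 : (1 - -ba3x130_D lam u / ba3x130_Nm lam u) = (ba3x130_D lam u + ba3x130_Nm lam u) / ba3x130_Nm lam u := by
    field_simp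
    ring
  have e2 : (1 - -ba3x130_Nm lam u / ba3x130_D lam u) = (ba3x130_D lam u + ba3x130_Nm lam u) / ba3x130_D lam u := by
    field_simp
    ring
  rw [e1, e2]
  field_simp
  ring

theorem ba3x130_conj_Nm (a u : ℝ) : (starRingEnd ℂ) (ba3x130_Nm a u) = ba3x130_D a u := by
  unfold ba3x130_Nm ba3x130_D
  simp only [map_sub, map_mul, Complex.conj_ofReal, Complex.conj_I]
  ring

/-- `conj (L (z (u))) = L (z (-u))`. -/
theorem ba3x130_L_conj {lam : ℝ} (h0 : 0 < lam) (h1 : lam < Real.pi) {u : ℝ} (hu : u ≠ 0) :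
    (starRingEnd ℂ) (ba2a270_L (ba3x130_c lam) (ba3x130_z lam u))
      = ba2a270_L (ba3x130_c lam) (ba3x130_z lam (-u)) := by
  rw [ba3x130_L_eq h0 h1 hu, ba3x130_L_eq h0 h1 (neg_ne_zero.2 hu), ba3x130_Nm_neg, Real.sinh_neg]
  simp only [map_div₀, map_neg, ba3x130_conj_Nm, Complex.conj_ofReal]
  push_cast
  rw [neg_neg, div_neg, neg_div]

theorem ba3x130_normSq_Nm (a u : ℝ) :
    Complex.normSq (ba3x130_Nm a u) = (Real.cosh (2 * u) - Real.cos a) / 2 := by
  rw [← ba3x130_den_eq]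
  unfold ba3x130_Nm
  rw [Complex.normSq_apply]
  simp only [Complex.sub_re, Complex.sub_im, Complex.ofReal_re, Complex.ofReal_im, Complex.mul_re, Complex.mul_im,
    Complex.I_re, Complex.I_im, mul_zero, mul_one, sub_zero, zero_sub, add_zero]
  ring

theorem ba3x130_sinh_sq (u : ℝ) : Real.sinh u ^ 2 = (Real.cosh (2 * u) - 1) / 2 := by
  rw [Real.cosh_two_mul]
  nlinarith [Real.cosh_sq u]

/-- `|L (z (u))|² = (cosh 2u - cos 2 lam) / (cosh 2u - 1)`. -/
theorem ba3x130_normSq_L {lam : ℝ} (h0 : 0 < lam) (h1 : lam < Real.pi) {u : ℝ} (hu : u ≠ 0) :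
    Complex.normSq (ba2a270_L (ba3x130_c lam) (ba3x130_z lam u))
      = (Real.cosh (2 * u) - Real.cos (2 * lam)) / (Real.cosh (2 * u) - 1) := by
  rw [ba3x130_L_eq h0 h1 hu, map_div₀, Complex.normSq_neg, ba3x130_normSq_Nm, Complex.normSq_ofReal, ← pow_two,
    ba3x130_sinh_sq]
  have h : Real.cosh (2 * u) - 1 ≠ 0 := by
    have := Real.one_lt_cosh.2 (mul_ne_zero two_ne_zero hu)
    linarith
  field_simp

/-- `|L (z (u))| = exp (E_{2 lam} (u))`, `E = ba230_E` (the energy `e0`). -/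
theorem ba3x130_norm_L {lam : ℝ} (h0 : 0 < lam) (h1 : lam < Real.pi) {u : ℝ} (hu : u ≠ 0) :
    ‖ba2a270_L (ba3x130_c lam) (ba3x130_z lam u)‖ = Real.exp (ba230_E (2 * lam) u) := by
  have hsq := ba3x130_normSq_L h0 h1 hu
  have h1c : 0 < Real.cosh (2 * u) - 1 := by
    have := Real.one_lt_cosh.2 (mul_ne_zero two_ne_zero hu)
    linarith
  have h2c : 0 < Real.cosh (2 * u) - Real.cos (2 * lam) := by
    linarith [Real.cos_le_one (2 * lam)]
  have hpos : 0 < (Real.cosh (2 * u) - Real.cos (2 * lam)) / (Real.cosh (2 * u) - 1) := div_pos h2c h1c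
  rw [Complex.normSq_eq_norm_sq] at hsq
  unfold ba230_E
  have hexp : Real.exp (1 / 2 * Real.log ((Real.cosh (2 * u) - Real.cos (2 * lam)) / (Real.cosh (2 * u) - 1))) ^ 2
      = (Real.cosh (2 * u) - Real.cos (2 * lam)) / (Real.cosh (2 * u) - 1) := by
    rw [← Real.exp_nat_mul]
    have : ((2 : ℕ) : ℝ) * (1 / 2 * Real.log ((Real.cosh (2 * u) - Real.cos (2 * lam)) / (Real.cosh (2 * u) - 1)))
        = Real.log ((Real.cosh (2 * u) - Real.cos (2 * lam)) / (Real.cosh (2 * u) - 1)) := by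
      push_cast; ring
    rw [this, Real.exp_log hpos]
  have := hsq.trans hexp.symm
  exact (pow_left_inj₀ (norm_nonneg _) (Real.exp_pos _).le two_ne_zero).1 this

/-! ## symmetric root sets -/

section Symm

variable {n : ℕ} {lam : ℝ} (h0 : 0 < lam) (h1 : lam < Real.pi) (u : Fin n → ℝ)
  (hsym : ∀ j, u (Fin.rev j) = -u j) (hne : ∀ j, u j ≠ 0)

include h0 h1 hsym hne

/-- `∏ M = ∏ L` for a symmetric root set without zero root. -/
theorem ba3x130_prod_M_eq :
    ∏ j, ba2a270_M (ba3x130_c lam) (ba3x130_z lam (u j)) = ∏ j, ba2a270_L (ba3x130_c lam) (ba3x130_z lam (u j)) := by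
  rw [← Equiv.prod_comp Fin.revPerm (fun j => ba2a270_M (ba3x130_c lam) (ba3x130_z lam (u j)))]
  refine Finset.prod_congr rfl fun j _ => ?_
  show ba2a270_M (ba3x130_c lam) (ba3x130_z lam (u (Fin.rev j))) = _
  rw [hsym j, ba3x130_M_neg h0 h1 (hne j)]

/-- the Bethe eigenvalue `∏ L + ∏ M = 2 ∏ L`. -/
theorem ba3x130_Lam_eq :
    (∏ j, ba2a270_L (ba3x130_c lam) (ba3x130_z lam (u j))) + ∏ j, ba2a270_M (ba3x130_c lam) (ba3x130_z lam (u j))
      = 2 * ∏ j, ba2a270_L (ba3x130_c lam) (ba3x130_z lam (u j)) := by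
  rw [ba3x130_prod_M_eq h0 h1 u hsym hne]; ring

/-- `∏ L` is real. -/
theorem ba3x130_prod_L_conj :
    (starRingEnd ℂ) (∏ j, ba2a270_L (ba3x130_c lam) (ba3x130_z lam (u j)))
      = ∏ j, ba2a270_L (ba3x130_c lam) (ba3x130_z lam (u j)) := by
  rw [map_prod, ← Equiv.prod_comp Fin.revPerm (fun j => ba2a270_L (ba3x130_c lam) (ba3x130_z lam (u j)))]
  refine Finset.prod_congr rfl fun j _ => ?_
  show _ = ba2a270_L (ba3x130_c lam) (ba3x130_z lam (u (Fin.rev j)))
  rw [hsym j, ba3x130_L_conj h0 h1 (hne j)]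

omit hsym in
/-- `|∏ L| = exp (∑ e0)`. -/
theorem ba3x130_norm_prod_L :
    ‖∏ j, ba2a270_L (ba3x130_c lam) (ba3x130_z lam (u j))‖ = Real.exp (∑ j, ba230_E (2 * lam) (u j)) := by
  rw [norm_prod, Real.exp_sum]
  exact Finset.prod_congr rfl fun j _ => ba3x130_norm_L h0 h1 (hne j)

/-- **If the real part of the Bethe eigenvalue is positive, it equals `2 exp (∑ e0 (u j))`.** -/
theorem ba3x130_Lam_re
    (hpos : 0 < ((∏ j, ba2a270_L (ba3x130_c lam) (ba3x130_z lam (u j)))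
      + ∏ j, ba2a270_M (ba3x130_c lam) (ba3x130_z lam (u j))).re) :
    ((∏ j, ba2a270_L (ba3x130_c lam) (ba3x130_z lam (u j)))
      + ∏ j, ba2a270_M (ba3x130_c lam) (ba3x130_z lam (u j))).re = 2 * Real.exp (∑ j, ba230_E (2 * lam) (u j)) := by
  rw [ba3x130_Lam_eq h0 h1 u hsym hne] at hpos ⊢
  set P := ∏ j, ba2a270_L (ba3x130_c lam) (ba3x130_z lam (u j)) with hP
  have hreal : P.im = 0 := Complex.conj_eq_iff_im.1 (ba3x130_prod_L_conj h0 h1 u hsym hne)
  have hnorm := ba3x130_norm_prod_L h0 h1 u hne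
  rw [← hP] at hnorm
  have h2 : (2 * P).re = 2 * P.re := by simp
  rw [h2] at hpos ⊢
  have hre : 0 < P.re := by linarith
  have : ‖P‖ = P.re := by
    have hP' : P = ((P.re : ℝ) : ℂ) := Complex.ext rfl (by simpa using hreal)
    rw [hP', Complex.norm_real, Real.norm_eq_abs, abs_of_pos (by simpa using hre)]
    simp
  rw [← hnorm, this]

end Symm

/-! ## the unfolding adapter: positive roots `w` `→` symmetric root set `y` -/

/-- `y = (-w_m, …, -w_0, w_0, …, w_m)`. -/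
noncomputable def ba3x130_unfold {m : ℕ} (w : Fin (m + 1) → ℝ) (j : Fin (2 * (m + 1))) : ℝ :=
  if h : (j : ℕ) < m + 1 then -w (Fin.rev ⟨j, h⟩) else w ⟨j - (m + 1), by omega⟩

theorem ba3x130_unfold_low {m : ℕ} (w : Fin (m + 1) → ℝ) (j : Fin (2 * (m + 1))) (h : (j : ℕ) < m + 1) :
    ba3x130_unfold w j = -w (Fin.rev ⟨j, h⟩) := by
  unfold ba3x130_unfold; rw [dif_pos h]

theorem ba3x130_unfold_high {m : ℕ} (w : Fin (m + 1) → ℝ) (j : Fin (2 * (m + 1))) (h : ¬ (j : ℕ) < m + 1) :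
    ba3x130_unfold w j = w ⟨j - (m + 1), by omega⟩ := by
  unfold ba3x130_unfold; rw [dif_neg h]

theorem ba3x130_sum_unfold {m : ℕ} (w : Fin (m + 1) → ℝ) (f : ℝ → ℝ) :
    ∑ j, f (ba3x130_unfold w j) = ∑ i, (f (-w i) + f (w i)) := by
  have h2 : (m + 1) + (m + 1) = 2 * (m + 1) := (two_mul _).symm
  calc ∑ j : Fin (2 * (m + 1)), f (ba3x130_unfold w j)
      = ∑ j : Fin ((m + 1) + (m + 1)), f (ba3x130_unfold w (Fin.cast h2 j)) :=
        (Fintype.sum_equiv (finCongr h2) _ _ (fun j => rfl)).symm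
    _ = ∑ i : Fin (m + 1), f (ba3x130_unfold w (Fin.cast h2 (Fin.castAdd (m + 1) i)))
        + ∑ i : Fin (m + 1), f (ba3x130_unfold w (Fin.cast h2 (Fin.natAdd (m + 1) i))) := Fin.sum_univ_add _
    _ = ∑ i : Fin (m + 1), f (-w (Fin.rev i)) + ∑ i : Fin (m + 1), f (w i) := by
        congr 1
        · refine Finset.sum_congr rfl fun i _ => ?_
          have hi : ((Fin.cast h2 (Fin.castAdd (m + 1) i) : Fin (2 * (m + 1))) : ℕ) < m + 1 := by
            have := i.2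
            simp only [Fin.val_cast, Fin.val_castAdd]
            omega
          rw [ba3x130_unfold_low w _ hi]
          rfl
        · refine Finset.sum_congr rfl fun i _ => ?_
          have hi : ¬ ((Fin.cast h2 (Fin.natAdd (m + 1) i) : Fin (2 * (m + 1))) : ℕ) < m + 1 := by
            simp only [Fin.val_cast, Fin.val_natAdd]
            omega
          rw [ba3x130_unfold_high w _ hi]
          congr 2
          apply Fin.ext
          simp
    _ = ∑ i : Fin (m + 1), f (-w i) + ∑ i : Fin (m + 1), f (w i) := by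
        rw [← Equiv.sum_comp Fin.revPerm (fun i => f (-w i))]
        rfl
    _ = ∑ i, (f (-w i) + f (w i)) := Finset.sum_add_distrib.symm

theorem ba3x130_unfold_rev {m : ℕ} (w : Fin (m + 1) → ℝ) (j : Fin (2 * (m + 1))) :
    ba3x130_unfold w (Fin.rev j) = -ba3x130_unfold w j := by
  have hj := j.2
  by_cases h : (j : ℕ) < m + 1
  · have h' : ¬ ((Fin.rev j : Fin (2 * (m + 1))) : ℕ) < m + 1 := by rw [Fin.val_rev]; omega
    rw [ba3x130_unfold_low w j h, ba3x130_unfold_high w _ h', neg_neg]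
    congr 1
    apply Fin.ext
    simp only [Fin.val_rev]
    omega
  · have h' : ((Fin.rev j : Fin (2 * (m + 1))) : ℕ) < m + 1 := by rw [Fin.val_rev]; omega
    rw [ba3x130_unfold_high w j h, ba3x130_unfold_low w _ h']
    congr 2
    apply Fin.ext
    simp only [Fin.val_rev]
    omega

theorem ba3x130_unfold_strictMono {m : ℕ} {w : Fin (m + 1) → ℝ} (hw : StrictMono w) (h0 : 0 < w 0) :
    StrictMono (ba3x130_unfold w) := by
  have hpos : ∀ i, 0 < w i := fun i => lt_of_lt_of_le h0 (hw.monotone (Fin.zero_le i))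
  intro j j' hjj
  have hlt : (j : ℕ) < (j' : ℕ) := hjj
  by_cases h : (j : ℕ) < m + 1
  · by_cases h' : (j' : ℕ) < m + 1
    · rw [ba3x130_unfold_low w j h, ba3x130_unfold_low w j' h', neg_lt_neg_iff]
      apply hw
      show ((Fin.rev ⟨j', h'⟩ : Fin (m + 1)) : ℕ) < ((Fin.rev ⟨j, h⟩ : Fin (m + 1)) : ℕ)
      simp only [Fin.val_rev]
      omega
    · rw [ba3x130_unfold_low w j h, ba3x130_unfold_high w j' h']
      linarith [hpos (Fin.rev ⟨j, h⟩), hpos ⟨j' - (m + 1), by omega⟩]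
  · have h' : ¬ (j' : ℕ) < m + 1 := by omega
    rw [ba3x130_unfold_high w j h, ba3x130_unfold_high w j' h']
    apply hw
    show (j : ℕ) - (m + 1) < (j' : ℕ) - (m + 1)
    omega

theorem ba3x130_unfold_ne_zero {m : ℕ} {w : Fin (m + 1) → ℝ} (hpos : ∀ i, 0 < w i) (j : Fin (2 * (m + 1))) :
    ba3x130_unfold w j ≠ 0 := by
  by_cases h : (j : ℕ) < m + 1
  · rw [ba3x130_unfold_low w j h]; exact (neg_neg_of_pos (hpos _)).ne
  · rw [ba3x130_unfold_high w j h]; exact (hpos _).ne'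

/-- **Unfolding**: the folded equations for `w` give the full logarithmic Bethe equations for `y`. -/
theorem ba3x130_unfold_eq {m : ℕ} {S Th : ℝ → ℝ} (hS : ∀ x, S (-x) = -S x) (hTh : ∀ x, Th (-x) = -Th x)
    (N : ℝ) (w : Fin (m + 1) → ℝ)
    (hG : ∀ i : Fin (m + 1), N * S (w i) - ∑ k, (Th (w i - w k) + Th (w i + w k)) = ((i : ℕ) : ℝ) + 1 / 2)
    (j : Fin (2 * (m + 1))) :
    N * S (ba3x130_unfold w j) - ∑ k, Th (ba3x130_unfold w j - ba3x130_unfold w k)
      = ((j : ℕ) : ℝ) - (((2 * (m + 1) : ℕ) : ℝ) - 1) / 2 := by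
  have hj := j.2
  rw [ba3x130_sum_unfold w (fun x => Th (ba3x130_unfold w j - x))]
  by_cases h : (j : ℕ) < m + 1
  · rw [ba3x130_unfold_low w j h]
    set i := (Fin.rev ⟨j, h⟩ : Fin (m + 1)) with hi
    have hiv : ((i : ℕ) : ℝ) = (m : ℝ) - (j : ℕ) := by
      have : (i : ℕ) = m - (j : ℕ) := by rw [hi, Fin.val_rev]; simp
      rw [this, Nat.cast_sub (by omega)]
    have hsum : ∑ k, (Th (-w i - -w k) + Th (-w i - w k)) = -∑ k, (Th (w i - w k) + Th (w i + w k)) := by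
      rw [← Finset.sum_neg_distrib]
      refine Finset.sum_congr rfl fun k _ => ?_
      have e1 : -w i - -w k = -(w i - w k) := by ring
      have e2 : -w i - w k = -(w i + w k) := by ring
      rw [e1, e2, hTh, hTh]; ring
    rw [hsum, hS]
    have := hG i
    push_cast
    rw [hiv] at this
    linarith
  · rw [ba3x130_unfold_high w j h]
    set i := (⟨j - (m + 1), by omega⟩ : Fin (m + 1)) with hi
    have hiv : ((i : ℕ) : ℝ) = ((j : ℕ) : ℝ) - ((m : ℝ) + 1) := by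
      have : (i : ℕ) = (j : ℕ) - (m + 1) := rfl
      rw [this, Nat.cast_sub (by omega)]
      push_cast; ring
    have hsum : ∑ k, (Th (w i - -w k) + Th (w i - w k)) = ∑ k, (Th (w i - w k) + Th (w i + w k)) := by
      refine Finset.sum_congr rfl fun k _ => ?_
      rw [sub_neg_eq_add]; ring
    rw [hsum]
    have := hG i
    push_cast
    rw [hiv] at this
    linarith

theorem ba3x130_unfold_analyticAt {m : ℕ} {w : ℝ → Fin (m + 1) → ℝ} {t : ℝ}
    (hw : ∀ i, AnalyticAt ℝ (fun s => w s i) t) (j : Fin (2 * (m + 1))) :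
    AnalyticAt ℝ (fun s => ba3x130_unfold (w s) j) t := by
  by_cases h : (j : ℕ) < m + 1
  · have : (fun s => ba3x130_unfold (w s) j) = fun s => -w s (Fin.rev ⟨j, h⟩) := by
      funext s; exact ba3x130_unfold_low (w s) j h
    rw [this]; exact (hw _).neg
  · have : (fun s => ba3x130_unfold (w s) j) = fun s => w s ⟨j - (m + 1), by omega⟩ := by
      funext s; exact ba3x130_unfold_high (w s) j h
    rw [this]; exact hw _

/-! ## limits, bounds, monotonicity, range of `phi` -/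

theorem ba3x130_ker_pos {a : ℝ} (h0 : 0 < a) (h1 : a < Real.pi) (u : ℝ) : 0 < ba230_ker a u := by
  unfold ba230_ker
  exact div_pos (Real.sin_pos_of_pos_of_lt_pi h0 h1)
    (mul_pos Real.pi_pos (ba230_den_pos h0 (by linarith [Real.pi_pos]) (2 * u)))

theorem ba3x130_ker_neg {a : ℝ} (h0 : Real.pi < a) (h1 : a < 2 * Real.pi) (u : ℝ) : ba230_ker a u < 0 := by
  unfold ba230_ker
  have hs : Real.sin a < 0 := by
    have h := Real.sin_pos_of_pos_of_lt_pi (x := a - Real.pi) (by linarith) (by linarith)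
    rw [Real.sin_sub_pi] at h
    linarith
  exact div_neg_of_neg_of_pos hs (mul_pos Real.pi_pos (ba230_den_pos (by linarith [Real.pi_pos]) h1 (2 * u)))

theorem ba3x130_phi_strictMono {a : ℝ} (h0 : 0 < a) (h1 : a < Real.pi) : StrictMono (ba3x130_phi a) := by
  have h1' : a < 2 * Real.pi := by linarith [Real.pi_pos]
  apply strictMono_of_deriv_pos
  intro u
  rw [(ba3x130_phi_hasDerivAt h0 h1' u).deriv]
  exact mul_pos (by positivity) (ba3x130_ker_pos h0 h1 u)

theorem ba3x130_phi_strictAnti {a : ℝ} (h0 : Real.pi < a) (h1 : a < 2 * Real.pi) : StrictAnti (ba3x130_phi a) := by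
  have h0' : 0 < a := by linarith [Real.pi_pos]
  apply strictAnti_of_deriv_neg
  intro u
  rw [(ba3x130_phi_hasDerivAt h0' h1 u).deriv]
  exact mul_neg_of_pos_of_neg (by positivity) (ba3x130_ker_neg h0 h1 u)

theorem ba3x130_arctan_cot {a : ℝ} (h0 : 0 < a) (h1 : a < 2 * Real.pi) :
    Real.arctan (Real.cos (a / 2) / Real.sin (a / 2)) = Real.pi / 2 - a / 2 := by
  have h : Real.cos (a / 2) / Real.sin (a / 2) = Real.tan (Real.pi / 2 - a / 2) := by
    rw [Real.tan_pi_div_two_sub, Real.tan_eq_sin_div_cos, inv_div]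
  rw [h, Real.arctan_tan (by linarith) (by linarith)]

theorem ba3x130_tendsto_tanh_atTop : Tendsto Real.tanh atTop (𝓝 1) := by
  have h1 : Tendsto (fun x : ℝ => Real.exp (-(2 * x))) atTop (𝓝 0) := by
    have : Tendsto (fun x : ℝ => 2 * x) atTop atTop := tendsto_id.const_mul_atTop (by norm_num)
    exact Real.tendsto_exp_neg_atTop_nhds_zero.comp this
  have h2 : Tendsto (fun x : ℝ => (1 - Real.exp (-(2 * x))) / (1 + Real.exp (-(2 * x)))) atTop (𝓝 ((1 - 0) / (1 + 0))) :=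
    (tendsto_const_nhds.sub h1).div (tendsto_const_nhds.add h1) (by norm_num)
  simp only [sub_zero, add_zero, div_one] at h2
  refine h2.congr fun x => ?_
  rw [Real.tanh_eq]
  have e : Real.exp (-(2 * x)) = Real.exp (-x) / Real.exp x := by
    rw [← Real.exp_sub]; congr 1; ring
  rw [e]
  have := (Real.exp_pos x).ne'
  field_simp

theorem ba3x130_phi_tendsto_atTop {a : ℝ} (h0 : 0 < a) (h1 : a < 2 * Real.pi) :
    Tendsto (ba3x130_phi a) atTop (𝓝 (Real.pi - a)) := by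
  have h : Tendsto (fun u => 2 * Real.arctan (Real.cos (a / 2) / Real.sin (a / 2) * Real.tanh u)) atTop
      (𝓝 (2 * Real.arctan (Real.cos (a / 2) / Real.sin (a / 2) * 1))) :=
    ((Real.continuous_arctan.tendsto _).comp (ba3x130_tendsto_tanh_atTop.const_mul _)).const_mul 2
  rw [mul_one, ba3x130_arctan_cot h0 h1] at h
  have e : 2 * (Real.pi / 2 - a / 2) = Real.pi - a := by ring
  rw [e] at h
  exact h

theorem ba3x130_phi_tendsto_atBot {a : ℝ} (h0 : 0 < a) (h1 : a < 2 * Real.pi) :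
    Tendsto (ba3x130_phi a) atBot (𝓝 (-(Real.pi - a))) := by
  have h := ((ba3x130_phi_tendsto_atTop h0 h1).comp tendsto_neg_atBot_atTop).neg
  refine h.congr fun u => ?_
  show -ba3x130_phi a (-u) = _
  rw [ba3x130_phi_neg, neg_neg]

theorem ba3x130_abs_phi_le {a : ℝ} (h0 : 0 < a) (h1 : a < 2 * Real.pi) (u : ℝ) :
    |ba3x130_phi a u| ≤ |Real.pi - a| := by
  have hcot := ba3x130_arctan_cot h0 h1
  set C := Real.cos (a / 2) / Real.sin (a / 2) with hC
  have habs : |C * Real.tanh u| ≤ |C| := by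
    rw [abs_mul]
    exact mul_le_of_le_one_right (abs_nonneg _) (Real.abs_tanh_lt_one u).le
  have harc : ∀ x : ℝ, |Real.arctan x| = Real.arctan |x| := by
    intro x
    rcases le_total 0 x with hx | hx
    · rw [abs_of_nonneg hx, abs_of_nonneg (Real.arctan_nonneg.2 hx)]
    · have h3 : Real.arctan x ≤ 0 := by
        have := Real.arctan_mono hx
        rwa [Real.arctan_zero] at this
      rw [abs_of_nonpos hx, Real.arctan_neg, abs_of_nonpos h3]
  have h2 : |Real.arctan (C * Real.tanh u)| ≤ |Real.arctan C| := by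
    rw [harc, harc]
    exact Real.arctan_mono habs
  unfold ba3x130_phi
  rw [← hC, abs_mul, abs_of_pos (by norm_num : (0 : ℝ) < 2)]
  rw [hcot] at h2
  have e : |Real.pi - a| = 2 * |Real.pi / 2 - a / 2| := by
    rw [← abs_of_pos (by norm_num : (0 : ℝ) < 2), ← abs_mul, abs_of_pos (by norm_num : (0 : ℝ) < 2)]
    congr 1; ring
  rw [e]
  linarith

theorem ba3x130_phi_lt {a : ℝ} (h0 : 0 < a) (h1 : a < Real.pi) (u : ℝ) : ba3x130_phi a u < Real.pi - a := by
  have h1' : a < 2 * Real.pi := by linarith [Real.pi_pos]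
  have h2 := ba3x130_abs_phi_le h0 h1' (u + 1)
  rw [abs_of_pos (by linarith : 0 < Real.pi - a)] at h2
  exact lt_of_lt_of_le (ba3x130_phi_strictMono h0 h1 (by linarith)) ((le_abs_self _).trans h2)

theorem ba3x130_neg_lt_phi {a : ℝ} (h0 : 0 < a) (h1 : a < Real.pi) (u : ℝ) : -(Real.pi - a) < ba3x130_phi a u := by
  have := ba3x130_phi_lt h0 h1 (-u)
  rw [ba3x130_phi_neg] at this
  linarith

/-- `phi a` maps `ℝ` onto `(-(π - a), π - a)` (`0 < a < π`). -/
theorem ba3x130_phi_surj {a : ℝ} (h0 : 0 < a) (h1 : a < Real.pi) {t : ℝ} (ht1 : -(Real.pi - a) < t)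
    (ht2 : t < Real.pi - a) : ∃ u, ba3x130_phi a u = t := by
  have h1' : a < 2 * Real.pi := by linarith [Real.pi_pos]
  have hcont := ba3x130_phi_continuous h0 h1'
  obtain ⟨u1, hu1⟩ := ((ba3x130_phi_tendsto_atBot h0 h1').eventually (gt_mem_nhds ht1)).exists
  obtain ⟨u2, hu2⟩ := ((ba3x130_phi_tendsto_atTop h0 h1').eventually (lt_mem_nhds ht2)).exists
  exact mem_range_of_exists_le_of_exists_ge hcont ⟨u1, hu1.le⟩ ⟨u2, hu2.le⟩

theorem ba3x130_phi_existsUnique {a : ℝ} (h0 : 0 < a) (h1 : a < Real.pi) {t : ℝ} (ht1 : -(Real.pi - a) < t)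
    (ht2 : t < Real.pi - a) : ∃! u, ba3x130_phi a u = t := by
  obtain ⟨u, hu⟩ := ba3x130_phi_surj h0 h1 ht1 ht2
  exact ⟨u, hu, fun v hv => (ba3x130_phi_strictMono h0 h1).injective (hv.trans hu.symm)⟩

theorem ba3x130_phi_pos {a : ℝ} (h0 : 0 < a) (h1 : a < Real.pi) {u : ℝ} (hu : 0 < u) : 0 < ba3x130_phi a u := by
  have := ba3x130_phi_strictMono h0 h1 hu
  rwa [ba3x130_phi_zero] at this

end Claimed.Agent.R292
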