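import Mathlib
import Claimed.Agent.R292.Bethe.Four230

/-!
# Rows 290 / 292, cell C1, unit BETHE, leaf C0d: POSITIVE DEFINITENESS OF THE KERNEL      (helper120; prefix `ba120_`)

* **`ba120_psd_of_fourier`** (Bochner, the easy half): `f : ℝ → ℝ` continuous, integrable, with integrable Fourier transform equal to a
  nonnegative real function: `0 ≤ ∑ j, ∑ k, f (y j - y k) * v j * v k`.
* **`ba120_ker_psd`** : `0 ≤ ∑ j, ∑ k, ba230_ker a (y j - y k) * v j * v k` for `0 < a ≤ π`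
  (`K = ba230_ker (2 lam)`, `0 < lam ≤ π / 2`, i.e. `√2 ≤ c < 2`): the hypothesis `hpsd` of `ba3x80_inj_pos`.
-/

set_option autoImplicit false
set_option linter.unusedSectionVars false

namespace Claimed.Agent.R292

open MeasureTheory Filter Topology Finset FourierTransform Complex

/-- **Bochner, the easy half.** -/
theorem ba120_psd_of_fourier {f : ℝ → ℝ} (hc : Continuous f) (hf : Integrable f) {g : ℝ → ℝ}
    (hg : ∀ ξ, 𝓕 (fun u : ℝ => ((f u : ℝ) : ℂ)) ξ = ((g ξ : ℝ) : ℂ)) (hg0 : ∀ ξ, 0 ≤ g ξ) (hgi : Integrable g)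
    {n : ℕ} (y v : Fin n → ℝ) : 0 ≤ ∑ j, ∑ k, f (y j - y k) * v j * v k := by
  have hF : 𝓕 (fun u : ℝ => ((f u : ℝ) : ℂ)) = fun ξ => ((g ξ : ℝ) : ℂ) := funext hg
  have hinv : ∀ x : ℝ, ((f x : ℝ) : ℂ) = ∫ ξ : ℝ, Complex.exp ((↑(2 * Real.pi * (ξ * x)) * Complex.I)) * ((g ξ : ℝ) : ℂ) := by
    intro x
    have h1 := MeasureTheory.Integrable.fourierInv_fourier_eq (f := fun u : ℝ => ((f u : ℝ) : ℂ)) hf.ofReal
      (by rw [hF]; exact hgi.ofReal) (v := x) (Complex.continuous_ofReal.comp hc).continuousAt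
    rw [hF, Real.fourierInv_eq'] at h1
    rw [← h1]
    refine integral_congr_ae (Eventually.of_forall fun ξ => ?_)
    simp [smul_eq_mul, mul_comm]
  -- the plane waves
  set A : ℝ → ℂ := fun ξ => ∑ j, ((v j : ℝ) : ℂ) * Complex.exp ((↑(2 * Real.pi * (ξ * y j)) * Complex.I)) with hA
  have hint : ∀ x : ℝ, Integrable fun ξ : ℝ => Complex.exp ((↑(2 * Real.pi * (ξ * x)) * Complex.I)) * ((g ξ : ℝ) : ℂ) := by
    intro x
    refine Integrable.mono' hgi ?_ (Eventually.of_forall fun ξ => ?_)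
    · refine AEStronglyMeasurable.mul ?_ hgi.ofReal.aestronglyMeasurable
      exact (by fun_prop : Continuous fun ξ : ℝ => Complex.exp ((↑(2 * Real.pi * (ξ * x)) * Complex.I))).aestronglyMeasurable
    · rw [norm_mul, Complex.norm_exp_ofReal_mul_I, one_mul, Complex.norm_real, Real.norm_eq_abs, abs_of_nonneg (hg0 ξ)]
  have hkey : (((∑ j, ∑ k, f (y j - y k) * v j * v k : ℝ)) : ℂ)
      = ∫ ξ : ℝ, (((Complex.normSq (A ξ) * g ξ : ℝ)) : ℂ) := by
    push_cast
    have h1 : ∀ j k : Fin n, ((f (y j - y k) : ℝ) : ℂ) * ((v j : ℝ) : ℂ) * ((v k : ℝ) : ℂ)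
        = ∫ ξ : ℝ, (Complex.exp ((↑(2 * Real.pi * (ξ * (y j - y k))) * Complex.I)) * ((g ξ : ℝ) : ℂ))
            * (((v j : ℝ) : ℂ) * ((v k : ℝ) : ℂ)) := by
      intro j k
      rw [integral_mul_const, ← hinv, mul_assoc]
    simp only [h1]
    have h2 : ∀ j : Fin n, ∑ k, ∫ ξ : ℝ, (Complex.exp ((↑(2 * Real.pi * (ξ * (y j - y k))) * Complex.I)) * ((g ξ : ℝ) : ℂ))
            * (((v j : ℝ) : ℂ) * ((v k : ℝ) : ℂ))
        = ∫ ξ : ℝ, ∑ k, (Complex.exp ((↑(2 * Real.pi * (ξ * (y j - y k))) * Complex.I)) * ((g ξ : ℝ) : ℂ))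
            * (((v j : ℝ) : ℂ) * ((v k : ℝ) : ℂ)) := fun j =>
      (integral_finsetSum _ fun k _ => (hint _).mul_const _).symm
    simp only [h2]
    rw [← integral_finsetSum _ fun j _ => integrable_finsetSum _ fun k _ => (hint _).mul_const _]
    refine integral_congr_ae (Eventually.of_forall fun ξ => ?_)
    simp only
    rw [← Complex.mul_conj, hA]
    simp only [map_sum, map_mul, Complex.conj_ofReal, ← Complex.exp_conj, Complex.conj_I]
    rw [Finset.sum_mul_sum, Finset.sum_mul]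
    refine Finset.sum_congr rfl fun j _ => ?_
    rw [Finset.sum_mul]
    refine Finset.sum_congr rfl fun k _ => ?_
    have he : Complex.exp ((↑(2 * Real.pi * (ξ * (y j - y k))) * Complex.I))
        = Complex.exp ((↑(2 * Real.pi * (ξ * y j)) * Complex.I)) * Complex.exp ((↑(2 * Real.pi * (ξ * y k)) * -Complex.I)) := by
      rw [← Complex.exp_add]
      congr 1
      push_cast
      ring
    rw [he]
    ring
  have hnn : 0 ≤ ∫ ξ : ℝ, Complex.normSq (A ξ) * g ξ :=
    integral_nonneg fun ξ => mul_nonneg (Complex.normSq_nonneg _) (hg0 ξ)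
  have hcast : (∫ ξ : ℝ, (((Complex.normSq (A ξ) * g ξ : ℝ)) : ℂ)) = (((∫ ξ : ℝ, Complex.normSq (A ξ) * g ξ : ℝ)) : ℂ) :=
    integral_ofReal
  rw [hcast] at hkey
  have := Complex.ofReal_injective hkey
  rw [this]
  exact hnn


/-- the Fourier transform of the kernel as a real function -/
noncomputable def ba120G (a w : ℝ) : ℝ :=
  if w = 0 then (Real.pi - a) / Real.pi else Real.sinh ((Real.pi - a) * w / 2) / Real.sinh (Real.pi * w / 2)

theorem ba120_ft_ker_eq {a : ℝ} (h0 : 0 < a) (h1 : a < 2 * Real.pi) (w : ℝ) :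
    ba230_ft (ba230_ker a) w = ((ba120G a w : ℝ) : ℂ) := by
  unfold ba120G
  split_ifs with hw
  · subst hw
    unfold ba230_ft
    simp only [Complex.ofReal_zero, mul_zero, zero_mul, Complex.exp_zero, one_mul]
    have hcast : (∫ u : ℝ, ((ba230_ker a u : ℝ) : ℂ)) = (((∫ u : ℝ, ba230_ker a u : ℝ)) : ℂ) := integral_ofReal
    rw [hcast, ba230_ker_integral h0 h1]
    congr 1
    have := Real.pi_ne_zero
    field_simp
  · have h := ba230_ft_ker h0 h1 w
    have hs : Real.sinh (Real.pi * w / 2) ≠ 0 := by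
      rw [Ne, Real.sinh_eq_zero]
      have := Real.pi_ne_zero
      intro h3
      apply hw
      have h4 : Real.pi * w = 0 := by linarith
      exact (mul_eq_zero.mp h4).resolve_left this
    have hsC : ((Real.sinh (Real.pi * w / 2) : ℝ) : ℂ) ≠ 0 := by exact_mod_cast hs
    rw [Complex.ofReal_div, eq_div_iff hsC, mul_comm]
    exact h

theorem ba120_G_nonneg {a : ℝ} (h1 : a ≤ Real.pi) (w : ℝ) : 0 ≤ ba120G a w := by
  unfold ba120G
  have hpi := Real.pi_pos
  split_ifs with hw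
  · exact div_nonneg (by linarith) hpi.le
  · rcases lt_or_gt_of_ne hw with h | h
    · refine div_nonneg_of_nonpos ?_ ?_
      · rw [Real.sinh_nonpos_iff]
        have : 0 ≤ (Real.pi - a) := by linarith
        nlinarith
      · rw [Real.sinh_nonpos_iff]
        nlinarith
    · refine div_nonneg ?_ ?_
      · rw [Real.sinh_nonneg_iff]
        have : 0 ≤ (Real.pi - a) := by linarith
        positivity
      · rw [Real.sinh_nonneg_iff]
        positivity

theorem ba120_G_even (a w : ℝ) : ba120G a (-w) = ba120G a w := by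
  unfold ba120G
  by_cases hw : w = 0
  · simp [hw]
  · have hw' : -w ≠ 0 := neg_ne_zero.mpr hw
    rw [if_neg hw, if_neg hw']
    have e1 : (Real.pi - a) * -w / 2 = -((Real.pi - a) * w / 2) := by ring
    have e2 : Real.pi * -w / 2 = -(Real.pi * w / 2) := by ring
    rw [e1, e2, Real.sinh_neg, Real.sinh_neg, neg_div_neg_eq]

theorem ba120_G_le_of_pos {a : ℝ} (h0 : 0 < a) {w : ℝ} (hw : 0 < w) :
    ba120G a w ≤ Real.exp (-(a / 2) * w) := by
  unfold ba120G
  rw [if_neg hw.ne']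
  have hpi := Real.pi_pos
  have hs : 0 < Real.sinh (Real.pi * w / 2) := Real.sinh_pos_iff.mpr (by positivity)
  rw [div_le_iff₀ hs, Real.sinh_eq, Real.sinh_eq]
  have e1 : Real.exp (-(a / 2) * w) * ((Real.exp (Real.pi * w / 2) - Real.exp (-(Real.pi * w / 2))) / 2)
      = (Real.exp ((Real.pi - a) * w / 2) - Real.exp (-((Real.pi + a) * w / 2))) / 2 := by
    rw [mul_div_assoc', mul_sub, ← Real.exp_add, ← Real.exp_add]
    congr 3 <;> ring
  rw [e1]
  have h2 : Real.exp (-((Real.pi + a) * w / 2)) ≤ Real.exp (-((Real.pi - a) * w / 2)) := by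
    apply Real.exp_le_exp.mpr
    nlinarith
  linarith

theorem ba120_G_le {a : ℝ} (h0 : 0 < a) (w : ℝ) :
    ba120G a w ≤ Real.exp (-(a / 2) * |w|) := by
  rcases lt_trichotomy w 0 with h | h | h
  · rw [← ba120_G_even, abs_of_neg h]
    exact ba120_G_le_of_pos h0 (neg_pos.mpr h)
  · subst h
    unfold ba120G
    simp only [if_true, abs_zero, mul_zero, Real.exp_zero]
    rw [div_le_one Real.pi_pos]
    linarith
  · rw [abs_of_pos h]
    exact ba120_G_le_of_pos h0 h

/-- **LEAF C0d: the kernel is positive definite** for `0 < a ≤ π`. -/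
theorem ba120_ker_psd {a : ℝ} (h0 : 0 < a) (h1 : a ≤ Real.pi) {n : ℕ} (y v : Fin n → ℝ) :
    0 ≤ ∑ j, ∑ k, ba230_ker a (y j - y k) * v j * v k := by
  have hpi := Real.pi_pos
  have h2 : a < 2 * Real.pi := by linarith
  have hF : ∀ ξ : ℝ, 𝓕 (fun u : ℝ => ((ba230_ker a u : ℝ) : ℂ)) ξ = ((ba120G a (-(2 * Real.pi * ξ)) : ℝ) : ℂ) := by
    intro ξ
    rw [← ba120_ft_ker_eq h0 h2, ba230_ft_eq_fourier]
    field_simp
  refine ba120_psd_of_fourier (ba230_ker_continuous h0 h2) (ba230_ker_integrable h0 h2) hF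
    (fun ξ => ba120_G_nonneg h1 _) ?_ y v
  have hcont : Continuous fun ξ : ℝ => ba120G a (-(2 * Real.pi * ξ)) := by
    have h3 : Continuous fun ξ : ℝ => (ba230_ft (ba230_ker a) (-(2 * Real.pi * ξ))).re :=
      Complex.continuous_re.comp ((ba230_ft_continuous (ba230_ker_integrable h0 h2)).comp (by fun_prop))
    refine h3.congr fun ξ => ?_
    rw [ba120_ft_ker_eq h0 h2, Complex.ofReal_re]
  refine Integrable.mono' (ba230_integrable_exp_abs (κ := a * Real.pi) (by positivity)) hcont.aestronglyMeasurable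
    (Eventually.of_forall fun ξ => ?_)
  rw [Real.norm_eq_abs, abs_of_nonneg (ba120_G_nonneg h1 _)]
  refine (ba120_G_le h0 _).trans (le_of_eq ?_)
  congr 1
  rw [abs_neg, abs_mul, abs_of_pos (by positivity : (0 : ℝ) < 2 * Real.pi)]
  ring

end Claimed.Agent.R292
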