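import Claimed.Agent.R292.Bethe.BA3c80
import Claimed.Agent.R292.Bethe.Ba3Roots130
import Claimed.Agent.R292.Bethe.Psd120

/-!
# Row 292, unit BETHE, block BA3 (helper80), Part I: the instance

* `ba3x80_extend`: a continuous branch of nondegenerate zeros on `[a,b]`, analytic inside, can be
  redefined outside `[a,b]` so that it is analytic at every point of the closed segment.
* `ba3x80_F_reflect`: reflection symmetry of the Bethe map.
* the kernels `S = phi / 2π`, `Θ = phi (2 ·) / 2π` of `Ba3Roots130`, `s, K = ba230_ker`.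
-/

set_option autoImplicit false

namespace Claimed.Agent.R292

open Set Filter Topology MeasureTheory
open scoped ContDiff

section Extend

variable {E : Type*} [NormedAddCommGroup E] [NormedSpace ℝ E] [FiniteDimensional ℝ E]

/-- one-sided identification of a continuous branch of zeros with the implicit branch. -/
theorem ba3x80_branch_eq (F : ℝ × E → E) (J : Set ℝ) (y : ℝ → E) (μ0 : ℝ) (hμ0 : μ0 ∈ J)
    (hz : ∀ μ ∈ J, F (μ, y μ) = 0) (hyc : ContinuousWithinAt y J μ0)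
    (g : ℝ → E) (hgu : ∀ᶠ p in 𝓝 (μ0, y μ0), F p = F (μ0, y μ0) → p.2 = g p.1) :
    ∀ᶠ μ in 𝓝[J] μ0, y μ = g μ := by
  have h1 : Tendsto (fun μ : ℝ => ((μ, y μ) : ℝ × E)) (𝓝[J] μ0) (𝓝 (μ0, y μ0)) :=
    (tendsto_id.mono_left nhdsWithin_le_nhds).prodMk_nhds hyc
  have h2 := h1.eventually hgu
  filter_upwards [h2, self_mem_nhdsWithin] with μ h3 hμ
  exact h3 (by rw [hz μ hμ, hz μ0 hμ0])

theorem ba3x80_extend {a b : ℝ} (hab : a < b) (F : ℝ × E → E) (y : ℝ → E)
    (hz : ∀ μ ∈ Icc a b, F (μ, y μ) = 0) (hyc : ContinuousOn y (Icc a b))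
    (hya : ∀ μ ∈ Ioo a b, ContDiffAt ℝ ω y μ)
    (hFa : ContDiffAt ℝ ω F (a, y a)) (hia : ∀ v : E, fderiv ℝ F (a, y a) (0, v) = 0 → v = 0)
    (hFb : ContDiffAt ℝ ω F (b, y b)) (hib : ∀ v : E, fderiv ℝ F (b, y b) (0, v) = 0 → v = 0) :
    ∃ z : ℝ → E, (∀ μ ∈ Icc a b, z μ = y μ) ∧ ∀ μ ∈ Icc a b, ContDiffAt ℝ ω z μ := by
  classical
  have ha : a ∈ Icc a b := ⟨le_rfl, hab.le⟩
  have hb : b ∈ Icc a b := ⟨hab.le, le_rfl⟩
  obtain ⟨ga, hga, hga0, -, hgau⟩ := ba3x80_branch_local F a (y a) hFa hia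
  obtain ⟨gb, hgb, hgb0, -, hgbu⟩ := ba3x80_branch_local F b (y b) hFb hib
  have ea := ba3x80_branch_eq F (Icc a b) y a ha hz (hyc a ha) ga hgau
  have eb := ba3x80_branch_eq F (Icc a b) y b hb hz (hyc b hb) gb hgbu
  refine ⟨fun μ => if μ < a then ga μ else if b < μ then gb μ else y μ, ?_, ?_⟩
  · intro μ hμ
    have h1 : ¬ μ < a := not_lt.2 hμ.1
    have h2 : ¬ b < μ := not_lt.2 hμ.2
    simp [h1, h2]
  · intro μ hμ
    rcases eq_or_lt_of_le hμ.1 with h1 | h1
    · -- the left end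
      subst h1
      refine hga.congr_of_eventuallyEq ?_
      rw [eventually_nhdsWithin_iff] at ea
      filter_upwards [ea, Iio_mem_nhds hab] with ν h2 h3
      by_cases h4 : ν < a
      · simp [h4]
      · have h5 : ¬ b < ν := not_lt.2 (le_of_lt h3)
        simp only [h4, h5, if_false]
        exact h2 ⟨not_lt.1 h4, le_of_lt h3⟩
    · rcases eq_or_lt_of_le hμ.2 with h2 | h2
      · subst h2
        refine hgb.congr_of_eventuallyEq ?_
        rw [eventually_nhdsWithin_iff] at eb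
        filter_upwards [eb, Ioi_mem_nhds hab] with ν h2 h3
        have h4 : ¬ ν < a := not_lt.2 (le_of_lt h3)
        by_cases h5 : μ < ν
        · simp [h4, h5]
        · simp only [h4, h5, if_false]
          exact h2 ⟨le_of_lt h3, not_lt.1 h5⟩
      · refine (hya μ ⟨h1, h2⟩).congr_of_eventuallyEq ?_
        filter_upwards [Ioo_mem_nhds h1 h2] with ν hν
        have h4 : ¬ ν < a := not_lt.2 hν.1.le
        have h5 : ¬ b < ν := not_lt.2 hν.2.le
        simp [h4, h5]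

end Extend

section Reflect

variable {n : ℕ}

/-- reflection symmetry of the Bethe map. -/
theorem ba3x80_F_reflect (Lr : ℝ) (S Θ : ℝ → ℝ → ℝ) (I : Fin n → ℝ) (μ : ℝ)
    (hS : ∀ u, S μ (-u) = -S μ u) (hΘ : ∀ u, Θ μ (-u) = -Θ μ u)
    (hI : ∀ j, I (Fin.rev j) = -I j) (y : Fin n → ℝ) (j : Fin n) :
    ba3x80_F Lr S Θ I (μ, fun i => -y (Fin.rev i)) j = -ba3x80_F Lr S Θ I (μ, y) (Fin.rev j) := by
  simp only [ba3x80_F]
  have h1 : ∑ k, Θ μ (-y (Fin.rev j) - -y (Fin.rev k)) = -∑ k, Θ μ (y (Fin.rev j) - y k) := by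
    rw [← Equiv.sum_comp Fin.revPerm (fun k => Θ μ (y (Fin.rev j) - y k)), ← Finset.sum_neg_distrib]
    apply Finset.sum_congr rfl
    intro k _
    rw [← hΘ]
    congr 1
    simp only [Fin.revPerm_apply]
    ring
  rw [h1, hS, hI]
  ring

theorem ba3x80_rho_reflect (Lr : ℝ) (s K : ℝ → ℝ → ℝ) (μ : ℝ)
    (hs : ∀ u, s μ (-u) = s μ u) (hK : ∀ u, K μ (-u) = K μ u) (y : Fin n → ℝ) (u : ℝ) :
    ba3x80_rho Lr s K μ (fun i => -y (Fin.rev i)) u = ba3x80_rho Lr s K μ y (-u) := by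
  simp only [ba3x80_rho]
  rw [hs]
  congr 1
  rw [← Equiv.sum_comp Fin.revPerm (fun k => K μ (-u - y k))]
  apply Finset.sum_congr rfl
  intro k _
  rw [← hK]
  congr 1
  simp only [Fin.revPerm_apply]
  ring

end Reflect

section Kernels

/-- momentum / `2π`: `S t u = arctan (cot (t/2) tanh u) / π`. -/
noncomputable def ba3x80_S (t u : ℝ) : ℝ := ba3x130_phi t u / (2 * Real.pi)

/-- two-body phase / `2π`: `Θ t u = arctan (cot t tanh u) / π`. -/
noncomputable def ba3x80_Th (t u : ℝ) : ℝ := ba3x130_phi (2 * t) u / (2 * Real.pi)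

theorem ba3x80_kernels_eqns_cite (t u : ℝ) :
    ba3x80_S t u = Real.arctan (Real.cos (t / 2) / Real.sin (t / 2) * Real.tanh u) / Real.pi ∧
    ba3x80_Th t u = Real.arctan (Real.cos t / Real.sin t * Real.tanh u) / Real.pi := by
  have h1 := @ba3x80_S.eq_1
  have h2 := @ba3x80_Th.eq_1
  have hpi := Real.pi_pos.ne'
  constructor
  · unfold ba3x80_S ba3x130_phi
    field_simp
  · unfold ba3x80_Th ba3x130_phi
    have : 2 * t / 2 = t := by ring
    rw [this]
    field_simp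

theorem ba3x80_S_contDiffAt {t : ℝ} (h0 : 0 < t) (h1 : t < 2 * Real.pi) (u : ℝ) :
    ContDiffAt ℝ ω (fun q : ℝ × ℝ => ba3x80_S q.1 q.2) (t, u) :=
  (ba3x130_phi_contDiffAt h0 h1 u).div_const _

theorem ba3x80_Th_contDiffAt {t : ℝ} (h0 : 0 < t) (h1 : t < Real.pi) (u : ℝ) :
    ContDiffAt ℝ ω (fun q : ℝ × ℝ => ba3x80_Th q.1 q.2) (t, u) := by
  have h2 : ContDiffAt ℝ ω (fun q : ℝ × ℝ => ((2 * q.1, q.2) : ℝ × ℝ)) (t, u) :=
    (contDiffAt_const.mul contDiffAt_fst).prodMk contDiffAt_snd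
  have h3 : ContDiffAt ℝ ω (fun p : ℝ × ℝ => ba3x130_phi p.1 p.2) (2 * t, u) :=
    ba3x130_phi_contDiffAt (by linarith) (by linarith) u
  exact (ContDiffAt.comp (t, u) h3 h2).div_const _

theorem ba3x80_S_hasDerivAt {t : ℝ} (h0 : 0 < t) (h1 : t < 2 * Real.pi) (u : ℝ) :
    HasDerivAt (ba3x80_S t) (ba230_ker t u) u := by
  have h := (ba3x130_phi_hasDerivAt h0 h1 u).div_const (2 * Real.pi)
  have hpi := Real.pi_pos.ne'
  have e : 2 * Real.pi * ba230_ker t u / (2 * Real.pi) = ba230_ker t u := by field_simp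
  rw [e] at h
  exact h

theorem ba3x80_Th_hasDerivAt {t : ℝ} (h0 : 0 < t) (h1 : t < Real.pi) (u : ℝ) :
    HasDerivAt (ba3x80_Th t) (ba230_ker (2 * t) u) u := by
  have h := (ba3x130_phi_hasDerivAt (a := 2 * t) (by linarith) (by linarith) u).div_const
    (2 * Real.pi)
  have hpi := Real.pi_pos.ne'
  have e : 2 * Real.pi * ba230_ker (2 * t) u / (2 * Real.pi) = ba230_ker (2 * t) u := by
    field_simp
  rw [e] at h
  exact h

theorem ba3x80_S_neg (t u : ℝ) : ba3x80_S t (-u) = -ba3x80_S t u := by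
  unfold ba3x80_S
  rw [ba3x130_phi_neg]
  ring

theorem ba3x80_Th_neg (t u : ℝ) : ba3x80_Th t (-u) = -ba3x80_Th t u := by
  unfold ba3x80_Th
  rw [ba3x130_phi_neg]
  ring

theorem ba3x80_ker_continuousAt {a : ℝ} (h0 : 0 < a) (h1 : a < 2 * Real.pi) (u : ℝ) :
    ContinuousAt (fun q : ℝ × ℝ => ba230_ker q.1 q.2) (a, u) := by
  unfold ba230_ker
  have hden : Real.pi * (Real.cosh (2 * u) - Real.cos a) ≠ 0 :=
    (ba230_ker_den_pos h0 h1 u).ne'
  apply ContinuousAt.div
  · fun_prop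
  · fun_prop
  · exact hden

theorem ba3x80_ker2_continuousAt {t : ℝ} (h0 : 0 < t) (h1 : t < Real.pi) (u : ℝ) :
    ContinuousAt (fun q : ℝ × ℝ => ba230_ker (2 * q.1) q.2) (t, u) :=
  ContinuousAt.comp (f := fun q : ℝ × ℝ => ((2 * q.1, q.2) : ℝ × ℝ)) (x := (t, u))
    (ba3x80_ker_continuousAt (a := 2 * t) (by linarith) (by linarith) u) (by fun_prop)

/-- uniform bound of the kernel: `|ker a u| ≤ 1 / (π (1 - cos a0))` for `a0 ≤ a ≤ 2π - a0`. -/
theorem ba3x80_ker_abs_le {a0 a : ℝ} (h0 : 0 < a0) (h1 : a0 ≤ a) (h2 : a ≤ Real.pi) (u : ℝ) :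
    |ba230_ker a u| ≤ 1 / (Real.pi * (1 - Real.cos a0)) := by
  have hpi := Real.pi_pos
  have hc : Real.cos a ≤ Real.cos a0 :=
    Real.cos_le_cos_of_nonneg_of_le_pi h0.le h2 h1
  have hc0 : Real.cos a0 < 1 := by
    have := Real.cos_lt_cos_of_nonneg_of_le_pi (le_refl (0 : ℝ)) (h1.trans h2) h0
    simpa using this
  have hch : 1 ≤ Real.cosh (2 * u) := Real.one_le_cosh _
  have hd0 : 0 < Real.pi * (1 - Real.cos a0) := mul_pos hpi (by linarith)
  have hd : Real.pi * (1 - Real.cos a0) ≤ Real.pi * (Real.cosh (2 * u) - Real.cos a) :=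
    mul_le_mul_of_nonneg_left (by linarith) hpi.le
  unfold ba230_ker
  rw [abs_div, abs_of_pos (lt_of_lt_of_le hd0 hd)]
  exact div_le_div₀ zero_le_one (Real.abs_sin_le_one a) hd0 hd

/-- the kernel is antitone in `|u|` when `sin a ≥ 0`. -/
theorem ba3x80_ker_anti {a : ℝ} (h0 : 0 < a) (h1 : a ≤ Real.pi) {u v : ℝ} (h : |u| ≤ |v|) :
    ba230_ker a v ≤ ba230_ker a u := by
  have hpi := Real.pi_pos
  have hs : 0 ≤ Real.sin a := Real.sin_nonneg_of_nonneg_of_le_pi h0.le h1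
  have hcc : Real.cosh (2 * u) ≤ Real.cosh (2 * v) := by
    rw [Real.cosh_le_cosh, abs_mul, abs_mul]
    exact mul_le_mul_of_nonneg_left h (abs_nonneg _)
  have hd0 := ba230_ker_den_pos h0 (by linarith : a < 2 * Real.pi) u
  unfold ba230_ker
  apply div_le_div_of_nonneg_left hs hd0
  exact mul_le_mul_of_nonneg_left (by linarith) hpi.le

end Kernels

section Variation

/-- variation function of an even function which is antitone in `|x|`. -/
theorem ba3x80_variation (K : ℝ → ℝ) (hanti : ∀ u v : ℝ, |u| ≤ |v| → K v ≤ K u) :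
    ∃ W : ℝ → ℝ, Monotone W ∧ (∀ v v', v ≤ v' → |K v' - K v| ≤ W v' - W v) ∧
      ∀ v v', W v' - W v ≤ 2 * (K 0 - K v) + 2 * (K 0 - K v') := by
  classical
  have h0 : ∀ x, K x ≤ K 0 := fun x => hanti 0 x (by simp)
  refine ⟨fun x => if x ≤ 0 then -(K 0 - K x) else K 0 - K x, ?_, ?_, ?_⟩
  · intro v v' hvv
    by_cases h1 : v ≤ 0 <;> by_cases h2 : v' ≤ 0
    · simp only [h1, h2, if_true]
      have := hanti v' v (by rw [abs_of_nonpos h2, abs_of_nonpos h1]; linarith)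
      linarith
    · simp only [h1, h2, if_true, if_false]
      linarith [h0 v, h0 v']
    · exact absurd (hvv.trans h2) h1
    · simp only [h1, h2, if_false]
      rw [not_le] at h1 h2
      have := hanti v v' (by rw [abs_of_pos h2, abs_of_pos h1]; exact hvv)
      linarith
  · intro v v' hvv
    by_cases h1 : v ≤ 0 <;> by_cases h2 : v' ≤ 0
    · simp only [h1, h2, if_true]
      have := hanti v' v (by rw [abs_of_nonpos h2, abs_of_nonpos h1]; linarith)
      rw [abs_of_nonneg (by linarith)]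
      linarith
    · simp only [h1, h2, if_true, if_false]
      rw [abs_le]
      constructor <;> linarith [h0 v, h0 v']
    · exact absurd (hvv.trans h2) h1
    · simp only [h1, h2, if_false]
      rw [not_le] at h1 h2
      have := hanti v v' (by rw [abs_of_pos h2, abs_of_pos h1]; exact hvv)
      rw [abs_of_nonpos (by linarith)]
      linarith
  · intro v v'
    by_cases h1 : v ≤ 0 <;> by_cases h2 : v' ≤ 0 <;> simp only [h1, h2, if_true, if_false] <;>
      linarith [h0 v, h0 v']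

end Variation

section Box

/-- concavity of `arctan` through the origin. -/
theorem ba3x80_arctan_concave {x κ : ℝ} (hx0 : 0 ≤ x) (hx1 : x ≤ 1) (hκ : 0 ≤ κ) :
    x * Real.arctan κ ≤ Real.arctan (κ * x) := by
  have hmono : MonotoneOn (fun k : ℝ => Real.arctan (k * x) - x * Real.arctan k) (Ici 0) := by
    apply monotoneOn_of_deriv_nonneg (convex_Ici 0)
    · have : Continuous (fun k : ℝ => Real.arctan (k * x) - x * Real.arctan k) := by
        have h1 : Continuous fun k : ℝ => Real.arctan (k * x) :=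
          Real.continuous_arctan.comp (continuous_id.mul continuous_const)
        exact h1.sub (continuous_const.mul Real.continuous_arctan)
      exact this.continuousOn
    · intro k _
      have h1 : HasDerivAt (fun k : ℝ => Real.arctan (k * x)) (1 / (1 + (k * x) ^ 2) * x) k := by
        have := ((hasDerivAt_id k).mul_const x).arctan
        simpa using this
      exact ((h1.sub ((Real.hasDerivAt_arctan k).const_mul x)).differentiableAt).differentiableWithinAt
    · intro k hk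
      have h1 : HasDerivAt (fun k : ℝ => Real.arctan (k * x)) (1 / (1 + (k * x) ^ 2) * x) k := by
        have := ((hasDerivAt_id k).mul_const x).arctan
        simpa using this
      have hd : HasDerivAt (fun k : ℝ => Real.arctan (k * x) - x * Real.arctan k)
          (1 / (1 + (k * x) ^ 2) * x - x * (1 / (1 + k ^ 2))) k :=
        h1.sub ((Real.hasDerivAt_arctan k).const_mul x)
      rw [hd.deriv]
      have h2 : 1 / (1 + k ^ 2) ≤ 1 / (1 + (k * x) ^ 2) := by
        apply one_div_le_one_div_of_le (by positivity)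
        have : (k * x) ^ 2 ≤ k ^ 2 := by
          rw [mul_pow]
          have hx2 : x ^ 2 ≤ 1 := by nlinarith
          nlinarith [sq_nonneg k]
        linarith
      have h3 := mul_le_mul_of_nonneg_right h2 hx0
      linarith
  have := hmono (Set.mem_Ici.2 (le_refl (0 : ℝ))) (Set.mem_Ici.2 hκ) hκ
  simp only [zero_mul, Real.arctan_zero, mul_zero, sub_zero] at this
  linarith

/-- `arctan (cot a) = π/2 - a` for `0 < a < π`. -/
theorem ba3x80_arctan_cot {a : ℝ} (h0 : 0 < a) (h1 : a < Real.pi) :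
    Real.arctan (Real.cos a / Real.sin a) = Real.pi / 2 - a := by
  have h2 : Real.cos a / Real.sin a = Real.tan (Real.pi / 2 - a) := by
    rw [Real.tan_pi_div_two_sub, Real.tan_eq_sin_div_cos, inv_div]
  rw [h2, Real.arctan_tan (by linarith) (by linarith)]

/-- the levels `j - (n-1)/2`. -/
noncomputable def ba3x80_I (n : ℕ) (j : Fin n) : ℝ := ((j : ℕ) : ℝ) - ((n : ℝ) - 1) / 2

theorem ba3x80_I_eqns_cite (n : ℕ) (j : Fin n) :
    ba3x80_I n j = ((j : ℕ) : ℝ) - ((n : ℝ) - 1) / 2 := by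
  have h1 := @ba3x80_I.eq_1
  rfl

theorem ba3x80_I_succ {m : ℕ} (k : Fin m) :
    ba3x80_I (m + 1) k.succ = ba3x80_I (m + 1) k.castSucc + 1 := by
  simp only [ba3x80_I, Fin.val_succ, Fin.val_castSucc]
  push_cast
  ring

theorem ba3x80_I_rev {n : ℕ} (j : Fin n) : ba3x80_I n (Fin.rev j) = -ba3x80_I n j := by
  simp only [ba3x80_I, Fin.val_rev]
  have h : (j : ℕ) + 1 ≤ n := j.2
  rw [Nat.cast_sub h]
  push_cast
  ring

theorem ba3x80_Th_le {t : ℝ} (h0 : 0 < t) (h1 : t ≤ Real.pi / 2) (x : ℝ) :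
    ba3x80_Th t x ≤ (Real.pi / 2 - t) / Real.pi := by
  have hpi := Real.pi_pos
  rw [(ba3x80_kernels_eqns_cite t x).2]
  apply div_le_div_of_nonneg_right _ hpi.le
  rw [← ba3x80_arctan_cot h0 (by linarith)]
  apply Real.arctan_strictMono.monotone
  have hc : 0 ≤ Real.cos t / Real.sin t :=
    div_nonneg (Real.cos_nonneg_of_neg_pi_div_two_le_of_le (by linarith) h1)
      (Real.sin_nonneg_of_nonneg_of_le_pi h0.le (by linarith))
  have := (Real.tanh_lt_one x).le
  nlinarith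

theorem ba3x80_Th_zero (t : ℝ) : ba3x80_Th t 0 = 0 := by
  unfold ba3x80_Th
  rw [ba3x130_phi_zero, zero_div]

/-- upper bound of the largest root, repulsive sign. -/
theorem ba3x80_top_pos {m N : ℕ} {t x0 : ℝ} (ht0 : 0 < t) (ht1 : t ≤ Real.pi / 2)
    (hx0 : 2 * (m : ℝ) ≤ x0 * N) (hx1 : x0 < 1) (hN : 0 < N) (y : Fin (m + 1) → ℝ)
    (hz : ba3x80_F N ba3x80_S ba3x80_Th (ba3x80_I (m + 1)) (t, y) = 0) :
    y (Fin.last m) ≤ Real.artanh x0 := by
  have hpi := Real.pi_pos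
  have hNr : (0 : ℝ) < N := by exact_mod_cast hN
  have hx00 : 0 ≤ x0 := by
    by_contra h
    rw [not_le] at h
    have : x0 * N < 0 := mul_neg_of_neg_of_pos h hNr
    have hm : (0 : ℝ) ≤ m := Nat.cast_nonneg m
    linarith
  have h1 := congrFun hz (Fin.last m)
  simp only [ba3x80_F, Pi.zero_apply] at h1
  have hsum : ∑ k, ba3x80_Th t (y (Fin.last m) - y k) ≤ m * ((Real.pi / 2 - t) / Real.pi) := by
    rw [Fin.sum_univ_castSucc, sub_self, ba3x80_Th_zero, add_zero]
    have := Finset.sum_le_card_nsmul (Finset.univ : Finset (Fin m))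
      (fun k => ba3x80_Th t (y (Fin.last m) - y k.castSucc)) ((Real.pi / 2 - t) / Real.pi)
      (fun k _ => ba3x80_Th_le ht0 ht1 _)
    simpa using this
  have hI : ba3x80_I (m + 1) (Fin.last m) = (m : ℝ) / 2 := by
    simp only [ba3x80_I, Fin.val_last]
    push_cast
    ring
  rw [hI, (ba3x80_kernels_eqns_cite t _).1] at h1
  set κ := Real.cos (t / 2) / Real.sin (t / 2) with hκ
  set X := Real.tanh (y (Fin.last m)) with hX
  have hκa : Real.arctan κ = Real.pi / 2 - t / 2 := ba3x80_arctan_cot (by linarith) (by linarith)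
  have hκ0 : 0 ≤ κ :=
    div_nonneg (Real.cos_nonneg_of_neg_pi_div_two_le_of_le (by linarith) (by linarith))
      (Real.sin_nonneg_of_nonneg_of_le_pi (by linarith) (by linarith))
  have h2 : (N : ℝ) * Real.arctan (κ * X) ≤ 2 * m * Real.arctan κ := by
    have h3 : (N : ℝ) * (Real.arctan (κ * X) / Real.pi)
        ≤ (m : ℝ) / 2 + m * ((Real.pi / 2 - t) / Real.pi) := by linarith
    have h4 : (N : ℝ) * (Real.arctan (κ * X) / Real.pi) * Real.pi
        ≤ ((m : ℝ) / 2 + m * ((Real.pi / 2 - t) / Real.pi)) * Real.pi :=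
      mul_le_mul_of_nonneg_right h3 hpi.le
    have e1 : (N : ℝ) * (Real.arctan (κ * X) / Real.pi) * Real.pi
        = N * Real.arctan (κ * X) := by field_simp
    have e2 : ((m : ℝ) / 2 + m * ((Real.pi / 2 - t) / Real.pi)) * Real.pi
        = 2 * m * (Real.pi / 2 - t / 2) := by field_simp; ring
    rw [e1, e2] at h4
    rw [hκa]
    exact h4
  have hXle : X ≤ x0 := by
    by_cases hXpos : X ≤ 0
    · exact hXpos.trans hx00
    · rw [not_le] at hXpos
      have h5 := ba3x80_arctan_concave hXpos.le (Real.tanh_lt_one _).le hκ0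
      have hapos : 0 < Real.arctan κ := by rw [hκa]; linarith
      have h6 : (N : ℝ) * (X * Real.arctan κ) ≤ 2 * m * Real.arctan κ :=
        (mul_le_mul_of_nonneg_left h5 hNr.le).trans h2
      have h7 : (N : ℝ) * X ≤ 2 * m := by
        have : ((N : ℝ) * X) * Real.arctan κ ≤ (2 * m) * Real.arctan κ := by linarith
        exact le_of_mul_le_mul_right this hapos
      have h8 : (N : ℝ) * X ≤ N * x0 := by linarith
      exact le_of_mul_le_mul_left h8 hNr
  have := Real.artanh_le_artanh (Real.neg_one_lt_tanh (y (Fin.last m))) hx1 hXle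
  rwa [Real.artanh_tanh] at this

/-- the a priori box, repulsive sign. -/
theorem ba3x80_box_pos {m N : ℕ} {t x0 : ℝ} (ht0 : 0 < t) (ht1 : t ≤ Real.pi / 2)
    (hx0 : 2 * (m : ℝ) ≤ x0 * N) (hx1 : x0 < 1) (hN : 0 < N) (y : Fin (m + 1) → ℝ)
    (hy : Monotone y)
    (hz : ba3x80_F N ba3x80_S ba3x80_Th (ba3x80_I (m + 1)) (t, y) = 0) (j : Fin (m + 1)) :
    |y j| ≤ Real.artanh x0 := by
  have h1 := ba3x80_top_pos ht0 ht1 hx0 hx1 hN y hz
  have hz' : ba3x80_F N ba3x80_S ba3x80_Th (ba3x80_I (m + 1)) (t, fun i => -y (Fin.rev i)) = 0 := by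
    funext i
    rw [ba3x80_F_reflect _ _ _ _ _ (ba3x80_S_neg t) (ba3x80_Th_neg t) ba3x80_I_rev, hz]
    simp
  have h2 := ba3x80_top_pos ht0 ht1 hx0 hx1 hN _ hz'
  simp only [Fin.rev_last] at h2
  rw [abs_le]
  constructor
  · have := hy (Fin.zero_le j)
    linarith
  · exact (hy (Fin.le_last j)).trans h1

theorem ba3x80_Th_seed (x : ℝ) : ba3x80_Th (Real.pi / 2) x = 0 := by
  rw [(ba3x80_kernels_eqns_cite _ x).2, Real.cos_pi_div_two]
  simp

theorem ba3x80_ker_seed (x : ℝ) : ba230_ker (2 * (Real.pi / 2)) x = 0 := by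
  have : 2 * (Real.pi / 2) = Real.pi := by ring
  rw [this]
  unfold ba230_ker
  rw [Real.sin_pi, zero_div]

theorem ba3x80_ker_pos {a : ℝ} (h0 : 0 < a) (h1 : a < Real.pi) (u : ℝ) : 0 < ba230_ker a u := by
  unfold ba230_ker
  exact div_pos (Real.sin_pos_of_pos_of_lt_pi h0 h1) (ba230_ker_den_pos h0 (by linarith) u)

theorem ba3x80_S_strictMono {t : ℝ} (h0 : 0 < t) (h1 : t < Real.pi) : StrictMono (ba3x80_S t) := by
  apply strictMono_of_deriv_pos
  intro u
  rw [(ba3x80_S_hasDerivAt h0 (by linarith) u).deriv]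
  exact ba3x80_ker_pos h0 h1 u

/-- the seed `t = π / 2` in the shape `hseed` of `ba3x80_roots_pos`. -/
theorem ba3x80_seed {m N : ℕ} {x0 : ℝ} (hx0 : 2 * (m : ℝ) ≤ x0 * N) (hx1 : x0 < 1) (hN : 0 < N) :
    ∃! y : Fin (m + 1) → ℝ, Monotone y ∧
      (∀ u ∈ Icc (y 0) (y (Fin.last m)),
        0 ≤ ba3x80_rho N ba230_ker (fun t => ba230_ker (2 * t)) (Real.pi / 2) y u) ∧
      ba3x80_F N ba3x80_S ba3x80_Th (ba3x80_I (m + 1)) (Real.pi / 2, y) = 0 := by
  classical
  have hpi := Real.pi_pos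
  have hNr : (0 : ℝ) < N := by exact_mod_cast hN
  have hm0 : (0 : ℝ) ≤ m := Nat.cast_nonneg m
  have hx00 : 0 ≤ x0 := by
    by_contra h
    rw [not_le] at h
    have : x0 * N < 0 := mul_neg_of_neg_of_pos h hNr
    linarith
  have hSm : StrictMono (ba3x80_S (Real.pi / 2)) := ba3x80_S_strictMono (by linarith) (by linarith)
  have hSc : Continuous (ba3x80_S (Real.pi / 2)) := by
    rw [continuous_iff_continuousAt]
    intro u
    exact (ba3x80_S_hasDerivAt (by linarith) (by linarith) u).continuousAt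
  set Q := Real.artanh x0 with hQ
  have hQ0 : 0 ≤ Q := Real.artanh_nonneg hx00
  have hSQ : x0 / 4 ≤ ba3x80_S (Real.pi / 2) Q := by
    rw [(ba3x80_kernels_eqns_cite _ Q).1, hQ, Real.tanh_artanh ⟨by linarith, hx1⟩]
    have hκ0 : 0 ≤ Real.cos (Real.pi / 2 / 2) / Real.sin (Real.pi / 2 / 2) :=
      div_nonneg (Real.cos_nonneg_of_neg_pi_div_two_le_of_le (by linarith) (by linarith))
        (Real.sin_nonneg_of_nonneg_of_le_pi (by linarith) (by linarith))
    have h1 := ba3x80_arctan_concave hx00 hx1.le hκ0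
    rw [ba3x80_arctan_cot (by linarith) (by linarith)] at h1
    rw [le_div_iff₀ hpi]
    nlinarith
  have hIabs : ∀ j : Fin (m + 1), |ba3x80_I (m + 1) j| ≤ (m : ℝ) / 2 := by
    intro j
    simp only [ba3x80_I]
    have h1 : ((j : ℕ) : ℝ) ≤ m := by exact_mod_cast Nat.lt_succ_iff.1 j.2
    have h2 : (0 : ℝ) ≤ ((j : ℕ) : ℝ) := Nat.cast_nonneg _
    push_cast
    rw [abs_le]
    constructor <;> linarith
  have hex : ∀ j : Fin (m + 1), ∃ u, (N : ℝ) * ba3x80_S (Real.pi / 2) u = ba3x80_I (m + 1) j := by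
    intro j
    have hI := abs_le.1 (hIabs j)
    have hb : (m : ℝ) / 2 ≤ N * (x0 / 4) := by linarith
    have h1 : ba3x80_I (m + 1) j / N ∈ Icc (ba3x80_S (Real.pi / 2) (-Q)) (ba3x80_S (Real.pi / 2) Q) := by
      rw [ba3x80_S_neg]
      constructor
      · rw [le_div_iff₀ hNr]
        nlinarith
      · rw [div_le_iff₀ hNr]
        nlinarith
    obtain ⟨u, -, hu⟩ := intermediate_value_Icc (by linarith : -Q ≤ Q) hSc.continuousOn h1
    refine ⟨u, ?_⟩
    rw [hu]
    field_simp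
  choose y hy using hex
  have hzero : ∀ z : Fin (m + 1) → ℝ,
      ba3x80_F N ba3x80_S ba3x80_Th (ba3x80_I (m + 1)) (Real.pi / 2, z) = 0 ↔
        ∀ j, (N : ℝ) * ba3x80_S (Real.pi / 2) (z j) = ba3x80_I (m + 1) j := by
    intro z
    constructor
    · intro h j
      have := congrFun h j
      simp only [ba3x80_F, ba3x80_Th_seed, Finset.sum_const_zero, Pi.zero_apply] at this
      linarith
    · intro h
      funext j
      simp only [ba3x80_F, ba3x80_Th_seed, Finset.sum_const_zero, Pi.zero_apply]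
      linarith [h j]
  refine ⟨y, ⟨?_, ?_, (hzero y).2 hy⟩, ?_⟩
  · intro i j hij
    have h1 : ba3x80_I (m + 1) i ≤ ba3x80_I (m + 1) j := by
      simp only [ba3x80_I]
      have : ((i : ℕ) : ℝ) ≤ ((j : ℕ) : ℝ) := by exact_mod_cast hij
      linarith
    rw [← hy i, ← hy j] at h1
    exact hSm.le_iff_le.1 (le_of_mul_le_mul_left h1 hNr)
  · intro u _
    simp only [ba3x80_rho, ba3x80_ker_seed, Finset.sum_const_zero, sub_zero]
    exact mul_nonneg hNr.le (ba3x80_ker_pos (by linarith) (by linarith) u).le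
  · rintro z ⟨-, -, hz⟩
    funext j
    have h1 := (hzero z).1 hz j
    rw [← hy j] at h1
    exact hSm.injective (mul_left_cancel₀ hNr.ne' h1)

end Box

section Adapters

theorem ba3x80_R_res {t : ℝ} (h0 : 0 < t) (h1 : t < 2 * Real.pi / 3) (x : ℝ) :
    ba230_R t x + ∫ v, ba230_R t (x - v) * ba230_ker (2 * t) v = ba230_ker (2 * t) x := by
  have h := ba230_R_resolvent h0 h1 x
  unfold ba230_conv at h
  rw [← h]
  congr 1
  rw [← integral_sub_left_eq_self (fun v => ba230_ker (2 * t) (x - v) * ba230_R t v) volume x]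
  congr 1
  funext v
  have : x - (x - v) = v := by ring
  rw [this]
  ring

theorem ba3x80_R_rinf {t : ℝ} (h0 : 0 < t) (h1 : t < 2 * Real.pi / 3) (x : ℝ) :
    ba230_ker t x - ∫ v, ba230_R t (x - v) * ba230_ker t v = ba230_rho t x := by
  have h := ba230_rho_eq_sub h0 h1 x
  unfold ba230_conv at h
  linarith

theorem ba3x80_R_mass {t : ℝ} (h0 : 0 < t) (h1 : t ≤ Real.pi / 2) : ∫ x, ba230_R t x ≤ 1 / 2 := by
  have hpi := Real.pi_pos
  rw [ba230_R_integral h0 (by linarith)]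
  rw [div_le_iff₀ (by linarith)]
  linarith

theorem ba3x80_rho_lower {a t Q u : ℝ} (ha : 0 < a) (hat : a ≤ t) (ht : t ≤ Real.pi / 2)
    (hu : |u| ≤ Q) : 1 / (Real.pi * Real.cosh (Real.pi * Q / a)) ≤ ba230_rho t u := by
  have hpi := Real.pi_pos
  have ht0 : 0 < t := lt_of_lt_of_le ha hat
  have hQ : 0 ≤ Q := (abs_nonneg u).trans hu
  unfold ba230_rho
  apply one_div_le_one_div_of_le (mul_pos (by linarith) (Real.cosh_pos _))
  have h1 : Real.cosh (Real.pi * u / t) ≤ Real.cosh (Real.pi * Q / a) := by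
    rw [Real.cosh_le_cosh, abs_div, abs_mul, abs_of_pos hpi, abs_of_pos ht0,
      abs_of_nonneg (div_nonneg (mul_nonneg hpi.le hQ) ha.le)]
    exact div_le_div₀ (mul_nonneg hpi.le hQ) (mul_le_mul_of_nonneg_left hu hpi.le) ha hat
  exact mul_le_mul (by linarith) h1 (Real.cosh_pos _).le hpi.le

end Adapters

section InstPos

/-- **INST-POS**: the branch of Bethe roots on the closed segment `[a, π/2]` (`K ≥ 0`). -/
theorem ba3x80_inst_pos {a x0 : ℝ} (ha : 0 < a) (ha2 : a < Real.pi / 2) (hx1 : x0 < 1) :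
    ∃ N0 : ℕ, ∀ N m : ℕ, N0 ≤ N → 2 * (m : ℝ) ≤ x0 * N →
      ∃ y : ℝ → Fin (m + 1) → ℝ,
        (∀ t ∈ Icc a (Real.pi / 2),
          ba3x80_F N ba3x80_S ba3x80_Th (ba3x80_I (m + 1)) (t, y t) = 0 ∧ StrictMono (y t) ∧
          (∀ j, |y t j| ≤ Real.artanh x0) ∧
          (∀ u, N * ba230_rho t u - 15 * (1 / (Real.pi * (1 - Real.cos (2 * a))))
            ≤ ba3x80_rho N ba230_ker (fun t => ba230_ker (2 * t)) t (y t) u) ∧
          (∀ u, |u| ≤ Real.artanh x0 →
            0 < ba3x80_rho N ba230_ker (fun t => ba230_ker (2 * t)) t (y t) u) ∧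
          (∀ z : Fin (m + 1) → ℝ, Monotone z →
            (∀ u ∈ Icc (z 0) (z (Fin.last m)),
              0 ≤ ba3x80_rho N ba230_ker (fun t => ba230_ker (2 * t)) t z u) →
            ba3x80_F N ba3x80_S ba3x80_Th (ba3x80_I (m + 1)) (t, z) = 0 → z = y t) ∧
          (∀ j, y t (Fin.rev j) = -y t j) ∧
          (∀ v : Fin (m + 1) → ℝ, (∀ j, N * ba230_ker t (y t j) * v j
            - ∑ k, ba230_ker (2 * t) (y t j - y t k) * (v j - v k) = 0) → v = 0)) ∧
        ContinuousOn y (Icc a (Real.pi / 2)) ∧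
        ∀ t ∈ Icc a (Real.pi / 2), ContDiffAt ℝ ω y t := by
  classical
  have hpi := Real.pi_pos
  set K0 : ℝ := 1 / (Real.pi * (1 - Real.cos (2 * a))) with hK0
  set s0 : ℝ := 1 / (Real.pi * (1 - Real.cos a)) with hs0
  set Q : ℝ := Real.artanh x0 with hQ
  set rmin : ℝ := 1 / (Real.pi * Real.cosh (Real.pi * Q / a)) with hrmin
  have hrminpos : 0 < rmin := by
    rw [hrmin]
    exact one_div_pos.2 (mul_pos hpi (Real.cosh_pos _))
  refine ⟨⌈15 * K0 / rmin⌉₊ + 1, ?_⟩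
  intro N m hN0 hx0
  have hN : 0 < N := by omega
  have hNr : (0 : ℝ) < N := by exact_mod_cast hN
  have hbig0 : 15 * K0 < N * rmin := by
    have h1 : 15 * K0 / rmin ≤ (⌈15 * K0 / rmin⌉₊ : ℝ) := Nat.le_ceil _
    have h2 : ((⌈15 * K0 / rmin⌉₊ + 1 : ℕ) : ℝ) ≤ N := by exact_mod_cast hN0
    push_cast at h2
    have h3 : 15 * K0 / rmin < N := by linarith
    rwa [div_lt_iff₀ hrminpos] at h3
  -- ranges of the parameter
  have r0 : ∀ t ∈ Icc a (Real.pi / 2), 0 < t := fun t ht => lt_of_lt_of_le ha ht.1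
  have r1 : ∀ t ∈ Icc a (Real.pi / 2), t < Real.pi := fun t ht => by linarith [ht.2]
  have r2 : ∀ t ∈ Icc a (Real.pi / 2), t < 2 * Real.pi / 3 := fun t ht => by linarith [ht.2]
  have hKnn : ∀ t ∈ Icc a (Real.pi / 2), ∀ x, 0 ≤ ba230_ker (2 * t) x := fun t ht x =>
    ba230_ker_nonneg (by linarith [r0 t ht]) (by linarith [ht.2]) x
  have hKle : ∀ t ∈ Icc a (Real.pi / 2), ∀ x, ba230_ker (2 * t) x ≤ K0 := fun t ht x =>
    (le_abs_self _).trans (ba3x80_ker_abs_le (a0 := 2 * a) (by linarith) (by linarith [ht.1])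
      (by linarith [ht.2]) x)
  have hWex : ∀ μ : ℝ, ∃ W : ℝ → ℝ, μ ∈ Icc a (Real.pi / 2) → (Monotone W ∧
      (∀ v v', v ≤ v' → |ba230_ker (2 * μ) v' - ba230_ker (2 * μ) v| ≤ W v' - W v) ∧
      ∀ v v', W v' - W v ≤ 4 * K0) := by
    intro μ
    by_cases hμ : μ ∈ Icc a (Real.pi / 2)
    · obtain ⟨W, h1, h2, h3⟩ := ba3x80_variation (ba230_ker (2 * μ))
        (fun u v h => ba3x80_ker_anti (by linarith [r0 μ hμ]) (by linarith [hμ.2]) h)
      refine ⟨W, fun _ => ⟨h1, h2, fun v v' => (h3 v v').trans ?_⟩⟩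
      have := hKle μ hμ 0
      have := hKnn μ hμ v
      have := hKnn μ hμ v'
      linarith
    · exact ⟨fun _ => 0, fun h => absurd h hμ⟩
  choose W hW using hWex
  have hCeq : (1 + (1 / 2 : ℝ)) * (4 * K0 + K0) / (1 - 1 / 2) = 15 * K0 := by ring
  obtain ⟨y, hy, hyc, hya⟩ := ba3x80_roots_pos (m := m) (a := a) (b := Real.pi / 2)
    (c := Real.pi / 2) ⟨ha2.le, le_rfl⟩ (N : ℝ) hNr ba3x80_S ba3x80_Th ba230_ker
    (fun t => ba230_ker (2 * t)) (ba3x80_I (m + 1)) ba3x80_I_succ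
    (fun t ht u => ba3x80_S_contDiffAt (r0 t ht) (by linarith [r1 t ht]) u)
    (fun t ht u => ba3x80_Th_contDiffAt (r0 t ht) (r1 t ht) u)
    (fun t ht u => ba3x80_S_hasDerivAt (r0 t ht) (by linarith [r1 t ht]) u)
    (fun t ht u => ba3x80_Th_hasDerivAt (r0 t ht) (r1 t ht) u)
    (fun t ht u => ba3x80_ker_continuousAt (r0 t ht) (by linarith [r1 t ht]) u)
    (fun t ht u => ba3x80_ker2_continuousAt (r0 t ht) (r1 t ht) u)
    s0 K0 (4 * K0) (1 / 2) Q rmin
    (fun t ht x => ba3x80_ker_abs_le ha ht.1 (r1 t ht).le x)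
    hKnn hKle W (fun t ht => (hW t ht).1) (fun t ht => (hW t ht).2.1) (fun t ht => (hW t ht).2.2)
    ba230_R ba230_rho (fun t ht => ba230_R_integrable (r0 t ht) (r2 t ht))
    (fun t ht x => ba230_R_nonneg (r0 t ht) (r2 t ht) ht.2 x)
    (fun t ht => ba3x80_R_mass (r0 t ht) ht.2) (by norm_num)
    (fun t ht x => ba3x80_R_res (r0 t ht) (r2 t ht) x)
    (fun t ht x => ba3x80_R_rinf (r0 t ht) (r2 t ht) x)
    (fun t ht x => (ba230_rho_pos (r0 t ht) x).le)
    (fun t ht y v => ba120_ker_psd (by linarith [r0 t ht]) (by linarith [ht.2]) y v)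
    (fun t ht y hym hz j => ba3x80_box_pos (r0 t ht) ht.2 hx0 hx1 hN y hym hz j)
    (fun t ht u hu => ba3x80_rho_lower ha ht.1 ht.2 hu)
    (by rw [hCeq]; exact hbig0)
    (ba3x80_seed hx0 hx1 hN)
  rw [hCeq] at hy
  -- positivity on the box
  have hpos : ∀ t ∈ Icc a (Real.pi / 2), ∀ u, |u| ≤ Q →
      0 < ba3x80_rho N ba230_ker (fun t => ba230_ker (2 * t)) t (y t) u := by
    intro t ht u hu
    have h1 := (hy t ht).2.2.2.1 u
    have h2 := ba3x80_rho_lower ha ht.1 ht.2 hu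
    have h3 : (N : ℝ) * rmin ≤ N * ba230_rho t u := mul_le_mul_of_nonneg_left h2 hNr.le
    linarith
  have hnd : ∀ t ∈ Icc a (Real.pi / 2), ∀ v : Fin (m + 1) → ℝ,
      (∀ j, N * ba230_ker t (y t j) * v j
        - ∑ k, ba230_ker (2 * t) (y t j - y t k) * (v j - v k) = 0) → v = 0 := by
    intro t ht v hv
    exact ba3x80_inj_pos (fun j => N * ba230_ker t (y t j))
      (fun j k => ba230_ker (2 * t) (y t j - y t k))
      (fun j => hpos t ht (y t j) ((hy t ht).2.2.1 j))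
      (fun v => ba120_ker_psd (by linarith [r0 t ht]) (by linarith [ht.2]) (y t) v) v hv
  have han : ∀ t ∈ Icc a (Real.pi / 2), ∀ w : Fin (m + 1) → ℝ,
      ContDiffAt ℝ ω (ba3x80_F N ba3x80_S ba3x80_Th (ba3x80_I (m + 1))) (t, w) := fun t ht w =>
    ba3x80_F_contDiffAt N ba3x80_S ba3x80_Th _ t
      (fun u => ba3x80_S_contDiffAt (r0 t ht) (by linarith [r1 t ht]) u)
      (fun u => ba3x80_Th_contDiffAt (r0 t ht) (r1 t ht) u) w
  have hfd : ∀ t ∈ Icc a (Real.pi / 2), ∀ v : Fin (m + 1) → ℝ,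
      fderiv ℝ (ba3x80_F N ba3x80_S ba3x80_Th (ba3x80_I (m + 1))) (t, y t) (0, v) = 0 → v = 0 := by
    intro t ht v hv
    apply hnd t ht v
    intro j
    have h1 := ba3x80_F_line N ba3x80_S ba3x80_Th ba230_ker (fun t => ba230_ker (2 * t))
      (ba3x80_I (m + 1)) t (fun u => ba3x80_S_hasDerivAt (r0 t ht) (by linarith [r1 t ht]) u)
      (fun u => ba3x80_Th_hasDerivAt (r0 t ht) (r1 t ht) u) (y t)
      ((han t ht (y t)).differentiableAt (by simp)) v j
    rw [hv] at h1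
    exact h1.symm
  have hA : a ∈ Icc a (Real.pi / 2) := ⟨le_rfl, ha2.le⟩
  have hB : Real.pi / 2 ∈ Icc a (Real.pi / 2) := ⟨ha2.le, le_rfl⟩
  obtain ⟨z, hzy, hza⟩ := ba3x80_extend ha2 (ba3x80_F N ba3x80_S ba3x80_Th (ba3x80_I (m + 1))) y
    (fun t ht => (hy t ht).1) hyc hya (han a hA _) (hfd a hA) (han _ hB _) (hfd _ hB)
  refine ⟨z, ?_, fun t ht => (hza t ht).continuousAt.continuousWithinAt, hza⟩
  intro t ht
  rw [hzy t ht]
  obtain ⟨h1, h2, h3, h4, h5⟩ := hy t ht
  refine ⟨h1, h2, h3, h4, hpos t ht, h5, ?_, hnd t ht⟩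
  -- symmetry from uniqueness
  have hz' : ba3x80_F N ba3x80_S ba3x80_Th (ba3x80_I (m + 1)) (t, fun i => -y t (Fin.rev i)) = 0 := by
    funext i
    rw [ba3x80_F_reflect _ _ _ _ _ (ba3x80_S_neg t) (ba3x80_Th_neg t) ba3x80_I_rev, h1]
    simp
  have hmono' : Monotone (fun i => -y t (Fin.rev i)) := by
    intro i j hij
    have : Fin.rev j ≤ Fin.rev i := Fin.rev_le_rev.2 hij
    have := h2.monotone this
    simp only
    linarith
  have hρ' : ∀ u ∈ Icc (-y t (Fin.rev 0)) (-y t (Fin.rev (Fin.last m))),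
      0 ≤ ba3x80_rho N ba230_ker (fun t => ba230_ker (2 * t)) t (fun i => -y t (Fin.rev i)) u := by
    intro u hu
    rw [ba3x80_rho_reflect _ _ _ _ (ba230_ker_even t) (ba230_ker_even (2 * t))]
    apply (hpos t ht (-u) _).le
    have e1 := abs_le.1 (h3 (Fin.rev 0))
    have e2 := abs_le.1 (h3 (Fin.rev (Fin.last m)))
    rw [abs_neg, abs_le]
    constructor <;> linarith [hu.1, hu.2]
  have heq := h5 _ hmono' hρ' hz'
  intro j
  have := congrFun heq j
  linarith

end InstPos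

end Claimed.Agent.R292
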