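import Mathlib

/-!
# Row 292, unit BETHE, block BA3 (helper80): real Bethe roots on a whole segment of the parameter

Own text (no Newton iteration at quantiles).

* Part 0: analytic implicit branch through a nondegenerate zero.
* Part B: the continuity method.  A compact class, zeros of the class are nondegenerate, zeros
  near a zero of the class stay in the class, exactly one zero of the class at the seed: then
  for every parameter of the segment there is exactly one zero in the class; it is continuous on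
  the segment and analytic inside.
-/

set_option autoImplicit false

namespace Claimed.Agent.R292

open Set Filter Topology
open scoped ContDiff

section PartZero

variable {E : Type*} [NormedAddCommGroup E] [NormedSpace ℝ E] [FiniteDimensional ℝ E]

/-- Part 0: the analytic implicit branch through a zero with injective partial derivative. -/
theorem ba3x80_branch_local (F : ℝ × E → E) (μ0 : ℝ) (y0 : E)
    (hF : ContDiffAt ℝ ω F (μ0, y0))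
    (hinj : ∀ v : E, fderiv ℝ F (μ0, y0) (0, v) = 0 → v = 0) :
    ∃ g : ℝ → E, ContDiffAt ℝ ω g μ0 ∧ g μ0 = y0 ∧
      (∀ᶠ μ in 𝓝 μ0, F (μ, g μ) = F (μ0, y0)) ∧
      (∀ᶠ p in 𝓝 (μ0, y0), F p = F (μ0, y0) → p.2 = g p.1) := by
  classical
  have : CompleteSpace E := FiniteDimensional.complete ℝ E
  set p0 : ℝ × E := (μ0, y0) with hp0
  set Φ : ℝ × E → ℝ × E := fun p => (p.1, F p) with hΦ
  have hΦc : ContDiffAt ℝ ω Φ p0 := contDiffAt_fst.prodMk hF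
  have hFd : HasFDerivAt F (fderiv ℝ F p0) p0 :=
    (hF.differentiableAt (by simp)).hasFDerivAt
  set Φ' : ℝ × E →L[ℝ] ℝ × E := (ContinuousLinearMap.fst ℝ ℝ E).prod (fderiv ℝ F p0) with hΦ'
  have hΦd : HasFDerivAt Φ Φ' p0 := hasFDerivAt_fst.prodMk hFd
  have hinjΦ : Function.Injective (Φ' : ℝ × E →ₗ[ℝ] ℝ × E) := by
    rw [← LinearMap.ker_eq_bot, LinearMap.ker_eq_bot']
    rintro ⟨t, v⟩ h
    have h1 : t = 0 := by
      have := congrArg Prod.fst h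
      simpa [hΦ'] using this
    have h2 : fderiv ℝ F p0 (t, v) = 0 := by
      have := congrArg Prod.snd h
      simpa [hΦ'] using this
    subst h1
    have := hinj v h2
    simp [this]
  set e : (ℝ × E) ≃L[ℝ] (ℝ × E) :=
    (LinearEquiv.ofInjectiveEndo (Φ' : ℝ × E →ₗ[ℝ] ℝ × E) hinjΦ).toContinuousLinearEquiv with he
  have hee : (e : ℝ × E →L[ℝ] ℝ × E) = Φ' := by
    apply ContinuousLinearMap.ext
    intro x
    show (LinearEquiv.ofInjectiveEndo (Φ' : ℝ × E →ₗ[ℝ] ℝ × E) hinjΦ) x = Φ' x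
    rw [LinearEquiv.coe_ofInjectiveEndo]
    rfl
  have hΦd' : HasFDerivAt Φ (e : ℝ × E →L[ℝ] ℝ × E) p0 := by rw [hee]; exact hΦd
  have hn : (ω : WithTop ℕ∞) ≠ 0 := by simp
  set h := hΦc.toOpenPartialHomeomorph Φ hΦd' hn with hh
  have hcoe : ∀ p, h p = Φ p := fun p => rfl
  set c : E := F p0 with hc
  have hsrc : p0 ∈ h.source := hΦc.mem_toOpenPartialHomeomorph_source hΦd' hn
  have htgt : (μ0, c) ∈ h.target := hΦc.image_mem_toOpenPartialHomeomorph_target hΦd' hn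
  have hinv : ContDiffAt ℝ ω h.symm (μ0, c) := hΦc.to_localInverse hΦd' hn
  refine ⟨fun μ => (h.symm (μ, c)).2, ?_, ?_, ?_, ?_⟩
  · have h1 : ContDiffAt ℝ ω (fun μ : ℝ => ((μ, c) : ℝ × E)) μ0 :=
      contDiffAt_id.prodMk contDiffAt_const
    exact contDiffAt_snd.comp μ0 (ContDiffAt.comp μ0 hinv h1)
  · have : h.symm (μ0, c) = p0 := h.left_inv hsrc
    show (h.symm (μ0, c)).2 = y0
    rw [this]
  · have hcont : ContinuousAt (fun μ : ℝ => ((μ, c) : ℝ × E)) μ0 := by fun_prop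
    have hev : ∀ᶠ μ in 𝓝 μ0, ((μ, c) : ℝ × E) ∈ h.target :=
      hcont.eventually (h.open_target.mem_nhds htgt)
    filter_upwards [hev] with μ hμ
    have h1 : h (h.symm (μ, c)) = (μ, c) := h.right_inv hμ
    rw [hcoe] at h1
    have h2 : (h.symm (μ, c)).1 = μ := congrArg Prod.fst h1
    have h3 : F (h.symm (μ, c)) = c := congrArg Prod.snd h1
    have h4 : ((μ, (h.symm (μ, c)).2) : ℝ × E) = h.symm (μ, c) := by
      ext1
      · exact h2.symm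
      · rfl
    rw [h4, h3]
  · filter_upwards [h.open_source.mem_nhds hsrc] with p hp hpc
    have h1 : h.symm (h p) = p := h.left_inv hp
    rw [hcoe] at h1
    have h2 : Φ p = (p.1, c) := by simp [hΦ, hpc]
    rw [h2] at h1
    show p.2 = (h.symm (p.1, c)).2
    rw [h1]

/-- Part B: the continuity method. -/
theorem ba3x80_continuity_method {a b c : ℝ} (hc : c ∈ Icc a b) (F : ℝ × E → E)
    (𝒦 : Set (ℝ × E)) (hK : IsCompact 𝒦) (hFc : ContinuousOn F 𝒦)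
    (hF : ∀ p ∈ 𝒦, p.1 ∈ Icc a b → F p = 0 → ContDiffAt ℝ ω F p)
    (hinj : ∀ p ∈ 𝒦, p.1 ∈ Icc a b → F p = 0 → ∀ v : E, fderiv ℝ F p (0, v) = 0 → v = 0)
    (hopen : ∀ p ∈ 𝒦, p.1 ∈ Icc a b → F p = 0 →
      ∀ᶠ q in 𝓝 p, q.1 ∈ Icc a b → F q = 0 → q ∈ 𝒦)
    (hseed : ∃! y : E, (c, y) ∈ 𝒦 ∧ F (c, y) = 0) :
    ∃ y : ℝ → E,
      (∀ μ ∈ Icc a b, (μ, y μ) ∈ 𝒦 ∧ F (μ, y μ) = 0 ∧
        ∀ z : E, (μ, z) ∈ 𝒦 → F (μ, z) = 0 → z = y μ) ∧
      ContinuousOn y (Icc a b) ∧ ∀ μ ∈ Ioo a b, ContDiffAt ℝ ω y μ := by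
  classical
  set J : Set ℝ := Icc a b with hJ
  -- the local statement
  have hloc : ∀ μ0 ∈ J, ∀ y0 : E, (μ0, y0) ∈ 𝒦 → F (μ0, y0) = 0 →
      ∃ g : ℝ → E, ContDiffAt ℝ ω g μ0 ∧ g μ0 = y0 ∧
        (∀ᶠ μ in 𝓝 μ0, μ ∈ J → ((μ, g μ) ∈ 𝒦 ∧ F (μ, g μ) = 0)) ∧
        (∀ᶠ p in 𝓝 (μ0, y0), F p = 0 → p.2 = g p.1) := by
    intro μ0 hμ0 y0 hy0 hz
    obtain ⟨g, hg, hg0, hgz, hgu⟩ := ba3x80_branch_local F μ0 y0 (hF _ hy0 hμ0 hz)
      (hinj _ hy0 hμ0 hz)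
    rw [hz] at hgz hgu
    refine ⟨g, hg, hg0, ?_, hgu⟩
    have hcont : ContinuousAt (fun μ : ℝ => ((μ, g μ) : ℝ × E)) μ0 :=
      continuousAt_id.prodMk hg.continuousAt
    have h1 := hopen _ hy0 hμ0 hz
    have h2 : ∀ᶠ μ in 𝓝 μ0, (μ ∈ Icc a b → F (μ, g μ) = 0 → (μ, g μ) ∈ 𝒦) := by
      have h3 : Tendsto (fun μ : ℝ => ((μ, g μ) : ℝ × E)) (𝓝 μ0) (𝓝 (μ0, y0)) := by
        have := hcont.tendsto
        simpa [hg0] using this
      exact h3.eventually h1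
    filter_upwards [h2, hgz] with μ h3 h4 h5
    exact ⟨h3 h5 h4, h4⟩
  -- the compact zero set
  set Z : Set (ℝ × E) := 𝒦 ∩ F ⁻¹' {0} ∩ Prod.fst ⁻¹' J with hZ
  have hZc : IsCompact Z := by
    have h1 : IsClosed (𝒦 ∩ F ⁻¹' {0}) :=
      hFc.preimage_isClosed_of_isClosed hK.isClosed isClosed_singleton
    have h2 : IsClosed Z := h1.inter (isClosed_Icc.preimage continuous_fst)
    exact hK.of_isClosed_subset h2 (fun p hp => hp.1.1)
  have hZmem : ∀ μ y, (μ, y) ∈ Z ↔ ((μ, y) ∈ 𝒦 ∧ F (μ, y) = 0 ∧ μ ∈ J) := by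
    intro μ y
    simp [hZ, and_assoc]
  set A : Set ℝ := {μ | μ ∈ J ∧ ∃! y : E, (μ, y) ∈ 𝒦 ∧ F (μ, y) = 0} with hA
  -- relative openness
  have hop : ∀ μ0 ∈ A, ∀ᶠ μ in 𝓝 μ0, μ ∈ J → μ ∈ A := by
    rintro μ0 ⟨hμ0, y0, ⟨hy0, hz0⟩, huniq⟩
    obtain ⟨g, hg, hg0, hgz, hgu⟩ := hloc μ0 hμ0 y0 hy0 hz0
    obtain ⟨U, hUW, hUo, hUp⟩ := mem_nhds_iff.1 hgu
    have hcomp : IsCompact (Z \ U) := hZc.diff hUo
    have hcl : IsClosed (Prod.fst '' (Z \ U)) := (hcomp.image continuous_fst).isClosed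
    have hnot : μ0 ∉ Prod.fst '' (Z \ U) := by
      rintro ⟨⟨μ, y⟩, ⟨hpZ, hpU⟩, hμ⟩
      simp only at hμ
      subst hμ
      have h1 := (hZmem _ _).1 hpZ
      have h2 : y = y0 := huniq y ⟨h1.1, h1.2.1⟩
      subst h2
      exact hpU hUp
    have hev : ∀ᶠ μ in 𝓝 μ0, μ ∉ Prod.fst '' (Z \ U) := hcl.isOpen_compl.mem_nhds hnot
    filter_upwards [hev, hgz] with μ h1 h2 hμJ
    refine ⟨hμJ, g μ, h2 hμJ, ?_⟩
    rintro z ⟨hz1, hz2⟩
    by_contra hne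
    apply h1
    refine ⟨(μ, z), ⟨(hZmem _ _).2 ⟨hz1, hz2, hμJ⟩, ?_⟩, rfl⟩
    intro hzU
    exact hne (hUW hzU hz2)
  -- relative closedness
  have hcl : ∀ μ0 ∈ J, μ0 ∈ closure A → μ0 ∈ A := by
    intro μ0 hμ0 hcl0
    have hclZ : IsClosed (Prod.fst '' Z) := (hZc.image continuous_fst).isClosed
    have hsub : A ⊆ Prod.fst '' Z := by
      rintro μ ⟨hμ, y, ⟨hy, hz⟩, -⟩
      exact ⟨(μ, y), (hZmem _ _).2 ⟨hy, hz, hμ⟩, rfl⟩
    have h0 : μ0 ∈ Prod.fst '' Z := (closure_minimal hsub hclZ) hcl0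
    obtain ⟨⟨μ, y0⟩, hp, hμ⟩ := h0
    simp only at hμ
    subst hμ
    have h1 := (hZmem _ _).1 hp
    refine ⟨hμ0, y0, ⟨h1.1, h1.2.1⟩, ?_⟩
    rintro y1 ⟨hy1, hz1⟩
    by_contra hne
    obtain ⟨g0, hg0c, hg00, hg0z, -⟩ := hloc μ hμ0 y0 h1.1 h1.2.1
    obtain ⟨g1, hg1c, hg10, hg1z, -⟩ := hloc μ hμ0 y1 hy1 hz1
    have hne' : ∀ᶠ ν in 𝓝 μ, g1 ν ≠ g0 ν := by
      have t1 : Tendsto g1 (𝓝 μ) (𝓝 y1) := by
        have := hg1c.continuousAt.tendsto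
        rwa [hg10] at this
      have t0 : Tendsto g0 (𝓝 μ) (𝓝 y0) := by
        have := hg0c.continuousAt.tendsto
        rwa [hg00] at this
      have t2 : Tendsto (fun ν => g1 ν - g0 ν) (𝓝 μ) (𝓝 (y1 - y0)) := t1.sub t0
      have h5 : y1 - y0 ≠ 0 := sub_ne_zero.2 hne
      filter_upwards [t2.eventually_ne h5] with ν hν h6
      exact hν (sub_eq_zero.2 h6)
    have hfreq : ∃ᶠ ν in 𝓝 μ, ν ∈ A := mem_closure_iff_frequently.1 hcl0
    obtain ⟨ν, hνA, h2, h3, h4⟩ := (hfreq.and_eventually (hne'.and (hg0z.and hg1z))).exists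
    obtain ⟨hνJ, w, -, hw⟩ := hνA
    exact h2 ((hw _ (h4 hνJ)).trans (hw _ (h3 hνJ)).symm)
  -- connectedness
  have hAll : J ⊆ A := by
    by_contra hnot
    obtain ⟨μ1, hμ1J, hμ1A⟩ := Set.not_subset.1 hnot
    have hpre : IsPreconnected J := isPreconnected_Icc
    have := (isPreconnected_closed_iff.1 hpre) (closure A) (closure (J \ A)) isClosed_closure
      isClosed_closure
      (fun μ hμ => by
        by_cases h : μ ∈ A
        · exact Or.inl (subset_closure h)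
        · exact Or.inr (subset_closure ⟨hμ, h⟩))
      ⟨c, hc, subset_closure ⟨hc, hseed⟩⟩
      ⟨μ1, hμ1J, subset_closure ⟨hμ1J, hμ1A⟩⟩
    obtain ⟨μ, hμJ, hμ1, hμ2⟩ := this
    have hμA : μ ∈ A := hcl μ hμJ hμ1
    have hfreq : ∃ᶠ ν in 𝓝 μ, ν ∈ J \ A := mem_closure_iff_frequently.1 hμ2
    obtain ⟨ν, ⟨hνJ, hνA⟩, h2⟩ := (hfreq.and_eventually (hop μ hμA)).exists
    exact hνA (h2 hνJ)
  -- the branch
  have hex : ∀ μ : ℝ, ∃ y : E, μ ∈ J → ((μ, y) ∈ 𝒦 ∧ F (μ, y) = 0 ∧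
      ∀ z : E, (μ, z) ∈ 𝒦 → F (μ, z) = 0 → z = y) := by
    intro μ
    by_cases hμ : μ ∈ J
    · obtain ⟨-, y, ⟨hy, hz⟩, hu⟩ := hAll hμ
      exact ⟨y, fun _ => ⟨hy, hz, fun z h1 h2 => hu z ⟨h1, h2⟩⟩⟩
    · exact ⟨0, fun h => absurd h hμ⟩
  choose y hy using hex
  have hyg : ∀ μ0 ∈ J, ∃ g : ℝ → E, ContDiffAt ℝ ω g μ0 ∧ g μ0 = y μ0 ∧
      ∀ᶠ μ in 𝓝 μ0, μ ∈ J → y μ = g μ := by
    intro μ0 hμ0
    obtain ⟨g, hg, hg0, hgz, -⟩ := hloc μ0 hμ0 (y μ0) (hy μ0 hμ0).1 (hy μ0 hμ0).2.1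
    refine ⟨g, hg, hg0, ?_⟩
    filter_upwards [hgz] with μ h1 hμ
    exact ((hy μ hμ).2.2 _ (h1 hμ).1 (h1 hμ).2).symm
  refine ⟨y, hy, ?_, ?_⟩
  · intro μ0 hμ0
    obtain ⟨g, hg, hg0, hev⟩ := hyg μ0 hμ0
    have h1 : ContinuousWithinAt g J μ0 := hg.continuousAt.continuousWithinAt
    refine h1.congr_of_eventuallyEq ?_ hg0.symm
    rw [EventuallyEq, eventually_nhdsWithin_iff]
    exact hev
  · intro μ0 hμ0
    obtain ⟨g, hg, hg0, hev⟩ := hyg μ0 (Ioo_subset_Icc_self hμ0)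
    refine hg.congr_of_eventuallyEq ?_
    filter_upwards [hev, Icc_mem_nhds hμ0.1 hμ0.2] with μ h1 h2
    exact h1 h2

end PartZero

section System

variable {n : ℕ}

/-- The Bethe map in logarithmic form: `F_j = L S(y_j) - ∑_k Θ(y_j - y_k) - I_j`. -/
noncomputable def ba3x80_F (Lr : ℝ) (S Θ : ℝ → ℝ → ℝ) (I : Fin n → ℝ)
    (p : ℝ × (Fin n → ℝ)) : Fin n → ℝ :=
  fun j => Lr * S p.1 (p.2 j) - ∑ k, Θ p.1 (p.2 j - p.2 k) - I j

/-- The derivative of the counting function: `ρ(u) = L s(u) - ∑_k K(u - y_k)`. -/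
noncomputable def ba3x80_rho (Lr : ℝ) (s K : ℝ → ℝ → ℝ) (μ : ℝ) (y : Fin n → ℝ) (u : ℝ) : ℝ :=
  Lr * s μ u - ∑ k, K μ (u - y k)

theorem ba3x80_defs_eqns_cite (Lr : ℝ) (S Θ : ℝ → ℝ → ℝ) (I : Fin n → ℝ)
    (p : ℝ × (Fin n → ℝ)) (j : Fin n) (u : ℝ) :
    ba3x80_F Lr S Θ I p j = Lr * S p.1 (p.2 j) - ∑ k, Θ p.1 (p.2 j - p.2 k) - I j ∧
    ba3x80_rho Lr S Θ p.1 p.2 u = Lr * S p.1 u - ∑ k, Θ p.1 (u - p.2 k) := by
  have h1 := @ba3x80_F.eq_1
  have h2 := @ba3x80_rho.eq_1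
  exact ⟨rfl, rfl⟩

theorem ba3x80_F_contDiffAt (Lr : ℝ) (S Θ : ℝ → ℝ → ℝ) (I : Fin n → ℝ) (μ : ℝ)
    (hS : ∀ u, ContDiffAt ℝ ω (fun q : ℝ × ℝ => S q.1 q.2) (μ, u))
    (hΘ : ∀ u, ContDiffAt ℝ ω (fun q : ℝ × ℝ => Θ q.1 q.2) (μ, u)) (y : Fin n → ℝ) :
    ContDiffAt ℝ ω (ba3x80_F Lr S Θ I) (μ, y) := by
  rw [contDiffAt_pi]
  intro j
  have hj : ∀ i : Fin n, ContDiffAt ℝ ω (fun p : ℝ × (Fin n → ℝ) => p.2 i) (μ, y) := by
    intro i
    exact (contDiffAt_apply (𝕜 := ℝ) (E := ℝ) i y).comp (μ, y) contDiffAt_snd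
  have h1 : ContDiffAt ℝ ω (fun p : ℝ × (Fin n → ℝ) => S p.1 (p.2 j)) (μ, y) :=
    ContDiffAt.comp (μ, y) (f := fun p : ℝ × (Fin n → ℝ) => ((p.1, p.2 j) : ℝ × ℝ)) (hS (y j))
      (contDiffAt_fst.prodMk (hj j))
  have h2 : ∀ k : Fin n,
      ContDiffAt ℝ ω (fun p : ℝ × (Fin n → ℝ) => Θ p.1 (p.2 j - p.2 k)) (μ, y) := by
    intro k
    exact ContDiffAt.comp (μ, y)
      (f := fun p : ℝ × (Fin n → ℝ) => ((p.1, p.2 j - p.2 k) : ℝ × ℝ)) (hΘ (y j - y k))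
      (contDiffAt_fst.prodMk ((hj j).sub (hj k)))
  exact ((contDiffAt_const.mul h1).sub (ContDiffAt.sum fun k _ => h2 k)).sub contDiffAt_const

theorem ba3x80_F_line (Lr : ℝ) (S Θ s K : ℝ → ℝ → ℝ) (I : Fin n → ℝ) (μ : ℝ)
    (hs : ∀ u, HasDerivAt (S μ) (s μ u) u) (hK : ∀ u, HasDerivAt (Θ μ) (K μ u) u)
    (y : Fin n → ℝ) (hd : DifferentiableAt ℝ (ba3x80_F Lr S Θ I) (μ, y)) (v : Fin n → ℝ)
    (j : Fin n) :
    fderiv ℝ (ba3x80_F Lr S Θ I) (μ, y) (0, v) j =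
      Lr * s μ (y j) * v j - ∑ k, K μ (y j - y k) * (v j - v k) := by
  have hγ : HasDerivAt (fun t : ℝ => ((μ, y + t • v) : ℝ × (Fin n → ℝ))) (0, v) 0 := by
    have h1 : HasDerivAt (fun t : ℝ => y + t • v) v 0 := by
      have := ((hasDerivAt_id (0 : ℝ)).smul_const v).const_add y
      simpa using this
    exact (hasDerivAt_const (0 : ℝ) μ).prodMk h1
  have hd' : HasFDerivAt (ba3x80_F Lr S Θ I) (fderiv ℝ (ba3x80_F Lr S Θ I) (μ, y))
      ((fun t : ℝ => ((μ, y + t • v) : ℝ × (Fin n → ℝ))) 0) := by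
    simpa using hd.hasFDerivAt
  have h1 := hd'.comp_hasDerivAt (0 : ℝ) hγ
  have h2 := (hasDerivAt_pi.1 h1) j
  have hlin : ∀ i : Fin n, HasDerivAt (fun t : ℝ => y i + t * v i) (v i) 0 := by
    intro i
    have := ((hasDerivAt_id (0 : ℝ)).mul_const (v i)).const_add (y i)
    simpa using this
  have h3 : HasDerivAt (fun t : ℝ => Lr * S μ (y j + t * v j)
      - ∑ k, Θ μ ((y j + t * v j) - (y k + t * v k)) - I j)
      (Lr * (s μ (y j) * v j) - ∑ k, K μ (y j - y k) * (v j - v k)) 0 := by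
    have a1 : HasDerivAt (fun t : ℝ => S μ (y j + t * v j)) (s μ (y j) * v j) 0 := by
      have h5 : HasDerivAt (S μ) (s μ (y j)) (y j + 0 * v j) := by simpa using hs (y j)
      exact h5.comp (0 : ℝ) (hlin j)
    have a2 : ∀ k : Fin n, HasDerivAt (fun t : ℝ => Θ μ ((y j + t * v j) - (y k + t * v k)))
        (K μ (y j - y k) * (v j - v k)) 0 := by
      intro k
      have h5 : HasDerivAt (Θ μ) (K μ (y j - y k)) ((y j + 0 * v j) - (y k + 0 * v k)) := by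
        simpa using hK (y j - y k)
      exact h5.comp (0 : ℝ) ((hlin j).sub (hlin k))
    exact ((a1.const_mul Lr).sub (HasDerivAt.fun_sum fun k _ => a2 k)).sub_const (I j)
  have h4 := h2.unique h3
  rw [h4]
  ring

/-- Nondegeneracy, attractive sign (`K ≤ 0`): maximum principle. -/
theorem ba3x80_inj_neg (a : Fin n → ℝ) (κ : Fin n → Fin n → ℝ) (ha : ∀ j, 0 < a j)
    (hκ : ∀ j k, κ j k ≤ 0) (v : Fin n → ℝ)
    (hv : ∀ j, a j * v j - ∑ k, κ j k * (v j - v k) = 0) : v = 0 := by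
  classical
  rcases isEmpty_or_nonempty (Fin n) with hn | hn
  · exact Subsingleton.elim _ _
  obtain ⟨j, hj⟩ := Finite.exists_max v
  obtain ⟨i, hi⟩ := Finite.exists_min v
  have h1 : v j ≤ 0 := by
    by_contra h
    rw [not_le] at h
    have h2 : ∑ k, κ j k * (v j - v k) ≤ 0 :=
      Finset.sum_nonpos fun k _ => mul_nonpos_of_nonpos_of_nonneg (hκ j k) (sub_nonneg.2 (hj k))
    have h3 := hv j
    have h4 : 0 < a j * v j := mul_pos (ha j) h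
    linarith
  have h2 : 0 ≤ v i := by
    by_contra h
    rw [not_le] at h
    have h2 : 0 ≤ ∑ k, κ i k * (v i - v k) :=
      Finset.sum_nonneg fun k _ => mul_nonneg_of_nonpos_of_nonpos (hκ i k) (sub_nonpos.2 (hi k))
    have h3 := hv i
    have h4 : a i * v i < 0 := mul_neg_of_pos_of_neg (ha i) h
    linarith
  funext k
  exact le_antisymm ((hj k).trans h1) (h2.trans (hi k))

/-- Nondegeneracy, repulsive sign: positive counting derivative at the roots and a positive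
semidefinite interaction matrix. -/
theorem ba3x80_inj_pos (a : Fin n → ℝ) (κ : Fin n → Fin n → ℝ)
    (hρ : ∀ j, 0 < a j - ∑ k, κ j k)
    (hpsd : ∀ v : Fin n → ℝ, 0 ≤ ∑ j, ∑ k, κ j k * v j * v k) (v : Fin n → ℝ)
    (hv : ∀ j, a j * v j - ∑ k, κ j k * (v j - v k) = 0) : v = 0 := by
  classical
  have h1 : ∑ j, ((a j - ∑ k, κ j k) * v j ^ 2 + ∑ k, κ j k * v j * v k) = 0 := by
    apply Finset.sum_eq_zero
    intro j _
    have h2 : (a j - ∑ k, κ j k) * v j ^ 2 + ∑ k, κ j k * v j * v k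
        = v j * (a j * v j - ∑ k, κ j k * (v j - v k)) := by
      have e1 : ∑ k, κ j k * (v j - v k) = (∑ k, κ j k) * v j - ∑ k, κ j k * v k := by
        rw [Finset.sum_mul, ← Finset.sum_sub_distrib]
        exact Finset.sum_congr rfl fun k _ => by ring
      have e2 : ∑ k, κ j k * v j * v k = v j * ∑ k, κ j k * v k := by
        rw [Finset.mul_sum]
        exact Finset.sum_congr rfl fun k _ => by ring
      rw [e1, e2]
      ring
    rw [h2, hv j, mul_zero]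
  rw [Finset.sum_add_distrib] at h1
  have h3 : ∑ j, (a j - ∑ k, κ j k) * v j ^ 2 ≤ 0 := by
    have := hpsd v
    linarith
  have h4 : ∀ j ∈ Finset.univ, 0 ≤ (a j - ∑ k, κ j k) * v j ^ 2 :=
    fun j _ => mul_nonneg (hρ j).le (sq_nonneg _)
  have h5 : ∑ j, (a j - ∑ k, κ j k) * v j ^ 2 = 0 :=
    le_antisymm h3 (Finset.sum_nonneg h4)
  have h6 := (Finset.sum_eq_zero_iff_of_nonneg h4).1 h5
  funext j
  have h7 := h6 j (Finset.mem_univ j)
  have h8 : v j ^ 2 = 0 := by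
    rcases mul_eq_zero.1 h7 with h | h
    · exact absurd h (hρ j).ne'
    · exact h
  simpa using h8

/-- Comparison principle (`K ≤ 0`): `S` strictly increasing, `Θ` antitone. -/
theorem ba3x80_comparison (Lr : ℝ) (hL : 0 < Lr) (S Θ : ℝ → ℝ → ℝ) (I : Fin n → ℝ) (μ : ℝ)
    (hS : StrictMono (S μ)) (hΘ : Antitone (Θ μ)) (y z : Fin n → ℝ)
    (h : ∀ j, ba3x80_F Lr S Θ I (μ, y) j ≤ ba3x80_F Lr S Θ I (μ, z) j) : y ≤ z := by
  classical
  rcases isEmpty_or_nonempty (Fin n) with hn | hn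
  · intro j; exact (hn.false j).elim
  obtain ⟨j, hj⟩ := Finite.exists_max (fun i => y i - z i)
  have h1 : y j - z j ≤ 0 := by
    by_contra hpos
    rw [not_le] at hpos
    have h2 : S μ (z j) < S μ (y j) := hS (by linarith)
    have h3 : ∑ k, Θ μ (y j - y k) ≤ ∑ k, Θ μ (z j - z k) := by
      apply Finset.sum_le_sum
      intro k _
      apply hΘ
      have := hj k
      linarith
    have h4 := h j
    simp only [ba3x80_F] at h4
    have h5 : Lr * S μ (z j) < Lr * S μ (y j) := mul_lt_mul_of_pos_left h2 hL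
    linarith
  intro i
  have := hj i
  linarith

/-- **Roots, attractive sign (`K ≤ 0`).**  Sub- and supersolution on the whole segment and a root
list at the seed: a unique root list for every parameter, continuous, analytic inside. -/
theorem ba3x80_roots_neg {a b c : ℝ} (hc : c ∈ Icc a b) (Lr : ℝ) (hL : 0 < Lr)
    (S Θ s K : ℝ → ℝ → ℝ) (I : Fin n → ℝ)
    (hSan : ∀ μ ∈ Icc a b, ∀ u, ContDiffAt ℝ ω (fun q : ℝ × ℝ => S q.1 q.2) (μ, u))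
    (hΘan : ∀ μ ∈ Icc a b, ∀ u, ContDiffAt ℝ ω (fun q : ℝ × ℝ => Θ q.1 q.2) (μ, u))
    (hs : ∀ μ ∈ Icc a b, ∀ u, HasDerivAt (S μ) (s μ u) u)
    (hK : ∀ μ ∈ Icc a b, ∀ u, HasDerivAt (Θ μ) (K μ u) u)
    (hspos : ∀ μ ∈ Icc a b, ∀ u, 0 < s μ u) (hKneg : ∀ μ ∈ Icc a b, ∀ u, K μ u ≤ 0)
    (ym yp : Fin n → ℝ)
    (hsub : ∀ μ ∈ Icc a b, ∀ j, ba3x80_F Lr S Θ I (μ, ym) j ≤ 0)
    (hsup : ∀ μ ∈ Icc a b, ∀ j, 0 ≤ ba3x80_F Lr S Θ I (μ, yp) j)
    (hseed : ∃ y, ba3x80_F Lr S Θ I (c, y) = 0) :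
    ∃ y : ℝ → Fin n → ℝ,
      (∀ μ ∈ Icc a b, ba3x80_F Lr S Θ I (μ, y μ) = 0 ∧ ym ≤ y μ ∧ y μ ≤ yp ∧
        ∀ z, ba3x80_F Lr S Θ I (μ, z) = 0 → z = y μ) ∧
      ContinuousOn y (Icc a b) ∧ ∀ μ ∈ Ioo a b, ContDiffAt ℝ ω y μ := by
  classical
  have hSm : ∀ μ ∈ Icc a b, StrictMono (S μ) := by
    intro μ hμ
    apply strictMono_of_deriv_pos
    intro u
    rw [(hs μ hμ u).deriv]
    exact hspos μ hμ u
  have hΘm : ∀ μ ∈ Icc a b, Antitone (Θ μ) := by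
    intro μ hμ
    apply antitone_of_deriv_nonpos (fun u => (hK μ hμ u).differentiableAt)
    intro u
    rw [(hK μ hμ u).deriv]
    exact hKneg μ hμ u
  have hbox : ∀ μ ∈ Icc a b, ∀ z, ba3x80_F Lr S Θ I (μ, z) = 0 → z ∈ Icc ym yp := by
    intro μ hμ z hz
    constructor
    · apply ba3x80_comparison Lr hL S Θ I μ (hSm μ hμ) (hΘm μ hμ)
      intro j
      rw [hz]
      exact hsub μ hμ j
    · apply ba3x80_comparison Lr hL S Θ I μ (hSm μ hμ) (hΘm μ hμ)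
      intro j
      rw [hz]
      exact hsup μ hμ j
  have huniq : ∀ μ ∈ Icc a b, ∀ z w, ba3x80_F Lr S Θ I (μ, z) = 0 →
      ba3x80_F Lr S Θ I (μ, w) = 0 → z = w := by
    intro μ hμ z w hz hw
    apply le_antisymm
    · apply ba3x80_comparison Lr hL S Θ I μ (hSm μ hμ) (hΘm μ hμ)
      intro j
      rw [hz, hw]
    · apply ba3x80_comparison Lr hL S Θ I μ (hSm μ hμ) (hΘm μ hμ)
      intro j
      rw [hz, hw]
  have han : ∀ p : ℝ × (Fin n → ℝ), p.1 ∈ Icc a b → ContDiffAt ℝ ω (ba3x80_F Lr S Θ I) p := by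
    rintro ⟨μ, y⟩ hμ
    exact ba3x80_F_contDiffAt Lr S Θ I μ (hSan μ hμ) (hΘan μ hμ) y
  obtain ⟨y, hy, hyc, hya⟩ := ba3x80_continuity_method (E := Fin n → ℝ) hc (ba3x80_F Lr S Θ I)
    (Icc a b ×ˢ Icc ym yp) (isCompact_Icc.prod isCompact_Icc)
    (fun p hp => (han p hp.1).continuousAt.continuousWithinAt)
    (fun p _ hp _ => han p hp)
    (by
      rintro ⟨μ, y⟩ _ hμ _ v hv
      apply ba3x80_inj_neg (fun j => Lr * s μ (y j)) (fun j k => K μ (y j - y k))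
        (fun j => mul_pos hL (hspos μ hμ _)) (fun j k => hKneg μ hμ _) v
      intro j
      have h1 := ba3x80_F_line Lr S Θ s K I μ (hs μ hμ) (hK μ hμ) y
        ((han (μ, y) hμ).differentiableAt (by simp)) v j
      rw [hv] at h1
      exact h1.symm)
    (by
      rintro p _ _ _
      refine Eventually.of_forall ?_
      rintro ⟨μ, z⟩ hμ hz
      exact ⟨hμ, hbox μ hμ z hz⟩)
    (by
      obtain ⟨y0, hy0⟩ := hseed
      refine ⟨y0, ⟨⟨hc, hbox c hc y0 hy0⟩, hy0⟩, ?_⟩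
      rintro z ⟨_, hz⟩
      exact huniq c hc z y0 hz hy0)
  refine ⟨y, ?_, hyc, hya⟩
  intro μ hμ
  obtain ⟨h1, h2, h3⟩ := hy μ hμ
  exact ⟨h2, h1.2.1, h1.2.2, fun z hz => huniq μ hμ z _ hz h2⟩

end System

end Claimed.Agent.R292
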