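-- KEEP
import Claimed.Agent.R292.Defs.BETHE
import Claimed.Agent.R292.Defs.Top
import Claimed.Agent.R292.Bethe.BA3x80

/-!
# Row 292, unit BETHE, block BA5: condensation of Bethe roots (abstract, quantitative)

Roots `lam 0 ≤ … ≤ lam m`, a discrete density `ρ ≥ 0` with `∫ ρ = h` over every gap (`h = 1 / N`; this is
the exact spacing `Y (lam (j+1)) - Y (lam j) = 2 π / N` of the counting function, `ρ = Y' / (2 π)`).

* `ba5q_quad`  : quadrature, `|h ∑ g (lam j) - ∫ g ρ| ≤ h * Var g`;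
* `ba5q_sup`   : a priori sup bound for `f + K_[a,b] f = e` when `∫ |K| ≤ κ < 1`;
* `ba5q_dens`  : `|ρ_N - ρ_c| ≤ C / N` on the hull, for every solution `ρ_c` of the truncated equation;
* `ba5q_obs`   : `|h ∑ g (lam j) - ∫ g ρ_c| ≤ C_g / N`.
No compactness, no weak convergence.

## Part 2 (leaf A1): frozen row insertion

* `ba5q_ins_empty`, `ba5q_ins_full` : `baZ c M L n ≤ baZ c M (L+1) n`, `≤ baZ c M (L+1) (n+1)`;
* `ba5q_sandwich_up`, `ba5q_sandwich_low` : `Z(2l, l-m) ≤ Z(2(l+m), l+m)`, `Z(2l, l) ≤ Z(2(l+m), (l+m)-m)`;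
* `ba5q_svZN_eq` and the same four statements for `svZN` of `Defs/Top`.
-/

set_option autoImplicit false
open MeasureTheory intervalIntegral Set Filter Topology

namespace Claimed.Agent.R292

/-- Quadrature on one gap. -/
theorem ba5q_gap {a b h w : ℝ} (hab : a ≤ b) {ρ g : ℝ → ℝ}
    (hρc : ContinuousOn ρ (Icc a b)) (hρ0 : ∀ x ∈ Icc a b, 0 ≤ ρ x) (hρ : ∫ x in a..b, ρ x = h)
    (hgc : ContinuousOn g (Icc a b)) (hV : ∀ x ∈ Icc a b, |g x - g a| ≤ w) :
    |h * g a - ∫ x in a..b, g x * ρ x| ≤ h * w := by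
  have iρ : IntervalIntegrable ρ volume a b := hρc.intervalIntegrable_of_Icc hab
  have igρ : IntervalIntegrable (fun x => g x * ρ x) volume a b :=
    (hgc.mul hρc).intervalIntegrable_of_Icc hab
  have e1 : h * g a - ∫ x in a..b, g x * ρ x = ∫ x in a..b, (g a - g x) * ρ x := by
    have : (∫ x in a..b, (g a - g x) * ρ x) =
        (∫ x in a..b, g a * ρ x) - ∫ x in a..b, g x * ρ x := by
      rw [← intervalIntegral.integral_sub (iρ.const_mul _) igρ]
      apply intervalIntegral.integral_congr; intro x _; simp only; ring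
    rw [this, intervalIntegral.integral_const_mul, hρ]; ring
  rw [e1]
  have cont : ContinuousOn (fun x => (g a - g x) * ρ x) (Icc a b) :=
    (continuousOn_const.sub hgc).mul hρc
  calc |∫ x in a..b, (g a - g x) * ρ x| ≤ ∫ x in a..b, |(g a - g x) * ρ x| := by
        have := intervalIntegral.norm_integral_le_integral_norm (f := fun x => (g a - g x) * ρ x)
          (μ := volume) hab
        simpa [Real.norm_eq_abs] using this
    _ ≤ ∫ x in a..b, w * ρ x := by
        apply intervalIntegral.integral_mono_on hab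
          (cont.abs.intervalIntegrable_of_Icc hab) (iρ.const_mul _)
        intro x hx
        rw [abs_mul, abs_of_nonneg (hρ0 x hx)]
        apply mul_le_mul_of_nonneg_right _ (hρ0 x hx)
        rw [abs_sub_comm]; exact hV x hx
    _ = h * w := by rw [intervalIntegral.integral_const_mul, hρ]; ring

/-- **Quadrature over the hull**: left end point rule with exact spacing. -/
theorem ba5q_quad {h : ℝ} {ρ g V : ℝ → ℝ} {lam : ℕ → ℝ} (m : ℕ)
    (hmono : ∀ j < m, lam j ≤ lam (j + 1))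
    (hρc : ∀ j < m, ContinuousOn ρ (Icc (lam j) (lam (j + 1))))
    (hρ0 : ∀ j < m, ∀ x ∈ Icc (lam j) (lam (j + 1)), 0 ≤ ρ x)
    (hρ : ∀ j < m, ∫ x in lam j..lam (j + 1), ρ x = h)
    (hgc : ∀ j < m, ContinuousOn g (Icc (lam j) (lam (j + 1))))
    (hV : ∀ j < m, ∀ x ∈ Icc (lam j) (lam (j + 1)), |g x - g (lam j)| ≤ V (lam (j + 1)) - V (lam j)) :
    IntervalIntegrable (fun x => g x * ρ x) volume (lam 0) (lam m) ∧
    |h * ∑ j ∈ Finset.range m, g (lam j) - ∫ x in lam 0..lam m, g x * ρ x|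
      ≤ h * (V (lam m) - V (lam 0)) := by
  induction m with
  | zero => simp
  | succ m ih =>
    obtain ⟨i1, b1⟩ := ih (fun j hj => hmono j (by omega)) (fun j hj => hρc j (by omega))
      (fun j hj => hρ0 j (by omega)) (fun j hj => hρ j (by omega)) (fun j hj => hgc j (by omega))
      (fun j hj => hV j (by omega))
    have hm : m < m + 1 := by omega
    have i2 : IntervalIntegrable (fun x => g x * ρ x) volume (lam m) (lam (m + 1)) :=
      ((hgc m hm).mul (hρc m hm)).intervalIntegrable_of_Icc (hmono m hm)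
    have b2 := ba5q_gap (hmono m hm) (hρc m hm) (hρ0 m hm) (hρ m hm) (hgc m hm) (hV m hm)
    refine ⟨i1.trans i2, ?_⟩
    rw [Finset.sum_range_succ, ← intervalIntegral.integral_add_adjacent_intervals i1 i2]
    have := abs_add_le (h * ∑ j ∈ Finset.range m, g (lam j) - ∫ x in lam 0..lam m, g x * ρ x)
      (h * g (lam m) - ∫ x in lam m..lam (m + 1), g x * ρ x)
    calc _ = |(h * ∑ j ∈ Finset.range m, g (lam j) - ∫ x in lam 0..lam m, g x * ρ x) +
          (h * g (lam m) - ∫ x in lam m..lam (m + 1), g x * ρ x)| := by congr 1; ring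
      _ ≤ _ := this
      _ ≤ h * (V (lam m) - V (lam 0)) + h * (V (lam (m + 1)) - V (lam m)) := add_le_add b1 b2
      _ = _ := by ring

/-- **A priori sup bound** for `f + K_[a,b] f = e` when the kernel has row mass `≤ κ < 1`. -/
theorem ba5q_sup {a b κ ε : ℝ} (hab : a ≤ b) (hκ : κ < 1) {K f e : ℝ → ℝ}
    (hK : Continuous K) (hKκ : ∀ x ∈ Icc a b, ∫ y in a..b, |K (x - y)| ≤ κ)
    (hf : ContinuousOn f (Icc a b))
    (heq : ∀ x ∈ Icc a b, f x + ∫ y in a..b, K (x - y) * f y = e x)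
    (he : ∀ x ∈ Icc a b, |e x| ≤ ε) :
    ∀ x ∈ Icc a b, |f x| ≤ ε / (1 - κ) := by
  obtain ⟨x0, hx0, hmax⟩ := isCompact_Icc.exists_isMaxOn (nonempty_Icc.2 hab) hf.abs
  have hmax' : ∀ y ∈ Icc a b, |f y| ≤ |f x0| := fun y hy => hmax hy
  have hKc : ∀ x, Continuous fun y => K (x - y) := fun x => hK.comp (continuous_const.sub continuous_id)
  have h1 : |∫ y in a..b, K (x0 - y) * f y| ≤ κ * |f x0| := by
    have cont : ContinuousOn (fun y => K (x0 - y) * f y) (Icc a b) := (hKc x0).continuousOn.mul hf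
    calc |∫ y in a..b, K (x0 - y) * f y| ≤ ∫ y in a..b, |K (x0 - y) * f y| := by
          have := intervalIntegral.norm_integral_le_integral_norm
            (f := fun y => K (x0 - y) * f y) (μ := volume) hab
          simpa [Real.norm_eq_abs] using this
      _ ≤ ∫ y in a..b, |K (x0 - y)| * |f x0| := by
          apply intervalIntegral.integral_mono_on hab (cont.abs.intervalIntegrable_of_Icc hab)
            (((hKc x0).abs.intervalIntegrable a b).mul_const _)
          intro y hy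
          rw [abs_mul]
          exact mul_le_mul_of_nonneg_left (hmax' y hy) (abs_nonneg _)
      _ = (∫ y in a..b, |K (x0 - y)|) * |f x0| := by rw [intervalIntegral.integral_mul_const]
      _ ≤ κ * |f x0| := mul_le_mul_of_nonneg_right (hKκ x0 hx0) (abs_nonneg _)
  have h2 : |f x0| ≤ ε + κ * |f x0| := by
    have e1 : f x0 = e x0 - ∫ y in a..b, K (x0 - y) * f y := by rw [← heq x0 hx0]; ring
    calc |f x0| = |e x0 - ∫ y in a..b, K (x0 - y) * f y| := by rw [← e1]
      _ ≤ |e x0| + |∫ y in a..b, K (x0 - y) * f y| := abs_sub _ _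
      _ ≤ ε + κ * |f x0| := add_le_add (he x0 hx0) h1
  have h3 : |f x0| ≤ ε / (1 - κ) := by
    rw [le_div_iff₀ (by linarith)]; nlinarith
  exact fun x hx => le_trans (hmax' x hx) h3

theorem ba5q_le {lam : ℕ → ℝ} {m : ℕ} (hmono : ∀ j < m, lam j ≤ lam (j + 1)) :
    ∀ i j, i ≤ j → j ≤ m → lam i ≤ lam j := by
  intro i j hij
  induction j, hij using Nat.le_induction with
  | base => intro _; exact le_rfl
  | succ j _ ih => intro hj; exact le_trans (ih (by omega)) (hmono j (by omega))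

theorem ba5q_gap_subset {lam : ℕ → ℝ} {m : ℕ} (hmono : ∀ j < m, lam j ≤ lam (j + 1)) {j : ℕ}
    (hj : j < m) : Icc (lam j) (lam (j + 1)) ⊆ Icc (lam 0) (lam m) :=
  Icc_subset_Icc (ba5q_le hmono 0 j (by omega) (by omega))
    (ba5q_le hmono (j + 1) m (by omega) le_rfl)

/-- The discrete density `ρ_N = Y' / (2 π)` of `m + 1` roots, `h = 1 / N`. -/
noncomputable def ba5qRho (h : ℝ) (m : ℕ) (lam : ℕ → ℝ) (ξ K : ℝ → ℝ) (x : ℝ) : ℝ :=
  ξ x - h * ∑ j ∈ Finset.range (m + 1), K (x - lam j)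

theorem ba5qRho_continuous {h : ℝ} {m : ℕ} {lam : ℕ → ℝ} {ξ K : ℝ → ℝ} (hξ : Continuous ξ)
    (hK : Continuous K) : Continuous (ba5qRho h m lam ξ K) := by
  unfold ba5qRho
  exact hξ.sub (continuous_const.mul (continuous_finsetSum _ fun j _ =>
    hK.comp (continuous_id.sub continuous_const)))

/-- A root configuration with exact spacing and nonnegative discrete density on its hull. -/
structure Ba5qRoots (h : ℝ) (m : ℕ) (lam : ℕ → ℝ) (ξ K : ℝ → ℝ) : Prop where
  h0 : 0 ≤ h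
  mono : ∀ j < m, lam j ≤ lam (j + 1)
  pos : ∀ x ∈ Icc (lam 0) (lam m), 0 ≤ ba5qRho h m lam ξ K x
  gap : ∀ j < m, ∫ x in lam j..lam (j + 1), ba5qRho h m lam ξ K x = h

/-- Hypotheses on the kernel: continuous, bounded by `B`, total variation `≤ W` (dominated by the
monotone function `VK`). -/
structure Ba5qKer (K VK : ℝ → ℝ) (B W : ℝ) : Prop where
  cont : Continuous K
  bd : ∀ u, |K u| ≤ B
  var : ∀ u v, u ≤ v → |K v - K u| ≤ VK v - VK u
  tot : ∀ u v, VK v - VK u ≤ W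

/-- Quadrature for a general observable against the discrete density. -/
theorem ba5q_quad_rho {h : ℝ} {m : ℕ} {lam : ℕ → ℝ} {ξ K g V : ℝ → ℝ}
    (R : Ba5qRoots h m lam ξ K) (hξ : Continuous ξ) (hK : Continuous K)
    (hg : ContinuousOn g (Icc (lam 0) (lam m)))
    (hV : ∀ x ∈ Icc (lam 0) (lam m), ∀ y ∈ Icc (lam 0) (lam m), x ≤ y → |g y - g x| ≤ V y - V x) :
    |h * ∑ j ∈ Finset.range m, g (lam j) - ∫ x in lam 0..lam m, g x * ba5qRho h m lam ξ K x|
      ≤ h * (V (lam m) - V (lam 0)) := by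
  have hc := ba5qRho_continuous (h := h) (m := m) (lam := lam) hξ hK
  refine (ba5q_quad (V := V) m R.mono (fun j _ => hc.continuousOn)
    (fun j hj x hx => R.pos x (ba5q_gap_subset R.mono hj hx)) R.gap
    (fun j hj => hg.mono (ba5q_gap_subset R.mono hj)) ?_).2
  intro j hj x hx
  have hsub := ba5q_gap_subset R.mono hj
  have hl : lam j ∈ Icc (lam j) (lam (j + 1)) := left_mem_Icc.2 (R.mono j hj)
  have hr : lam (j + 1) ∈ Icc (lam j) (lam (j + 1)) := right_mem_Icc.2 (R.mono j hj)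
  have h1 := hV _ (hsub hl) _ (hsub hx) hx.1
  have h2 := hV _ (hsub hx) _ (hsub hr) hx.2
  have h3 := abs_nonneg (g (lam (j + 1)) - g x)
  linarith

/-- **Condensation of the density**: the discrete density is within `h (W + B) / (1 - κ)` of every
solution of the truncated continuum equation on the hull of the roots. -/
theorem ba5q_dens {h κ B W : ℝ} {m : ℕ} {lam : ℕ → ℝ} {ξ K VK ρc : ℝ → ℝ}
    (R : Ba5qRoots h m lam ξ K) (hξ : Continuous ξ) (HK : Ba5qKer K VK B W) (hκ : κ < 1)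
    (hKκ : ∀ x ∈ Icc (lam 0) (lam m), ∫ y in lam 0..lam m, |K (x - y)| ≤ κ)
    (hρc : ContinuousOn ρc (Icc (lam 0) (lam m)))
    (heq : ∀ x ∈ Icc (lam 0) (lam m), ρc x + ∫ y in lam 0..lam m, K (x - y) * ρc y = ξ x) :
    ∀ x ∈ Icc (lam 0) (lam m), |ba5qRho h m lam ξ K x - ρc x| ≤ h * (W + B) / (1 - κ) := by
  have hab : lam 0 ≤ lam m := ba5q_le R.mono 0 m (by omega) le_rfl
  have hc := ba5qRho_continuous (h := h) (m := m) (lam := lam) hξ HK.cont
  have hKc : ∀ x, Continuous fun y => K (x - y) :=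
    fun x => HK.cont.comp (continuous_const.sub continuous_id)
  apply ba5q_sup hab hκ HK.cont hKκ (hc.continuousOn.sub hρc)
    (e := fun x => (∫ y in lam 0..lam m, K (x - y) * ba5qRho h m lam ξ K y) -
      h * ∑ j ∈ Finset.range (m + 1), K (x - lam j))
  · intro x hx
    have i1 : IntervalIntegrable (fun y => K (x - y) * ba5qRho h m lam ξ K y) volume
        (lam 0) (lam m) := ((hKc x).mul hc).intervalIntegrable _ _
    have i2 : IntervalIntegrable (fun y => K (x - y) * ρc y) volume (lam 0) (lam m) :=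
      ((hKc x).continuousOn.mul hρc).intervalIntegrable_of_Icc hab
    have e1 : (∫ y in lam 0..lam m, K (x - y) * (ba5qRho h m lam ξ K y - ρc y)) =
        (∫ y in lam 0..lam m, K (x - y) * ba5qRho h m lam ξ K y) -
          ∫ y in lam 0..lam m, K (x - y) * ρc y := by
      rw [← intervalIntegral.integral_sub i1 i2]
      apply intervalIntegral.integral_congr; intro y _; simp only; ring
    simp only [Pi.sub_apply]
    rw [e1]
    have e2 := heq x hx
    have e3 : ba5qRho h m lam ξ K x = ξ x - h * ∑ j ∈ Finset.range (m + 1), K (x - lam j) := rfl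
    rw [e3]; linarith
  · intro x _
    have q := ba5q_quad_rho (g := fun y => K (x - y)) (V := fun y => - VK (x - y)) R hξ HK.cont
      (hKc x).continuousOn (by
        intro y _ y' _ hyy'
        have := HK.var (x - y') (x - y) (by linarith)
        rw [abs_sub_comm] at this
        linarith)
    rw [Finset.sum_range_succ, mul_add]
    have t := HK.tot (x - lam m) (x - lam 0)
    have b := HK.bd (x - lam m)
    have hh := R.h0
    have q' : |h * ∑ j ∈ Finset.range m, K (x - lam j) -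
        ∫ y in lam 0..lam m, K (x - y) * ba5qRho h m lam ξ K y| ≤ h * W := by
      refine le_trans q (mul_le_mul_of_nonneg_left ?_ hh)
      linarith
    have b' : |h * K (x - lam m)| ≤ h * B := by
      rw [abs_mul, abs_of_nonneg hh]; exact mul_le_mul_of_nonneg_left b hh
    calc |(∫ y in lam 0..lam m, K (x - y) * ba5qRho h m lam ξ K y) -
          (h * ∑ j ∈ Finset.range m, K (x - lam j) + h * K (x - lam m))|
        = |-(h * ∑ j ∈ Finset.range m, K (x - lam j) -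
            ∫ y in lam 0..lam m, K (x - y) * ba5qRho h m lam ξ K y) - h * K (x - lam m)| := by
          congr 1; ring
      _ ≤ |-(h * ∑ j ∈ Finset.range m, K (x - lam j) -
            ∫ y in lam 0..lam m, K (x - y) * ba5qRho h m lam ξ K y)| + |h * K (x - lam m)| :=
          abs_sub _ _
      _ ≤ h * W + h * B := by rw [abs_neg]; exact add_le_add q' b'
      _ = h * (W + B) := by ring

/-- **Condensation of observables.** -/
theorem ba5q_obs {h κ B W : ℝ} {m : ℕ} {lam : ℕ → ℝ} {ξ K VK ρc g V : ℝ → ℝ}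
    (R : Ba5qRoots h m lam ξ K) (hξ : Continuous ξ) (HK : Ba5qKer K VK B W) (hκ : κ < 1)
    (hKκ : ∀ x ∈ Icc (lam 0) (lam m), ∫ y in lam 0..lam m, |K (x - y)| ≤ κ)
    (hρc : ContinuousOn ρc (Icc (lam 0) (lam m)))
    (heq : ∀ x ∈ Icc (lam 0) (lam m), ρc x + ∫ y in lam 0..lam m, K (x - y) * ρc y = ξ x)
    (hg : ContinuousOn g (Icc (lam 0) (lam m)))
    (hV : ∀ x ∈ Icc (lam 0) (lam m), ∀ y ∈ Icc (lam 0) (lam m), x ≤ y → |g y - g x| ≤ V y - V x) :
    |h * ∑ j ∈ Finset.range (m + 1), g (lam j) - ∫ x in lam 0..lam m, g x * ρc x|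
      ≤ h * (V (lam m) - V (lam 0)) + h * |g (lam m)| +
        h * (W + B) / (1 - κ) * ∫ x in lam 0..lam m, |g x| := by
  have hab : lam 0 ≤ lam m := ba5q_le R.mono 0 m (by omega) le_rfl
  have hc := ba5qRho_continuous (h := h) (m := m) (lam := lam) hξ HK.cont
  have q := ba5q_quad_rho R hξ HK.cont hg hV
  have d := ba5q_dens R hξ HK hκ hKκ hρc heq
  have i1 : IntervalIntegrable (fun x => g x * ba5qRho h m lam ξ K x) volume (lam 0) (lam m) :=
    (hg.mul hc.continuousOn).intervalIntegrable_of_Icc hab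
  have i2 : IntervalIntegrable (fun x => g x * ρc x) volume (lam 0) (lam m) :=
    (hg.mul hρc).intervalIntegrable_of_Icc hab
  have e1 : |(∫ x in lam 0..lam m, g x * ba5qRho h m lam ξ K x) -
      ∫ x in lam 0..lam m, g x * ρc x| ≤ h * (W + B) / (1 - κ) * ∫ x in lam 0..lam m, |g x| := by
    rw [← intervalIntegral.integral_sub i1 i2]
    have cont : ContinuousOn (fun x => g x * ba5qRho h m lam ξ K x - g x * ρc x)
        (Icc (lam 0) (lam m)) := (hg.mul hc.continuousOn).sub (hg.mul hρc)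
    calc |∫ x in lam 0..lam m, (g x * ba5qRho h m lam ξ K x - g x * ρc x)|
        ≤ ∫ x in lam 0..lam m, |g x * ba5qRho h m lam ξ K x - g x * ρc x| := by
          have := intervalIntegral.norm_integral_le_integral_norm
            (f := fun x => g x * ba5qRho h m lam ξ K x - g x * ρc x) (μ := volume) hab
          simpa [Real.norm_eq_abs] using this
      _ ≤ ∫ x in lam 0..lam m, h * (W + B) / (1 - κ) * |g x| := by
          apply intervalIntegral.integral_mono_on hab (cont.abs.intervalIntegrable_of_Icc hab)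
            ((hg.abs.intervalIntegrable_of_Icc hab).const_mul _)
          intro x hx
          rw [← mul_sub, abs_mul, mul_comm]
          exact mul_le_mul_of_nonneg_right (d x hx) (abs_nonneg _)
      _ = _ := by rw [intervalIntegral.integral_const_mul]
  rw [Finset.sum_range_succ, mul_add]
  have b' : |h * g (lam m)| = h * |g (lam m)| := by rw [abs_mul, abs_of_nonneg R.h0]
  calc |h * ∑ j ∈ Finset.range m, g (lam j) + h * g (lam m) - ∫ x in lam 0..lam m, g x * ρc x|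
      = |(h * ∑ j ∈ Finset.range m, g (lam j) - ∫ x in lam 0..lam m, g x * ba5qRho h m lam ξ K x)
          + h * g (lam m) + ((∫ x in lam 0..lam m, g x * ba5qRho h m lam ξ K x) -
            ∫ x in lam 0..lam m, g x * ρc x)| := by congr 1; ring
    _ ≤ |h * ∑ j ∈ Finset.range m, g (lam j) - ∫ x in lam 0..lam m, g x * ba5qRho h m lam ξ K x|
          + |h * g (lam m)| + |(∫ x in lam 0..lam m, g x * ba5qRho h m lam ξ K x) -
            ∫ x in lam 0..lam m, g x * ρc x| := abs_add_three _ _ _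
    _ ≤ _ := by rw [b']; exact add_le_add (add_le_add q le_rfl) e1

/-! ## Part 2: frozen row insertion -/

section Insertion

open Claims.C0466

/-- projection of the rows of the enlarged torus: the new row `L` goes to `L - 1`. -/
def ba5qPi (L : ℕ) (t : ZMod (L + 1)) : ZMod L := ((min t.val (L - 1) : ℕ) : ZMod L)

/-- Insertion of a new row `b = L`, all of whose horizontal arrows are `β`; the vertical arrows
pass straight through. -/
def ba5qIns {M L : ℕ} (β : Bool) (ω : ZMod M × ZMod L × Bool → Bool) :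
    ZMod M × ZMod (L + 1) × Bool → Bool :=
  fun e => if e.2.2 = false ∧ e.2.1.val = L then β else ω (e.1, ba5qPi L e.2.1, e.2.2)

theorem ba5qPi_low {L : ℕ} (t : ZMod (L + 1)) (ht : t.val ≠ L) :
    ba5qPi L t = ((t.val : ℤ) : ZMod L) := by
  have h1 : t.val < L + 1 := ZMod.val_lt t
  unfold ba5qPi
  rw [min_eq_left (by omega)]
  simp

theorem ba5q_val_one {L : ℕ} (hL : 1 ≤ L) : (1 : ZMod (L + 1)).val = 1 := by
  rw [ZMod.val_one_eq_one_mod]
  exact Nat.mod_eq_of_lt (by omega)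

theorem ba5qPi_top {L : ℕ} (hL : 1 ≤ L) (t : ZMod (L + 1)) (ht : t.val = L) :
    ba5qPi L (t - 1) = ba5qPi L t := by
  have h1 : (t - 1).val = L - 1 := by
    rw [ZMod.val_sub (by rw [ba5q_val_one hL, ht]; exact hL), ba5q_val_one hL, ht]
  unfold ba5qPi
  rw [h1, ht]
  congr 1
  omega

theorem ba5qPi_pred {L : ℕ} (hL : 1 ≤ L) (t : ZMod (L + 1)) (ht : t.val ≠ L) :
    ba5qPi L (t - 1) = (((t.val : ℤ) - 1 : ℤ) : ZMod L) := by
  have h1 : t.val < L + 1 := ZMod.val_lt t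
  by_cases h0 : t.val = 0
  · have t0 : t = 0 := (ZMod.val_eq_zero t).1 h0
    subst t0
    have h2 : ((0 : ZMod (L + 1)) - 1).val = L := by
      rw [zero_sub]; exact ZMod.val_neg_one L
    unfold ba5qPi
    rw [h2, min_eq_right (by omega)]
    rw [Nat.cast_sub hL]
    simp
  · have h2 : (t - 1).val = t.val - 1 := by
      rw [ZMod.val_sub (by rw [ba5q_val_one hL]; omega), ba5q_val_one hL]
    unfold ba5qPi
    rw [h2, min_eq_left (by omega), Nat.cast_sub (by omega)]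
    simp

variable {M L : ℕ}

theorem ba5qIns_H_low (β : Bool) (ω : ZMod M × ZMod L × Bool → Bool) (x : ZMod M)
    (t : ZMod (L + 1)) (ht : t.val ≠ L) :
    ba5qIns β ω (x, t, false) = ω (x, ((t.val : ℤ) : ZMod L), false) := by
  unfold ba5qIns
  simp only
  rw [if_neg (fun h => ht h.2), ba5qPi_low t ht]

theorem ba5qIns_H_top (β : Bool) (ω : ZMod M × ZMod L × Bool → Bool) (x : ZMod M)
    (t : ZMod (L + 1)) (ht : t.val = L) : ba5qIns β ω (x, t, false) = β := by
  unfold ba5qIns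
  simp only
  rw [if_pos ⟨trivial, ht⟩]

theorem ba5qIns_V (β : Bool) (ω : ZMod M × ZMod L × Bool → Bool) (x : ZMod M)
    (t : ZMod (L + 1)) : ba5qIns β ω (x, t, true) = ω (x, ba5qPi L t, true) := by
  unfold ba5qIns
  simp

theorem ba5qIns_inCount_low (hL : 1 ≤ L) (β : Bool) (ω : ZMod M × ZMod L × Bool → Bool)
    (a b : ℤ) (ht : (b : ZMod (L + 1)).val ≠ L) :
    svInCount (ba5qIns β ω) a b = svInCount ω a ((b : ZMod (L + 1)).val : ℤ) := by
  unfold svInCount svH svV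
  have e3 : ((b - 1 : ℤ) : ZMod (L + 1)) = (b : ZMod (L + 1)) - 1 := by push_cast; ring
  rw [ba5qIns_H_low β ω _ _ ht, ba5qIns_H_low β ω _ _ ht, ba5qIns_V, ba5qIns_V, e3,
    ba5qPi_pred hL _ ht, ba5qPi_low _ ht]

theorem ba5qIns_inCount_top (hL : 1 ≤ L) (β : Bool) (ω : ZMod M × ZMod L × Bool → Bool)
    (a b : ℤ) (ht : (b : ZMod (L + 1)).val = L) : svInCount (ba5qIns β ω) a b = 2 := by
  unfold svInCount svH svV
  have e3 : ((b - 1 : ℤ) : ZMod (L + 1)) = (b : ZMod (L + 1)) - 1 := by push_cast; ring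
  rw [ba5qIns_H_top β ω _ _ ht, ba5qIns_H_top β ω _ _ ht, ba5qIns_V, ba5qIns_V, e3,
    ba5qPi_top hL _ ht]
  cases β <;> cases ω ((a : ZMod M), ba5qPi L (b : ZMod (L + 1)), true) <;> simp

theorem ba5qIns_ice (hL : 1 ≤ L) (β : Bool) (ω : ZMod M × ZMod L × Bool → Bool)
    (h : ∀ a b : ℤ, svInCount ω a b = 2) (a b : ℤ) : svInCount (ba5qIns β ω) a b = 2 := by
  by_cases ht : (b : ZMod (L + 1)).val = L
  · exact ba5qIns_inCount_top hL β ω a b ht
  · rw [ba5qIns_inCount_low hL β ω a b ht]; exact h _ _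

theorem ba5q_val_nat {L : ℕ} (j : ℕ) (hj : j < L + 1) : (((j : ℕ) : ℤ) : ZMod (L + 1)).val = j := by
  rw [Int.cast_natCast]
  exact ZMod.val_natCast_of_lt hj

theorem ba5qIns_svH_low (β : Bool) (ω : ZMod M × ZMod L × Bool → Bool) (a : ℤ) (j : ℕ)
    (hj : j < L) : svH (ba5qIns β ω) a (j : ℤ) = svH ω a (j : ℤ) := by
  unfold svH
  have hv := ba5q_val_nat (L := L) j (by omega)
  rw [ba5qIns_H_low β ω _ _ (by rw [hv]; omega), hv]

theorem ba5qIns_svH_top (β : Bool) (ω : ZMod M × ZMod L × Bool → Bool) (a : ℤ) :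
    svH (ba5qIns β ω) a (L : ℤ) = β := by
  unfold svH
  exact ba5qIns_H_top β ω _ _ (ba5q_val_nat (L := L) L (by omega))

theorem ba5qIns_isC_low (β : Bool) (ω : ZMod M × ZMod L × Bool → Bool) (a : ℤ) (j : ℕ)
    (hj : j < L) : svIsC (ba5qIns β ω) a (j : ℤ) ↔ svIsC ω a (j : ℤ) := by
  unfold svIsC
  rw [ba5qIns_svH_low β ω _ j hj, ba5qIns_svH_low β ω _ j hj]

theorem ba5qIns_isC_top (β : Bool) (ω : ZMod M × ZMod L × Bool → Bool) (a : ℤ) :
    ¬ svIsC (ba5qIns β ω) a (L : ℤ) := by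
  unfold svIsC
  rw [ba5qIns_svH_top, ba5qIns_svH_top]
  cases β <;> simp

theorem ba5qIns_numC (β : Bool) (ω : ZMod M × ZMod L × Bool → Bool) :
    svNumC (ba5qIns β ω) = svNumC ω := by
  classical
  unfold svNumC
  congr 1
  ext v
  simp only [Finset.mem_filter, Finset.mem_product, Finset.mem_range]
  constructor
  · rintro ⟨⟨h1, h2⟩, h3⟩
    have h4 : v.2 ≠ L := by
      intro h; rw [h] at h3; exact ba5qIns_isC_top β ω _ h3
    have h5 : v.2 < L := by omega
    exact ⟨⟨h1, h5⟩, (ba5qIns_isC_low β ω _ _ h5).1 h3⟩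
  · rintro ⟨⟨h1, h2⟩, h3⟩
    exact ⟨⟨h1, by omega⟩, (ba5qIns_isC_low β ω _ _ h2).2 h3⟩

theorem ba5qIns_count (β : Bool) (ω : ZMod M × ZMod L × Bool → Bool) (i : ℤ) :
    ((Finset.range (L + 1)).filter (fun j : ℕ => svH (ba5qIns β ω) i (j : ℤ) = true)).card =
      ((Finset.range L).filter (fun j : ℕ => svH ω i (j : ℤ) = true)).card +
        (if β = true then 1 else 0) := by
  rw [Finset.range_add_one, Finset.filter_insert, ba5qIns_svH_top]
  have e : (Finset.range L).filter (fun j : ℕ => svH (ba5qIns β ω) i (j : ℤ) = true) =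
      (Finset.range L).filter (fun j : ℕ => svH ω i (j : ℤ) = true) := by
    apply Finset.filter_congr
    intro j hj
    rw [ba5qIns_svH_low β ω i j (Finset.mem_range.1 hj)]
  rw [e]
  split_ifs with h
  · rw [Finset.card_insert_of_notMem (by simp)]
  · simp

theorem ba5qIns_sector (hL : 1 ≤ L) (β : Bool) (n : ℕ) (ω : ZMod M × ZMod L × Bool → Bool)
    (h : baSector n ω) : baSector (n + (if β = true then 1 else 0)) (ba5qIns β ω) :=
  ⟨ba5qIns_ice hL β ω h.1, fun i => by rw [ba5qIns_count, h.2 i]⟩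

theorem ba5qIns_injective (hL : 1 ≤ L) (β : Bool) :
    Function.Injective (ba5qIns (M := M) (L := L) β) := by
  intro ω ω' h
  have : NeZero L := ⟨by omega⟩
  funext ⟨x, s, o⟩
  have hs : s.val < L := ZMod.val_lt s
  have hv : ((s.val : ℕ) : ZMod (L + 1)).val = s.val := ZMod.val_natCast_of_lt (by omega)
  have hp : ba5qPi L ((s.val : ℕ) : ZMod (L + 1)) = s := by
    rw [ba5qPi_low _ (by rw [hv]; omega), hv]
    simp
  have h1 := congrFun h (x, ((s.val : ℕ) : ZMod (L + 1)), o)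
  unfold ba5qIns at h1
  simp only at h1
  rw [if_neg (fun h => by rw [hv] at h; omega), if_neg (fun h => by rw [hv] at h; omega), hp] at h1
  exact h1

theorem ba5q_summable (M L : ℕ) (hM : 1 ≤ M) (hL : 1 ≤ L)
    (f : (ZMod M × ZMod L × Bool → Bool) → ℝ) : Summable f := by
  have : NeZero M := ⟨by omega⟩
  have : NeZero L := ⟨by omega⟩
  exact (hasSum_fintype f).summable

/-- **Row insertion**: the sector partition function does not decrease when a row is added,
empty (`β = false`) or full (`β = true`). -/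
theorem ba5q_ins_Z (c : ℝ) (hc : 0 ≤ c) (M L n : ℕ) (hM : 1 ≤ M) (hL : 1 ≤ L) (β : Bool) :
    baZ c M L n ≤ baZ c M (L + 1) (n + (if β = true then 1 else 0)) := by
  classical
  unfold baZ
  set f' : (ZMod M × ZMod (L + 1) × Bool → Bool) → ℝ := fun ω =>
    if baSector (n + (if β = true then 1 else 0)) ω then c ^ svNumC ω else 0 with hf'
  have hf'0 : ∀ ω, 0 ≤ f' ω := by
    intro ω; simp only [hf']
    by_cases h : baSector (n + (if β = true then 1 else 0)) ω
    · rw [if_pos h]; exact pow_nonneg hc _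
    · rw [if_neg h]
  have h1 : (∑' ω : ZMod M × ZMod L × Bool → Bool, if baSector n ω then c ^ svNumC ω else 0) ≤
      ∑' ω : ZMod M × ZMod L × Bool → Bool, f' (ba5qIns β ω) := by
    apply (ba5q_summable M L hM hL _).tsum_le_tsum _ (ba5q_summable M L hM hL _)
    intro ω
    by_cases h : baSector n ω
    · rw [if_pos h]
      simp only [hf']
      rw [if_pos (ba5qIns_sector hL β n ω h), ba5qIns_numC]
    · rw [if_neg h]; exact hf'0 _
  exact le_trans h1 (tsum_comp_le_tsum_of_inj (ba5q_summable M (L + 1) hM (by omega) f') hf'0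
    (ba5qIns_injective hL β))

theorem ba5q_ins_empty (c : ℝ) (hc : 0 ≤ c) (M L n : ℕ) (hM : 1 ≤ M) (hL : 1 ≤ L) :
    baZ c M L n ≤ baZ c M (L + 1) n := by
  simpa using ba5q_ins_Z c hc M L n hM hL false

theorem ba5q_ins_full (c : ℝ) (hc : 0 ≤ c) (M L n : ℕ) (hM : 1 ≤ M) (hL : 1 ≤ L) :
    baZ c M L n ≤ baZ c M (L + 1) (n + 1) := by
  simpa using ba5q_ins_Z c hc M L n hM hL true

theorem ba5q_ins_empty_iter (c : ℝ) (hc : 0 ≤ c) (M L n : ℕ) (hM : 1 ≤ M) (hL : 1 ≤ L) (k : ℕ) :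
    baZ c M L n ≤ baZ c M (L + k) n := by
  induction k with
  | zero => exact le_rfl
  | succ k ih => exact le_trans ih (ba5q_ins_empty c hc M (L + k) n hM (by omega))

theorem ba5q_ins_full_iter (c : ℝ) (hc : 0 ≤ c) (M L n : ℕ) (hM : 1 ≤ M) (hL : 1 ≤ L) (k : ℕ) :
    baZ c M L n ≤ baZ c M (L + k) (n + k) := by
  induction k with
  | zero => exact le_rfl
  | succ k ih => exact le_trans ih (ba5q_ins_full c hc M (L + k) (n + k) hM (by omega))

/-- **Sandwich, upper half**: a sector of deficit `m` is dominated by the balanced sector of the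
torus with `2 m` more rows. -/
theorem ba5q_sandwich_up (c : ℝ) (hc : 0 ≤ c) (M l m : ℕ) (hM : 1 ≤ M) (hl : 1 ≤ l) (hm : m ≤ l) :
    baZ c M (2 * l) (l - m) ≤ baZ c M (2 * (l + m)) (l + m) := by
  have h := ba5q_ins_full_iter c hc M (2 * l) (l - m) hM (by omega) (2 * m)
  have e1 : 2 * l + 2 * m = 2 * (l + m) := by ring
  have e2 : l - m + 2 * m = l + m := by omega
  rwa [e1, e2] at h

/-- **Sandwich, lower half**: the balanced sector is dominated by the sector of deficit `m` of the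
torus with `2 m` more rows. -/
theorem ba5q_sandwich_low (c : ℝ) (hc : 0 ≤ c) (M l m : ℕ) (hM : 1 ≤ M) (hl : 1 ≤ l) :
    baZ c M (2 * l) l ≤ baZ c M (2 * (l + m)) (l + m - m) := by
  have h := ba5q_ins_empty_iter c hc M (2 * l) l hM (by omega) (2 * m)
  have e1 : 2 * l + 2 * m = 2 * (l + m) := by ring
  have e2 : l + m - m = l := by omega
  rw [e2]; rwa [e1] at h


/-- The two typings of the sector partition function agree. -/
theorem ba5q_svZN_eq (c : ℝ) (M L n : ℕ) : svZN c M L n = baZ c M L n := rfl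

theorem ba5q_svZN_ins_empty (c : ℝ) (hc : 0 ≤ c) (M L n : ℕ) (hM : 1 ≤ M) (hL : 1 ≤ L) :
    svZN c M L n ≤ svZN c M (L + 1) n := ba5q_ins_empty c hc M L n hM hL

theorem ba5q_svZN_ins_full (c : ℝ) (hc : 0 ≤ c) (M L n : ℕ) (hM : 1 ≤ M) (hL : 1 ≤ L) :
    svZN c M L n ≤ svZN c M (L + 1) (n + 1) := ba5q_ins_full c hc M L n hM hL

theorem ba5q_svZN_sandwich_up (c : ℝ) (hc : 0 ≤ c) (M l m : ℕ) (hM : 1 ≤ M) (hl : 1 ≤ l)
    (hm : m ≤ l) : svZN c M (2 * l) (l - m) ≤ svZN c M (2 * (l + m)) (l + m) :=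
  ba5q_sandwich_up c hc M l m hM hl hm

theorem ba5q_svZN_sandwich_low (c : ℝ) (hc : 0 ≤ c) (M l m : ℕ) (hM : 1 ≤ M) (hl : 1 ≤ l) :
    svZN c M (2 * l) l ≤ svZN c M (2 * (l + m)) (l + m - m) :=
  ba5q_sandwich_low c hc M l m hM hl

end Insertion

/-! ## Part 3: block B4 DISC, the folded Bethe system -/

/-- Quadrature on one gap, no sign condition on `ρ`; `p` is the sampled value. -/
theorem ba5q_gap' {a b h w Bρ p : ℝ} (hab : a ≤ b) {ρ g : ℝ → ℝ}
    (hρc : Continuous ρ) (hρB : ∀ x, |ρ x| ≤ Bρ) (hρ : ∫ x in a..b, ρ x = h)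
    (hgc : Continuous g) (hV : ∀ x ∈ Icc a b, |g x - p| ≤ w) :
    |h * p - ∫ x in a..b, g x * ρ x| ≤ w * Bρ * (b - a) := by
  have iρ : IntervalIntegrable ρ volume a b := hρc.intervalIntegrable _ _
  have igρ : IntervalIntegrable (fun x => g x * ρ x) volume a b :=
    (hgc.mul hρc).intervalIntegrable _ _
  have e1 : h * p - ∫ x in a..b, g x * ρ x = ∫ x in a..b, (p - g x) * ρ x := by
    have : (∫ x in a..b, (p - g x) * ρ x) =
        (∫ x in a..b, p * ρ x) - ∫ x in a..b, g x * ρ x := by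
      rw [← intervalIntegral.integral_sub (iρ.const_mul _) igρ]
      apply intervalIntegral.integral_congr; intro x _; simp only; ring
    rw [this, intervalIntegral.integral_const_mul, hρ]; ring
  rw [e1]
  have h1 := intervalIntegral.norm_integral_le_of_norm_le_const (a := a) (b := b)
    (f := fun x => (p - g x) * ρ x) (C := w * Bρ) (by
      intro x hx
      rw [uIoc_of_le hab] at hx
      have hx' : x ∈ Icc a b := ⟨hx.1.le, hx.2⟩
      rw [Real.norm_eq_abs, abs_mul]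
      have h2 := hV x hx'
      rw [abs_sub_comm] at h2
      exact mul_le_mul h2 (hρB x) (abs_nonneg _) (le_trans (abs_nonneg _) h2))
  rw [Real.norm_eq_abs, abs_of_nonneg (sub_nonneg.2 hab)] at h1
  exact h1

/-- Quadrature over `m` gaps of length `≤ ℓ`, Lipschitz observable, bounded density. -/
theorem ba5q_quad' {h ℓ Bρ Lg : ℝ} {ρ g : ℝ → ℝ} {lam : ℕ → ℝ} (m : ℕ)
    (hmono : ∀ j < m, lam j ≤ lam (j + 1)) (hlen : ∀ j < m, lam (j + 1) - lam j ≤ ℓ)
    (hρc : Continuous ρ) (hρB : ∀ x, |ρ x| ≤ Bρ)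
    (hρ : ∀ j < m, ∫ x in lam j..lam (j + 1), ρ x = h)
    (hgc : Continuous g) (hLg : 0 ≤ Lg) (hg : ∀ x x', |g x - g x'| ≤ Lg * |x - x'|) :
    |h * ∑ j ∈ Finset.range m, g (lam j) - ∫ x in lam 0..lam m, g x * ρ x|
      ≤ m * (Lg * ℓ * Bρ * ℓ) := by
  have hB0 : 0 ≤ Bρ := le_trans (abs_nonneg _) (hρB 0)
  induction m with
  | zero => simp
  | succ m ih =>
    have b1 := ih (fun j hj => hmono j (by omega)) (fun j hj => hlen j (by omega))
      (fun j hj => hρ j (by omega))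
    have hm : m < m + 1 := by omega
    have hl := hlen m hm
    have hl0 : 0 ≤ lam (m + 1) - lam m := sub_nonneg.2 (hmono m hm)
    have b2 := ba5q_gap' (w := Lg * ℓ) (p := g (lam m)) (hmono m hm) hρc hρB (hρ m hm) hgc (by
      intro x hx
      refine le_trans (hg x (lam m)) (mul_le_mul_of_nonneg_left ?_ hLg)
      rw [abs_of_nonneg (sub_nonneg.2 hx.1)]
      linarith [hx.2])
    have b3 : Lg * ℓ * Bρ * (lam (m + 1) - lam m) ≤ Lg * ℓ * Bρ * ℓ :=
      mul_le_mul_of_nonneg_left hl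
        (mul_nonneg (mul_nonneg hLg (le_trans hl0 hl)) hB0)
    have i1 : IntervalIntegrable (fun x => g x * ρ x) volume (lam 0) (lam m) :=
      (hgc.mul hρc).intervalIntegrable _ _
    have i2 : IntervalIntegrable (fun x => g x * ρ x) volume (lam m) (lam (m + 1)) :=
      (hgc.mul hρc).intervalIntegrable _ _
    rw [Finset.sum_range_succ, ← intervalIntegral.integral_add_adjacent_intervals i1 i2]
    have := abs_add_le (h * ∑ j ∈ Finset.range m, g (lam j) - ∫ x in lam 0..lam m, g x * ρ x)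
      (h * g (lam m) - ∫ x in lam m..lam (m + 1), g x * ρ x)
    calc _ = |(h * ∑ j ∈ Finset.range m, g (lam j) - ∫ x in lam 0..lam m, g x * ρ x) +
          (h * g (lam m) - ∫ x in lam m..lam (m + 1), g x * ρ x)| := by congr 1; ring
      _ ≤ _ := this
      _ ≤ m * (Lg * ℓ * Bρ * ℓ) + Lg * ℓ * Bρ * ℓ := add_le_add b1 (le_trans b2 b3)
      _ = _ := by push_cast; ring

/-- Kernel data at one value of the parameter. -/
structure DiscKer (S Θ s K : ℝ → ℝ) (Bs BK Ls LK : ℝ) : Prop where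
  dS : ∀ x, HasDerivAt S (s x) x
  dΘ : ∀ x, HasDerivAt Θ (K x) x
  oddS : ∀ x, S (-x) = -S x
  oddΘ : ∀ x, Θ (-x) = -Θ x
  evs : ∀ x, s (-x) = s x
  evK : ∀ x, K (-x) = K x
  bs : ∀ x, |s x| ≤ Bs
  bK : ∀ x, |K x| ≤ BK
  ls : ∀ x x', |s x - s x'| ≤ Ls * |x - x'|
  lK : ∀ x x', |K x - K x'| ≤ LK * |x - x'|

/-- folded counting function of the symmetric root set `±w_k` -/
noncomputable def discXi {m : ℕ} (N : ℕ) (S Θ : ℝ → ℝ) (w : Fin (m + 1) → ℝ) (x : ℝ) : ℝ :=
  S x - (1 / (N : ℝ)) * ∑ k, (Θ (x - w k) + Θ (x + w k))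

/-- its derivative, the discrete density -/
noncomputable def discRho {m : ℕ} (N : ℕ) (s K : ℝ → ℝ) (w : Fin (m + 1) → ℝ) (x : ℝ) : ℝ :=
  s x - (1 / (N : ℝ)) * ∑ k, (K (x - w k) + K (x + w k))

/-- the folded Bethe system (`n = 2 (m + 1)` roots `±w_k`, quantum numbers `±(i + 1/2)`) -/
noncomputable def discG {m : ℕ} (N : ℕ) (S Θ : ℝ → ℝ) (w : Fin (m + 1) → ℝ) (i : Fin (m + 1)) : ℝ :=
  N * S (w i) - ∑ k, (Θ (w i - w k) + Θ (w i + w k)) - (((i : ℕ) : ℝ) + 1 / 2)

/-- the class of admissible half configurations: compact, convex, independent of the parameter -/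
def discC (N m : ℕ) (a b Qm : ℝ) : Set (Fin (m + 1) → ℝ) :=
  {w | (a / (2 * N) ≤ w 0 ∧ w 0 ≤ b / (2 * N)) ∧
    (∀ i : Fin m, a / N ≤ w i.succ - w i.castSucc ∧ w i.succ - w i.castSucc ≤ b / N) ∧
    w (Fin.last m) ≤ Qm}

/-- Continuum input (block B5) at one value of the parameter. -/
structure DiscCont (s K : ℝ → ℝ) (r : ℝ → ℝ → ℝ) (Qm hK rmin rmax c0 Lr : ℝ) : Prop where
  cont : ∀ Q, Continuous (r Q)
  eq : ∀ Q ∈ Icc 0 Qm, ∀ x, r Q x + ∫ y in (-Q)..Q, K (x - y) * r Q y = s x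
  mass : ∀ Q ∈ Icc 0 Qm, ∀ x, ∫ y in (-Q)..Q, |K (x - y)| ≤ hK
  hK0 : 0 ≤ hK
  hK1 : hK < 1
  rmin0 : 0 < rmin
  lo : ∀ Q ∈ Icc 0 Qm, ∀ x ∈ Icc (-Qm) Qm, rmin ≤ r Q x
  hi : ∀ Q ∈ Icc 0 Qm, ∀ x ∈ Icc (-Qm) Qm, r Q x ≤ rmax
  c00 : 0 < c0
  mono : ∀ Q1 Q2, 0 ≤ Q1 → Q1 ≤ Q2 → Q2 ≤ Qm →
    c0 * (Q2 - Q1) ≤ (∫ x in (-Q2)..Q2, r Q2 x) - ∫ x in (-Q1)..Q1, r Q1 x
  lip : ∀ Q1 ∈ Icc 0 Qm, ∀ Q2 ∈ Icc 0 Qm, ∀ x ∈ Icc (-Qm) Qm, |r Q1 x - r Q2 x| ≤ Lr * |Q1 - Q2|

theorem discG_eq {m : ℕ} (N : ℕ) (hN : 0 < N) (S Θ : ℝ → ℝ) (w : Fin (m + 1) → ℝ) (i : Fin (m + 1)) :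
    discG N S Θ w i = N * discXi N S Θ w (w i) - (((i : ℕ) : ℝ) + 1 / 2) := by
  have : (N : ℝ) ≠ 0 := by positivity
  unfold discG discXi
  field_simp

theorem discG_zero_iff {m : ℕ} (N : ℕ) (hN : 0 < N) (S Θ : ℝ → ℝ) (w : Fin (m + 1) → ℝ)
    (i : Fin (m + 1)) :
    discG N S Θ w i = 0 ↔ discXi N S Θ w (w i) = (((i : ℕ) : ℝ) + 1 / 2) / N := by
  have hN' : (0 : ℝ) < N := by positivity
  rw [discG_eq N hN, eq_div_iff hN'.ne']
  constructor <;> intro h <;> linarith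

/-! ## Leaf L5: from a zero of the Bethe map (80's `ba3x80_F`) to `Ba5qRoots` -/

/-- extension of a finite list to `ℕ` (constant after the last entry) -/
def ba5qExt {m : ℕ} (y : Fin (m + 1) → ℝ) (j : ℕ) : ℝ := y ⟨min j m, by omega⟩

theorem ba5qExt_coe {m : ℕ} (y : Fin (m + 1) → ℝ) (i : Fin (m + 1)) : ba5qExt y (i : ℕ) = y i := by
  unfold ba5qExt
  congr 1
  apply Fin.ext
  simp only
  have := i.2
  omega

theorem ba5qExt_zero {m : ℕ} (y : Fin (m + 1) → ℝ) : ba5qExt y 0 = y 0 := ba5qExt_coe y 0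

theorem ba5qExt_last {m : ℕ} (y : Fin (m + 1) → ℝ) : ba5qExt y m = y (Fin.last m) :=
  ba5qExt_coe y (Fin.last m)

theorem ba5qExt_castSucc {m : ℕ} (y : Fin (m + 1) → ℝ) (j : ℕ) (hj : j < m) :
    ba5qExt y j = y (Fin.castSucc ⟨j, hj⟩) := ba5qExt_coe y (Fin.castSucc ⟨j, hj⟩)

theorem ba5qExt_succ {m : ℕ} (y : Fin (m + 1) → ℝ) (j : ℕ) (hj : j < m) :
    ba5qExt y (j + 1) = y (Fin.succ ⟨j, hj⟩) := ba5qExt_coe y (Fin.succ ⟨j, hj⟩)

theorem ba5qExt_sum {m : ℕ} (y : Fin (m + 1) → ℝ) (g : ℝ → ℝ) :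
    ∑ j ∈ Finset.range (m + 1), g (ba5qExt y j) = ∑ k, g (y k) := by
  rw [← Fin.sum_univ_eq_sum_range (fun j => g (ba5qExt y j)) (m + 1)]
  apply Finset.sum_congr rfl
  intro i _
  rw [ba5qExt_coe]

theorem ba5qRho_ext {m : ℕ} (N : ℝ) (s K : ℝ → ℝ → ℝ) (μ : ℝ) (y : Fin (m + 1) → ℝ) (x : ℝ) :
    ba5qRho (1 / N) m (ba5qExt y) (s μ) (K μ) x = (1 / N) * (N * s μ x) - (1 / N) * ∑ k, K μ (x - y k)
      + (s μ x - (1 / N) * (N * s μ x)) := by
  unfold ba5qRho
  rw [ba5qExt_sum y (fun t => K μ (x - t))]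
  ring

theorem ba5qRho_ext' {m : ℕ} (N : ℝ) (hN : 0 < N) (s K : ℝ → ℝ → ℝ) (μ : ℝ)
    (y : Fin (m + 1) → ℝ) (x : ℝ) :
    ba5qRho (1 / N) m (ba5qExt y) (s μ) (K μ) x = ba3x80_rho N s K μ y x / N := by
  unfold ba5qRho ba3x80_rho
  rw [ba5qExt_sum y (fun t => K μ (x - t))]
  field_simp

/-- the counting function of 80's normalisation -/
theorem ba5q_xi_hasDerivAt {m : ℕ} (N : ℝ) (S Θ s K : ℝ → ℝ → ℝ) (μ : ℝ)
    (hs : ∀ u, HasDerivAt (S μ) (s μ u) u) (hK : ∀ u, HasDerivAt (Θ μ) (K μ u) u)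
    (y : Fin (m + 1) → ℝ) (u : ℝ) :
    HasDerivAt (fun u => N * S μ u - ∑ k, Θ μ (u - y k)) (ba3x80_rho N s K μ y u) u := by
  unfold ba3x80_rho
  apply HasDerivAt.sub ((hs u).const_mul N)
  apply HasDerivAt.fun_sum
  intro k _
  have := (hK (u - y k)).comp u ((hasDerivAt_id u).sub_const (y k))
  simp only [mul_one] at this
  exact this

/-- **Leaf L5.**  A monotone zero of the Bethe map with consecutive levels and nonnegative counting
derivative on its hull is a `Ba5qRoots` configuration with `h = 1 / N`. -/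
theorem ba5q_roots_of_zero {m : ℕ} (N : ℝ) (hN : 0 < N) (S Θ s K : ℝ → ℝ → ℝ)
    (I : Fin (m + 1) → ℝ) (hI : ∀ k : Fin m, I k.succ = I k.castSucc + 1) (μ : ℝ)
    (hs : ∀ u, HasDerivAt (S μ) (s μ u) u) (hK : ∀ u, HasDerivAt (Θ μ) (K μ u) u)
    (hsc : Continuous (s μ)) (hKc : Continuous (K μ))
    (y : Fin (m + 1) → ℝ) (hy : Monotone y) (hz : ba3x80_F N S Θ I (μ, y) = 0)
    (hpos : ∀ u ∈ Icc (y 0) (y (Fin.last m)), 0 ≤ ba3x80_rho N s K μ y u) :
    Ba5qRoots (1 / N) m (ba5qExt y) (s μ) (K μ) where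
  h0 := by positivity
  mono := by
    intro j hj
    rw [ba5qExt_castSucc y j hj, ba5qExt_succ y j hj]
    exact hy (Fin.castSucc_le_succ _)
  pos := by
    intro x hx
    rw [ba5qExt_zero, ba5qExt_last] at hx
    rw [ba5qRho_ext' N hN]
    exact div_nonneg (hpos x hx) hN.le
  gap := by
    intro j hj
    have hval : ∀ i : Fin (m + 1), N * S μ (y i) - ∑ k, Θ μ (y i - y k) = I i := by
      intro i
      have := congrFun hz i
      simp only [ba3x80_F, Pi.zero_apply] at this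
      linarith
    have hcont : Continuous (ba3x80_rho N s K μ y) := by
      unfold ba3x80_rho
      exact (continuous_const.mul hsc).sub (continuous_finsetSum _ fun k _ =>
        hKc.comp (continuous_id.sub continuous_const))
    have h1 : ∫ x in ba5qExt y j..ba5qExt y (j + 1), ba3x80_rho N s K μ y x = 1 := by
      rw [intervalIntegral.integral_eq_sub_of_hasDerivAt
        (fun u _ => ba5q_xi_hasDerivAt N S Θ s K μ hs hK y u) (hcont.intervalIntegrable _ _)]
      rw [ba5qExt_castSucc y j hj, ba5qExt_succ y j hj, hval, hval, hI]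
      ring
    simp only [ba5qRho_ext' N hN]
    rw [intervalIntegral.integral_div, h1]

/-- **Condensation of the density**, in the notation of `ba3x80_rho`. -/
theorem ba5q_cond_dens {m : ℕ} (N : ℝ) (hN : 0 < N) (S Θ s K : ℝ → ℝ → ℝ)
    (I : Fin (m + 1) → ℝ) (hI : ∀ k : Fin m, I k.succ = I k.castSucc + 1) (μ : ℝ)
    (hs : ∀ u, HasDerivAt (S μ) (s μ u) u) (hK : ∀ u, HasDerivAt (Θ μ) (K μ u) u)
    (hsc : Continuous (s μ)) {VK : ℝ → ℝ} {B W κ : ℝ} (HK : Ba5qKer (K μ) VK B W) (hκ : κ < 1)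
    (y : Fin (m + 1) → ℝ) (hy : Monotone y) (hz : ba3x80_F N S Θ I (μ, y) = 0)
    (hpos : ∀ u ∈ Icc (y 0) (y (Fin.last m)), 0 ≤ ba3x80_rho N s K μ y u)
    (hKκ : ∀ x ∈ Icc (y 0) (y (Fin.last m)), ∫ t in y 0..y (Fin.last m), |K μ (x - t)| ≤ κ)
    {r : ℝ → ℝ} (hr : ContinuousOn r (Icc (y 0) (y (Fin.last m))))
    (heq : ∀ x ∈ Icc (y 0) (y (Fin.last m)),
      r x + ∫ t in y 0..y (Fin.last m), K μ (x - t) * r t = s μ x) :
    ∀ x ∈ Icc (y 0) (y (Fin.last m)),
      |ba3x80_rho N s K μ y x / N - r x| ≤ (W + B) / (1 - κ) / N := by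
  have R := ba5q_roots_of_zero N hN S Θ s K I hI μ hs hK hsc HK.cont y hy hz hpos
  have d := ba5q_dens (ρc := r) R hsc HK hκ (by rw [ba5qExt_zero, ba5qExt_last]; exact hKκ)
    (by rw [ba5qExt_zero, ba5qExt_last]; exact hr) (by rw [ba5qExt_zero, ba5qExt_last]; exact heq)
  intro x hx
  have := d x (by rw [ba5qExt_zero, ba5qExt_last]; exact hx)
  rw [ba5qRho_ext' N hN] at this
  calc _ ≤ 1 / N * (W + B) / (1 - κ) := this
    _ = _ := by ring

/-- **Condensation of observables of bounded variation**, in the notation of `ba3x80_rho`. -/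
theorem ba5q_cond_obs {m : ℕ} (N : ℝ) (hN : 0 < N) (S Θ s K : ℝ → ℝ → ℝ)
    (I : Fin (m + 1) → ℝ) (hI : ∀ k : Fin m, I k.succ = I k.castSucc + 1) (μ : ℝ)
    (hs : ∀ u, HasDerivAt (S μ) (s μ u) u) (hK : ∀ u, HasDerivAt (Θ μ) (K μ u) u)
    (hsc : Continuous (s μ)) {VK : ℝ → ℝ} {B W κ : ℝ} (HK : Ba5qKer (K μ) VK B W) (hκ : κ < 1)
    (y : Fin (m + 1) → ℝ) (hy : Monotone y) (hz : ba3x80_F N S Θ I (μ, y) = 0)
    (hpos : ∀ u ∈ Icc (y 0) (y (Fin.last m)), 0 ≤ ba3x80_rho N s K μ y u)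
    (hKκ : ∀ x ∈ Icc (y 0) (y (Fin.last m)), ∫ t in y 0..y (Fin.last m), |K μ (x - t)| ≤ κ)
    {r : ℝ → ℝ} (hr : ContinuousOn r (Icc (y 0) (y (Fin.last m))))
    (heq : ∀ x ∈ Icc (y 0) (y (Fin.last m)),
      r x + ∫ t in y 0..y (Fin.last m), K μ (x - t) * r t = s μ x)
    {g V : ℝ → ℝ} (hg : ContinuousOn g (Icc (y 0) (y (Fin.last m))))
    (hV : ∀ x ∈ Icc (y 0) (y (Fin.last m)), ∀ x' ∈ Icc (y 0) (y (Fin.last m)), x ≤ x' →
      |g x' - g x| ≤ V x' - V x) :
    |(1 / N) * ∑ k, g (y k) - ∫ x in y 0..y (Fin.last m), g x * r x| ≤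
      (1 / N) * (V (y (Fin.last m)) - V (y 0)) + (1 / N) * |g (y (Fin.last m))| +
        (1 / N) * (W + B) / (1 - κ) * ∫ x in y 0..y (Fin.last m), |g x| := by
  have R := ba5q_roots_of_zero N hN S Θ s K I hI μ hs hK hsc HK.cont y hy hz hpos
  have d := ba5q_obs (ρc := r) (g := g) (V := V) R hsc HK hκ
    (by rw [ba5qExt_zero, ba5qExt_last]; exact hKκ)
    (by rw [ba5qExt_zero, ba5qExt_last]; exact hr) (by rw [ba5qExt_zero, ba5qExt_last]; exact heq)
    (by rw [ba5qExt_zero, ba5qExt_last]; exact hg) (by rw [ba5qExt_zero, ba5qExt_last]; exact hV)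
  rw [ba5qExt_sum y g, ba5qExt_zero, ba5qExt_last] at d
  exact d

/-- **Condensation of the filling**: `(m + 1) / N = ∫ r + O (1 / N)`. -/
theorem ba5q_cond_mass {m : ℕ} (N : ℝ) (hN : 0 < N) (S Θ s K : ℝ → ℝ → ℝ)
    (I : Fin (m + 1) → ℝ) (hI : ∀ k : Fin m, I k.succ = I k.castSucc + 1) (μ : ℝ)
    (hs : ∀ u, HasDerivAt (S μ) (s μ u) u) (hK : ∀ u, HasDerivAt (Θ μ) (K μ u) u)
    (hsc : Continuous (s μ)) {VK : ℝ → ℝ} {B W κ : ℝ} (HK : Ba5qKer (K μ) VK B W) (hκ : κ < 1)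
    (y : Fin (m + 1) → ℝ) (hy : Monotone y) (hz : ba3x80_F N S Θ I (μ, y) = 0)
    (hpos : ∀ u ∈ Icc (y 0) (y (Fin.last m)), 0 ≤ ba3x80_rho N s K μ y u)
    (hKκ : ∀ x ∈ Icc (y 0) (y (Fin.last m)), ∫ t in y 0..y (Fin.last m), |K μ (x - t)| ≤ κ)
    {r : ℝ → ℝ} (hr : ContinuousOn r (Icc (y 0) (y (Fin.last m))))
    (heq : ∀ x ∈ Icc (y 0) (y (Fin.last m)),
      r x + ∫ t in y 0..y (Fin.last m), K μ (x - t) * r t = s μ x) :
    |((m : ℝ) + 1) / N - ∫ x in y 0..y (Fin.last m), r x| ≤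
      (1 / N) * (1 + (W + B) / (1 - κ) * (y (Fin.last m) - y 0)) := by
  have d := ba5q_cond_obs N hN S Θ s K I hI μ hs hK hsc HK hκ y hy hz hpos hKκ hr heq
    (g := fun _ => 1) (V := fun _ => 0) continuousOn_const (by intros; simp)
  simp only [Finset.sum_const, Finset.card_univ, Fintype.card_fin, nsmul_eq_mul, mul_one, one_mul,
    sub_self, mul_zero, abs_one, zero_add, intervalIntegral.integral_const, smul_eq_mul] at d
  calc |((m : ℝ) + 1) / N - ∫ x in y 0..y (Fin.last m), r x|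
      = |1 / N * ((m + 1 : ℕ) : ℝ) - ∫ x in y 0..y (Fin.last m), r x| := by
        congr 2; push_cast; ring
    _ ≤ _ := d
    _ = _ := by ring

end Claimed.Agent.R292
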