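import Claimed.Agent.R292.Bethe.Four230
import Claimed.Agent.R292.Bethe.Cond180

/-!
# Row 292 (S0540), unit BETHE: PART 1 = leaf D2 (prefix `d2x259_`), PART 2 = leaf L1b of 180's ORDER D-2 (prefix `l1b259_`)   (helper259)

## PART 1

MID-QUANTILES OF A DENSITY AND FIRST-ORDER RIEMANN SUMS (abstract, no model; `import Mathlib` only).

Data: `ρ` interval integrable on `[-Q,Q]`, `ρmin ≤ ρ` there, `0 < ρmin`, `∫_{-Q}^{Q} ρ = n / N`.

* `d2x259_P ρ Q x = ∫_{-Q}^{x} ρ`            cumulated mass,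
* `d2x259_inv ρ Q t`                          its inverse on `[0, P Q]`,
* `d2x259_b ρ Q N k = inv (k / N)`            cell boundaries,
* `d2x259_x ρ Q N k = inv ((k + 1/2) / N)`    mid-quantiles,   `d2x259_xF` the same on `Fin n`.

Main results
* `d2x259_cell_mass`, `d2x259_cell_width`, `d2x259_x_mem_cell`, `d2x259_x_strictMono`, `d2x259_x_sep` (separation),
* `d2x259_quadrature`     `|∫_{-Q}^{Q} g ρ - N⁻¹ ∑_{k<n} g (x k)| ≤ L / (N ρmin) * (n / N)` for `g` `L`-Lipschitz on `[-Q,Q]`,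
* `d2x259_x_rev`          `x (n-1-k) = - x k` for even `ρ`,
* `d2x259_G_bound`        the Bethe map at the quantiles is `O(1/N)` in the sup norm.
-/

set_option autoImplicit false

namespace Claimed.Agent.R292

open MeasureTheory Set Filter Topology

/-- cumulated mass of `ρ` from `-Q` -/
noncomputable def d2x259_P (ρ : ℝ → ℝ) (Q x : ℝ) : ℝ := ∫ y in (-Q)..x, ρ y

/-- inverse of the cumulated mass -/
noncomputable def d2x259_inv (ρ : ℝ → ℝ) (Q t : ℝ) : ℝ :=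
  Function.invFunOn (d2x259_P ρ Q) (Icc (-Q) Q) t

/-- cell boundaries -/
noncomputable def d2x259_b (ρ : ℝ → ℝ) (Q N : ℝ) (k : ℕ) : ℝ := d2x259_inv ρ Q ((k : ℝ) / N)

/-- mid-quantiles -/
noncomputable def d2x259_x (ρ : ℝ → ℝ) (Q N : ℝ) (k : ℕ) : ℝ :=
  d2x259_inv ρ Q (((k : ℝ) + 1 / 2) / N)

/-- mid-quantiles indexed by `Fin n` -/
noncomputable def d2x259_xF (ρ : ℝ → ℝ) (Q N : ℝ) (n : ℕ) : Fin n → ℝ := fun j => d2x259_x ρ Q N j

section Basic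

variable {ρ : ℝ → ℝ} {Q ρmin : ℝ}

theorem d2x259_ii (hρi : IntervalIntegrable ρ volume (-Q) Q) {x y : ℝ}
    (hx : x ∈ Icc (-Q) Q) (hy : y ∈ Icc (-Q) Q) : IntervalIntegrable ρ volume x y := by
  refine hρi.mono_set ?_
  rw [uIcc_of_le (hx.1.trans hx.2)]
  exact uIcc_subset_Icc hx hy

theorem d2x259_left_mem (hQ : 0 ≤ Q) : -Q ∈ Icc (-Q) Q := ⟨le_rfl, by linarith⟩

theorem d2x259_right_mem (hQ : 0 ≤ Q) : Q ∈ Icc (-Q) Q := ⟨by linarith, le_rfl⟩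

theorem d2x259_P_left (ρ : ℝ → ℝ) (Q : ℝ) : d2x259_P ρ Q (-Q) = 0 := by
  unfold d2x259_P
  exact intervalIntegral.integral_same

theorem d2x259_P_sub (hρi : IntervalIntegrable ρ volume (-Q) Q) {x y : ℝ}
    (hx : x ∈ Icc (-Q) Q) (hy : y ∈ Icc (-Q) Q) :
    d2x259_P ρ Q y - d2x259_P ρ Q x = ∫ u in x..y, ρ u := by
  unfold d2x259_P
  have hl : -Q ∈ Icc (-Q) Q := ⟨le_rfl, hx.1.trans hx.2⟩
  exact intervalIntegral.integral_interval_sub_left (d2x259_ii hρi hl hy) (d2x259_ii hρi hl hx)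

theorem d2x259_P_continuousOn (hρi : IntervalIntegrable ρ volume (-Q) Q) (hQ : 0 ≤ Q) :
    ContinuousOn (d2x259_P ρ Q) (Icc (-Q) Q) := by
  have h := intervalIntegral.continuousOn_primitive_interval (μ := volume) (f := ρ) (a := -Q) (b := Q)
    ((intervalIntegrable_iff' (by simp)).1 hρi)
  rw [uIcc_of_le (by linarith)] at h
  exact h

/-- lower growth of the cumulated mass -/
theorem d2x259_P_growth (hρi : IntervalIntegrable ρ volume (-Q) Q)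
    (hρm : ∀ x ∈ Icc (-Q) Q, ρmin ≤ ρ x) {x y : ℝ}
    (hx : x ∈ Icc (-Q) Q) (hy : y ∈ Icc (-Q) Q) (hxy : x ≤ y) :
    ρmin * (y - x) ≤ d2x259_P ρ Q y - d2x259_P ρ Q x := by
  rw [d2x259_P_sub hρi hx hy]
  have h := intervalIntegral.integral_mono_on (μ := volume) hxy
    (intervalIntegrable_const (c := ρmin)) (d2x259_ii hρi hx hy)
    (fun u hu => hρm u ⟨hx.1.trans hu.1, hu.2.trans hy.2⟩)
  rw [intervalIntegral.integral_const, smul_eq_mul] at h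
  linarith

/-- upper growth of the cumulated mass -/
theorem d2x259_P_growth_le {ρmax : ℝ} (hρi : IntervalIntegrable ρ volume (-Q) Q)
    (hρM : ∀ x ∈ Icc (-Q) Q, ρ x ≤ ρmax) {x y : ℝ}
    (hx : x ∈ Icc (-Q) Q) (hy : y ∈ Icc (-Q) Q) (hxy : x ≤ y) :
    d2x259_P ρ Q y - d2x259_P ρ Q x ≤ ρmax * (y - x) := by
  rw [d2x259_P_sub hρi hx hy]
  have h := intervalIntegral.integral_mono_on (μ := volume) hxy
    (d2x259_ii hρi hx hy) (intervalIntegrable_const (c := ρmax))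
    (fun u hu => hρM u ⟨hx.1.trans hu.1, hu.2.trans hy.2⟩)
  rw [intervalIntegral.integral_const, smul_eq_mul] at h
  linarith

theorem d2x259_P_strictMonoOn (hρi : IntervalIntegrable ρ volume (-Q) Q) (hρ0 : 0 < ρmin)
    (hρm : ∀ x ∈ Icc (-Q) Q, ρmin ≤ ρ x) : StrictMonoOn (d2x259_P ρ Q) (Icc (-Q) Q) := by
  intro x hx y hy hxy
  have h := d2x259_P_growth hρi hρm hx hy hxy.le
  have : 0 < ρmin * (y - x) := mul_pos hρ0 (sub_pos.2 hxy)
  linarith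

/-- the inverse of the cumulated mass is an inverse -/
theorem d2x259_inv_spec (hρi : IntervalIntegrable ρ volume (-Q) Q) (hQ : 0 ≤ Q) {t : ℝ}
    (ht0 : 0 ≤ t) (ht1 : t ≤ d2x259_P ρ Q Q) :
    d2x259_inv ρ Q t ∈ Icc (-Q) Q ∧ d2x259_P ρ Q (d2x259_inv ρ Q t) = t := by
  have h := intermediate_value_Icc (show -Q ≤ Q by linarith) (d2x259_P_continuousOn hρi hQ)
  rw [d2x259_P_left] at h
  obtain ⟨x, hx, hxt⟩ := h ⟨ht0, ht1⟩
  exact Function.invFunOn_pos ⟨x, hx, hxt⟩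

theorem d2x259_inv_of_P (hρi : IntervalIntegrable ρ volume (-Q) Q) (hρ0 : 0 < ρmin)
    (hρm : ∀ x ∈ Icc (-Q) Q, ρmin ≤ ρ x) {x : ℝ} (hx : x ∈ Icc (-Q) Q) :
    d2x259_inv ρ Q (d2x259_P ρ Q x) = x := by
  have h : d2x259_inv ρ Q (d2x259_P ρ Q x) ∈ Icc (-Q) Q ∧
      d2x259_P ρ Q (d2x259_inv ρ Q (d2x259_P ρ Q x)) = d2x259_P ρ Q x :=
    Function.invFunOn_pos ⟨x, hx, rfl⟩
  exact (d2x259_P_strictMonoOn hρi hρ0 hρm).injOn h.1 hx h.2

/-- the inverse is monotone, with the Lipschitz constant `1 / ρmin` -/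
theorem d2x259_inv_growth (hρi : IntervalIntegrable ρ volume (-Q) Q) (hQ : 0 ≤ Q) (hρ0 : 0 < ρmin)
    (hρm : ∀ x ∈ Icc (-Q) Q, ρmin ≤ ρ x) {s t : ℝ}
    (hs0 : 0 ≤ s) (hst : s ≤ t) (ht1 : t ≤ d2x259_P ρ Q Q) :
    d2x259_inv ρ Q s ≤ d2x259_inv ρ Q t ∧
      ρmin * (d2x259_inv ρ Q t - d2x259_inv ρ Q s) ≤ t - s := by
  obtain ⟨hsm, hsP⟩ := d2x259_inv_spec hρi hQ hs0 (hst.trans ht1)
  obtain ⟨htm, htP⟩ := d2x259_inv_spec hρi hQ (hs0.trans hst) ht1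
  have hle : d2x259_inv ρ Q s ≤ d2x259_inv ρ Q t := by
    rw [← (d2x259_P_strictMonoOn hρi hρ0 hρm).le_iff_le hsm htm, hsP, htP]
    exact hst
  refine ⟨hle, ?_⟩
  have h := d2x259_P_growth hρi hρm hsm htm hle
  rwa [hsP, htP] at h

theorem d2x259_inv_lt (hρi : IntervalIntegrable ρ volume (-Q) Q) (hQ : 0 ≤ Q) (hρ0 : 0 < ρmin)
    (hρm : ∀ x ∈ Icc (-Q) Q, ρmin ≤ ρ x) {s t : ℝ}
    (hs0 : 0 ≤ s) (hst : s < t) (ht1 : t ≤ d2x259_P ρ Q Q) :
    d2x259_inv ρ Q s < d2x259_inv ρ Q t := by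
  obtain ⟨hsm, hsP⟩ := d2x259_inv_spec hρi hQ hs0 (hst.le.trans ht1)
  obtain ⟨htm, htP⟩ := d2x259_inv_spec hρi hQ (hs0.trans hst.le) ht1
  rw [← (d2x259_P_strictMonoOn hρi hρ0 hρm).lt_iff_lt hsm htm, hsP, htP]
  exact hst

/-- separation of the inverse: `t - s ≤ ρmax (inv t - inv s)` -/
theorem d2x259_inv_sep {ρmax : ℝ} (hρi : IntervalIntegrable ρ volume (-Q) Q) (hQ : 0 ≤ Q)
    (hρ0 : 0 < ρmin) (hρm : ∀ x ∈ Icc (-Q) Q, ρmin ≤ ρ x) (hρM : ∀ x ∈ Icc (-Q) Q, ρ x ≤ ρmax)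
    {s t : ℝ} (hs0 : 0 ≤ s) (hst : s ≤ t) (ht1 : t ≤ d2x259_P ρ Q Q) :
    t - s ≤ ρmax * (d2x259_inv ρ Q t - d2x259_inv ρ Q s) := by
  obtain ⟨hsm, hsP⟩ := d2x259_inv_spec hρi hQ hs0 (hst.trans ht1)
  obtain ⟨htm, htP⟩ := d2x259_inv_spec hρi hQ (hs0.trans hst) ht1
  have hle := (d2x259_inv_growth hρi hQ hρ0 hρm hs0 hst ht1).1
  have h := d2x259_P_growth_le hρi hρM hsm htm hle
  rwa [hsP, htP] at h

theorem d2x259_inv_zero (hρi : IntervalIntegrable ρ volume (-Q) Q) (hQ : 0 ≤ Q) (hρ0 : 0 < ρmin)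
    (hρm : ∀ x ∈ Icc (-Q) Q, ρmin ≤ ρ x) : d2x259_inv ρ Q 0 = -Q := by
  have h := d2x259_inv_of_P hρi hρ0 hρm (d2x259_left_mem hQ)
  rwa [d2x259_P_left] at h

theorem d2x259_inv_top (hρi : IntervalIntegrable ρ volume (-Q) Q) (hQ : 0 ≤ Q) (hρ0 : 0 < ρmin)
    (hρm : ∀ x ∈ Icc (-Q) Q, ρmin ≤ ρ x) : d2x259_inv ρ Q (d2x259_P ρ Q Q) = Q :=
  d2x259_inv_of_P hρi hρ0 hρm (d2x259_right_mem hQ)

end Basic

section Cells

variable {ρ : ℝ → ℝ} {Q ρmin N : ℝ} {n : ℕ}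

theorem d2x259_b_spec (hρi : IntervalIntegrable ρ volume (-Q) Q) (hQ : 0 ≤ Q) (hN : 0 < N)
    (hmass : d2x259_P ρ Q Q = n / N) {k : ℕ} (hk : k ≤ n) :
    d2x259_b ρ Q N k ∈ Icc (-Q) Q ∧ d2x259_P ρ Q (d2x259_b ρ Q N k) = k / N := by
  refine d2x259_inv_spec hρi hQ (by positivity) ?_
  rw [hmass]
  exact div_le_div_of_nonneg_right (by exact_mod_cast hk) hN.le

theorem d2x259_x_le_mass (hN : 0 < N) {k : ℕ} (hk : k < n) :
    ((k : ℝ) + 1 / 2) / N ≤ (n : ℝ) / N := by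
  refine div_le_div_of_nonneg_right ?_ hN.le
  have : (k : ℝ) + 1 ≤ n := by exact_mod_cast hk
  linarith

theorem d2x259_x_spec (hρi : IntervalIntegrable ρ volume (-Q) Q) (hQ : 0 ≤ Q) (hN : 0 < N)
    (hmass : d2x259_P ρ Q Q = n / N) {k : ℕ} (hk : k < n) :
    d2x259_x ρ Q N k ∈ Icc (-Q) Q ∧ d2x259_P ρ Q (d2x259_x ρ Q N k) = ((k : ℝ) + 1 / 2) / N := by
  refine d2x259_inv_spec hρi hQ (by positivity) ?_
  rw [hmass]
  exact d2x259_x_le_mass hN hk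

theorem d2x259_b_zero (hρi : IntervalIntegrable ρ volume (-Q) Q) (hQ : 0 ≤ Q) (hρ0 : 0 < ρmin)
    (hρm : ∀ x ∈ Icc (-Q) Q, ρmin ≤ ρ x) : d2x259_b ρ Q N 0 = -Q := by
  unfold d2x259_b
  rw [Nat.cast_zero, zero_div]
  exact d2x259_inv_zero hρi hQ hρ0 hρm

theorem d2x259_b_last (hρi : IntervalIntegrable ρ volume (-Q) Q) (hQ : 0 ≤ Q) (hρ0 : 0 < ρmin)
    (hρm : ∀ x ∈ Icc (-Q) Q, ρmin ≤ ρ x) (hmass : d2x259_P ρ Q Q = n / N) :
    d2x259_b ρ Q N n = Q := by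
  unfold d2x259_b
  rw [← hmass]
  exact d2x259_inv_top hρi hQ hρ0 hρm

theorem d2x259_b_le_succ (hρi : IntervalIntegrable ρ volume (-Q) Q) (hQ : 0 ≤ Q) (hρ0 : 0 < ρmin)
    (hρm : ∀ x ∈ Icc (-Q) Q, ρmin ≤ ρ x) (hN : 0 < N) (hmass : d2x259_P ρ Q Q = n / N)
    {k : ℕ} (hk : k < n) : d2x259_b ρ Q N k ≤ d2x259_b ρ Q N (k + 1) := by
  refine (d2x259_inv_growth hρi hQ hρ0 hρm (by positivity) ?_ ?_).1
  · exact div_le_div_of_nonneg_right (by push_cast; linarith) hN.le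
  · rw [hmass]
    exact div_le_div_of_nonneg_right (by exact_mod_cast hk) hN.le

/-- every cell carries the mass `1 / N` -/
theorem d2x259_cell_mass (hρi : IntervalIntegrable ρ volume (-Q) Q) (hQ : 0 ≤ Q) (hN : 0 < N)
    (hmass : d2x259_P ρ Q Q = n / N) {k : ℕ} (hk : k < n) :
    ∫ u in d2x259_b ρ Q N k..d2x259_b ρ Q N (k + 1), ρ u = 1 / N := by
  obtain ⟨h1, h2⟩ := d2x259_b_spec hρi hQ hN hmass hk.le
  obtain ⟨h3, h4⟩ := d2x259_b_spec hρi hQ hN hmass (Nat.succ_le_of_lt hk)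
  rw [← d2x259_P_sub hρi h1 h3, h2, h4]
  push_cast
  ring

/-- every cell has width at most `1 / (N ρmin)` -/
theorem d2x259_cell_width (hρi : IntervalIntegrable ρ volume (-Q) Q) (hQ : 0 ≤ Q) (hρ0 : 0 < ρmin)
    (hρm : ∀ x ∈ Icc (-Q) Q, ρmin ≤ ρ x) (hN : 0 < N) (hmass : d2x259_P ρ Q Q = n / N)
    {k : ℕ} (hk : k < n) :
    d2x259_b ρ Q N (k + 1) - d2x259_b ρ Q N k ≤ 1 / (N * ρmin) := by
  have h := (d2x259_inv_growth hρi hQ hρ0 hρm (s := (k : ℝ) / N) (t := ((k + 1 : ℕ) : ℝ) / N)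
    (by positivity) (div_le_div_of_nonneg_right (by push_cast; linarith) hN.le)
    (by rw [hmass]; exact div_le_div_of_nonneg_right (by exact_mod_cast hk) hN.le)).2
  have e : ((k + 1 : ℕ) : ℝ) / N - (k : ℝ) / N = 1 / N := by push_cast; ring
  rw [e] at h
  unfold d2x259_b
  rw [le_div_iff₀ (mul_pos hN hρ0)]
  have h2 : N * (ρmin * (d2x259_inv ρ Q (((k + 1 : ℕ) : ℝ) / N) - d2x259_inv ρ Q ((k : ℝ) / N))) ≤
      N * (1 / N) := mul_le_mul_of_nonneg_left h hN.le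
  rw [mul_one_div_cancel hN.ne'] at h2
  linarith

/-- the mid-quantile lies in its cell -/
theorem d2x259_x_mem_cell (hρi : IntervalIntegrable ρ volume (-Q) Q) (hQ : 0 ≤ Q) (hρ0 : 0 < ρmin)
    (hρm : ∀ x ∈ Icc (-Q) Q, ρmin ≤ ρ x) (hN : 0 < N) (hmass : d2x259_P ρ Q Q = n / N)
    {k : ℕ} (hk : k < n) :
    d2x259_x ρ Q N k ∈ Icc (d2x259_b ρ Q N k) (d2x259_b ρ Q N (k + 1)) := by
  constructor
  · refine (d2x259_inv_growth hρi hQ hρ0 hρm (by positivity) ?_ ?_).1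
    · exact div_le_div_of_nonneg_right (by linarith) hN.le
    · rw [hmass]; exact d2x259_x_le_mass hN hk
  · refine (d2x259_inv_growth hρi hQ hρ0 hρm (by positivity) ?_ ?_).1
    · exact div_le_div_of_nonneg_right (by push_cast; linarith) hN.le
    · rw [hmass]
      exact div_le_div_of_nonneg_right (by exact_mod_cast hk) hN.le

theorem d2x259_x_lt (hρi : IntervalIntegrable ρ volume (-Q) Q) (hQ : 0 ≤ Q) (hρ0 : 0 < ρmin)
    (hρm : ∀ x ∈ Icc (-Q) Q, ρmin ≤ ρ x) (hN : 0 < N) (hmass : d2x259_P ρ Q Q = n / N)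
    {k l : ℕ} (hkl : k < l) (hl : l < n) : d2x259_x ρ Q N k < d2x259_x ρ Q N l := by
  refine d2x259_inv_lt hρi hQ hρ0 hρm (by positivity) ?_ ?_
  · refine div_lt_div_of_pos_right ?_ hN
    have : (k : ℝ) < l := by exact_mod_cast hkl
    linarith
  · rw [hmass]; exact d2x259_x_le_mass hN hl

theorem d2x259_xF_strictMono (hρi : IntervalIntegrable ρ volume (-Q) Q) (hQ : 0 ≤ Q)
    (hρ0 : 0 < ρmin) (hρm : ∀ x ∈ Icc (-Q) Q, ρmin ≤ ρ x) (hN : 0 < N)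
    (hmass : d2x259_P ρ Q Q = n / N) : StrictMono (d2x259_xF ρ Q N n) := by
  intro i j hij
  exact d2x259_x_lt hρi hQ hρ0 hρm hN hmass hij j.2

/-- neighbouring quantiles are close: `ρmin (x l - x k) ≤ (l - k) / N` -/
theorem d2x259_x_close (hρi : IntervalIntegrable ρ volume (-Q) Q) (hQ : 0 ≤ Q) (hρ0 : 0 < ρmin)
    (hρm : ∀ x ∈ Icc (-Q) Q, ρmin ≤ ρ x) (hN : 0 < N) (hmass : d2x259_P ρ Q Q = n / N)
    {k l : ℕ} (hkl : k ≤ l) (hl : l < n) :
    ρmin * (d2x259_x ρ Q N l - d2x259_x ρ Q N k) ≤ ((l : ℝ) - k) / N := by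
  have h := (d2x259_inv_growth hρi hQ hρ0 hρm (s := ((k : ℝ) + 1 / 2) / N)
    (t := ((l : ℝ) + 1 / 2) / N) (by positivity)
    (div_le_div_of_nonneg_right (by have : (k : ℝ) ≤ l := by exact_mod_cast hkl
                                    linarith) hN.le)
    (by rw [hmass]; exact d2x259_x_le_mass hN hl)).2
  have e : ((l : ℝ) + 1 / 2) / N - ((k : ℝ) + 1 / 2) / N = ((l : ℝ) - k) / N := by ring
  rw [e] at h
  exact h

/-- quantiles are separated: `(l - k) / N ≤ ρmax (x l - x k)` -/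
theorem d2x259_x_sep {ρmax : ℝ} (hρi : IntervalIntegrable ρ volume (-Q) Q) (hQ : 0 ≤ Q)
    (hρ0 : 0 < ρmin) (hρm : ∀ x ∈ Icc (-Q) Q, ρmin ≤ ρ x) (hρM : ∀ x ∈ Icc (-Q) Q, ρ x ≤ ρmax)
    (hN : 0 < N) (hmass : d2x259_P ρ Q Q = n / N) {k l : ℕ} (hkl : k ≤ l) (hl : l < n) :
    ((l : ℝ) - k) / N ≤ ρmax * (d2x259_x ρ Q N l - d2x259_x ρ Q N k) := by
  have h := d2x259_inv_sep hρi hQ hρ0 hρm hρM (s := ((k : ℝ) + 1 / 2) / N)
    (t := ((l : ℝ) + 1 / 2) / N) (by positivity)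
    (div_le_div_of_nonneg_right (by have : (k : ℝ) ≤ l := by exact_mod_cast hkl
                                    linarith) hN.le)
    (by rw [hmass]; exact d2x259_x_le_mass hN hl)
  have e : ((l : ℝ) + 1 / 2) / N - ((k : ℝ) + 1 / 2) / N = ((l : ℝ) - k) / N := by ring
  rw [e] at h
  exact h

end Cells

section Quadrature

variable {ρ g : ℝ → ℝ} {Q ρmin N L : ℝ} {n : ℕ}

theorem d2x259_lip_continuousOn {s : Set ℝ}
    (hg : ∀ x ∈ s, ∀ y ∈ s, |g x - g y| ≤ L * |x - y|) : ContinuousOn g s := by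
  have h : LipschitzOnWith L.toNNReal g s := by
    refine LipschitzOnWith.of_dist_le_mul fun x hx y hy => ?_
    rw [Real.dist_eq, Real.dist_eq]
    refine (hg x hx y hy).trans (mul_le_mul_of_nonneg_right ?_ (abs_nonneg _))
    exact Real.le_coe_toNNReal L
  exact h.continuousOn

theorem d2x259_mul_ii (hρi : IntervalIntegrable ρ volume (-Q) Q)
    (hg : ∀ x ∈ Icc (-Q) Q, ∀ y ∈ Icc (-Q) Q, |g x - g y| ≤ L * |x - y|) {x y : ℝ}
    (hx : x ∈ Icc (-Q) Q) (hy : y ∈ Icc (-Q) Q) :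
    IntervalIntegrable (fun u => g u * ρ u) volume x y :=
  (d2x259_ii hρi hx hy).continuousOn_mul
    ((d2x259_lip_continuousOn hg).mono (uIcc_subset_Icc hx hy))

/-- one cell of the quadrature -/
theorem d2x259_quad_cell (hρi : IntervalIntegrable ρ volume (-Q) Q) (hQ : 0 ≤ Q) (hρ0 : 0 < ρmin)
    (hρm : ∀ x ∈ Icc (-Q) Q, ρmin ≤ ρ x) (hN : 0 < N) (hmass : d2x259_P ρ Q Q = n / N)
    (hL : 0 ≤ L) (hg : ∀ x ∈ Icc (-Q) Q, ∀ y ∈ Icc (-Q) Q, |g x - g y| ≤ L * |x - y|)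
    {k : ℕ} (hk : k < n) :
    |(∫ u in d2x259_b ρ Q N k..d2x259_b ρ Q N (k + 1), g u * ρ u) - N⁻¹ * g (d2x259_x ρ Q N k)| ≤
      L / (N * ρmin) * (1 / N) := by
  obtain ⟨h1, -⟩ := d2x259_b_spec hρi hQ hN hmass hk.le
  obtain ⟨h3, -⟩ := d2x259_b_spec hρi hQ hN hmass (Nat.succ_le_of_lt hk)
  obtain ⟨hxm, -⟩ := d2x259_x_spec hρi hQ hN hmass hk
  have hle := d2x259_b_le_succ hρi hQ hρ0 hρm hN hmass hk
  have hcell := d2x259_x_mem_cell hρi hQ hρ0 hρm hN hmass hk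
  have hw := d2x259_cell_width hρi hQ hρ0 hρm hN hmass hk
  have hm := d2x259_cell_mass hρi hQ hN hmass hk
  have e1 : N⁻¹ * g (d2x259_x ρ Q N k) =
      ∫ u in d2x259_b ρ Q N k..d2x259_b ρ Q N (k + 1), g (d2x259_x ρ Q N k) * ρ u := by
    rw [intervalIntegral.integral_const_mul, hm]
    ring
  rw [e1, ← intervalIntegral.integral_sub (d2x259_mul_ii hρi hg h1 h3)
    ((d2x259_ii hρi h1 h3).const_mul _)]
  have hb : ‖∫ u in d2x259_b ρ Q N k..d2x259_b ρ Q N (k + 1),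
      (g u * ρ u - g (d2x259_x ρ Q N k) * ρ u)‖ ≤
      ∫ u in d2x259_b ρ Q N k..d2x259_b ρ Q N (k + 1), L / (N * ρmin) * ρ u := by
    refine intervalIntegral.norm_integral_le_of_norm_le hle ?_ ((d2x259_ii hρi h1 h3).const_mul _)
    refine Filter.Eventually.of_forall fun u hu => ?_
    have hum : u ∈ Icc (-Q) Q := ⟨h1.1.trans hu.1.le, hu.2.trans h3.2⟩
    have hρu : 0 ≤ ρ u := hρ0.le.trans (hρm u hum)
    have e2 : g u * ρ u - g (d2x259_x ρ Q N k) * ρ u = (g u - g (d2x259_x ρ Q N k)) * ρ u := by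
      ring
    rw [e2, Real.norm_eq_abs, abs_mul, abs_of_nonneg hρu]
    refine mul_le_mul_of_nonneg_right ?_ hρu
    refine (hg u hum _ hxm).trans ?_
    have hd : |u - d2x259_x ρ Q N k| ≤ 1 / (N * ρmin) := by
      rw [abs_le]
      constructor <;> linarith [hu.1, hu.2, hcell.1, hcell.2]
    calc L * |u - d2x259_x ρ Q N k| ≤ L * (1 / (N * ρmin)) := mul_le_mul_of_nonneg_left hd hL
      _ = L / (N * ρmin) := by ring
  rw [Real.norm_eq_abs, intervalIntegral.integral_const_mul, hm] at hb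
  exact hb

/-- **First-order quadrature at the mid-quantiles.** -/
theorem d2x259_quadrature (hρi : IntervalIntegrable ρ volume (-Q) Q) (hQ : 0 ≤ Q) (hρ0 : 0 < ρmin)
    (hρm : ∀ x ∈ Icc (-Q) Q, ρmin ≤ ρ x) (hN : 0 < N) (hmass : d2x259_P ρ Q Q = n / N)
    (hL : 0 ≤ L) (hg : ∀ x ∈ Icc (-Q) Q, ∀ y ∈ Icc (-Q) Q, |g x - g y| ≤ L * |x - y|) :
    |(∫ u in (-Q)..Q, g u * ρ u) - N⁻¹ * ∑ k ∈ Finset.range n, g (d2x259_x ρ Q N k)| ≤
      L / (N * ρmin) * (n / N) := by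
  have hsum := intervalIntegral.sum_integral_adjacent_intervals (μ := volume)
    (f := fun u => g u * ρ u) (a := d2x259_b ρ Q N) (n := n) (fun k hk =>
      d2x259_mul_ii hρi hg (d2x259_b_spec hρi hQ hN hmass hk.le).1
        (d2x259_b_spec hρi hQ hN hmass (Nat.succ_le_of_lt hk)).1)
  rw [d2x259_b_zero hρi hQ hρ0 hρm, d2x259_b_last hρi hQ hρ0 hρm hmass] at hsum
  rw [← hsum, Finset.mul_sum, ← Finset.sum_sub_distrib]
  refine (Finset.abs_sum_le_sum_abs _ _).trans ?_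
  refine (Finset.sum_le_sum fun k hk =>
    d2x259_quad_cell hρi hQ hρ0 hρm hN hmass hL hg (Finset.mem_range.1 hk)).trans ?_
  rw [Finset.sum_const, Finset.card_range, nsmul_eq_mul]
  apply le_of_eq
  ring

/-- the same with the sum over `Fin n` -/
theorem d2x259_quadratureF (hρi : IntervalIntegrable ρ volume (-Q) Q) (hQ : 0 ≤ Q) (hρ0 : 0 < ρmin)
    (hρm : ∀ x ∈ Icc (-Q) Q, ρmin ≤ ρ x) (hN : 0 < N) (hmass : d2x259_P ρ Q Q = n / N)
    (hL : 0 ≤ L) (hg : ∀ x ∈ Icc (-Q) Q, ∀ y ∈ Icc (-Q) Q, |g x - g y| ≤ L * |x - y|) :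
    |(∫ u in (-Q)..Q, g u * ρ u) - N⁻¹ * ∑ j : Fin n, g (d2x259_xF ρ Q N n j)| ≤
      L / (N * ρmin) * (n / N) := by
  have e : ∑ j : Fin n, g (d2x259_xF ρ Q N n j) = ∑ k ∈ Finset.range n, g (d2x259_x ρ Q N k) :=
    Fin.sum_univ_eq_sum_range (fun k => g (d2x259_x ρ Q N k)) n
  rw [e]
  exact d2x259_quadrature hρi hQ hρ0 hρm hN hmass hL hg

end Quadrature

section Symmetry

variable {ρ : ℝ → ℝ} {Q ρmin N : ℝ} {n : ℕ}

theorem d2x259_neg_mem {x : ℝ} (hx : x ∈ Icc (-Q) Q) : -x ∈ Icc (-Q) Q :=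
  ⟨by linarith [hx.2], by linarith [hx.1]⟩

/-- reflection of the cumulated mass of an even density -/
theorem d2x259_P_neg (hρi : IntervalIntegrable ρ volume (-Q) Q)
    (hev : ∀ x ∈ Icc (-Q) Q, ρ (-x) = ρ x) {x : ℝ} (hx : x ∈ Icc (-Q) Q) :
    d2x259_P ρ Q (-x) = d2x259_P ρ Q Q - d2x259_P ρ Q x := by
  have hQm : Q ∈ Icc (-Q) Q := ⟨hx.1.trans hx.2, le_rfl⟩
  rw [d2x259_P_sub hρi hx hQm]
  unfold d2x259_P
  rw [← intervalIntegral.integral_comp_neg]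
  refine intervalIntegral.integral_congr fun u hu => ?_
  exact hev u (uIcc_subset_Icc hx hQm hu)

theorem d2x259_inv_reflect (hρi : IntervalIntegrable ρ volume (-Q) Q) (hQ : 0 ≤ Q) (hρ0 : 0 < ρmin)
    (hρm : ∀ x ∈ Icc (-Q) Q, ρmin ≤ ρ x) (hev : ∀ x ∈ Icc (-Q) Q, ρ (-x) = ρ x) {t : ℝ}
    (ht0 : 0 ≤ t) (ht1 : t ≤ d2x259_P ρ Q Q) :
    d2x259_inv ρ Q (d2x259_P ρ Q Q - t) = -d2x259_inv ρ Q t := by
  obtain ⟨hm, hP⟩ := d2x259_inv_spec hρi hQ ht0 ht1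
  have h := d2x259_inv_of_P hρi hρ0 hρm (d2x259_neg_mem hm)
  rwa [d2x259_P_neg hρi hev hm, hP] at h

/-- the mid-quantiles of an even density are symmetric -/
theorem d2x259_x_rev (hρi : IntervalIntegrable ρ volume (-Q) Q) (hQ : 0 ≤ Q) (hρ0 : 0 < ρmin)
    (hρm : ∀ x ∈ Icc (-Q) Q, ρmin ≤ ρ x) (hev : ∀ x ∈ Icc (-Q) Q, ρ (-x) = ρ x) (hN : 0 < N)
    (hmass : d2x259_P ρ Q Q = n / N) {k : ℕ} (hk : k < n) :
    d2x259_x ρ Q N (n - (k + 1)) = -d2x259_x ρ Q N k := by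
  have h := d2x259_inv_reflect hρi hQ hρ0 hρm hev (t := ((k : ℝ) + 1 / 2) / N) (by positivity)
    (by rw [hmass]; exact d2x259_x_le_mass hN hk)
  unfold d2x259_x
  rw [← h, hmass]
  congr 1
  rw [Nat.cast_sub (Nat.succ_le_of_lt hk)]
  push_cast
  ring

theorem d2x259_xF_rev (hρi : IntervalIntegrable ρ volume (-Q) Q) (hQ : 0 ≤ Q) (hρ0 : 0 < ρmin)
    (hρm : ∀ x ∈ Icc (-Q) Q, ρmin ≤ ρ x) (hev : ∀ x ∈ Icc (-Q) Q, ρ (-x) = ρ x) (hN : 0 < N)
    (hmass : d2x259_P ρ Q Q = n / N) (j : Fin n) :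
    d2x259_xF ρ Q N n (Fin.rev j) = -d2x259_xF ρ Q N n j := by
  unfold d2x259_xF
  rw [Fin.val_rev]
  exact d2x259_x_rev hρi hQ hρ0 hρm hev hN hmass j.2

theorem d2x259_zero_mem (hQ : 0 ≤ Q) : (0 : ℝ) ∈ Icc (-Q) Q := ⟨by linarith, hQ⟩

/-- half of the mass of an even density lies to the left of `0` -/
theorem d2x259_P_zero (hρi : IntervalIntegrable ρ volume (-Q) Q) (hQ : 0 ≤ Q)
    (hev : ∀ x ∈ Icc (-Q) Q, ρ (-x) = ρ x) : d2x259_P ρ Q 0 = d2x259_P ρ Q Q / 2 := by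
  have h := d2x259_P_neg hρi hev (d2x259_zero_mem hQ)
  rw [neg_zero] at h
  linarith

/-- `∫_0^{x_k} ρ = I_k / N` with the Bethe quantum number `I_k = k + 1 - (n + 1) / 2` -/
theorem d2x259_x_quantum (hρi : IntervalIntegrable ρ volume (-Q) Q) (hQ : 0 ≤ Q)
    (hev : ∀ x ∈ Icc (-Q) Q, ρ (-x) = ρ x) (hN : 0 < N)
    (hmass : d2x259_P ρ Q Q = n / N) {k : ℕ} (hk : k < n) :
    ∫ u in (0 : ℝ)..d2x259_x ρ Q N k, ρ u = ((k : ℝ) + 1 - ((n : ℝ) + 1) / 2) / N := by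
  obtain ⟨hm, hP⟩ := d2x259_x_spec hρi hQ hN hmass hk
  rw [← d2x259_P_sub hρi (d2x259_zero_mem hQ) hm, hP, d2x259_P_zero hρi hQ hev, hmass]
  field_simp
  ring

end Symmetry

section Integrated

variable {k θ ξ K ρ : ℝ → ℝ} {Q κ Kmax : ℝ}

theorem d2x259_lip_of_deriv (hθ : ∀ x, HasDerivAt θ (K x) x) (hKb : ∀ x, |K x| ≤ Kmax) (a b : ℝ) :
    |θ a - θ b| ≤ Kmax * |a - b| := by
  have h := Convex.norm_image_sub_le_of_norm_hasDerivWithin_le (f := θ) (f' := K) (s := univ)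
    (C := Kmax) (x := b) (y := a) (fun x _ => (hθ x).hasDerivWithinAt)
    (fun x _ => by rw [Real.norm_eq_abs]; exact hKb x) convex_univ (mem_univ _) (mem_univ _)
  rwa [Real.norm_eq_abs, Real.norm_eq_abs] at h

theorem d2x259_prod_integrableOn (hρi : IntervalIntegrable ρ volume (-Q) Q) (hK : Continuous K)
    (hKb : ∀ x, |K x| ≤ Kmax) (a b : ℝ) :
    IntegrableOn (Function.uncurry fun t y : ℝ => K (t - y) * ρ y) (uIoc a b ×ˢ uIoc (-Q) Q) := by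
  have h1 : Integrable ρ (volume.restrict (uIoc (-Q) Q)) := intervalIntegrable_iff.1 hρi
  have : IsFiniteMeasure (volume.restrict (uIoc a b)) :=
    ⟨by rw [Measure.restrict_apply_univ]; unfold uIoc; exact measure_Ioc_lt_top⟩
  have h2 : Integrable (fun p : ℝ × ℝ => ρ p.2)
      ((volume.restrict (uIoc a b)).prod (volume.restrict (uIoc (-Q) Q))) :=
    h1.comp_snd (volume.restrict (uIoc a b))
  unfold IntegrableOn
  rw [Measure.volume_eq_prod, ← Measure.prod_restrict]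
  refine h2.bdd_mul (c := Kmax) ?_ ?_
  · exact (hK.comp (continuous_fst.sub continuous_snd)).aestronglyMeasurable
  · exact Filter.Eventually.of_forall fun p => by rw [Real.norm_eq_abs]; exact hKb _

/-- **From the density equation to the integrated (counting function) equation.**
`k' = ξ`, `θ' = K`, `κ ρ + K_Q ρ = ξ` on `[-Q,Q]`  ⟹  `k - θ_Q ρ - κ P` is constant on `[-Q,Q]`. -/
theorem d2x259_integrated (hρi : IntervalIntegrable ρ volume (-Q) Q)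
    (hk : ∀ x, HasDerivAt k (ξ x) x) (hξ : Continuous ξ)
    (hθ : ∀ x, HasDerivAt θ (K x) x) (hK : Continuous K) (hKb : ∀ x, |K x| ≤ Kmax)
    (hEq : ∀ x ∈ Icc (-Q) Q, κ * ρ x + ∫ y in (-Q)..Q, K (x - y) * ρ y = ξ x)
    {x x' : ℝ} (hx : x ∈ Icc (-Q) Q) (hx' : x' ∈ Icc (-Q) Q) :
    (k x - ∫ y in (-Q)..Q, θ (x - y) * ρ y) - (k x' - ∫ y in (-Q)..Q, θ (x' - y) * ρ y) =
      κ * (d2x259_P ρ Q x - d2x259_P ρ Q x') := by
  have hθc : Continuous θ := continuous_iff_continuousAt.2 fun x => (hθ x).continuousAt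
  have hint : ∀ z : ℝ, IntervalIntegrable (fun y => θ (z - y) * ρ y) volume (-Q) Q := fun z =>
    hρi.continuousOn_mul (hθc.comp (continuous_const.sub continuous_id)).continuousOn
  have e1 : k x - k x' = ∫ t in x'..x, ξ t :=
    (intervalIntegral.integral_eq_sub_of_hasDerivAt (fun t _ => hk t)
      (hξ.intervalIntegrable _ _)).symm
  have e2 : ∀ y : ℝ, θ (x - y) - θ (x' - y) = ∫ t in x'..x, K (t - y) := fun y =>
    (intervalIntegral.integral_eq_sub_of_hasDerivAt (f := fun t => θ (t - y))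
      (fun t _ => (hθ (t - y)).comp_sub_const t y)
      ((hK.comp (continuous_id.sub continuous_const)).intervalIntegrable _ _)).symm
  have e3 : (∫ y in (-Q)..Q, θ (x - y) * ρ y) - ∫ y in (-Q)..Q, θ (x' - y) * ρ y =
      ∫ y in (-Q)..Q, ∫ t in x'..x, K (t - y) * ρ y := by
    rw [← intervalIntegral.integral_sub (hint x) (hint x')]
    refine intervalIntegral.integral_congr fun y _ => ?_
    show θ (x - y) * ρ y - θ (x' - y) * ρ y = ∫ t in x'..x, K (t - y) * ρ y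
    rw [intervalIntegral.integral_mul_const, ← e2 y]
    ring
  have e4 : (∫ y in (-Q)..Q, ∫ t in x'..x, K (t - y) * ρ y) =
      ∫ t in x'..x, ∫ y in (-Q)..Q, K (t - y) * ρ y :=
    (intervalIntegral_intervalIntegral_swap (d2x259_prod_integrableOn hρi hK hKb x' x)).symm
  have e5 : (∫ t in x'..x, ∫ y in (-Q)..Q, K (t - y) * ρ y) = ∫ t in x'..x, (ξ t - κ * ρ t) := by
    refine intervalIntegral.integral_congr fun t ht => ?_
    have := hEq t (uIcc_subset_Icc hx' hx ht)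
    show (∫ y in (-Q)..Q, K (t - y) * ρ y) = ξ t - κ * ρ t
    linarith
  have e6 : (∫ t in x'..x, (ξ t - κ * ρ t)) =
      (∫ t in x'..x, ξ t) - κ * (d2x259_P ρ Q x - d2x259_P ρ Q x') := by
    rw [intervalIntegral.integral_sub (hξ.intervalIntegrable _ _)
      ((d2x259_ii hρi hx' hx).const_mul κ), intervalIntegral.integral_const_mul,
      d2x259_P_sub hρi hx' hx]
  rw [e4, e5, e6] at e3
  linarith

/-- the convolution of an odd `θ` with an even density vanishes at `0` -/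
theorem d2x259_conv_zero (hodd : ∀ x, θ (-x) = -θ x) (hev : ∀ x ∈ Icc (-Q) Q, ρ (-x) = ρ x)
    (hQ : 0 ≤ Q) : ∫ y in (-Q)..Q, θ (0 - y) * ρ y = 0 := by
  have h1 : (∫ y in (-Q)..Q, θ (0 - -y) * ρ (-y)) = ∫ y in (-Q)..Q, θ (0 - y) * ρ y := by
    have := intervalIntegral.integral_comp_neg (a := -Q) (b := Q) (fun y => θ (0 - y) * ρ y)
    rw [neg_neg] at this
    exact this
  have h2 : (∫ y in (-Q)..Q, θ (0 - -y) * ρ (-y)) = -∫ y in (-Q)..Q, θ (0 - y) * ρ y := by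
    rw [← intervalIntegral.integral_neg]
    refine intervalIntegral.integral_congr fun y hy => ?_
    rw [uIcc_of_le (by linarith)] at hy
    show θ (0 - -y) * ρ (-y) = -(θ (0 - y) * ρ y)
    rw [hev y hy, zero_sub, zero_sub, hodd (-y)]
    ring
  linarith

end Integrated

section BetheMap

variable {k θ ξ K ρ : ℝ → ℝ} {Q κ Kmax ρmin N L b₀ : ℝ} {n : ℕ}

/-- **The Bethe map at the mid-quantiles is `O(1/N)`** (general form: integrated equation as a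
hypothesis, no parity). -/
theorem d2x259_G_bound (hρi : IntervalIntegrable ρ volume (-Q) Q) (hQ : 0 ≤ Q) (hρ0 : 0 < ρmin)
    (hρm : ∀ x ∈ Icc (-Q) Q, ρmin ≤ ρ x) (hN : 0 < N) (hmass : d2x259_P ρ Q Q = n / N)
    (hL : 0 ≤ L) (hθL : ∀ a b, |θ a - θ b| ≤ L * |a - b|)
    (hInt : ∀ x ∈ Icc (-Q) Q, k x - ∫ y in (-Q)..Q, θ (x - y) * ρ y = κ * d2x259_P ρ Q x + b₀)
    (j : Fin n) :
    |k (d2x259_xF ρ Q N n j) - N⁻¹ * ∑ l, θ (d2x259_xF ρ Q N n j - d2x259_xF ρ Q N n l) -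
        (κ * (((j : ℝ) + 1 / 2) / N) + b₀)| ≤ L / (N * ρmin) * (n / N) := by
  obtain ⟨hm, hP⟩ := d2x259_x_spec hρi hQ hN hmass j.2
  have hq := d2x259_quadratureF (g := fun y => θ (d2x259_xF ρ Q N n j - y)) hρi hQ hρ0 hρm hN hmass
    hL (fun x _ y _ => by
      refine (hθL _ _).trans (le_of_eq ?_)
      congr 1
      rw [← abs_neg]
      congr 1
      ring)
  have h1 := hInt _ hm
  rw [hP] at h1
  have e : k (d2x259_xF ρ Q N n j) - N⁻¹ * ∑ l, θ (d2x259_xF ρ Q N n j - d2x259_xF ρ Q N n l) -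
      (κ * (((j : ℝ) + 1 / 2) / N) + b₀) =
      (∫ u in (-Q)..Q, θ (d2x259_xF ρ Q N n j - u) * ρ u) -
        N⁻¹ * ∑ l, θ (d2x259_xF ρ Q N n j - d2x259_xF ρ Q N n l) := by
    have h2 : d2x259_xF ρ Q N n j = d2x259_x ρ Q N j := rfl
    rw [← h2] at h1
    linarith
  rw [e]
  exact hq

/-- **The Bethe map at the mid-quantiles is `O(1/N)`** (Bethe form): `k`, `θ` odd with `k' = ξ`,
`θ' = K`, `|K| ≤ Kmax`; `ρ` even, `ρ ≥ ρmin > 0`, `κ ρ + K_Q ρ = ξ` on `[-Q,Q]`, `∫ ρ = n / N`.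
Quantum numbers `I_j = j + 1 - (n + 1) / 2`, `j : Fin n`. -/
theorem d2x259_G_bound_sym (hρi : IntervalIntegrable ρ volume (-Q) Q) (hQ : 0 ≤ Q) (hρ0 : 0 < ρmin)
    (hρm : ∀ x ∈ Icc (-Q) Q, ρmin ≤ ρ x) (hev : ∀ x ∈ Icc (-Q) Q, ρ (-x) = ρ x)
    (hN : 0 < N) (hmass : d2x259_P ρ Q Q = n / N)
    (hk : ∀ x, HasDerivAt k (ξ x) x) (hξ : Continuous ξ) (hk0 : k 0 = 0)
    (hθ : ∀ x, HasDerivAt θ (K x) x) (hK : Continuous K) (hKb : ∀ x, |K x| ≤ Kmax)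
    (hodd : ∀ x, θ (-x) = -θ x)
    (hEq : ∀ x ∈ Icc (-Q) Q, κ * ρ x + ∫ y in (-Q)..Q, K (x - y) * ρ y = ξ x) (j : Fin n) :
    |k (d2x259_xF ρ Q N n j) - N⁻¹ * ∑ l, θ (d2x259_xF ρ Q N n j - d2x259_xF ρ Q N n l) -
        κ * (((j : ℝ) + 1 - ((n : ℝ) + 1) / 2) / N)| ≤ Kmax / (N * ρmin) * (n / N) := by
  have hKmax : 0 ≤ Kmax := (abs_nonneg _).trans (hKb 0)
  have hInt : ∀ x ∈ Icc (-Q) Q, k x - ∫ y in (-Q)..Q, θ (x - y) * ρ y =
      κ * d2x259_P ρ Q x + -(κ * ((n : ℝ) / N / 2)) := by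
    intro x hx
    have h := d2x259_integrated hρi hk hξ hθ hK hKb hEq hx (d2x259_zero_mem hQ)
    rw [hk0, d2x259_conv_zero hodd hev hQ, d2x259_P_zero hρi hQ hev, hmass] at h
    linarith
  have h := d2x259_G_bound hρi hQ hρ0 hρm hN hmass hKmax (d2x259_lip_of_deriv hθ hKb) hInt j
  have e : κ * (((j : ℝ) + 1 / 2) / N) + -(κ * ((n : ℝ) / N / 2)) =
      κ * (((j : ℝ) + 1 - ((n : ℝ) + 1) / 2) / N) := by
    field_simp
    ring
  rwa [e] at h

/-- the same in the sup norm of `Fin n → ℝ` (unfolds to `nw70G k θ N a x₀` of helper70). -/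
theorem d2x259_G_norm_sym (hρi : IntervalIntegrable ρ volume (-Q) Q) (hQ : 0 ≤ Q) (hρ0 : 0 < ρmin)
    (hρm : ∀ x ∈ Icc (-Q) Q, ρmin ≤ ρ x) (hev : ∀ x ∈ Icc (-Q) Q, ρ (-x) = ρ x)
    (hN : 0 < N) (hmass : d2x259_P ρ Q Q = n / N)
    (hk : ∀ x, HasDerivAt k (ξ x) x) (hξ : Continuous ξ) (hk0 : k 0 = 0)
    (hθ : ∀ x, HasDerivAt θ (K x) x) (hK : Continuous K) (hKb : ∀ x, |K x| ≤ Kmax)
    (hodd : ∀ x, θ (-x) = -θ x)
    (hEq : ∀ x ∈ Icc (-Q) Q, κ * ρ x + ∫ y in (-Q)..Q, K (x - y) * ρ y = ξ x) :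
    ‖(fun j : Fin n => k (d2x259_xF ρ Q N n j) -
        N⁻¹ * ∑ l, θ (d2x259_xF ρ Q N n j - d2x259_xF ρ Q N n l) -
        κ * (((j : ℝ) + 1 - ((n : ℝ) + 1) / 2) / N))‖ ≤ Kmax / (N * ρmin) * (n / N) := by
  have hKmax : 0 ≤ Kmax := (abs_nonneg _).trans (hKb 0)
  rw [pi_norm_le_iff_of_nonneg (by positivity)]
  intro j
  rw [Real.norm_eq_abs]
  exact d2x259_G_bound_sym hρi hQ hρ0 hρm hev hN hmass hk hξ hk0 hθ hK hKb hodd hEq j

end BetheMap

/-!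
## PART 2 (leaf L1b): KERNEL BOUNDS

(A) abstract: the variation function `l1b259_W K` of a unimodal kernel (both signs);
(B) `ba230_ker a`: joint continuity, positivity, monotonicity on half lines, uniform sup bounds;
(C) `Ba5qKer` of `Cond180` and the hypotheses `hsc2 hKc2 hsb hK0 hKb hW hKW hWV` of `ba3x80_roots_pos`.
-/

section Unimodal

variable {K : ℝ → ℝ}

/-- variation function of a kernel that increases on `(-∞,0]` and decreases on `[0,∞)` -/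
noncomputable def l1b259_W (K : ℝ → ℝ) (x : ℝ) : ℝ := if x ≤ 0 then K x else 2 * K 0 - K x

theorem l1b259_W_of_le (K : ℝ → ℝ) {x : ℝ} (hx : x ≤ 0) : l1b259_W K x = K x := if_pos hx

theorem l1b259_W_of_gt (K : ℝ → ℝ) {x : ℝ} (hx : 0 < x) : l1b259_W K x = 2 * K 0 - K x :=
  if_neg (not_le.2 hx)

theorem l1b259_le_top (h1 : MonotoneOn K (Iic 0)) (h2 : AntitoneOn K (Ici 0)) (x : ℝ) :
    K x ≤ K 0 := by
  rcases le_total x 0 with hx | hx
  · exact h1 hx (mem_Iic.2 le_rfl) hx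
  · exact h2 (mem_Ici.2 le_rfl) hx hx

/-- the increments of `K` are dominated by the increments of `W` -/
theorem l1b259_W_var (h1 : MonotoneOn K (Iic 0)) (h2 : AntitoneOn K (Ici 0)) {v v' : ℝ}
    (h : v ≤ v') : |K v' - K v| ≤ l1b259_W K v' - l1b259_W K v := by
  rcases le_or_gt v' 0 with hv' | hv'
  · have hv : v ≤ 0 := h.trans hv'
    rw [l1b259_W_of_le K hv', l1b259_W_of_le K hv, abs_of_nonneg (sub_nonneg.2 (h1 hv hv' h))]
  · rcases le_or_gt v 0 with hv | hv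
    · rw [l1b259_W_of_gt K hv', l1b259_W_of_le K hv, abs_le]
      have a1 := l1b259_le_top h1 h2 v
      have a2 := l1b259_le_top h1 h2 v'
      constructor <;> linarith
    · have h3 : K v' ≤ K v := h2 (mem_Ici.2 hv.le) (mem_Ici.2 hv'.le) h
      rw [l1b259_W_of_gt K hv', l1b259_W_of_gt K hv, abs_of_nonpos (sub_nonpos.2 h3)]
      linarith

theorem l1b259_W_mono (h1 : MonotoneOn K (Iic 0)) (h2 : AntitoneOn K (Ici 0)) :
    Monotone (l1b259_W K) := by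
  intro v v' h
  have := (abs_nonneg _).trans (l1b259_W_var h1 h2 h)
  linarith

theorem l1b259_W_range (h1 : MonotoneOn K (Iic 0)) (h2 : AntitoneOn K (Ici 0)) {m₀ : ℝ}
    (hm : ∀ x, m₀ ≤ K x) (x : ℝ) : m₀ ≤ l1b259_W K x ∧ l1b259_W K x ≤ 2 * K 0 - m₀ := by
  have a1 := l1b259_le_top h1 h2 x
  have a2 := hm x
  have a3 := hm 0
  rcases le_or_gt x 0 with hx | hx
  · rw [l1b259_W_of_le K hx]
    constructor <;> linarith
  · rw [l1b259_W_of_gt K hx]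
    constructor <;> linarith

/-- total variation -/
theorem l1b259_W_tot (h1 : MonotoneOn K (Iic 0)) (h2 : AntitoneOn K (Ici 0)) {m₀ : ℝ}
    (hm : ∀ x, m₀ ≤ K x) (v v' : ℝ) : l1b259_W K v' - l1b259_W K v ≤ 2 * (K 0 - m₀) := by
  have a1 := (l1b259_W_range h1 h2 hm v').2
  have a2 := (l1b259_W_range h1 h2 hm v).1
  linarith

/-- mirror: kernels that decrease on `(-∞,0]` and increase on `[0,∞)`; use `W (-K)` -/
theorem l1b259_W_var_neg (h1 : AntitoneOn K (Iic 0)) (h2 : MonotoneOn K (Ici 0)) {v v' : ℝ}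
    (h : v ≤ v') :
    |K v' - K v| ≤ l1b259_W (fun x => -K x) v' - l1b259_W (fun x => -K x) v := by
  have := l1b259_W_var (K := fun x => -K x) h1.neg h2.neg h
  have e : -K v' - -K v = -(K v' - K v) := by ring
  rwa [e, abs_neg] at this

theorem l1b259_W_mono_neg (h1 : AntitoneOn K (Iic 0)) (h2 : MonotoneOn K (Ici 0)) :
    Monotone (l1b259_W fun x => -K x) :=
  l1b259_W_mono (K := fun x => -K x) h1.neg h2.neg

theorem l1b259_W_tot_neg (h1 : AntitoneOn K (Iic 0)) (h2 : MonotoneOn K (Ici 0)) {M₀ : ℝ}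
    (hm : ∀ x, K x ≤ M₀) (v v' : ℝ) :
    l1b259_W (fun x => -K x) v' - l1b259_W (fun x => -K x) v ≤ 2 * (M₀ - K 0) := by
  have := l1b259_W_tot (K := fun x => -K x) h1.neg h2.neg (m₀ := -M₀)
    (fun x => neg_le_neg (hm x)) v v'
  linarith

end Unimodal

section Kernel

/-- joint continuity of the kernel -/
theorem l1b259_ker_continuousAt {a : ℝ} (h0 : 0 < a) (h1 : a < 2 * Real.pi) (u : ℝ) :
    ContinuousAt (fun q : ℝ × ℝ => ba230_ker q.1 q.2) (a, u) := by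
  unfold ba230_ker
  refine ContinuousAt.div (by fun_prop) (by fun_prop) ?_
  exact (ba230_ker_den_pos h0 h1 u).ne'

/-- `hsc2` of `ba3x80_roots_pos / _neg` for `s μ = ba230_ker μ` -/
theorem l1b259_hsc2 {μ : ℝ} (h0 : 0 < μ) (h1 : μ < 2 * Real.pi) (u : ℝ) :
    ContinuousAt (fun q : ℝ × ℝ => (fun μ u => ba230_ker μ u) q.1 q.2) (μ, u) :=
  l1b259_ker_continuousAt h0 h1 u

/-- `hKc2` of `ba3x80_roots_pos / _neg` for `K μ = ba230_ker (2 μ)` -/
theorem l1b259_hKc2 {μ : ℝ} (h0 : 0 < μ) (h1 : μ < Real.pi) (u : ℝ) :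
    ContinuousAt (fun q : ℝ × ℝ => (fun μ u => ba230_ker (2 * μ) u) q.1 q.2) (μ, u) := by
  have h := l1b259_ker_continuousAt (a := 2 * μ) (by linarith) (by linarith) u
  exact ContinuousAt.comp (f := fun q : ℝ × ℝ => ((2 * q.1, q.2) : ℝ × ℝ))
    (g := fun q : ℝ × ℝ => ba230_ker q.1 q.2) (x := (μ, u)) h (by fun_prop)

theorem l1b259_ker_pos {a : ℝ} (h0 : 0 < a) (h1 : a < Real.pi) (u : ℝ) : 0 < ba230_ker a u := by
  unfold ba230_ker
  exact div_pos (Real.sin_pos_of_pos_of_lt_pi h0 h1)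
    (ba230_ker_den_pos h0 (by linarith [Real.pi_pos]) u)

/-- for `sin a ≥ 0` the kernel decreases with `|u|` -/
theorem l1b259_ker_le_of_abs_le {a : ℝ} (h0 : 0 < a) (h1 : a ≤ Real.pi) {u u' : ℝ}
    (h : |u| ≤ |u'|) : ba230_ker a u' ≤ ba230_ker a u := by
  unfold ba230_ker
  refine div_le_div_of_nonneg_left (Real.sin_nonneg_of_nonneg_of_le_pi h0.le h1)
    (ba230_ker_den_pos h0 (by linarith [Real.pi_pos]) u) ?_
  refine mul_le_mul_of_nonneg_left ?_ Real.pi_pos.le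
  have : Real.cosh (2 * u) ≤ Real.cosh (2 * u') := by
    rw [Real.cosh_le_cosh, abs_mul, abs_mul]
    exact mul_le_mul_of_nonneg_left h (abs_nonneg _)
  linarith

/-- for `sin a ≤ 0` the kernel increases with `|u|` -/
theorem l1b259_ker_ge_of_abs_le {a : ℝ} (h0 : Real.pi ≤ a) (h1 : a < 2 * Real.pi) {u u' : ℝ}
    (h : |u| ≤ |u'|) : ba230_ker a u ≤ ba230_ker a u' := by
  have hs : Real.sin a ≤ 0 := by
    have e : Real.sin a = -Real.sin (a - Real.pi) := by rw [Real.sin_sub_pi, neg_neg]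
    have := Real.sin_nonneg_of_nonneg_of_le_pi (x := a - Real.pi) (by linarith) (by linarith)
    linarith
  have hp : 0 < a := by linarith [Real.pi_pos]
  have hd := ba230_ker_den_pos hp h1 u
  have hle : Real.pi * (Real.cosh (2 * u) - Real.cos a) ≤
      Real.pi * (Real.cosh (2 * u') - Real.cos a) := by
    refine mul_le_mul_of_nonneg_left ?_ Real.pi_pos.le
    have : Real.cosh (2 * u) ≤ Real.cosh (2 * u') := by
      rw [Real.cosh_le_cosh, abs_mul, abs_mul]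
      exact mul_le_mul_of_nonneg_left h (abs_nonneg _)
    linarith
  have := div_le_div_of_nonneg_left (neg_nonneg.2 hs) hd hle
  unfold ba230_ker
  rw [neg_div, neg_div] at this
  linarith

theorem l1b259_ker_monotoneOn {a : ℝ} (h0 : 0 < a) (h1 : a ≤ Real.pi) :
    MonotoneOn (ba230_ker a) (Iic 0) := by
  intro u hu u' hu' h
  refine l1b259_ker_le_of_abs_le h0 h1 ?_
  rw [abs_of_nonpos hu', abs_of_nonpos hu]
  linarith

theorem l1b259_ker_antitoneOn {a : ℝ} (h0 : 0 < a) (h1 : a ≤ Real.pi) :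
    AntitoneOn (ba230_ker a) (Ici 0) := by
  intro u hu u' hu' h
  refine l1b259_ker_le_of_abs_le h0 h1 ?_
  rw [abs_of_nonneg (mem_Ici.1 hu), abs_of_nonneg (mem_Ici.1 hu')]
  exact h

theorem l1b259_ker_antitoneOn_neg {a : ℝ} (h0 : Real.pi ≤ a) (h1 : a < 2 * Real.pi) :
    AntitoneOn (ba230_ker a) (Iic 0) := by
  intro u hu u' hu' h
  refine l1b259_ker_ge_of_abs_le h0 h1 ?_
  rw [abs_of_nonpos hu', abs_of_nonpos hu]
  linarith

theorem l1b259_ker_monotoneOn_neg {a : ℝ} (h0 : Real.pi ≤ a) (h1 : a < 2 * Real.pi) :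
    MonotoneOn (ba230_ker a) (Ici 0) := by
  intro u hu u' hu' h
  refine l1b259_ker_ge_of_abs_le h0 h1 ?_
  rw [abs_of_nonneg (mem_Ici.1 hu), abs_of_nonneg (mem_Ici.1 hu')]
  exact h

/-- `cos a ≤ cos a₀` on `[a₀, 2π - a₀]` -/
theorem l1b259_cos_le {a₀ a : ℝ} (h0 : 0 ≤ a₀) (h1 : a₀ ≤ a) (h2 : a ≤ 2 * Real.pi - a₀) :
    Real.cos a ≤ Real.cos a₀ := by
  rcases le_total a Real.pi with h | h
  · exact Real.cos_le_cos_of_nonneg_of_le_pi h0 h h1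
  · have e : Real.cos a = Real.cos (2 * Real.pi - a) := by rw [Real.cos_two_pi_sub]
    rw [e]
    exact Real.cos_le_cos_of_nonneg_of_le_pi h0 (by linarith) (by linarith)

theorem l1b259_one_sub_cos_pos {a₀ : ℝ} (h0 : 0 < a₀) (h1 : a₀ < 2 * Real.pi) :
    0 < 1 - Real.cos a₀ := by
  have := ba230_den_pos h0 h1 0
  rwa [Real.cosh_zero] at this

/-- **uniform sup bound** on `a ∈ [a₀, 2π - a₀]` -/
theorem l1b259_ker_abs_le {a₀ a : ℝ} (h0 : 0 < a₀) (h1 : a₀ ≤ a) (h2 : a ≤ 2 * Real.pi - a₀)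
    (u : ℝ) : |ba230_ker a u| ≤ 1 / (Real.pi * (1 - Real.cos a₀)) := by
  have ha0 : a₀ < 2 * Real.pi := by linarith
  have hd0 := l1b259_one_sub_cos_pos h0 ha0
  have hd := ba230_ker_den_pos (a := a) (by linarith) (by linarith) u
  unfold ba230_ker
  rw [abs_div, abs_of_pos hd]
  refine div_le_div₀ zero_le_one (Real.abs_sin_le_one a) (mul_pos Real.pi_pos hd0) ?_
  refine mul_le_mul_of_nonneg_left ?_ Real.pi_pos.le
  have c1 := l1b259_cos_le h0.le h1 h2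
  have c2 := Real.one_le_cosh (2 * u)
  linarith

end Kernel

section Instances

/-- `Ba5qKer` of `Cond180`, repulsive side `0 < a ≤ π`, sharp constants -/
theorem l1b259_ba5qKer_pos {a : ℝ} (h0 : 0 < a) (h1 : a ≤ Real.pi) :
    Ba5qKer (ba230_ker a) (l1b259_W (ba230_ker a)) (ba230_ker a 0) (2 * ba230_ker a 0) where
  cont := ba230_ker_continuous h0 (by linarith [Real.pi_pos])
  bd u := by
    rw [abs_of_nonneg (ba230_ker_nonneg h0 h1 u)]
    exact l1b259_le_top (l1b259_ker_monotoneOn h0 h1) (l1b259_ker_antitoneOn h0 h1) u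
  var _ _ h := l1b259_W_var (l1b259_ker_monotoneOn h0 h1) (l1b259_ker_antitoneOn h0 h1) h
  tot u v := by
    have := l1b259_W_tot (l1b259_ker_monotoneOn h0 h1) (l1b259_ker_antitoneOn h0 h1) (m₀ := 0)
      (ba230_ker_nonneg h0 h1) u v
    linarith

/-- `Ba5qKer` of `Cond180`, attractive side `π ≤ a < 2π`, sharp constants -/
theorem l1b259_ba5qKer_neg {a : ℝ} (h0 : Real.pi ≤ a) (h1 : a < 2 * Real.pi) :
    Ba5qKer (ba230_ker a) (l1b259_W fun x => -ba230_ker a x) (-ba230_ker a 0)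
      (2 * -ba230_ker a 0) where
  cont := ba230_ker_continuous (by linarith [Real.pi_pos]) h1
  bd u := by
    rw [abs_of_nonpos (ba230_ker_nonpos h0 h1 u)]
    have := l1b259_ker_ge_of_abs_le h0 h1 (u := 0) (u' := u) (by rw [abs_zero]; exact abs_nonneg _)
    linarith
  var _ _ h :=
    l1b259_W_var_neg (l1b259_ker_antitoneOn_neg h0 h1) (l1b259_ker_monotoneOn_neg h0 h1) h
  tot u v := by
    have := l1b259_W_tot_neg (l1b259_ker_antitoneOn_neg h0 h1) (l1b259_ker_monotoneOn_neg h0 h1)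
      (M₀ := 0) (ba230_ker_nonpos h0 h1) u v
    linarith

/-- weakening of the constants of `Ba5qKer` -/
theorem l1b259_ba5qKer_mono {K VK : ℝ → ℝ} {B W B' W' : ℝ} (h : Ba5qKer K VK B W) (hB : B ≤ B')
    (hW : W ≤ W') : Ba5qKer K VK B' W' where
  cont := h.cont
  bd u := (h.bd u).trans hB
  var := h.var
  tot u v := (h.tot u v).trans hW

/-- the uniform constant `C(a₀) = 1 / (π (1 - cos a₀))` -/
noncomputable def l1b259_C (a₀ : ℝ) : ℝ := 1 / (Real.pi * (1 - Real.cos a₀))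

theorem l1b259_C_pos {a₀ : ℝ} (h0 : 0 < a₀) (h1 : a₀ < 2 * Real.pi) : 0 < l1b259_C a₀ :=
  div_pos one_pos (mul_pos Real.pi_pos (l1b259_one_sub_cos_pos h0 h1))

/-- `Ba5qKer`, both signs, constants uniform on `a ∈ [a₀, 2π - a₀]` -/
theorem l1b259_ba5qKer_unif {a₀ a : ℝ} (h0 : 0 < a₀) (h1 : a₀ ≤ a) (h2 : a ≤ 2 * Real.pi - a₀) :
    ∃ VK : ℝ → ℝ, Monotone VK ∧ Ba5qKer (ba230_ker a) VK (l1b259_C a₀) (2 * l1b259_C a₀) := by
  have hb := l1b259_ker_abs_le h0 h1 h2 0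
  rcases le_total a Real.pi with h | h
  · refine ⟨_, l1b259_W_mono (l1b259_ker_monotoneOn (by linarith) h)
      (l1b259_ker_antitoneOn (by linarith) h),
      l1b259_ba5qKer_mono (l1b259_ba5qKer_pos (by linarith) h) ?_ ?_⟩
    · exact (le_abs_self _).trans hb
    · exact mul_le_mul_of_nonneg_left ((le_abs_self _).trans hb) zero_le_two
  · refine ⟨_, l1b259_W_mono_neg (l1b259_ker_antitoneOn_neg h (by linarith))
      (l1b259_ker_monotoneOn_neg h (by linarith)),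
      l1b259_ba5qKer_mono (l1b259_ba5qKer_neg h (by linarith)) ?_ ?_⟩
    · exact (neg_le_abs _).trans hb
    · exact mul_le_mul_of_nonneg_left ((neg_le_abs _).trans hb) zero_le_two

/-! ### the hypotheses of `ba3x80_roots_pos` on a segment `[a,b] ⊆ (0, π/2]`
`s μ = ba230_ker μ`, `K μ = ba230_ker (2 μ)`, `W μ = l1b259_W (ba230_ker (2 μ))`,
`s0 = l1b259_C a`, `K0 = l1b259_C (2 a)`, `V = 2 * l1b259_C (2 a)`. -/

variable {a b : ℝ}

theorem l1b259_pos_hsb (ha : 0 < a) (hb : b ≤ Real.pi / 2) :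
    ∀ μ ∈ Icc a b, ∀ x, |ba230_ker μ x| ≤ l1b259_C a := fun μ hμ x =>
  l1b259_ker_abs_le ha hμ.1 (by linarith [hμ.1, hμ.2, Real.pi_pos]) x

theorem l1b259_pos_hK0 (ha : 0 < a) (hb : b ≤ Real.pi / 2) :
    ∀ μ ∈ Icc a b, ∀ x, 0 ≤ ba230_ker (2 * μ) x := fun μ hμ x =>
  ba230_ker_nonneg (by linarith [hμ.1]) (by linarith [hμ.2]) x

theorem l1b259_pos_hKb (ha : 0 < a) (hb : b ≤ Real.pi / 2) :
    ∀ μ ∈ Icc a b, ∀ x, ba230_ker (2 * μ) x ≤ l1b259_C (2 * a) := fun μ hμ x =>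
  (le_abs_self _).trans (l1b259_ker_abs_le (by linarith) (by linarith [hμ.1])
    (by linarith [hμ.1, hμ.2, Real.pi_pos]) x)

theorem l1b259_pos_hW (ha : 0 < a) (hb : b ≤ Real.pi / 2) :
    ∀ μ ∈ Icc a b, Monotone (l1b259_W (ba230_ker (2 * μ))) := fun μ hμ =>
  l1b259_W_mono (l1b259_ker_monotoneOn (by linarith [hμ.1]) (by linarith [hμ.2]))
    (l1b259_ker_antitoneOn (by linarith [hμ.1]) (by linarith [hμ.2]))

theorem l1b259_pos_hKW (ha : 0 < a) (hb : b ≤ Real.pi / 2) :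
    ∀ μ ∈ Icc a b, ∀ v v', v ≤ v' → |ba230_ker (2 * μ) v' - ba230_ker (2 * μ) v| ≤
      l1b259_W (ba230_ker (2 * μ)) v' - l1b259_W (ba230_ker (2 * μ)) v := fun μ hμ _ _ h =>
  l1b259_W_var (l1b259_ker_monotoneOn (by linarith [hμ.1]) (by linarith [hμ.2]))
    (l1b259_ker_antitoneOn (by linarith [hμ.1]) (by linarith [hμ.2])) h

theorem l1b259_pos_hWV (ha : 0 < a) (hb : b ≤ Real.pi / 2) :
    ∀ μ ∈ Icc a b, ∀ v v', l1b259_W (ba230_ker (2 * μ)) v' - l1b259_W (ba230_ker (2 * μ)) v ≤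
      2 * l1b259_C (2 * a) := fun μ hμ v v' => by
  have h := l1b259_W_tot (l1b259_ker_monotoneOn (a := 2 * μ) (by linarith [hμ.1])
    (by linarith [hμ.2])) (l1b259_ker_antitoneOn (by linarith [hμ.1]) (by linarith [hμ.2]))
    (m₀ := 0) (ba230_ker_nonneg (by linarith [hμ.1]) (by linarith [hμ.2])) v v'
  have h2 := l1b259_pos_hKb ha hb μ hμ 0
  linarith

theorem l1b259_pos_hsc2 (ha : 0 < a) (hb : b ≤ Real.pi / 2) :
    ∀ μ ∈ Icc a b, ∀ u, ContinuousAt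
      (fun q : ℝ × ℝ => (fun μ u => ba230_ker μ u) q.1 q.2) (μ, u) := fun μ hμ u =>
  l1b259_hsc2 (by linarith [hμ.1]) (by linarith [hμ.2, Real.pi_pos]) u

theorem l1b259_pos_hKc2 (ha : 0 < a) (hb : b ≤ Real.pi / 2) :
    ∀ μ ∈ Icc a b, ∀ u, ContinuousAt
      (fun q : ℝ × ℝ => (fun μ u => ba230_ker (2 * μ) u) q.1 q.2) (μ, u) := fun μ hμ u =>
  l1b259_hKc2 (by linarith [hμ.1]) (by linarith [hμ.2, Real.pi_pos]) u

/-! ### row mass (`hKκ` of `ba5q_dens`, `ba5q_obs`, `ba5q_cond_*`), both signs -/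

/-- the row mass of the kernel over any interval is at most `|1 - a / π|` -/
theorem l1b259_row_mass {a : ℝ} (h0 : 0 < a) (h1 : a < 2 * Real.pi) (A B x : ℝ) (hAB : A ≤ B) :
    ∫ y in A..B, |ba230_ker a (x - y)| ≤ |1 - a / Real.pi| := by
  have hi : Integrable fun y => |ba230_ker a (x - y)| :=
    (ba230_ker_integrable h0 h1).abs.comp_sub_left x
  rw [intervalIntegral.integral_of_le hAB, ← ba230_ker_abs_integral h0 h1,
    ← integral_sub_left_eq_self (fun u => |ba230_ker a u|) volume x]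
  exact setIntegral_le_integral hi (Filter.Eventually.of_forall fun y => abs_nonneg _)

/-- uniform row mass on `μ ∈ [a, b] ⊆ (0, π)` for `K μ = ba230_ker (2 μ)`:
`κ = max (1 - 2 a / π) (2 b / π - 1) < 1` -/
noncomputable def l1b259_kap (a b : ℝ) : ℝ := max (1 - 2 * a / Real.pi) (2 * b / Real.pi - 1)

theorem l1b259_kap_lt_one (ha : 0 < a) (hb : b < Real.pi) : l1b259_kap a b < 1 := by
  have hpi := Real.pi_pos
  unfold l1b259_kap
  rw [max_lt_iff]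
  constructor
  · have : 0 < 2 * a / Real.pi := by positivity
    linarith
  · have : 2 * b / Real.pi < 2 := by
      rw [div_lt_iff₀ hpi]
      linarith
    linarith

theorem l1b259_row_mass_unif (ha : 0 < a) (hb : b < Real.pi) :
    ∀ μ ∈ Icc a b, ∀ A B x : ℝ, A ≤ B →
      ∫ y in A..B, |ba230_ker (2 * μ) (x - y)| ≤ l1b259_kap a b := by
  intro μ hμ A B x hAB
  have hpi := Real.pi_pos
  refine (l1b259_row_mass (a := 2 * μ) (by linarith [hμ.1]) (by linarith [hμ.2]) A B x hAB).trans ?_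
  unfold l1b259_kap
  rw [abs_le]
  have e1 : 2 * a / Real.pi ≤ 2 * μ / Real.pi :=
    div_le_div_of_nonneg_right (by linarith [hμ.1]) hpi.le
  have e2 : 2 * μ / Real.pi ≤ 2 * b / Real.pi :=
    div_le_div_of_nonneg_right (by linarith [hμ.2]) hpi.le
  constructor
  · have := le_max_right (1 - 2 * a / Real.pi) (2 * b / Real.pi - 1)
    linarith
  · have := le_max_left (1 - 2 * a / Real.pi) (2 * b / Real.pi - 1)
    linarith

/-! ### the kernel hypotheses of `ba3x80_roots_neg` on a segment `[a,b] ⊆ [π/2, π)` -/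

theorem l1b259_neg_hspos (ha : Real.pi / 2 ≤ a) (hb : b < Real.pi) :
    ∀ μ ∈ Icc a b, ∀ u, 0 < ba230_ker μ u := fun μ hμ u =>
  l1b259_ker_pos (by linarith [hμ.1, Real.pi_pos]) (by linarith [hμ.2]) u

theorem l1b259_neg_hKneg (ha : Real.pi / 2 ≤ a) (hb : b < Real.pi) :
    ∀ μ ∈ Icc a b, ∀ u, ba230_ker (2 * μ) u ≤ 0 := fun μ hμ u =>
  ba230_ker_nonpos (by linarith [hμ.1]) (by linarith [hμ.2]) u

/-- `Ba5qKer` for `K μ = ba230_ker (2 μ)`, constants uniform on `μ ∈ [a,b] ⊆ (0,π)`, `a ≤ π - b`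
not needed: the constant is `C (2 (min a (π - b)))`. -/
theorem l1b259_ba5qKer_seg (ha : 0 < a) (hb : b < Real.pi) :
    ∀ μ ∈ Icc a b, ∃ VK : ℝ → ℝ, Monotone VK ∧ Ba5qKer (ba230_ker (2 * μ)) VK
      (l1b259_C (2 * min a (Real.pi - b))) (2 * l1b259_C (2 * min a (Real.pi - b))) := by
  intro μ hμ
  have h1 : min a (Real.pi - b) ≤ a := min_le_left _ _
  have h2 : min a (Real.pi - b) ≤ Real.pi - b := min_le_right _ _
  have h3 : 0 < min a (Real.pi - b) := lt_min ha (by linarith)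
  exact l1b259_ba5qKer_unif (by linarith) (by linarith [hμ.1]) (by linarith [hμ.2])

end Instances

end Claimed.Agent.R292
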