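import Claimed.Agent.R292.Bethe.C1x150
import Claimed.Agent.R292.Bethe.Four230

/-!
# Row 292, unit BETHE, leaf D1 (abstract): a priori bounds and dependence on the cut-off

`K` integrable with `∫ |K| ≤ h < 1`, `A` a measurable set, `F + K 1_A F = f` on the whole line.

* `d1x202_sup`: the sup a priori bound `|F| ≤ C / (1 - h)`;
* `d1x202_stab`: stability in the source;
* `d1x202_lip_set`, `d1x202_lip`: the solution is Lipschitz in the cut-off `Q`;
* `d1x202_L1`, `d1x202_dist_full`, `d1x202_tail`: `L¹` bounds, distance to the full-line solution;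
* `d1x202_cont_param`: continuity of `Q ↦ ∫_{T Q} g_Q ε`;
* exits for block B5: `d1x202_rQ_lip`, `d1x202_rQ_joint`, `d1x202_Eq_continuousOn`,
  `d1x202_Dq_tendsto`, `d1x202_Eq_tendsto`, `d1x202_rQ_tail`.
-/

set_option autoImplicit false

namespace Claimed.Agent.R292

open MeasureTheory Filter Topology Set

noncomputable section

/-- **(a) sup a priori bound**: a solution bounded on `A` is bounded by `C / (1 - h)`. -/
theorem d1x202_sup {K F f : ℝ → ℝ} (hK : Integrable K) {h : ℝ} (hh : ∫ w, |K w| ≤ h) (hh1 : h < 1)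
    {A : Set ℝ} (hA : MeasurableSet A) {M : ℝ} (hM0 : 0 ≤ M) (hM : ∀ v ∈ A, |F v| ≤ M)
    {C : ℝ} (hC : ∀ u, |f u| ≤ C) (hFs : ∀ u, F u + c1x150_op K A F u = f u) (u : ℝ) :
    |F u| ≤ C / (1 - h) := by
  have hh0 : 0 ≤ h := (integral_nonneg fun w => abs_nonneg (K w)).trans hh
  have hC0 : 0 ≤ C := (abs_nonneg _).trans (hC 0)
  have h1h : 0 < 1 - h := by linarith
  obtain ⟨B, hB⟩ : ∃ B : ℝ, B = C / (1 - h) := ⟨_, rfl⟩
  rw [← hB]
  have hB0 : 0 ≤ B := by rw [hB]; exact div_nonneg hC0 h1h.le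
  have hBe : C + h * B = B := by
    rw [hB]; field_simp; ring
  have step : ∀ m : ℝ, 0 ≤ m → (∀ v ∈ A, |F v| ≤ m) → ∀ u, |F u| ≤ C + h * m := by
    intro m hm0 hm u
    have e : F u = f u - c1x150_op K A F u := by linarith [hFs u]
    rw [e]
    exact (abs_sub _ _).trans (add_le_add (hC u)
      ((c1x150_op_abs_le hK hA hm0 hm u).trans (mul_le_mul_of_nonneg_right hh hm0)))
  have ind : ∀ n : ℕ, ∀ v ∈ A, |F v| ≤ B + h ^ n * M := by
    intro n
    induction n with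
    | zero =>
      intro v hv
      have := hM v hv
      simp only [pow_zero, one_mul]
      linarith
    | succ n ih =>
      intro v _
      have := step (B + h ^ n * M) (by positivity) ih v
      calc |F v| ≤ C + h * (B + h ^ n * M) := this
        _ = B + h ^ (n + 1) * M := by linear_combination hBe
  have all : ∀ n : ℕ, |F u| ≤ B + h ^ (n + 1) * M := fun n => by
    have := step (B + h ^ n * M) (by positivity) (ind n) u
    calc |F u| ≤ C + h * (B + h ^ n * M) := this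
      _ = B + h ^ (n + 1) * M := by linear_combination hBe
  have lim : Tendsto (fun n : ℕ => B + h ^ (n + 1) * M) atTop (𝓝 (B + 0 * M)) :=
    (((tendsto_pow_atTop_nhds_zero_of_lt_one hh0 hh1).comp
      (tendsto_add_atTop_nat 1)).mul_const M).const_add B
  rw [zero_mul, add_zero] at lim
  exact ge_of_tendsto' lim all

/-- **(b) stability in the source.** -/
theorem d1x202_stab {K F F' f f' : ℝ → ℝ} (hK : Integrable K) {h : ℝ} (hh : ∫ w, |K w| ≤ h)
    (hh1 : h < 1) {A : Set ℝ} (hA : MeasurableSet A) (hF : Measurable F) (hF' : Measurable F')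
    {M N : ℝ} (hM0 : 0 ≤ M) (hN0 : 0 ≤ N) (hM : ∀ v ∈ A, |F v| ≤ M) (hN : ∀ v ∈ A, |F' v| ≤ N)
    {dl : ℝ} (hd : ∀ u, |f u - f' u| ≤ dl)
    (hFs : ∀ u, F u + c1x150_op K A F u = f u) (hFs' : ∀ u, F' u + c1x150_op K A F' u = f' u)
    (u : ℝ) : |F u - F' u| ≤ dl / (1 - h) :=
  d1x202_sup (F := fun v => F v - F' v) (f := fun v => f v - f' v) hK hh hh1 hA (M := M + N)
    (by positivity) (fun v hv => (abs_sub _ _).trans (add_le_add (hM v hv) (hN v hv))) hd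
    (fun u => by
      rw [c1x150_op_sub hK hA hF hF' hM0 hN0 hM hN]
      linarith [hFs u, hFs' u]) u

/-- the integrand of the truncated operator is integrable on the set. -/
theorem d1x202_integrableOn {K F : ℝ → ℝ} {A : Set ℝ} (hK : Integrable K) (hA : MeasurableSet A)
    (hF : Measurable F) {M : ℝ} (hM0 : 0 ≤ M) (hM : ∀ v ∈ A, |F v| ≤ M) (u : ℝ) :
    IntegrableOn (fun v => K (u - v) * F v) A := by
  have := c1x150_integrand hK hA hF hM0 hM u
  rw [← integrable_indicator_iff hA]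
  refine this.congr (Eventually.of_forall fun v => ?_)
  by_cases hv : v ∈ A
  · simp [indicator_of_mem hv]
  · simp [indicator_of_notMem hv]

/-- additivity of the truncated operator in the set. -/
theorem d1x202_op_sdiff {K F : ℝ → ℝ} {A A' : Set ℝ} (hK : Integrable K) (hA : MeasurableSet A)
    (hA' : MeasurableSet A') (hAA' : A ⊆ A') (hF : Measurable F) {M : ℝ} (hM0 : 0 ≤ M)
    (hM : ∀ v ∈ A', |F v| ≤ M) (u : ℝ) :
    c1x150_op K A' F u = c1x150_op K A F u + c1x150_op K (A' \ A) F u := by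
  unfold c1x150_op
  rw [setIntegral_sdiff hA (d1x202_integrableOn hK hA' hF hM0 hM u) hAA']
  ring

/-- the truncated operator over a set of small measure, `K` bounded. -/
theorem d1x202_op_small {K F : ℝ → ℝ} {D : Set ℝ} {BK M : ℝ} (hBK : ∀ w, |K w| ≤ BK)
    (hM : ∀ v ∈ D, |F v| ≤ M) (hfin : volume D < ⊤) (u : ℝ) :
    |c1x150_op K D F u| ≤ BK * M * volume.real D := by
  unfold c1x150_op
  have h := norm_setIntegral_le_of_norm_le_const (μ := volume) (s := D) (C := BK * M)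
    (f := fun v => K (u - v) * F v) hfin (fun v hv => by
      rw [Real.norm_eq_abs, abs_mul]
      exact mul_le_mul (hBK _) (hM v hv) (abs_nonneg _) ((abs_nonneg _).trans (hBK 0)))
  simpa using h

/-- **(c) dependence on the set**: same source, `A ⊆ A'`. -/
theorem d1x202_lip_set {K r r' s : ℝ → ℝ} (hK : Integrable K) {h : ℝ} (hh : ∫ w, |K w| ≤ h)
    (hh1 : h < 1) {BK : ℝ} (hBK : ∀ w, |K w| ≤ BK) {A A' : Set ℝ} (hA : MeasurableSet A)
    (hA' : MeasurableSet A') (hAA' : A ⊆ A') (hfin : volume (A' \ A) < ⊤)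
    (hr : Measurable r) (hr' : Measurable r') {M M' : ℝ} (hM0 : 0 ≤ M) (hM'0 : 0 ≤ M')
    (hM : ∀ v ∈ A', |r v| ≤ M) (hM' : ∀ v ∈ A', |r' v| ≤ M')
    (hrs : ∀ u, r u + c1x150_op K A r u = s u) (hrs' : ∀ u, r' u + c1x150_op K A' r' u = s u)
    (u : ℝ) : |r' u - r u| ≤ BK * M * volume.real (A' \ A) / (1 - h) :=
  d1x202_sup (F := fun v => r' v - r v) (f := fun v => - c1x150_op K (A' \ A) r v) hK hh hh1 hA'
    (M := M' + M) (by positivity)
    (fun v hv => (abs_sub _ _).trans (add_le_add (hM' v hv) (hM v hv)))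
    (fun v => by
      rw [abs_neg]
      exact d1x202_op_small hBK (fun w hw => hM w hw.1) hfin v)
    (fun v => by
      rw [c1x150_op_sub hK hA' hr' hr hM'0 hM0 hM' hM, d1x202_op_sdiff hK hA hA' hAA' hr hM0 hM]
      linarith [hrs v, hrs' v]) u

/-- **(c) Lipschitz in the cut-off** `Q`. -/
theorem d1x202_lip {K r r' s : ℝ → ℝ} (hK : Integrable K) {h : ℝ} (hh : ∫ w, |K w| ≤ h)
    (hh1 : h < 1) {BK : ℝ} (hBK : ∀ w, |K w| ≤ BK) {Q Q' : ℝ} (hQ : 0 ≤ Q) (hQQ' : Q ≤ Q')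
    (hr : Measurable r) (hr' : Measurable r') {M M' : ℝ} (hM0 : 0 ≤ M) (hM'0 : 0 ≤ M')
    (hM : ∀ v ∈ Icc (-Q') Q', |r v| ≤ M) (hM' : ∀ v ∈ Icc (-Q') Q', |r' v| ≤ M')
    (hrs : ∀ u, r u + c1x150_op K (Icc (-Q) Q) r u = s u)
    (hrs' : ∀ u, r' u + c1x150_op K (Icc (-Q') Q') r' u = s u) (u : ℝ) :
    |r' u - r u| ≤ 2 * BK * M * (Q' - Q) / (1 - h) := by
  have h1 := d1x202_lip_set hK hh hh1 hBK measurableSet_Icc measurableSet_Icc
    (Icc_subset_Icc (by linarith) hQQ')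
    (lt_of_le_of_lt (measure_mono sdiff_subset) measure_Icc_lt_top) hr hr' hM0 hM'0 hM hM' hrs hrs' u
  rw [c1x150_vol_diff hQ hQQ'] at h1
  calc |r' u - r u| ≤ BK * M * (2 * (Q' - Q)) / (1 - h) := h1
    _ = 2 * BK * M * (Q' - Q) / (1 - h) := by ring

/-- full-line `L¹` a priori bound. -/
theorem d1x202_L1 {K F f : ℝ → ℝ} (hK : Integrable K) {h : ℝ} (hh : ∫ w, |K w| ≤ h)
    (hh1 : h < 1) {A : Set ℝ} (hA : MeasurableSet A) (hF : IntegrableOn F A) (hf : Integrable f)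
    (hFs : ∀ u, F u + c1x150_op K A F u = f u) :
    Integrable F ∧ ∫ v, |F v| ≤ (∫ v, |f v|) / (1 - h) := by
  have hh0 : 0 ≤ h := (integral_nonneg fun w => abs_nonneg (K w)).trans hh
  have hFi : Integrable F := c1x150_sol_integrable hK hA hF hf hFs
  obtain ⟨hi, hb⟩ := c1x150_op_L1 hK hA hF
  refine ⟨hFi, ?_⟩
  have h1 : ∫ v, |F v| ≤ ∫ v, (|f v| + |c1x150_op K A F v|) := by
    refine integral_mono hFi.abs (hf.abs.add hi.abs) fun v => ?_
    have e : F v = f v - c1x150_op K A F v := by linarith [hFs v]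
    show |F v| ≤ |f v| + |c1x150_op K A F v|
    calc |F v| = |f v - c1x150_op K A F v| := by rw [← e]
      _ ≤ _ := abs_sub _ _
  rw [integral_add hf.abs hi.abs] at h1
  have h2 : ∫ v in A, |F v| ≤ ∫ v, |F v| :=
    setIntegral_le_integral hFi.abs (Eventually.of_forall fun v => abs_nonneg _)
  have h3 : (∫ w, |K w|) * ∫ v in A, |F v| ≤ h * ∫ v, |F v| :=
    mul_le_mul hh h2 (integral_nonneg fun v => abs_nonneg _) hh0
  rw [le_div_iff₀ (by linarith)]
  nlinarith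

/-- the difference with the full-line solution solves the truncated equation with the source
`K 1_{Aᶜ} r_∞`. -/
theorem d1x202_diff_eq {K r ro s : ℝ → ℝ} (hK : Integrable K) {A : Set ℝ} (hA : MeasurableSet A)
    (hr : Measurable r) (hro : Measurable ro) {M Mo : ℝ} (hM0 : 0 ≤ M) (hM : ∀ v ∈ A, |r v| ≤ M)
    (hMo : ∀ v, |ro v| ≤ Mo) (hrs : ∀ u, r u + c1x150_op K A r u = s u)
    (hros : ∀ u, ro u + c1x150_op K univ ro u = s u) (u : ℝ) :
    (r u - ro u) + c1x150_op K A (fun v => r v - ro v) u = c1x150_op K Aᶜ ro u := by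
  have hMo0 : 0 ≤ Mo := (abs_nonneg _).trans (hMo 0)
  rw [c1x150_op_sub hK hA hr hro hM0 hMo0 hM (fun v _ => hMo v)]
  have := d1x202_op_sdiff hK hA MeasurableSet.univ (subset_univ A) hro hMo0 (fun v _ => hMo v) u
  rw [← compl_eq_univ_sdiff] at this
  linarith [hrs u, hros u]

/-- `L¹` distance to the full-line solution: `∫ |r_A - r_∞| ≤ h (∫_{Aᶜ} |r_∞|) / (1 - h)`. -/
theorem d1x202_dist_full {K r ro s : ℝ → ℝ} (hK : Integrable K) {h : ℝ} (hh : ∫ w, |K w| ≤ h)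
    (hh1 : h < 1) {A : Set ℝ} (hA : MeasurableSet A)
    (hr : Measurable r) (hro : Measurable ro) {M Mo : ℝ} (hM0 : 0 ≤ M) (hM : ∀ v ∈ A, |r v| ≤ M)
    (hMo : ∀ v, |ro v| ≤ Mo) (hri : IntegrableOn r A) (hroi : Integrable ro)
    (hrs : ∀ u, r u + c1x150_op K A r u = s u)
    (hros : ∀ u, ro u + c1x150_op K univ ro u = s u) :
    Integrable (fun v => r v - ro v) ∧
      ∫ v, |r v - ro v| ≤ h * (∫ v in Aᶜ, |ro v|) / (1 - h) := by
  obtain ⟨gi, gb⟩ := c1x150_op_L1 hK hA.compl hroi.integrableOn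
  obtain ⟨yi, yb⟩ := d1x202_L1 (F := fun v => r v - ro v) hK hh hh1 hA
    (hri.sub hroi.integrableOn) gi (d1x202_diff_eq hK hA hr hro hM0 hM hMo hrs hros)
  refine ⟨yi, yb.trans ?_⟩
  have h1h : 0 < 1 - h := by linarith
  refine div_le_div_of_nonneg_right (gb.trans ?_) h1h.le
  exact mul_le_mul_of_nonneg_right hh (integral_nonneg fun v => abs_nonneg _)

/-- **(e), explicit**: the tail of `r_A` is controlled by the tail of `r_∞`. -/
theorem d1x202_tail {K r ro s : ℝ → ℝ} (hK : Integrable K) {h : ℝ} (hh : ∫ w, |K w| ≤ h)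
    (hh1 : h < 1) {A : Set ℝ} (hA : MeasurableSet A)
    (hr : Measurable r) (hro : Measurable ro) {M Mo : ℝ} (hM0 : 0 ≤ M) (hM : ∀ v ∈ A, |r v| ≤ M)
    (hMo : ∀ v, |ro v| ≤ Mo) (hri : IntegrableOn r A) (hroi : Integrable ro)
    (hrs : ∀ u, r u + c1x150_op K A r u = s u)
    (hros : ∀ u, ro u + c1x150_op K univ ro u = s u) :
    ∫ v in Aᶜ, |r v| ≤ (∫ v in Aᶜ, |ro v|) / (1 - h) := by
  obtain ⟨yi, yb⟩ := d1x202_dist_full hK hh hh1 hA hr hro hM0 hM hMo hri hroi hrs hros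
  have h1h : 0 < 1 - h := by linarith
  have hrI : Integrable r := by
    refine (yi.add hroi).congr (Eventually.of_forall fun v => ?_)
    simp
  have h1 : ∫ v in Aᶜ, |r v| ≤ ∫ v in Aᶜ, (|ro v| + |r v - ro v|) := by
    refine integral_mono hrI.abs.integrableOn (hroi.abs.add yi.abs).integrableOn fun v => ?_
    show |r v| ≤ |ro v| + |r v - ro v|
    calc |r v| = |ro v + (r v - ro v)| := by congr 1; ring
      _ ≤ _ := abs_add_le _ _
  rw [integral_add hroi.abs.integrableOn yi.abs.integrableOn] at h1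
  have h2 : ∫ v in Aᶜ, |r v - ro v| ≤ ∫ v, |r v - ro v| :=
    setIntegral_le_integral yi.abs (Eventually.of_forall fun v => abs_nonneg _)
  have e : (∫ v in Aᶜ, |ro v|) / (1 - h)
      = (∫ v in Aᶜ, |ro v|) + h * (∫ v in Aᶜ, |ro v|) / (1 - h) := by
    field_simp; ring
  rw [e]
  linarith

/-- the tail of an integrable function tends to `0`. -/
theorem d1x202_tail_zero {φ : ℝ → ℝ} (hφ : Integrable φ) :
    Tendsto (fun Q : ℝ => ∫ v in (Icc (-Q) Q)ᶜ, |φ v|) atTop (𝓝 0) := by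
  have h1 : Tendsto (fun Q : ℝ => ∫ v in Icc (-Q) Q, |φ v|) atTop (𝓝 (∫ v, |φ v|)) :=
    (aecover_Icc (μ := volume) tendsto_neg_atTop_atBot tendsto_id).integral_tendsto_of_countably_generated
      hφ.abs
  have h2 : Tendsto (fun Q : ℝ => (∫ v, |φ v|) - ∫ v in Icc (-Q) Q, |φ v|) atTop
      (𝓝 ((∫ v, |φ v|) - ∫ v, |φ v|)) := tendsto_const_nhds.sub h1
  rw [sub_self] at h2
  refine h2.congr fun Q => ?_
  rw [← integral_add_compl (measurableSet_Icc (a := -Q) (b := Q)) hφ.abs]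
  ring

/-- **(e)**: `∫_{|u| > Q} |r_Q| → 0` as `Q → ∞`. -/
theorem d1x202_tail_tendsto {K ro s : ℝ → ℝ} {r : ℝ → ℝ → ℝ} (hK : Integrable K) {h : ℝ}
    (hh : ∫ w, |K w| ≤ h) (hh1 : h < 1) (hr : ∀ Q, Measurable (r Q)) (hro : Measurable ro)
    {M : ℝ → ℝ} {Mo : ℝ} (hM : ∀ Q, ∀ v ∈ Icc (-Q) Q, |r Q v| ≤ M Q)
    (hMo : ∀ v, |ro v| ≤ Mo) (hroi : Integrable ro)
    (hrs : ∀ Q u, r Q u + c1x150_op K (Icc (-Q) Q) (r Q) u = s u)
    (hros : ∀ u, ro u + c1x150_op K univ ro u = s u) :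
    Tendsto (fun Q : ℝ => ∫ v in (Icc (-Q) Q)ᶜ, |r Q v|) atTop (𝓝 0) := by
  have h1h : 0 < 1 - h := by linarith
  have h0 := (d1x202_tail_zero hroi).div_const (1 - h)
  rw [zero_div] at h0
  refine squeeze_zero (fun Q => integral_nonneg fun v => abs_nonneg _) (fun Q => ?_) h0
  have hM' : ∀ v ∈ Icc (-Q) Q, |r Q v| ≤ max (M Q) 0 := fun v hv =>
    (hM Q v hv).trans (le_max_left _ _)
  have hri : IntegrableOn (r Q) (Icc (-Q) Q) :=
    Measure.integrableOn_of_bounded (M := max (M Q) 0) measure_Icc_lt_top.ne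
      (hr Q).aestronglyMeasurable
      ((ae_restrict_iff' measurableSet_Icc).2 (Eventually.of_forall fun v hv => by
        simpa using hM' v hv))
  exact d1x202_tail hK hh hh1 measurableSet_Icc (hr Q) hro (le_max_right _ _) hM' hMo hri hroi
    (hrs Q) hros

/-- **(d), general form**: continuity of `Q ↦ ∫_{T Q} g_Q ε` for a bounded family `g_Q`, pointwise
continuous in `Q`, an integrable weight `ε`, and sets `T Q` that are a.e. locally constant. -/
theorem d1x202_cont_param {g : ℝ → ℝ → ℝ} {eps : ℝ → ℝ} {T : ℝ → Set ℝ} {S : Set ℝ} {Q₀ M : ℝ}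
    (hT : ∀ Q, MeasurableSet (T Q))
    (hTc : ∀ᵐ u, ∀ᶠ Q in 𝓝[S] Q₀, (u ∈ T Q ↔ u ∈ T Q₀))
    (hgm : ∀ Q, Measurable (g Q)) (hgb : ∀ Q ∈ S, ∀ u, |g Q u| ≤ M)
    (hgc : ∀ u, ContinuousWithinAt (fun Q => g Q u) S Q₀) (heps : Integrable eps) :
    ContinuousWithinAt (fun Q => ∫ u in T Q, g Q u * eps u) S Q₀ := by
  have e : (fun Q => ∫ u in T Q, g Q u * eps u)
      = fun Q => ∫ u, (T Q).indicator (fun u => g Q u * eps u) u :=
    funext fun Q => (integral_indicator (hT Q)).symm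
  rw [e]
  refine continuousWithinAt_of_dominated (bound := fun u => M * |eps u|) ?_ ?_
    (heps.abs.const_mul M) ?_
  · refine Eventually.of_forall fun Q => ?_
    exact (((hgm Q).aestronglyMeasurable.mul heps.aestronglyMeasurable).indicator (hT Q))
  · filter_upwards [self_mem_nhdsWithin] with Q hQ
    refine Eventually.of_forall fun u => ?_
    have hM0 : 0 ≤ M := (abs_nonneg _).trans (hgb Q hQ 0)
    by_cases hu : u ∈ T Q
    · rw [indicator_of_mem hu, Real.norm_eq_abs, abs_mul]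
      exact mul_le_mul_of_nonneg_right (hgb Q hQ u) (abs_nonneg _)
    · rw [indicator_of_notMem hu, norm_zero]
      positivity
  · filter_upwards [hTc] with u hu
    by_cases hu0 : u ∈ T Q₀
    · have h1 : (fun Q => (T Q).indicator (fun u => g Q u * eps u) u)
          =ᶠ[𝓝[S] Q₀] fun Q => g Q u * eps u := by
        filter_upwards [hu] with Q hQ
        exact indicator_of_mem (hQ.2 hu0) _
      refine ((hgc u).mul continuousWithinAt_const).congr_of_eventuallyEq h1 ?_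
      exact indicator_of_mem hu0 _
    · have h1 : (fun Q => (T Q).indicator (fun u => g Q u * eps u) u)
          =ᶠ[𝓝[S] Q₀] fun _ => 0 := by
        filter_upwards [hu] with Q hQ
        exact indicator_of_notMem (fun h' => hu0 (hQ.1 h')) _
      refine continuousWithinAt_const.congr_of_eventuallyEq h1 ?_
      exact indicator_of_notMem hu0 _

theorem d1x202_Ioi_loc (S : Set ℝ) (Q₀ : ℝ) :
    ∀ᵐ u : ℝ, ∀ᶠ Q in 𝓝[S] Q₀, (u ∈ Ioi Q ↔ u ∈ Ioi Q₀) := by
  have h0 : ∀ᵐ u : ℝ, u ≠ Q₀ := by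
    have : volume ({Q₀} : Set ℝ) = 0 := Real.volume_singleton
    filter_upwards [measure_eq_zero_iff_ae_notMem.1 this] with u hu
    simpa using hu
  filter_upwards [h0] with u hu
  refine mem_nhdsWithin_of_mem_nhds ?_
  rcases lt_or_gt_of_ne hu with h | h
  · filter_upwards [lt_mem_nhds h] with Q hQ
    simp only [mem_Ioi]
    exact ⟨fun h' => absurd h' (not_lt.2 hQ.le), fun h' => absurd h' (not_lt.2 h.le)⟩
  · filter_upwards [gt_mem_nhds h] with Q hQ
    simp only [mem_Ioi]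
    exact ⟨fun _ => h, fun _ => hQ⟩

theorem d1x202_mem_compl_Icc (Q u : ℝ) : u ∈ (Icc (-Q) Q)ᶜ ↔ Q < |u| := by
  rw [mem_compl_iff, mem_Icc, ← abs_le, not_le]

theorem d1x202_compl_loc (S : Set ℝ) (Q₀ : ℝ) :
    ∀ᵐ u : ℝ, ∀ᶠ Q in 𝓝[S] Q₀, (u ∈ (Icc (-Q) Q)ᶜ ↔ u ∈ (Icc (-Q₀) Q₀)ᶜ) := by
  have h0 : ∀ᵐ u : ℝ, |u| ≠ Q₀ := by
    have : volume ({Q₀, -Q₀} : Set ℝ) = 0 := (Set.toFinite _).measure_zero _
    filter_upwards [measure_eq_zero_iff_ae_notMem.1 this] with u hu hu'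
    apply hu
    rcases abs_choice u with h | h
    · left; rw [← hu', h]
    · right; rw [← hu', h]; simp
  filter_upwards [h0] with u hu
  refine mem_nhdsWithin_of_mem_nhds ?_
  simp only [d1x202_mem_compl_Icc]
  rcases lt_or_gt_of_ne hu with h | h
  · filter_upwards [lt_mem_nhds h] with Q hQ
    exact ⟨fun h' => absurd h' (not_lt.2 hQ.le), fun h' => absurd h' (not_lt.2 h.le)⟩
  · filter_upwards [gt_mem_nhds h] with Q hQ
    exact ⟨fun _ => h, fun _ => hQ⟩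

/-! ### Exits in the vocabulary of `C1x150` (block B5) -/

section exits

variable {K s R rinf eps e0 : ℝ → ℝ} {h C BK : ℝ}

/-- **B5 (iv)**: `r_Q` is Lipschitz in `Q`, uniformly on the line. -/
theorem d1x202_rQ_lip (H : C1x150Ker K s h C) (hBK : ∀ w, |K w| ≤ BK) {Q Q' : ℝ} (hQ : 0 ≤ Q)
    (hQQ' : Q ≤ Q') (u : ℝ) :
    |c1x150_rQ K s Q' u - c1x150_rQ K s Q u| ≤ 2 * BK * (C / (1 - h)) * (Q' - Q) / (1 - h) :=
  d1x202_lip H.K_int H.K_norm H.h_lt hBK hQ hQQ' (c1x150_rQ_continuous H Q).measurable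
    (c1x150_rQ_continuous H Q').measurable (c1x150_bound_nonneg H) (c1x150_bound_nonneg H)
    (fun v _ => c1x150_rQ_bdd H Q v) (fun v _ => c1x150_rQ_bdd H Q' v) (c1x150_rQ_eq H Q)
    (c1x150_rQ_eq H Q') u

/-- the Lipschitz constant of `Q ↦ r_Q`. -/
def d1x202_Lr (BK C h : ℝ) : ℝ := 2 * BK * (C / (1 - h)) / (1 - h)

theorem d1x202_Lr_nonneg (H : C1x150Ker K s h C) (hBK : ∀ w, |K w| ≤ BK) :
    0 ≤ d1x202_Lr BK C h := by
  have h1 := c1x150_bound_nonneg H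
  have h2 : 0 ≤ BK := (abs_nonneg _).trans (hBK 0)
  have h3 : 0 < 1 - h := by linarith [H.h_lt]
  unfold d1x202_Lr
  positivity

theorem d1x202_rQ_lipOn (H : C1x150Ker K s h C) (hBK : ∀ w, |K w| ≤ BK) (u : ℝ) :
    LipschitzOnWith ⟨d1x202_Lr BK C h, d1x202_Lr_nonneg H hBK⟩ (fun Q => c1x150_rQ K s Q u)
      (Ici 0) := by
  refine LipschitzOnWith.of_dist_le_mul fun x hx y hy => ?_
  rw [Real.dist_eq, Real.dist_eq]
  show _ ≤ d1x202_Lr BK C h * |x - y|
  unfold d1x202_Lr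
  rcases le_total x y with hxy | hxy
  · have := d1x202_rQ_lip H hBK hx hxy u
    rw [abs_sub_comm, abs_sub_comm x y, abs_of_nonneg (by linarith : 0 ≤ y - x)]
    calc _ ≤ _ := this
      _ = _ := by ring
  · have := d1x202_rQ_lip H hBK hy hxy u
    rw [abs_of_nonneg (by linarith : 0 ≤ x - y)]
    calc _ ≤ _ := this
      _ = _ := by ring

/-- joint continuity of `(Q, u) ↦ r_Q(u)` on `[0,∞) × ℝ`. -/
theorem d1x202_rQ_joint (H : C1x150Ker K s h C) (hBK : ∀ w, |K w| ≤ BK) :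
    ContinuousOn (fun p : ℝ × ℝ => c1x150_rQ K s p.1 p.2) (Ici 0 ×ˢ univ) :=
  continuousOn_prod_of_continuousOn_lipschitzOnWith (fun p : ℝ × ℝ => c1x150_rQ K s p.1 p.2)
    ⟨d1x202_Lr BK C h, d1x202_Lr_nonneg H hBK⟩
    (fun Q _ => (c1x150_rQ_continuous H Q).continuousOn) (fun u _ => d1x202_rQ_lipOn H hBK u)

/-- **(d)**: `Q ↦ ∫_{|u| > Q} r_Q ε` is continuous on `[0,∞)`, `ε` any integrable weight. -/
theorem d1x202_compl_continuousOn (H : C1x150Ker K s h C) (hBK : ∀ w, |K w| ≤ BK) {φ : ℝ → ℝ}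
    (hφ : Integrable φ) :
    ContinuousOn (fun Q => ∫ u in (Icc (-Q) Q)ᶜ, c1x150_rQ K s Q u * φ u) (Ici 0) := fun Q₀ hQ₀ =>
  d1x202_cont_param (fun _ => measurableSet_Icc.compl) (d1x202_compl_loc _ _)
    (fun Q => (c1x150_rQ_continuous H Q).measurable) (fun Q _ u => c1x150_rQ_bdd H Q u)
    (fun u => (d1x202_rQ_lipOn H hBK u).continuousOn Q₀ hQ₀) hφ

/-- **(d)**, half-line form. -/
theorem d1x202_Ioi_continuousOn (H : C1x150Ker K s h C) (hBK : ∀ w, |K w| ≤ BK) {φ : ℝ → ℝ}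
    (hφ : Integrable φ) :
    ContinuousOn (fun Q => ∫ u in Ioi Q, c1x150_rQ K s Q u * φ u) (Ici 0) := fun Q₀ hQ₀ =>
  d1x202_cont_param (fun _ => measurableSet_Ioi) (d1x202_Ioi_loc _ _)
    (fun Q => (c1x150_rQ_continuous H Q).measurable) (fun Q _ u => c1x150_rQ_bdd H Q u)
    (fun u => (d1x202_rQ_lipOn H hBK u).continuousOn Q₀ hQ₀) hφ

/-- **the energy `E(Q)` is continuous on `[0,∞)`.** -/
theorem d1x202_Eq_continuousOn (H : C1x150Ker K s h C) (G : C1x150Res K s R rinf eps e0)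
    (hBK : ∀ w, |K w| ≤ BK) : ContinuousOn (c1x150_Eq K s e0) (Ici 0) := by
  have h1 := d1x202_Ioi_continuousOn H hBK G.eps_int
  have h2 : ContinuousOn (fun Q => (∫ u, s u * eps u)
      - 2 * ∫ u in Ioi Q, c1x150_rQ K s Q u * eps u) (Ici 0) :=
    continuousOn_const.sub (continuousOn_const.mul h1)
  refine h2.congr fun Q hQ => ?_
  have h3 := c1x150_hE H G Q hQ
  simp only [mul_comm (eps _)] at h3
  show c1x150_Eq K s e0 Q = _
  linarith

/-- `r_∞ = s - R * s`. -/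
theorem d1x202_rinf_eq (H : C1x150Ker K s h C) (G : C1x150Res K s R rinf eps e0) (u : ℝ) :
    rinf u = s u - c1x150_op R univ s u := by
  obtain ⟨M, hM⟩ := G.rinf_bdd
  have h1 := c1x150_complement (F := s) (f := s) H.K_int H.K_norm H.h_lt G.R_int G.R_meas G.R_res
    MeasurableSet.empty H.s_cont.measurable H.s_bdd (fun u => by simp [c1x150_op]) G.rinf_meas hM
    G.rinf_eq u
  rw [compl_empty] at h1
  linarith

theorem d1x202_rinf_integrable (H : C1x150Ker K s h C) (G : C1x150Res K s R rinf eps e0) :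
    Integrable rinf :=
  (H.s_int.sub (c1x150_op_L1 G.R_int MeasurableSet.univ H.s_int.integrableOn).1).congr
    (Eventually.of_forall fun u => (d1x202_rinf_eq H G u).symm)

/-- **(e), explicit**: `∫_{|u|>Q} |r_Q| ≤ (∫_{|u|>Q} |r_∞|) / (1 - h)`. -/
theorem d1x202_rQ_tail (H : C1x150Ker K s h C) (G : C1x150Res K s R rinf eps e0) (Q : ℝ) :
    ∫ v in (Icc (-Q) Q)ᶜ, |c1x150_rQ K s Q v| ≤ (∫ v in (Icc (-Q) Q)ᶜ, |rinf v|) / (1 - h) := by
  obtain ⟨M, hM⟩ := G.rinf_bdd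
  exact d1x202_tail H.K_int H.K_norm H.h_lt measurableSet_Icc
    (c1x150_rQ_continuous H Q).measurable G.rinf_meas (c1x150_bound_nonneg H)
    (fun v _ => c1x150_rQ_bdd H Q v) hM (c1x150_rQ_integrable H Q).integrableOn
    (d1x202_rinf_integrable H G) (c1x150_rQ_eq H Q) G.rinf_eq

/-- `L¹` distance: `∫ |r_Q - r_∞| ≤ h (∫_{|u|>Q} |r_∞|) / (1 - h)`. -/
theorem d1x202_rQ_dist (H : C1x150Ker K s h C) (G : C1x150Res K s R rinf eps e0) (Q : ℝ) :
    ∫ v, |c1x150_rQ K s Q v - rinf v| ≤ h * (∫ v in (Icc (-Q) Q)ᶜ, |rinf v|) / (1 - h) := by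
  obtain ⟨M, hM⟩ := G.rinf_bdd
  exact (d1x202_dist_full H.K_int H.K_norm H.h_lt measurableSet_Icc
    (c1x150_rQ_continuous H Q).measurable G.rinf_meas (c1x150_bound_nonneg H)
    (fun v _ => c1x150_rQ_bdd H Q v) hM (c1x150_rQ_integrable H Q).integrableOn
    (d1x202_rinf_integrable H G) (c1x150_rQ_eq H Q) G.rinf_eq).2

/-- **(e)**: `∫_{|u|>Q} |r_Q| → 0`. -/
theorem d1x202_rQ_tail_tendsto (H : C1x150Ker K s h C) (G : C1x150Res K s R rinf eps e0) :
    Tendsto (fun Q : ℝ => ∫ v in (Icc (-Q) Q)ᶜ, |c1x150_rQ K s Q v|) atTop (𝓝 0) := by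
  have h0 := (d1x202_tail_zero (d1x202_rinf_integrable H G)).div_const (1 - h)
  rw [zero_div] at h0
  exact squeeze_zero (fun Q => integral_nonneg fun v => abs_nonneg _) (d1x202_rQ_tail H G) h0

theorem d1x202_Ioi_subset (Q : ℝ) : Ioi Q ⊆ (Icc (-Q) Q)ᶜ := fun u hu => by
  rw [d1x202_mem_compl_Icc]
  exact lt_of_lt_of_le hu (le_abs_self u)

/-- a half-line integral is dominated by the integral of the modulus over the complement. -/
theorem d1x202_Ioi_le {φ : ℝ → ℝ} (hφ : Integrable φ) (Q : ℝ) :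
    |∫ u in Ioi Q, φ u| ≤ ∫ u in (Icc (-Q) Q)ᶜ, |φ u| :=
  calc |∫ u in Ioi Q, φ u| ≤ ∫ u in Ioi Q, |φ u| := by
        simpa using norm_integral_le_integral_norm (μ := volume.restrict (Ioi Q)) φ
    _ ≤ ∫ u in (Icc (-Q) Q)ᶜ, |φ u| :=
        setIntegral_mono_set hφ.abs.integrableOn (Eventually.of_forall fun u => abs_nonneg _)
          (Eventually.of_forall (d1x202_Ioi_subset Q))

/-- **the filling tends to `Dinf = (1 - ∫ R) ∫ s`.** -/
theorem d1x202_Dq_tendsto (H : C1x150Ker K s h C) (G : C1x150Res K s R rinf eps e0) :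
    Tendsto (c1x150_Dq K s) atTop (𝓝 ((1 - ∫ w, R w) * ∫ u, s u)) := by
  have h1 : Tendsto (fun Q : ℝ => ∫ y in Ioi Q, c1x150_rQ K s Q y) atTop (𝓝 0) :=
    squeeze_zero_norm (fun Q => by
      rw [Real.norm_eq_abs]
      exact d1x202_Ioi_le (c1x150_rQ_integrable H Q) Q) (d1x202_rQ_tail_tendsto H G)
  have h2 : Tendsto (fun Q : ℝ => (1 - ∫ w, R w) * (∫ u, s u)
      - 2 * (1 - ∫ w, R w) * ∫ y in Ioi Q, c1x150_rQ K s Q y) atTop
      (𝓝 ((1 - ∫ w, R w) * (∫ u, s u) - 2 * (1 - ∫ w, R w) * 0)) :=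
    tendsto_const_nhds.sub (h1.const_mul _)
  rw [mul_zero, sub_zero] at h2
  refine h2.congr' ?_
  filter_upwards [eventually_ge_atTop (0 : ℝ)] with Q hQ
  linarith [c1x150_hD H G Q hQ]

/-- **the energy tends to `Einf = ∫ s ε_∞`.** -/
theorem d1x202_Eq_tendsto (H : C1x150Ker K s h C) (G : C1x150Res K s R rinf eps e0) :
    Tendsto (c1x150_Eq K s e0) atTop (𝓝 (∫ u, s u * eps u)) := by
  have hi : ∀ Q, Integrable fun y => eps y * c1x150_rQ K s Q y := fun Q => by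
    have := G.eps_int.bdd_mul (c := C / (1 - h))
      (c1x150_rQ_continuous H Q).measurable.aestronglyMeasurable
      (Eventually.of_forall fun u => by simpa using c1x150_rQ_bdd H Q u)
    exact this.congr (Eventually.of_forall fun u => mul_comm _ _)
  have h0 := (d1x202_tail_zero G.eps_int).const_mul (C / (1 - h))
  rw [mul_zero] at h0
  have h1 : Tendsto (fun Q : ℝ => ∫ y in Ioi Q, eps y * c1x150_rQ K s Q y) atTop (𝓝 0) :=
    squeeze_zero_norm (fun Q => by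
      rw [Real.norm_eq_abs]
      refine (d1x202_Ioi_le (hi Q) Q).trans ?_
      rw [← integral_const_mul]
      refine integral_mono (hi Q).abs.integrableOn (G.eps_int.abs.const_mul _).integrableOn
        fun u => ?_
      show |eps u * c1x150_rQ K s Q u| ≤ C / (1 - h) * |eps u|
      rw [abs_mul, mul_comm]
      exact mul_le_mul_of_nonneg_right (c1x150_rQ_bdd H Q u) (abs_nonneg _)) h0
  have h2 : Tendsto (fun Q : ℝ => (∫ u, s u * eps u)
      - 2 * ∫ y in Ioi Q, eps y * c1x150_rQ K s Q y) atTop (𝓝 ((∫ u, s u * eps u) - 2 * 0)) :=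
    tendsto_const_nhds.sub (h1.const_mul _)
  rw [mul_zero, sub_zero] at h2
  refine h2.congr' ?_
  filter_upwards [eventually_ge_atTop (0 : ℝ)] with Q hQ
  linarith [c1x150_hE H G Q hQ]

end exits

/-! ### The continuum family, uniformly on a segment of parameters `t ∈ [a, b] ⊂ (0, 2π/3)` -/

theorem d1x202_ker_abs_le {x : ℝ} {m : ℝ} (hm0 : 0 < m) (hm : m ≤ 1 - Real.cos x) (u : ℝ) :
    |ba230_ker x u| ≤ 1 / (Real.pi * m) := by
  have hpi := Real.pi_pos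
  have hc : 1 ≤ Real.cosh (2 * u) := Real.one_le_cosh _
  have hden : Real.pi * m ≤ Real.pi * (Real.cosh (2 * u) - Real.cos x) :=
    mul_le_mul_of_nonneg_left (by linarith) hpi.le
  have hpos : 0 < Real.pi * m := by positivity
  unfold ba230_ker
  rw [abs_div, abs_of_pos (lt_of_lt_of_le hpos hden)]
  exact div_le_div₀ zero_le_one (Real.abs_sin_le_one x) hpos hden

theorem d1x202_sin_ge {a b t : ℝ} (ha : 0 < a) (hb : b < Real.pi) (ht : t ∈ Icc a b) :
    min (Real.sin a) (Real.sin b) ≤ Real.sin t := by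
  have hpi := Real.pi_pos
  rcases le_total t (Real.pi / 2) with h | h
  · refine (min_le_left _ _).trans ?_
    exact Real.sin_le_sin_of_le_of_le_pi_div_two (by linarith) h ht.1
  · refine (min_le_right _ _).trans ?_
    rw [← Real.sin_pi_sub b, ← Real.sin_pi_sub t]
    exact Real.sin_le_sin_of_le_of_le_pi_div_two (by linarith) (by linarith) (by linarith [ht.2])

theorem d1x202_sin_min_pos {a b : ℝ} (ha : 0 < a) (hab : a ≤ b) (hb : b < Real.pi) :
    0 < min (Real.sin a) (Real.sin b) :=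
  lt_min (Real.sin_pos_of_pos_of_lt_pi ha (by linarith))
    (Real.sin_pos_of_pos_of_lt_pi (by linarith) hb)

/-- the uniform contraction constant. -/
def d1x202_hh (a b : ℝ) : ℝ := max (1 - 2 * a / Real.pi) (2 * b / Real.pi - 1)

/-- the uniform bound of the sources `s_t`. -/
def d1x202_Cs (a : ℝ) : ℝ := 1 / (Real.pi * (1 - Real.cos a))

/-- the uniform bound of the kernels `K_t`. -/
def d1x202_BK (a b : ℝ) : ℝ := 1 / (Real.pi * (2 * (min (Real.sin a) (Real.sin b)) ^ 2))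

theorem d1x202_hh_lt {a b : ℝ} (ha : 0 < a) (hb : b < Real.pi) : d1x202_hh a b < 1 := by
  have hpi := Real.pi_pos
  unfold d1x202_hh
  refine max_lt ?_ ?_
  · have : 0 < 2 * a / Real.pi := by positivity
    linarith
  · have : 2 * b / Real.pi < 2 := by rw [div_lt_iff₀ hpi]; linarith
    linarith

theorem d1x202_abs_le_hh {a b t : ℝ} (ht : t ∈ Icc a b) :
    |1 - 2 * t / Real.pi| ≤ d1x202_hh a b := by
  have hpi := Real.pi_pos
  have h1 : 2 * a / Real.pi ≤ 2 * t / Real.pi :=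
    div_le_div_of_nonneg_right (by linarith [ht.1]) hpi.le
  have h2 : 2 * t / Real.pi ≤ 2 * b / Real.pi :=
    div_le_div_of_nonneg_right (by linarith [ht.2]) hpi.le
  unfold d1x202_hh
  rw [abs_le]
  constructor
  · have := le_max_right (1 - 2 * a / Real.pi) (2 * b / Real.pi - 1)
    linarith
  · have := le_max_left (1 - 2 * a / Real.pi) (2 * b / Real.pi - 1)
    linarith

theorem d1x202_s_le {a b t : ℝ} (ha : 0 < a) (hb : b < Real.pi) (ht : t ∈ Icc a b) (u : ℝ) :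
    |ba230_ker t u| ≤ d1x202_Cs a := by
  have hpi := Real.pi_pos
  have hca : Real.cos a < 1 := by
    have := Real.cos_lt_cos_of_nonneg_of_le_pi (x := 0) (y := a) le_rfl (by linarith [ht.1, ht.2]) ha
    simpa using this
  refine d1x202_ker_abs_le (by linarith) ?_ u
  have := Real.cos_le_cos_of_nonneg_of_le_pi ha.le (by linarith [ht.2]) ht.1
  linarith

theorem d1x202_K_le {a b t : ℝ} (ha : 0 < a) (hb : b < Real.pi) (ht : t ∈ Icc a b) (u : ℝ) :
    |ba230_ker (2 * t) u| ≤ d1x202_BK a b := by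
  have hσ := d1x202_sin_min_pos ha (ht.1.trans ht.2) hb
  refine d1x202_ker_abs_le (by positivity) ?_ u
  have h1 := d1x202_sin_ge ha hb ht
  have h2 : 1 - Real.cos (2 * t) = 2 * Real.sin t ^ 2 := by
    rw [Real.cos_two_mul, Real.sin_sq]; ring
  rw [h2]
  have := pow_le_pow_left₀ hσ.le h1 2
  linarith

/-- **the structure `C1x150Ker` with constants uniform in `t ∈ [a, b]`.** -/
theorem d1x202_KerU {a b t : ℝ} (ha : 0 < a) (hb : b < Real.pi) (ht : t ∈ Icc a b) :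
    C1x150Ker (ba230_ker (2 * t)) (ba230_ker t) (d1x202_hh a b) (d1x202_Cs a) := by
  have hpi := Real.pi_pos
  have h0 : 0 < t := lt_of_lt_of_le ha ht.1
  have hl : t < Real.pi := lt_of_le_of_lt ht.2 hb
  obtain ⟨hn, _⟩ := ba230_K_norm h0 hl
  exact ⟨ba230_ker_integrable (by linarith) (by linarith), ba230_ker_even _,
    hn.le.trans (d1x202_abs_le_hh ht), d1x202_hh_lt ha hb,
    ba230_ker_continuous h0 (by linarith), d1x202_s_le ha hb ht, ba230_ker_even _,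
    ba230_ker_integrable h0 (by linarith)⟩

/-- `ρ_t ≤ (b/a) ρ_b` for `t ∈ [a, b]`: one integrable majorant for the whole segment. -/
theorem d1x202_rho_le {a b t : ℝ} (ha : 0 < a) (ht : t ∈ Icc a b) (u : ℝ) :
    ba230_rho t u ≤ b / a * ba230_rho b u := by
  have hpi := Real.pi_pos
  have h0 : 0 < t := lt_of_lt_of_le ha ht.1
  have hb0 : 0 < b := lt_of_lt_of_le h0 ht.2
  have hcb : 0 < Real.cosh (Real.pi * u / b) := Real.cosh_pos _
  have e : b / a * ba230_rho b u = 1 / (2 * a * Real.cosh (Real.pi * u / b)) := by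
    unfold ba230_rho; field_simp
  rw [e]
  unfold ba230_rho
  refine one_div_le_one_div_of_le (by positivity) ?_
  have hc : Real.cosh (Real.pi * u / b) ≤ Real.cosh (Real.pi * u / t) := by
    rw [Real.cosh_le_cosh, abs_div, abs_div, abs_of_pos hb0, abs_of_pos h0]
    exact div_le_div_of_nonneg_left (abs_nonneg _) h0 ht.2
  calc 2 * a * Real.cosh (Real.pi * u / b) ≤ 2 * t * Real.cosh (Real.pi * u / b) :=
        mul_le_mul_of_nonneg_right (by linarith [ht.1]) hcb.le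
    _ ≤ 2 * t * Real.cosh (Real.pi * u / t) := mul_le_mul_of_nonneg_left hc (by positivity)

theorem d1x202_rho_ge {a b t Qh u : ℝ} (ha : 0 < a) (ht : t ∈ Icc a b) (hu : |u| ≤ Qh) :
    1 / (2 * b * Real.cosh (Real.pi * Qh / a)) ≤ ba230_rho t u := by
  have hpi := Real.pi_pos
  have h0 : 0 < t := lt_of_lt_of_le ha ht.1
  have hb0 : 0 < b := lt_of_lt_of_le h0 ht.2
  have hQ0 : 0 ≤ Qh := (abs_nonneg u).trans hu
  have hct : 0 < Real.cosh (Real.pi * u / t) := Real.cosh_pos _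
  unfold ba230_rho
  refine one_div_le_one_div_of_le (by positivity) ?_
  have hc : Real.cosh (Real.pi * u / t) ≤ Real.cosh (Real.pi * Qh / a) := by
    rw [Real.cosh_le_cosh, abs_div, abs_div, abs_of_pos ha, abs_of_pos h0, abs_mul, abs_mul,
      abs_of_pos hpi, abs_of_nonneg hQ0]
    exact div_le_div₀ (by positivity) (mul_le_mul_of_nonneg_left hu hpi.le) ha ht.1
  calc 2 * t * Real.cosh (Real.pi * u / t) ≤ 2 * b * Real.cosh (Real.pi * u / t) :=
        mul_le_mul_of_nonneg_right (by linarith [ht.2]) hct.le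
    _ ≤ 2 * b * Real.cosh (Real.pi * Qh / a) := mul_le_mul_of_nonneg_left hc (by positivity)

theorem d1x202_s_ge {b t Qh u : ℝ} (h2 : Real.pi / 2 ≤ t) (htb : t ≤ b) (hb : b < Real.pi)
    (hu : |u| ≤ Qh) :
    Real.sin b / (Real.pi * (Real.cosh (2 * Qh) + 1)) ≤ ba230_ker t u := by
  have hpi := Real.pi_pos
  have h0 : 0 < t := by linarith
  have hQ0 : 0 ≤ Qh := (abs_nonneg u).trans hu
  unfold ba230_ker
  refine div_le_div₀ (Real.sin_nonneg_of_nonneg_of_le_pi h0.le (by linarith)) ?_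
    (ba230_ker_den_pos h0 (by linarith) u) ?_
  · rw [← Real.sin_pi_sub b, ← Real.sin_pi_sub t]
    exact Real.sin_le_sin_of_le_of_le_pi_div_two (by linarith) (by linarith) (by linarith)
  · refine mul_le_mul_of_nonneg_left ?_ hpi.le
    have hc : Real.cosh (2 * u) ≤ Real.cosh (2 * Qh) := by
      rw [Real.cosh_le_cosh, abs_mul, abs_mul, abs_of_nonneg hQ0]
      exact mul_le_mul_of_nonneg_left hu (abs_nonneg _)
    linarith [Real.neg_one_le_cos t]

/-- the uniform lower bound of the densities on `[-Qh, Qh]`. -/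
def d1x202_rmin (a b Qh : ℝ) : ℝ :=
  min (Real.sin b / (Real.pi * (Real.cosh (2 * Qh) + 1)))
    (1 / (2 * b * Real.cosh (Real.pi * Qh / a)))

theorem d1x202_rmin_pos {a b : ℝ} (ha : 0 < a) (hab : a ≤ b) (hb : b < Real.pi) (Qh : ℝ) :
    0 < d1x202_rmin a b Qh := by
  have hpi := Real.pi_pos
  have hb0 : 0 < b := lt_of_lt_of_le ha hab
  have h1 := Real.sin_pos_of_pos_of_lt_pi hb0 hb
  have h2 := Real.cosh_pos (2 * Qh)
  have h3 := Real.cosh_pos (Real.pi * Qh / a)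
  unfold d1x202_rmin
  refine lt_min ?_ ?_ <;> positivity

section seg

variable {a b t : ℝ}

/-- **uniform positivity**: `r_{t,Q}(u) ≥ rmin` for `t ∈ [a,b]`, every `Q`, `|u| ≤ Qh`. -/
theorem d1x202_rQ_ge (ha : 0 < a) (hb : b < 2 * Real.pi / 3) (ht : t ∈ Icc a b) {Qh : ℝ} (Q : ℝ)
    {u : ℝ} (hu : |u| ≤ Qh) :
    d1x202_rmin a b Qh ≤ c1x150_rQ (ba230_ker (2 * t)) (ba230_ker t) Q u := by
  have hpi := Real.pi_pos
  have hbpi : b < Real.pi := by linarith
  have h0 : 0 < t := lt_of_lt_of_le ha ht.1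
  have h1 : t < 2 * Real.pi / 3 := lt_of_le_of_lt ht.2 hb
  have H := d1x202_KerU ha hbpi ht
  rcases le_total t (Real.pi / 2) with h2 | h2
  · refine (min_le_right _ _).trans ((d1x202_rho_ge ha ht hu).trans ?_)
    exact c1x150_rQ_ge_rinf H (ba230_Res h0 h1) (ba230_R_norm_lt h0 h1).le (by norm_num)
      (ba230_R_nonneg h0 h1 h2) (fun v => (ba230_rho_pos h0 v).le) Q u
  · refine (min_le_left _ _).trans ((d1x202_s_ge h2 ht.2 hbpi hu).trans ?_)
    exact c1x150_rQ_ge_source H (ba230_ker_nonpos (by linarith) (by linarith))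
      (ba230_ker_nonneg h0 (by linarith)) Q u

/-- `H_{t,Q} ≥ 1/2`, uniformly. -/
theorem d1x202_HQ_ge (ha : 0 < a) (hb : b < 2 * Real.pi / 3) (ht : t ∈ Icc a b) (Q u : ℝ) :
    1 / 2 ≤ c1x150_HQ (ba230_ker (2 * t)) Q u := by
  have hpi := Real.pi_pos
  have hbpi : b < Real.pi := by linarith
  have h0 : 0 < t := lt_of_lt_of_le ha ht.1
  have h1 : t < 2 * Real.pi / 3 := lt_of_le_of_lt ht.2 hb
  have H := d1x202_KerU ha hbpi ht
  rcases le_total t (Real.pi / 2) with h2 | h2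
  · have h3 := c1x150_HQ_ge_Z H (ba230_Res h0 h1) (ba230_R_norm_lt h0 h1).le (by norm_num)
      (ba230_R_nonneg h0 h1 h2) Q u
    rw [ba230_Z_eq h0 h1] at h3
    refine le_trans ?_ h3
    rw [div_le_div_iff₀ (by norm_num) (by linarith)]
    linarith
  · have h3 := c1x150_HQ_ge_one H (ba230_ker_nonpos (by linarith) (by linarith)) Q u
    linarith

/-- **(iii) uniform strict monotonicity of the filling.** -/
theorem d1x202_Dq_incr (ha : 0 < a) (hb : b < 2 * Real.pi / 3) (ht : t ∈ Icc a b) {Q1 Q2 Qh : ℝ}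
    (hQ1 : 0 ≤ Q1) (h12 : Q1 ≤ Q2) (h2h : Q2 ≤ Qh) :
    d1x202_rmin a b Qh * (Q2 - Q1) ≤ c1x150_Dq (ba230_ker (2 * t)) (ba230_ker t) Q2
      - c1x150_Dq (ba230_ker (2 * t)) (ba230_ker t) Q1 := by
  have hpi := Real.pi_pos
  have hbpi : b < Real.pi := by linarith
  have H := d1x202_KerU ha hbpi ht
  have h := c1x150_Dq_lower H hQ1 h12 (d1x202_rmin_pos ha (ht.1.trans ht.2) hbpi Qh).le
    (by norm_num : (0 : ℝ) ≤ 1 / 2)
    (fun u hu => d1x202_rQ_ge ha hb ht Q1 (abs_le.2 ⟨by linarith [hu.1], by linarith [hu.2]⟩))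
    (fun u _ => d1x202_HQ_ge ha hb ht Q2 u)
  calc d1x202_rmin a b Qh * (Q2 - Q1) = 2 * d1x202_rmin a b Qh * (1 / 2) * (Q2 - Q1) := by ring
    _ ≤ _ := h

/-- **(ii), small `Q`**: `D_t(Q) ≤ L Q`, `L` uniform. -/
theorem d1x202_Dq_le (ha : 0 < a) (hb : b < Real.pi) (ht : t ∈ Icc a b) {Q : ℝ} (hQ : 0 ≤ Q) :
    c1x150_Dq (ba230_ker (2 * t)) (ba230_ker t) Q
      ≤ 2 * (d1x202_Cs a / (1 - d1x202_hh a b)) * (1 / (1 - d1x202_hh a b)) * Q := by
  have H := d1x202_KerU ha hb ht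
  have h := c1x150_Dq_lipschitz H le_rfl hQ
  rw [c1x150_Dq_zero, sub_zero, sub_zero] at h
  exact (le_abs_self _).trans h

/-- **(ii), large `Q`**: `1/2 - D_t(Q)` is controlled by the tail of `ρ_b`, uniformly. -/
theorem d1x202_half_sub_le (ha : 0 < a) (hb : b < 2 * Real.pi / 3) (ht : t ∈ Icc a b) {Q : ℝ}
    (hQ : 0 ≤ Q) :
    1 / 2 - c1x150_Dq (ba230_ker (2 * t)) (ba230_ker t) Q
      ≤ 3 * (b / a) * (∫ v in (Icc (-Q) Q)ᶜ, |ba230_rho b v|) / (1 - d1x202_hh a b) := by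
  have hpi := Real.pi_pos
  have hbpi : b < Real.pi := by linarith
  have h0 : 0 < t := lt_of_lt_of_le ha ht.1
  have hb0 : 0 < b := lt_of_lt_of_le h0 ht.2
  have h1 : t < 2 * Real.pi / 3 := lt_of_le_of_lt ht.2 hb
  have H := d1x202_KerU ha hbpi ht
  have G := ba230_Res h0 h1
  have h1h : 0 < 1 - d1x202_hh a b := by linarith [d1x202_hh_lt ha hbpi]
  have hm := ba230_mass_id h0 h1 hQ (c1x150_rQ_continuous H Q) (c1x150_rQ_eq H Q)
  have hZ := ba230_Z_eq h0 h1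
  have hZ0 : 0 ≤ 1 - ∫ u, ba230_R t u := by
    rw [hZ]; exact div_nonneg hpi.le (by linarith)
  have hZ1 : 1 - ∫ u, ba230_R t u ≤ 3 / 2 := by
    rw [hZ, div_le_div_iff₀ (by linarith) (by norm_num)]
    linarith
  have hτ0 : 0 ≤ ∫ v in (Icc (-Q) Q)ᶜ, |ba230_rho b v| := integral_nonneg fun v => abs_nonneg _
  have h3 : ∫ y in Ioi Q, c1x150_rQ (ba230_ker (2 * t)) (ba230_ker t) Q y
      ≤ (b / a) * (∫ v in (Icc (-Q) Q)ᶜ, |ba230_rho b v|) / (1 - d1x202_hh a b) := by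
    refine (le_abs_self _).trans ((d1x202_Ioi_le (c1x150_rQ_integrable H Q) Q).trans
      ((d1x202_rQ_tail H G Q).trans ?_))
    refine div_le_div_of_nonneg_right ?_ h1h.le
    rw [← integral_const_mul]
    refine integral_mono (ba230_rho_integrable h0).abs.integrableOn
      ((ba230_rho_integrable hb0).abs.const_mul _).integrableOn fun v => ?_
    show |ba230_rho t v| ≤ b / a * |ba230_rho b v|
    rw [abs_of_pos (ba230_rho_pos h0 v), abs_of_pos (ba230_rho_pos hb0 v)]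
    exact d1x202_rho_le ha ht v
  have hX0 : 0 ≤ (b / a) * (∫ v in (Icc (-Q) Q)ᶜ, |ba230_rho b v|) / (1 - d1x202_hh a b) := by
    positivity
  have e : c1x150_Dq (ba230_ker (2 * t)) (ba230_ker t) Q
      = ∫ u in Icc (-Q) Q, c1x150_rQ (ba230_ker (2 * t)) (ba230_ker t) Q u := rfl
  rw [e, hm]
  calc 2 * (1 - ∫ u, ba230_R t u) * ∫ y in Ioi Q, c1x150_rQ (ba230_ker (2 * t)) (ba230_ker t) Q y
      ≤ 2 * (1 - ∫ u, ba230_R t u)
        * ((b / a) * (∫ v in (Icc (-Q) Q)ᶜ, |ba230_rho b v|) / (1 - d1x202_hh a b)) :=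
        mul_le_mul_of_nonneg_left h3 (by positivity)
    _ ≤ 2 * (3 / 2)
        * ((b / a) * (∫ v in (Icc (-Q) Q)ᶜ, |ba230_rho b v|) / (1 - d1x202_hh a b)) :=
        mul_le_mul_of_nonneg_right (by linarith) hX0
    _ = _ := by ring

end seg

/-- **(ii) uniform window**: `D_t(Qlo) ≤ d - η`, `d + η ≤ D_t(Qhi)` for every `t ∈ [a, b]`. -/
theorem d1x202_window {a b d : ℝ} (ha : 0 < a) (hab : a ≤ b) (hb : b < 2 * Real.pi / 3)
    (hd0 : 0 < d) (hd1 : d < 1 / 2) :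
    ∃ Qlo Qhi eta : ℝ, 0 < Qlo ∧ Qlo < Qhi ∧ 0 < eta ∧ ∀ t ∈ Icc a b,
      c1x150_Dq (ba230_ker (2 * t)) (ba230_ker t) Qlo ≤ d - eta ∧
      d + eta ≤ c1x150_Dq (ba230_ker (2 * t)) (ba230_ker t) Qhi := by
  have hpi := Real.pi_pos
  have hbpi : b < Real.pi := by linarith
  have hb0 : 0 < b := lt_of_lt_of_le ha hab
  have h1h : 0 < 1 - d1x202_hh a b := by linarith [d1x202_hh_lt ha hbpi]
  obtain ⟨L, hL⟩ : ∃ L : ℝ,
      L = 2 * (d1x202_Cs a / (1 - d1x202_hh a b)) * (1 / (1 - d1x202_hh a b)) := ⟨_, rfl⟩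
  have hL0 : 0 ≤ L := by
    have h1 := c1x150_bound_nonneg (d1x202_KerU ha hbpi (⟨le_rfl, hab⟩ : a ∈ Icc a b))
    rw [hL]; positivity
  have htend := ((d1x202_tail_zero (ba230_rho_integrable hb0)).const_mul (3 * (b / a))).div_const
    (1 - d1x202_hh a b)
  rw [mul_zero, zero_div] at htend
  have hgap : 0 < (1 / 2 - d) / 2 := by linarith
  have hQlo : 0 < d / 2 / (L + 1) := by positivity
  obtain ⟨Qhi, hQ1, hQ2⟩ := ((htend.eventually (gt_mem_nhds hgap)).and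
    (eventually_gt_atTop (d / 2 / (L + 1)))).exists
  refine ⟨d / 2 / (L + 1), Qhi, min (d / 2) ((1 / 2 - d) / 2), hQlo, hQ2,
    lt_min (by linarith) hgap, fun t ht => ⟨?_, ?_⟩⟩
  · have h1 := d1x202_Dq_le ha hbpi ht hQlo.le
    rw [← hL] at h1
    have h2 : L * (d / 2 / (L + 1)) ≤ d / 2 := by
      rw [mul_div_assoc', div_le_iff₀ (by linarith)]
      nlinarith
    have h3 := min_le_left (d / 2) ((1 / 2 - d) / 2)
    linarith
  · have h1 := d1x202_half_sub_le ha hb ht (hQlo.le.trans hQ2.le)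
    have h3 := min_le_right (d / 2) ((1 / 2 - d) / 2)
    linarith

/-- **the continuum family, uniform on a segment through `λ₀` and `π/2`** (input of the Newton rope):
window for the Fermi point, uniform strict monotonicity of the filling, uniform bounds of the
density, uniform constants of the structure `C1x150Ker`. -/
theorem d1x202_path {lam0 d : ℝ} (h0 : 0 < lam0) (h1 : lam0 < 2 * Real.pi / 3) (hd0 : 0 < d)
    (hd1 : d < 1 / 2) :
    ∃ a b Qlo Qhi c0 eta hh Cs BK : ℝ, 0 < a ∧ a < min lam0 (Real.pi / 2) ∧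
      max lam0 (Real.pi / 2) < b ∧ b < 2 * Real.pi / 3 ∧ 0 < Qlo ∧ Qlo < Qhi ∧ 0 < c0 ∧ 0 < eta ∧
      hh < 1 ∧ ∀ t ∈ Icc a b,
        C1x150Ker (ba230_ker (2 * t)) (ba230_ker t) hh Cs ∧
        (∀ w, |ba230_ker (2 * t) w| ≤ BK) ∧
        c1x150_Dq (ba230_ker (2 * t)) (ba230_ker t) Qlo ≤ d - eta ∧
        d + eta ≤ c1x150_Dq (ba230_ker (2 * t)) (ba230_ker t) Qhi ∧
        (∀ Q u, |u| ≤ Qhi → c0 ≤ c1x150_rQ (ba230_ker (2 * t)) (ba230_ker t) Q u) ∧
        (∀ Q u, |c1x150_rQ (ba230_ker (2 * t)) (ba230_ker t) Q u| ≤ Cs / (1 - hh)) ∧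
        ∀ Q1 Q2, 0 ≤ Q1 → Q1 ≤ Q2 → Q2 ≤ Qhi →
          c0 * (Q2 - Q1) ≤ c1x150_Dq (ba230_ker (2 * t)) (ba230_ker t) Q2
            - c1x150_Dq (ba230_ker (2 * t)) (ba230_ker t) Q1 := by
  have hpi := Real.pi_pos
  have hmin : 0 < min lam0 (Real.pi / 2) := lt_min h0 (by positivity)
  have hmax : max lam0 (Real.pi / 2) < 2 * Real.pi / 3 := max_lt h1 (by linarith)
  have hmm : min lam0 (Real.pi / 2) ≤ max lam0 (Real.pi / 2) := min_le_max
  obtain ⟨a, ha⟩ : ∃ a : ℝ, a = min lam0 (Real.pi / 2) / 2 := ⟨_, rfl⟩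
  obtain ⟨b, hb⟩ : ∃ b : ℝ, b = (max lam0 (Real.pi / 2) + 2 * Real.pi / 3) / 2 := ⟨_, rfl⟩
  have ha0 : 0 < a := by rw [ha]; positivity
  have ha1 : a < min lam0 (Real.pi / 2) := by rw [ha]; linarith
  have hb1 : max lam0 (Real.pi / 2) < b := by rw [hb]; linarith
  have hb2 : b < 2 * Real.pi / 3 := by rw [hb]; linarith
  have hab : a ≤ b := by linarith
  have hbpi : b < Real.pi := by linarith
  obtain ⟨Qlo, Qhi, eta, hQlo, hQ, heta, hw⟩ := d1x202_window ha0 hab hb2 hd0 hd1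
  refine ⟨a, b, Qlo, Qhi, d1x202_rmin a b Qhi, eta, d1x202_hh a b, d1x202_Cs a, d1x202_BK a b,
    ha0, ha1, hb1, hb2, hQlo, hQ, d1x202_rmin_pos ha0 hab hbpi Qhi, heta, d1x202_hh_lt ha0 hbpi,
    fun t ht => ⟨d1x202_KerU ha0 hbpi ht, d1x202_K_le ha0 hbpi ht, (hw t ht).1, (hw t ht).2,
      fun Q u hu => d1x202_rQ_ge ha0 hb2 ht Q hu,
      fun Q u => c1x150_rQ_bdd (d1x202_KerU ha0 hbpi ht) Q u,
      fun Q1 Q2 hQ1 h12 h2h => d1x202_Dq_incr ha0 hb2 ht hQ1 h12 h2h⟩⟩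

/-! ### Lipschitz dependence on the parameter -/

/-- the kernels are Lipschitz in the angle, uniformly on the line. -/
theorem d1x202_ker_lip_par {x x' η : ℝ} (hη : 0 < η) (hx : η ≤ 1 - Real.cos x)
    (hx' : η ≤ 1 - Real.cos x') (u : ℝ) :
    |ba230_ker x u - ba230_ker x' u| ≤ (1 / η + 2 / η ^ 2) / Real.pi * |x - x'| := by
  have hpi := Real.pi_pos
  obtain ⟨c, hc⟩ : ∃ c : ℝ, c = Real.cosh (2 * u) := ⟨_, rfl⟩
  have hc1 : 1 ≤ c := by rw [hc]; exact Real.one_le_cosh _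
  obtain ⟨A, hA⟩ : ∃ A : ℝ, A = c - Real.cos x := ⟨_, rfl⟩
  obtain ⟨A', hA'⟩ : ∃ A' : ℝ, A' = c - Real.cos x' := ⟨_, rfl⟩
  have hAη : η ≤ A := by rw [hA]; linarith
  have hA'η : η ≤ A' := by rw [hA']; linarith
  have hA0 : 0 < A := lt_of_lt_of_le hη hAη
  have hA'0 : 0 < A' := lt_of_lt_of_le hη hA'η
  have e : ba230_ker x u - ba230_ker x' u
      = (c * (Real.sin x - Real.sin x') - Real.sin (x - x')) / (Real.pi * (A * A')) := by
    unfold ba230_ker
    rw [← hc, ← hA, ← hA', Real.sin_sub, div_sub_div _ _ (by positivity) (by positivity),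
      div_eq_div_iff (by positivity) (by positivity)]
    rw [hA, hA']
    ring
  have hN : |c * (Real.sin x - Real.sin x') - Real.sin (x - x')| ≤ (A + 2) * |x - x'| := by
    have h1 : |c * (Real.sin x - Real.sin x')| ≤ c * |x - x'| := by
      rw [abs_mul, abs_of_nonneg (by linarith : 0 ≤ c)]
      exact mul_le_mul_of_nonneg_left (Real.abs_sin_sub_sin_le x x') (by linarith)
    have h2 : |Real.sin (x - x')| ≤ |x - x'| := Real.abs_sin_le_abs
    have h3 : c + 1 ≤ A + 2 := by rw [hA]; linarith [Real.cos_le_one x]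
    calc _ ≤ |c * (Real.sin x - Real.sin x')| + |Real.sin (x - x')| := abs_sub _ _
      _ ≤ c * |x - x'| + |x - x'| := add_le_add h1 h2
      _ = (c + 1) * |x - x'| := by ring
      _ ≤ _ := mul_le_mul_of_nonneg_right h3 (abs_nonneg _)
  have k1 : A ≤ A * A' / η := by
    rw [le_div_iff₀ hη]
    exact mul_le_mul_of_nonneg_left hA'η hA0.le
  have k2 : 1 ≤ A * A' / η ^ 2 := by
    rw [le_div_iff₀ (by positivity), one_mul, sq]
    exact mul_le_mul hAη hA'η hη.le hA0.le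
  have k3 : A + 2 ≤ (1 / η + 2 / η ^ 2) * (A * A') := by
    have : (1 / η + 2 / η ^ 2) * (A * A') = A * A' / η + 2 * (A * A' / η ^ 2) := by ring
    rw [this]; linarith
  rw [e, abs_div, abs_of_pos (by positivity : 0 < Real.pi * (A * A')),
    div_le_iff₀ (by positivity)]
  calc _ ≤ (A + 2) * |x - x'| := hN
    _ ≤ (1 / η + 2 / η ^ 2) * (A * A') * |x - x'| := mul_le_mul_of_nonneg_right k3 (abs_nonneg _)
    _ = _ := by field_simp

/-- **stability in the kernel and in the source** (same set of finite measure). -/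
theorem d1x202_stab_ker {K K' r r' s s' : ℝ → ℝ} (hK : Integrable K) (hK' : Integrable K') {h : ℝ}
    (hh : ∫ w, |K w| ≤ h) (hh1 : h < 1) {A : Set ℝ} (hA : MeasurableSet A) (hfin : volume A < ⊤)
    (hr : Measurable r) (hr' : Measurable r') {M M' : ℝ} (hM0 : 0 ≤ M) (hM'0 : 0 ≤ M')
    (hM : ∀ v ∈ A, |r v| ≤ M) (hM' : ∀ v ∈ A, |r' v| ≤ M') {ds dK : ℝ}
    (hds : ∀ u, |s u - s' u| ≤ ds) (hdK : ∀ w, |K w - K' w| ≤ dK)
    (hrs : ∀ u, r u + c1x150_op K A r u = s u) (hrs' : ∀ u, r' u + c1x150_op K' A r' u = s' u)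
    (u : ℝ) : |r u - r' u| ≤ (ds + dK * M' * volume.real A) / (1 - h) :=
  d1x202_sup (F := fun v => r v - r' v)
    (f := fun v => (s v - s' v) - c1x150_op (fun w => K w - K' w) A r' v) hK hh hh1 hA
    (M := M + M') (by positivity)
    (fun v hv => (abs_sub _ _).trans (add_le_add (hM v hv) (hM' v hv)))
    (fun v => (abs_sub _ _).trans (add_le_add (hds v) (d1x202_op_small hdK hM' hfin v)))
    (fun v => by
      rw [c1x150_op_sub hK hA hr hr' hM0 hM'0 hM hM', c1x150_op_ker_sub hK hK' hA hr' hM'0 hM']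
      linarith [hrs v, hrs' v]) u

/-! ### The path of densities of constant filling -/

/-- the hypothesis (I1): `r_{t,Q}` is Lipschitz in the parameter `t`, uniformly in `u` and
`Q ∈ [0, Qh]`. -/
def D1x202LipT (a b Qh Lt : ℝ) : Prop :=
  ∀ t ∈ Icc a b, ∀ t' ∈ Icc a b, ∀ Q, 0 ≤ Q → Q ≤ Qh → ∀ u,
    |c1x150_rQ (ba230_ker (2 * t)) (ba230_ker t) Q u
      - c1x150_rQ (ba230_ker (2 * t')) (ba230_ker t') Q u| ≤ Lt * |t - t'|

/-- the filling is Lipschitz in the parameter. -/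
theorem d1x202_Dq_lip_t {a b Qh Lt : ℝ} (ha : 0 < a) (hb : b < Real.pi)
    (hL : D1x202LipT a b Qh Lt) {t t' : ℝ} (ht : t ∈ Icc a b) (ht' : t' ∈ Icc a b) {Q : ℝ}
    (hQ : 0 ≤ Q) (hQh : Q ≤ Qh) :
    |c1x150_Dq (ba230_ker (2 * t)) (ba230_ker t) Q
      - c1x150_Dq (ba230_ker (2 * t')) (ba230_ker t') Q| ≤ 2 * Qh * Lt * |t - t'| := by
  have H := d1x202_KerU ha hb ht
  have H' := d1x202_KerU ha hb ht'
  have hLt0 : 0 ≤ Lt * |t - t'| := (abs_nonneg _).trans (hL t ht t' ht' Q hQ hQh 0)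
  unfold c1x150_Dq
  rw [← integral_sub (c1x150_rQ_integrable H Q).integrableOn
    (c1x150_rQ_integrable H' Q).integrableOn]
  have h1 := norm_setIntegral_le_of_norm_le_const (μ := volume) (s := Icc (-Q) Q)
    (C := Lt * |t - t'|)
    (f := fun u => c1x150_rQ (ba230_ker (2 * t)) (ba230_ker t) Q u
      - c1x150_rQ (ba230_ker (2 * t')) (ba230_ker t') Q u) measure_Icc_lt_top
    (fun u _ => by rw [Real.norm_eq_abs]; exact hL t ht t' ht' Q hQ hQh u)
  rw [Real.norm_eq_abs, Real.volume_real_Icc, max_eq_left (by linarith)] at h1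
  calc _ ≤ Lt * |t - t'| * (Q - -Q) := h1
    _ = 2 * Q * (Lt * |t - t'|) := by ring
    _ ≤ 2 * Qh * (Lt * |t - t'|) := mul_le_mul_of_nonneg_right (by linarith) hLt0
    _ = _ := by ring

/-- quantitative injectivity of the filling on `[0, Qh]`, uniform in `t`. -/
theorem d1x202_Dq_inj {a b t : ℝ} (ha : 0 < a) (hb : b < 2 * Real.pi / 3) (ht : t ∈ Icc a b)
    {q q' Qh : ℝ} (hq : q ∈ Icc 0 Qh) (hq' : q' ∈ Icc 0 Qh) :
    d1x202_rmin a b Qh * |q - q'| ≤ |c1x150_Dq (ba230_ker (2 * t)) (ba230_ker t) q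
      - c1x150_Dq (ba230_ker (2 * t)) (ba230_ker t) q'| := by
  rcases le_total q q' with h | h
  · have h1 := d1x202_Dq_incr ha hb ht hq.1 h hq'.2
    rw [abs_sub_comm q q', abs_of_nonneg (by linarith : 0 ≤ q' - q), abs_sub_comm]
    exact h1.trans (le_abs_self _)
  · have h1 := d1x202_Dq_incr ha hb ht hq'.1 h hq.2
    rw [abs_of_nonneg (by linarith : 0 ≤ q - q')]
    exact h1.trans (le_abs_self _)

/-- the Fermi point: the cut-off in the window `[Qlo, Qhi]` at which the filling equals `d`. -/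
def d1x202_Qp (d Qlo Qhi t : ℝ) : ℝ :=
  Classical.epsilon fun q : ℝ =>
    q ∈ Icc Qlo Qhi ∧ c1x150_Dq (ba230_ker (2 * t)) (ba230_ker t) q = d

theorem d1x202_Qp_spec {a b t d Qlo Qhi : ℝ} (ha : 0 < a) (hb : b < Real.pi) (ht : t ∈ Icc a b)
    (hQlo : 0 ≤ Qlo) (hQ : Qlo ≤ Qhi)
    (h1 : c1x150_Dq (ba230_ker (2 * t)) (ba230_ker t) Qlo ≤ d)
    (h2 : d ≤ c1x150_Dq (ba230_ker (2 * t)) (ba230_ker t) Qhi) :
    d1x202_Qp d Qlo Qhi t ∈ Icc Qlo Qhi ∧
      c1x150_Dq (ba230_ker (2 * t)) (ba230_ker t) (d1x202_Qp d Qlo Qhi t) = d := by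
  have H := d1x202_KerU ha hb ht
  have hc : ContinuousOn (c1x150_Dq (ba230_ker (2 * t)) (ba230_ker t)) (Icc Qlo Qhi) :=
    (c1x150_Dq_continuousOn H).mono fun x hx => (hQlo.trans hx.1 : (0 : ℝ) ≤ x)
  obtain ⟨q, hq, hqd⟩ := intermediate_value_Icc hQ hc (⟨h1, h2⟩ : d ∈ Icc _ _)
  exact Classical.epsilon_spec (p := fun q : ℝ =>
    q ∈ Icc Qlo Qhi ∧ c1x150_Dq (ba230_ker (2 * t)) (ba230_ker t) q = d) ⟨q, hq, hqd⟩

/-- the data of a window, uniform on `[a, b]`. -/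
structure D1x202Win (a b d Qlo Qhi : ℝ) : Prop where
  a_pos : 0 < a
  a_le : a ≤ b
  b_lt : b < 2 * Real.pi / 3
  Qlo_pos : 0 < Qlo
  Q_lt : Qlo < Qhi
  lo : ∀ t ∈ Icc a b, c1x150_Dq (ba230_ker (2 * t)) (ba230_ker t) Qlo ≤ d
  hi : ∀ t ∈ Icc a b, d ≤ c1x150_Dq (ba230_ker (2 * t)) (ba230_ker t) Qhi

section win

variable {a b d Qlo Qhi Lt : ℝ}

theorem d1x202_b_lt_pi (W : D1x202Win a b d Qlo Qhi) : b < Real.pi := by
  have := W.b_lt
  linarith [Real.pi_pos]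

theorem d1x202_Qp_mem (W : D1x202Win a b d Qlo Qhi) {t : ℝ} (ht : t ∈ Icc a b) :
    d1x202_Qp d Qlo Qhi t ∈ Icc Qlo Qhi :=
  (d1x202_Qp_spec W.a_pos (d1x202_b_lt_pi W) ht W.Qlo_pos.le W.Q_lt.le (W.lo t ht) (W.hi t ht)).1

theorem d1x202_Qp_mem0 (W : D1x202Win a b d Qlo Qhi) {t : ℝ} (ht : t ∈ Icc a b) :
    d1x202_Qp d Qlo Qhi t ∈ Icc 0 Qhi :=
  ⟨W.Qlo_pos.le.trans (d1x202_Qp_mem W ht).1, (d1x202_Qp_mem W ht).2⟩

theorem d1x202_Qp_fill (W : D1x202Win a b d Qlo Qhi) {t : ℝ} (ht : t ∈ Icc a b) :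
    c1x150_Dq (ba230_ker (2 * t)) (ba230_ker t) (d1x202_Qp d Qlo Qhi t) = d :=
  (d1x202_Qp_spec W.a_pos (d1x202_b_lt_pi W) ht W.Qlo_pos.le W.Q_lt.le (W.lo t ht) (W.hi t ht)).2

/-- uniqueness of the Fermi point. -/
theorem d1x202_Qp_eq (W : D1x202Win a b d Qlo Qhi) {t : ℝ} (ht : t ∈ Icc a b) {q : ℝ}
    (hq : q ∈ Icc 0 Qhi) (hqd : c1x150_Dq (ba230_ker (2 * t)) (ba230_ker t) q = d) :
    d1x202_Qp d Qlo Qhi t = q := by
  have h := d1x202_Dq_inj W.a_pos W.b_lt ht (d1x202_Qp_mem0 W ht) hq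
  rw [d1x202_Qp_fill W ht, hqd, sub_self, abs_zero] at h
  have hr := d1x202_rmin_pos W.a_pos W.a_le (d1x202_b_lt_pi W) Qhi
  have h0 : |d1x202_Qp d Qlo Qhi t - q| ≤ 0 := by
    by_contra hcon
    have := mul_pos hr (not_le.1 hcon)
    linarith
  have := abs_nonpos_iff.1 h0
  linarith

/-- the Fermi point is Lipschitz in the parameter. -/
theorem d1x202_Qp_lip (W : D1x202Win a b d Qlo Qhi) (hL : D1x202LipT a b Qhi Lt) {t t' : ℝ}
    (ht : t ∈ Icc a b) (ht' : t' ∈ Icc a b) :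
    |d1x202_Qp d Qlo Qhi t - d1x202_Qp d Qlo Qhi t'|
      ≤ 2 * Qhi * Lt / d1x202_rmin a b Qhi * |t - t'| := by
  have hr := d1x202_rmin_pos W.a_pos W.a_le (d1x202_b_lt_pi W) Qhi
  have h := d1x202_Dq_inj W.a_pos W.b_lt ht (d1x202_Qp_mem0 W ht) (d1x202_Qp_mem0 W ht')
  have h2 := d1x202_Dq_lip_t W.a_pos (d1x202_b_lt_pi W) hL ht' ht (d1x202_Qp_mem0 W ht').1
    (d1x202_Qp_mem0 W ht').2
  rw [d1x202_Qp_fill W ht'] at h2
  rw [d1x202_Qp_fill W ht] at h
  rw [abs_sub_comm t' t] at h2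
  have h3 := h.trans h2
  rw [div_mul_eq_mul_div, le_div_iff₀ hr]
  linarith

/-- the density along the path. -/
def d1x202_rp (d Qlo Qhi t : ℝ) : ℝ → ℝ :=
  c1x150_rQ (ba230_ker (2 * t)) (ba230_ker t) (d1x202_Qp d Qlo Qhi t)

/-- the density along the path is Lipschitz in the parameter, uniformly on the line. -/
theorem d1x202_rp_lip (W : D1x202Win a b d Qlo Qhi) (hL : D1x202LipT a b Qhi Lt) {t t' : ℝ}
    (ht : t ∈ Icc a b) (ht' : t' ∈ Icc a b) (u : ℝ) :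
    |d1x202_rp d Qlo Qhi t u - d1x202_rp d Qlo Qhi t' u|
      ≤ (d1x202_Lr (d1x202_BK a b) (d1x202_Cs a) (d1x202_hh a b)
          * (2 * Qhi * Lt / d1x202_rmin a b Qhi) + Lt) * |t - t'| := by
  have hbpi := d1x202_b_lt_pi W
  have H := d1x202_KerU W.a_pos hbpi ht
  have hBK := d1x202_K_le W.a_pos hbpi ht
  have h1 := (d1x202_rQ_lipOn H hBK u).dist_le_mul _ (d1x202_Qp_mem0 W ht).1 _
    (d1x202_Qp_mem0 W ht').1
  rw [Real.dist_eq, Real.dist_eq] at h1
  have h1' : |c1x150_rQ (ba230_ker (2 * t)) (ba230_ker t) (d1x202_Qp d Qlo Qhi t) u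
      - c1x150_rQ (ba230_ker (2 * t)) (ba230_ker t) (d1x202_Qp d Qlo Qhi t') u|
      ≤ d1x202_Lr (d1x202_BK a b) (d1x202_Cs a) (d1x202_hh a b)
        * |d1x202_Qp d Qlo Qhi t - d1x202_Qp d Qlo Qhi t'| := h1
  have h2 := hL t ht t' ht' _ (d1x202_Qp_mem0 W ht').1 (d1x202_Qp_mem0 W ht').2 u
  have h3 := d1x202_Qp_lip W hL ht ht'
  have hLr := d1x202_Lr_nonneg H hBK
  have h4 := mul_le_mul_of_nonneg_left h3 hLr
  unfold d1x202_rp
  calc |c1x150_rQ (ba230_ker (2 * t)) (ba230_ker t) (d1x202_Qp d Qlo Qhi t) u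
        - c1x150_rQ (ba230_ker (2 * t')) (ba230_ker t') (d1x202_Qp d Qlo Qhi t') u|
      ≤ |c1x150_rQ (ba230_ker (2 * t)) (ba230_ker t) (d1x202_Qp d Qlo Qhi t) u
          - c1x150_rQ (ba230_ker (2 * t)) (ba230_ker t) (d1x202_Qp d Qlo Qhi t') u|
        + |c1x150_rQ (ba230_ker (2 * t)) (ba230_ker t) (d1x202_Qp d Qlo Qhi t') u
          - c1x150_rQ (ba230_ker (2 * t')) (ba230_ker t') (d1x202_Qp d Qlo Qhi t') u| :=
        abs_sub_le _ _ _
    _ ≤ _ := by linarith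

/-- **`cint`**: the primitives of the density along the path are continuous in the parameter. -/
theorem d1x202_cint (W : D1x202Win a b d Qlo Qhi) (hL : D1x202LipT a b Qhi Lt) (x : ℝ) :
    ContinuousOn (fun t => ∫ u in (0 : ℝ)..x, d1x202_rp d Qlo Qhi t u) (Icc a b) := by
  have hbpi := d1x202_b_lt_pi W
  obtain ⟨A, hA⟩ : ∃ A : ℝ, A = d1x202_Lr (d1x202_BK a b) (d1x202_Cs a) (d1x202_hh a b)
          * (2 * Qhi * Lt / d1x202_rmin a b Qhi) + Lt := ⟨_, rfl⟩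
  have hbound : ∀ t ∈ Icc a b, ∀ t' ∈ Icc a b,
      |(∫ u in (0 : ℝ)..x, d1x202_rp d Qlo Qhi t u) - ∫ u in (0 : ℝ)..x, d1x202_rp d Qlo Qhi t' u|
        ≤ |A| * |x| * |t - t'| := by
    intro t ht t' ht'
    have hc : Continuous (d1x202_rp d Qlo Qhi t) :=
      c1x150_rQ_continuous (d1x202_KerU W.a_pos hbpi ht) _
    have hc' : Continuous (d1x202_rp d Qlo Qhi t') :=
      c1x150_rQ_continuous (d1x202_KerU W.a_pos hbpi ht') _
    rw [← intervalIntegral.integral_sub (hc.intervalIntegrable _ _) (hc'.intervalIntegrable _ _)]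
    have h1 := intervalIntegral.norm_integral_le_of_norm_le_const (a := (0 : ℝ)) (b := x)
      (C := |A| * |t - t'|)
      (f := fun u => d1x202_rp d Qlo Qhi t u - d1x202_rp d Qlo Qhi t' u) (fun u _ => by
        rw [Real.norm_eq_abs]
        refine (d1x202_rp_lip W hL ht ht' u).trans ?_
        rw [← hA]
        exact mul_le_mul_of_nonneg_right (le_abs_self A) (abs_nonneg _))
    rw [Real.norm_eq_abs, sub_zero] at h1
    calc _ ≤ |A| * |t - t'| * |x| := h1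
      _ = _ := by ring
  have hlip : LipschitzOnWith ⟨|A| * |x|, by positivity⟩
      (fun t => ∫ u in (0 : ℝ)..x, d1x202_rp d Qlo Qhi t u) (Icc a b) := by
    refine LipschitzOnWith.of_dist_le_mul fun t ht t' ht' => ?_
    rw [Real.dist_eq, Real.dist_eq]
    exact hbound t ht t' ht'
  exact hlip.continuousOn

end win

/-- the Lipschitz constant of the kernels in the angle. -/
def d1x202_Lk (η : ℝ) : ℝ := (1 / η + 2 / η ^ 2) / Real.pi

theorem d1x202_Lk_nonneg {η : ℝ} (hη : 0 < η) : 0 ≤ d1x202_Lk η := by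
  have := Real.pi_pos
  unfold d1x202_Lk
  positivity

/-- the Lipschitz constant of `t ↦ r_{t,Q}`, `Q ∈ [0, Qh]`. -/
def d1x202_Lt (a b Qh : ℝ) : ℝ :=
  (d1x202_Lk (1 - Real.cos a)
    + 4 * d1x202_Lk (2 * (min (Real.sin a) (Real.sin b)) ^ 2)
      * (d1x202_Cs a / (1 - d1x202_hh a b)) * |Qh|) / (1 - d1x202_hh a b)

/-- **(I1)**: `r_{t,Q}` is Lipschitz in `t ∈ [a, b]`, uniformly in `u` and in `Q ∈ [0, Qh]`. -/
theorem d1x202_lipT {a b : ℝ} (ha : 0 < a) (hb : b < Real.pi) (Qh : ℝ) :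
    D1x202LipT a b Qh (d1x202_Lt a b Qh) := by
  intro t ht t' ht' Q hQ hQh u
  have hpi := Real.pi_pos
  have hab : a ≤ b := ht.1.trans ht.2
  have H := d1x202_KerU ha hb ht
  have H' := d1x202_KerU ha hb ht'
  have h1h : 0 < 1 - d1x202_hh a b := by linarith [d1x202_hh_lt ha hb]
  have hM0 := c1x150_bound_nonneg H
  have hca : Real.cos a < 1 := by
    have := Real.cos_lt_cos_of_nonneg_of_le_pi (x := 0) (y := a) le_rfl (by linarith) ha
    simpa using this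
  have hηs : 0 < 1 - Real.cos a := by linarith
  have hσ := d1x202_sin_min_pos ha hab hb
  have hηK : 0 < 2 * (min (Real.sin a) (Real.sin b)) ^ 2 := by positivity
  have hcos : ∀ τ ∈ Icc a b, 1 - Real.cos a ≤ 1 - Real.cos τ := fun τ hτ => by
    have := Real.cos_le_cos_of_nonneg_of_le_pi ha.le (by linarith [hτ.2]) hτ.1
    linarith
  have hcos2 : ∀ τ ∈ Icc a b,
      2 * (min (Real.sin a) (Real.sin b)) ^ 2 ≤ 1 - Real.cos (2 * τ) := fun τ hτ => by
    have h1 := d1x202_sin_ge ha hb hτ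
    have h2 : 1 - Real.cos (2 * τ) = 2 * Real.sin τ ^ 2 := by
      rw [Real.cos_two_mul, Real.sin_sq]; ring
    rw [h2]
    have := pow_le_pow_left₀ hσ.le h1 2
    linarith
  have hds : ∀ v, |ba230_ker t v - ba230_ker t' v| ≤ d1x202_Lk (1 - Real.cos a) * |t - t'| :=
    fun v => d1x202_ker_lip_par hηs (hcos t ht) (hcos t' ht') v
  have hdK : ∀ w, |ba230_ker (2 * t) w - ba230_ker (2 * t') w|
      ≤ d1x202_Lk (2 * (min (Real.sin a) (Real.sin b)) ^ 2) * (2 * |t - t'|) := fun w => by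
    have := d1x202_ker_lip_par hηK (hcos2 t ht) (hcos2 t' ht') w
    rw [← mul_sub, abs_mul, abs_of_pos (two_pos : (0 : ℝ) < 2)] at this
    exact this
  have h := d1x202_stab_ker H.K_int H'.K_int H.K_norm H.h_lt (measurableSet_Icc (a := -Q) (b := Q))
    measure_Icc_lt_top (c1x150_rQ_continuous H Q).measurable (c1x150_rQ_continuous H' Q).measurable
    hM0 hM0 (fun v _ => c1x150_rQ_bdd H Q v) (fun v _ => c1x150_rQ_bdd H' Q v) hds hdK
    (c1x150_rQ_eq H Q) (c1x150_rQ_eq H' Q) u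
  rw [Real.volume_real_Icc, max_eq_left (by linarith)] at h
  refine h.trans ?_
  unfold d1x202_Lt
  rw [div_mul_eq_mul_div]
  refine div_le_div_of_nonneg_right ?_ h1h.le
  have hLK := d1x202_Lk_nonneg hηK
  have hQabs : Q ≤ |Qh| := hQh.trans (le_abs_self _)
  have hX : 0 ≤ d1x202_Lk (2 * (min (Real.sin a) (Real.sin b)) ^ 2)
      * (d1x202_Cs a / (1 - d1x202_hh a b)) * |t - t'| := by positivity
  nlinarith [mul_le_mul_of_nonneg_left hQabs hX]

/-- **the path of densities of constant filling** (contract (R2) of the Newton rope, in the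
vocabulary of `C1x150`). -/
theorem d1x202_pathEx {lam Q : ℝ} (h0 : 0 < lam) (h1 : lam < 2 * Real.pi / 3) (hQ : 0 < Q) :
    c1x150_Dq (ba230_ker (2 * lam)) (ba230_ker lam) Q < 1 / 2 ∧
    ∃ (t1 t2 Qmin ρmin ρmax : ℝ) (Qp : ℝ → ℝ),
      0 < t1 ∧ t2 < 2 * Real.pi / 3 ∧ t1 < lam ∧ t1 < Real.pi / 2 ∧ lam < t2 ∧ Real.pi / 2 < t2 ∧
      0 < Qmin ∧ 0 < ρmin ∧ ρmin ≤ ρmax ∧
      (∀ t ∈ Icc t1 t2, Qmin ≤ Qp t ∧
        c1x150_Dq (ba230_ker (2 * t)) (ba230_ker t) (Qp t)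
          = c1x150_Dq (ba230_ker (2 * lam)) (ba230_ker lam) Q ∧
        ∀ x ∈ Icc (-(Qp t)) (Qp t),
          ρmin ≤ c1x150_rQ (ba230_ker (2 * t)) (ba230_ker t) (Qp t) x ∧
          c1x150_rQ (ba230_ker (2 * t)) (ba230_ker t) (Qp t) x ≤ ρmax) ∧
      (∀ x : ℝ, ContinuousOn
        (fun t => ∫ u in (0 : ℝ)..x, c1x150_rQ (ba230_ker (2 * t)) (ba230_ker t) (Qp t) u)
        (Icc t1 t2)) ∧
      Qp lam = Q := by
  have hpi := Real.pi_pos
  obtain ⟨d, hd⟩ : ∃ d : ℝ, d = c1x150_Dq (ba230_ker (2 * lam)) (ba230_ker lam) Q := ⟨_, rfl⟩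
  have hd1 : d < 1 / 2 := by rw [hd]; exact ba230_Dq_lt h0 h1 hQ.le
  have hd0 : 0 < d := by
    have h2 := d1x202_Dq_incr h0 h1 (⟨le_rfl, le_rfl⟩ : lam ∈ Icc lam lam) le_rfl hQ.le
      (le_refl Q)
    rw [c1x150_Dq_zero, sub_zero, sub_zero, ← hd] at h2
    have h3 := mul_pos (d1x202_rmin_pos h0 le_rfl (by linarith : lam < Real.pi) Q) hQ
    linarith
  refine ⟨by rw [← hd]; exact hd1, ?_⟩
  have hmin : 0 < min lam (Real.pi / 2) := lt_min h0 (by positivity)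
  have hmax : max lam (Real.pi / 2) < 2 * Real.pi / 3 := max_lt h1 (by linarith)
  obtain ⟨a, ha⟩ : ∃ a : ℝ, a = min lam (Real.pi / 2) / 2 := ⟨_, rfl⟩
  obtain ⟨b, hb⟩ : ∃ b : ℝ, b = (max lam (Real.pi / 2) + 2 * Real.pi / 3) / 2 := ⟨_, rfl⟩
  have ha0 : 0 < a := by rw [ha]; positivity
  have ha1 : a < min lam (Real.pi / 2) := by rw [ha]; linarith
  have hb1 : max lam (Real.pi / 2) < b := by rw [hb]; linarith
  have hb2 : b < 2 * Real.pi / 3 := by rw [hb]; linarith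
  have hal : a < lam := lt_of_lt_of_le ha1 (min_le_left _ _)
  have hap : a < Real.pi / 2 := lt_of_lt_of_le ha1 (min_le_right _ _)
  have hlb : lam < b := lt_of_le_of_lt (le_max_left _ _) hb1
  have hpb : Real.pi / 2 < b := lt_of_le_of_lt (le_max_right _ _) hb1
  have hab : a ≤ b := by linarith
  have hbpi : b < Real.pi := by linarith
  have hlam : lam ∈ Icc a b := ⟨hal.le, hlb.le⟩
  obtain ⟨Qlo, Qhi, eta, hQlo, hQQ, heta, hw⟩ := d1x202_window ha0 hab hb2 hd0 hd1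
  have W : D1x202Win a b d Qlo Qhi :=
    ⟨ha0, hab, hb2, hQlo, hQQ, fun t ht => by linarith [(hw t ht).1],
      fun t ht => by linarith [(hw t ht).2]⟩
  have hL := d1x202_lipT ha0 hbpi Qhi
  have hQhi : Q ≤ Qhi := by
    by_contra hcon
    have hlt : Qhi < Q := not_le.1 hcon
    have h2 := d1x202_Dq_incr ha0 hb2 hlam (hQlo.le.trans hQQ.le) hlt.le (le_refl Q)
    have h3 := mul_pos (d1x202_rmin_pos ha0 hab hbpi Q) (sub_pos.2 hlt)
    have h4 := (hw lam hlam).2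
    rw [← hd] at h2
    linarith
  have hρ : d1x202_rmin a b Qhi ≤ d1x202_Cs a / (1 - d1x202_hh a b) :=
    (d1x202_rQ_ge ha0 hb2 hlam (Qh := Qhi) Q (u := 0)
      (by rw [abs_zero]; exact hQlo.le.trans hQQ.le)).trans
      ((le_abs_self _).trans (c1x150_rQ_bdd (d1x202_KerU ha0 hbpi hlam) Q 0))
  refine ⟨a, b, Qlo, d1x202_rmin a b Qhi, d1x202_Cs a / (1 - d1x202_hh a b),
    d1x202_Qp d Qlo Qhi, ha0, hb2, hal, hap, hlb, hpb, hQlo,
    d1x202_rmin_pos ha0 hab hbpi Qhi, hρ, fun t ht => ⟨(d1x202_Qp_mem W ht).1, ?_, fun x hx => ⟨?_, ?_⟩⟩,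
    fun x => d1x202_cint W hL x, d1x202_Qp_eq W hlam ⟨hQ.le, hQhi⟩ hd.symm⟩
  · rw [← hd]; exact d1x202_Qp_fill W ht
  · exact d1x202_rQ_ge ha0 hb2 ht _
      (abs_le.2 ⟨by linarith [hx.1, (d1x202_Qp_mem W ht).2], by linarith [hx.2, (d1x202_Qp_mem W ht).2]⟩)
  · exact (le_abs_self _).trans (c1x150_rQ_bdd (d1x202_KerU ha0 hbpi ht) _ x)

end

end Claimed.Agent.R292
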