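import Claimed.Agent.R292.Bethe.Four230
import Claimed.Agent.R292.Bethe.D1x202

/-!
# Row 292, unit BETHE, contract T1 of `Bethe/Thermo.lean` (ORDER B-4 of 116): the continuum at a finite Fermi point

`0 < lam < 2π/3`, `K = ba230_ker (2 lam)`, `s = ba230_ker lam`, `e0 = ba230_e0 lam`:
`Dq` continuous on `[0,∞)`, `Dq 0 = 0`, `Eq` continuous, `Dq` strictly increasing, `Dq < 1/2`, `Dq → 1/2`.
Assembly of `C1x150` (150), `D1x202` (202), `Four230` (230).
-/

set_option autoImplicit false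

namespace Claimed.Agent.R292

open MeasureTheory Filter Topology Set

section
variable {lam : ℝ} (h0 : 0 < lam) (h1 : lam < 2 * Real.pi / 3)
include h0 h1

/-- `Dinf = (1 - ∫ R) ∫ s = 1/2`. -/
theorem t1x150_Dinf : (1 - ∫ w, ba230_R lam w) * ∫ u, ba230_ker lam u = 1 / 2 := by
  have hpi := Real.pi_pos
  have hpl := ba230_pl_pos h0 h1
  rw [ba230_Z_eq h0 h1, ba230_ker_integral h0 (by linarith)]
  field_simp

/-- positivity of `r_Q`, both signs of `K`. -/
theorem t1x150_rQ_pos (Q u : ℝ) : 0 < c1x150_rQ (ba230_ker (2 * lam)) (ba230_ker lam) Q u := by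
  obtain ⟨C, H⟩ := ba230_Ker h0 h1
  exact ba230_sol_pos h0 h1 (c1x150_rQ_continuous H Q) (c1x150_rQ_eq H Q) u

/-- positivity of `H_Q`, both signs of `K`. -/
theorem t1x150_HQ_pos (Q u : ℝ) : 0 < c1x150_HQ (ba230_ker (2 * lam)) Q u := by
  have hpi := Real.pi_pos
  obtain ⟨C, H⟩ := ba230_Ker h0 h1
  have G := ba230_Res h0 h1
  rcases le_total lam (Real.pi / 2) with h2 | h2
  · have hZ : 0 < 1 - ∫ w, ba230_R lam w := by
      rw [ba230_Z_eq h0 h1]
      have := ba230_pl_pos h0 h1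
      positivity
    exact lt_of_lt_of_le hZ (c1x150_HQ_ge_Z H G (ba230_R_norm_lt h0 h1).le (by norm_num)
      (ba230_R_nonneg h0 h1 h2) Q u)
  · exact lt_of_lt_of_le one_pos
      (c1x150_HQ_ge_one H (ba230_ker_nonpos (by linarith) (by linarith)) Q u)

/-- **T1.** -/
theorem t1x150_main :
    ContinuousOn (c1x150_Dq (ba230_ker (2 * lam)) (ba230_ker lam)) (Ici 0) ∧
      c1x150_Dq (ba230_ker (2 * lam)) (ba230_ker lam) 0 = 0 ∧
      ContinuousOn (c1x150_Eq (ba230_ker (2 * lam)) (ba230_ker lam) (ba230_e0 lam)) (Ioi 0) ∧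
      StrictMonoOn (c1x150_Dq (ba230_ker (2 * lam)) (ba230_ker lam)) (Ici 0) ∧
      (∀ Q, 0 < Q → c1x150_Dq (ba230_ker (2 * lam)) (ba230_ker lam) Q < 1 / 2) ∧
      Tendsto (c1x150_Dq (ba230_ker (2 * lam)) (ba230_ker lam)) atTop (𝓝 (1 / 2)) := by
  have hpi := Real.pi_pos
  obtain ⟨C, H⟩ := ba230_Ker h0 h1
  have G := ba230_Res h0 h1
  obtain ⟨BK, hBK⟩ := ba230_ker_bdd (a := 2 * lam) (by linarith) (by linarith)
  have hZ : 0 < 1 - ∫ w, ba230_R lam w := by
    rw [ba230_Z_eq h0 h1]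
    have := ba230_pl_pos h0 h1
    positivity
  refine ⟨c1x150_Dq_continuousOn H, c1x150_Dq_zero,
    (d1x202_Eq_continuousOn H G hBK).mono Ioi_subset_Ici_self,
    c1x150_Dq_strictMonoOn H (t1x150_rQ_pos h0 h1) (t1x150_HQ_pos h0 h1), fun Q hQ => ?_, ?_⟩
  · have := c1x150_Dq_lt H G hZ hQ.le (t1x150_rQ_pos h0 h1 Q)
    rwa [t1x150_Dinf h0 h1] at this
  · have := c1x150_Dq_tendsto H G (ba230_R_norm_lt h0 h1).le (by norm_num)
      (ba230_rho_integrable h0)
    rwa [t1x150_Dinf h0 h1] at this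

/-- quantitative lower bound for the increments of `Dq` on `[0, Qm]` (used by T3 to invert `Dq`). -/
theorem t1x150_Dq_lower (Qm : ℝ) :
    ∃ c0 : ℝ, 0 < c0 ∧ ∀ Q Q' : ℝ, 0 ≤ Q → Q ≤ Q' → Q' ≤ Qm →
      c0 * (Q' - Q) ≤ c1x150_Dq (ba230_ker (2 * lam)) (ba230_ker lam) Q'
        - c1x150_Dq (ba230_ker (2 * lam)) (ba230_ker lam) Q := by
  have hpi := Real.pi_pos
  obtain ⟨C, H⟩ := ba230_Ker h0 h1
  have G := ba230_Res h0 h1
  have hZ : 0 < 1 - ∫ w, ba230_R lam w := by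
    rw [ba230_Z_eq h0 h1]
    have := ba230_pl_pos h0 h1
    positivity
  -- a positive continuous minorant of all `r_Q` and a positive constant below all `H_Q`
  obtain ⟨low, hlc, hlpos, hlow, cH, hcH, hH⟩ : ∃ low : ℝ → ℝ, Continuous low ∧ (∀ u, 0 < low u) ∧
      (∀ Q u, low u ≤ c1x150_rQ (ba230_ker (2 * lam)) (ba230_ker lam) Q u) ∧
      ∃ cH : ℝ, 0 < cH ∧ ∀ Q u, cH ≤ c1x150_HQ (ba230_ker (2 * lam)) Q u := by
    rcases le_total lam (Real.pi / 2) with h2 | h2
    · exact ⟨ba230_rho lam, ba230_rho_continuous h0, ba230_rho_pos h0,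
        c1x150_rQ_ge_rinf H G (ba230_R_norm_lt h0 h1).le (by norm_num) (ba230_R_nonneg h0 h1 h2)
          (fun u => (ba230_rho_pos h0 u).le), _, hZ,
        c1x150_HQ_ge_Z H G (ba230_R_norm_lt h0 h1).le (by norm_num) (ba230_R_nonneg h0 h1 h2)⟩
    · have hspos : ∀ u, 0 < ba230_ker lam u := fun u => by
        unfold ba230_ker
        have hs : 0 < Real.sin lam := Real.sin_pos_of_pos_of_lt_pi h0 (by linarith)
        have hd := ba230_ker_den_pos h0 (by linarith : lam < 2 * Real.pi) u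
        positivity
      exact ⟨ba230_ker lam, ba230_ker_continuous h0 (by linarith), hspos,
        c1x150_rQ_ge_source H (ba230_ker_nonpos (by linarith) (by linarith))
          (fun u => (hspos u).le), 1, one_pos,
        c1x150_HQ_ge_one H (ba230_ker_nonpos (by linarith) (by linarith))⟩
  rcases lt_or_ge Qm 0 with hQm | hQm
  · exact ⟨1, one_pos, fun Q Q' hQ hQQ' hQ' => by linarith⟩
  obtain ⟨um, hum, hmin⟩ := (isCompact_Icc (a := -Qm) (b := Qm)).exists_isMinOn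
    (nonempty_Icc.2 (by linarith)) hlc.continuousOn
  refine ⟨2 * low um * cH, by have := hlpos um; positivity, fun Q Q' hQ hQQ' hQ' => ?_⟩
  exact c1x150_Dq_lower H hQ hQQ' (hlpos um).le hcH.le
    (fun u hu => (hmin (⟨by linarith [hu.1], by linarith [hu.2]⟩ : u ∈ Icc (-Qm) Qm)).trans
      (hlow Q u))
    (fun u _ => hH Q' u)

end

/-! ## (PB) + (PC) of ORDER B-8 = (I1) of 202: dependence of `r_{t,Q}` on the parameter `t` -/

/-- **(PB)** the kernels are Lipschitz in the parameter, uniformly in `u`. -/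
theorem t1x150_ker_lip {x x' η : ℝ} (hη : 0 < η) (hx : η ≤ 1 - Real.cos x)
    (hx' : η ≤ 1 - Real.cos x') (u : ℝ) :
    |ba230_ker x u - ba230_ker x' u| ≤ (1 / η + 2 / η ^ 2) / Real.pi * |x - x'| := by
  have hpi := Real.pi_pos
  set c := Real.cosh (2 * u) with hc
  have hc1 : 1 ≤ c := Real.one_le_cosh _
  set A := c - Real.cos x with hA
  set B := c - Real.cos x' with hB
  have hAη : η ≤ A := by rw [hA]; linarith
  have hBη : η ≤ B := by rw [hB]; linarith
  have hA0 : 0 < A := lt_of_lt_of_le hη hAη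
  have hB0 : 0 < B := lt_of_lt_of_le hη hBη
  have e : ba230_ker x u - ba230_ker x' u
      = (c * (Real.sin x - Real.sin x') - Real.sin (x - x')) / (Real.pi * (A * B)) := by
    unfold ba230_ker
    rw [Real.sin_sub, ← hc, ← hA, ← hB]
    field_simp
    rw [hA, hB]
    ring
  have hs1 : |Real.sin x - Real.sin x'| ≤ |x - x'| := by
    have := Real.lipschitzWith_sin.dist_le_mul x x'
    simpa [Real.dist_eq] using this
  have hs2 : |Real.sin (x - x')| ≤ |x - x'| := by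
    have := Real.lipschitzWith_sin.dist_le_mul (x - x') 0
    simpa [Real.dist_eq] using this
  have hnum : |c * (Real.sin x - Real.sin x') - Real.sin (x - x')| ≤ (c + 1) * |x - x'| := by
    calc |c * (Real.sin x - Real.sin x') - Real.sin (x - x')|
        ≤ |c * (Real.sin x - Real.sin x')| + |Real.sin (x - x')| := abs_sub _ _
      _ ≤ c * |x - x'| + |x - x'| := by
          rw [abs_mul, abs_of_pos (by linarith : 0 < c)]
          exact add_le_add (mul_le_mul_of_nonneg_left hs1 (by linarith)) hs2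
      _ = (c + 1) * |x - x'| := by ring
  have h1 : A ≤ A * B / η := by
    rw [le_div_iff₀ hη]
    exact mul_le_mul_of_nonneg_left hBη hA0.le
  have h2 : 1 ≤ A * B / η ^ 2 := by
    rw [le_div_iff₀ (by positivity), one_mul, sq]
    exact mul_le_mul hAη hBη hη.le hA0.le
  have hcA : c + 1 ≤ (1 / η + 2 / η ^ 2) * (A * B) := by
    have e2 : (1 / η + 2 / η ^ 2) * (A * B) = A * B / η + 2 * (A * B / η ^ 2) := by ring
    rw [e2]
    have : c + 1 ≤ A + 2 := by rw [hA]; linarith [Real.neg_one_le_cos x]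
    linarith
  rw [e, abs_div, abs_of_pos (by positivity : 0 < Real.pi * (A * B)), div_le_iff₀ (by positivity)]
  calc |c * (Real.sin x - Real.sin x') - Real.sin (x - x')| ≤ (c + 1) * |x - x'| := hnum
    _ ≤ (1 / η + 2 / η ^ 2) * (A * B) * |x - x'| :=
        mul_le_mul_of_nonneg_right hcA (abs_nonneg _)
    _ = (1 / η + 2 / η ^ 2) / Real.pi * |x - x'| * (Real.pi * (A * B)) := by
        field_simp

/-- **(PC), abstract**: stability of `r_Q` in the pair (kernel, source), sup norms. -/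
theorem t1x150_rQ_stab {K K' s s' : ℝ → ℝ} {h C h' C' : ℝ} (H : C1x150Ker K s h C)
    (H' : C1x150Ker K' s' h' C') {ds dK : ℝ} (hds : ∀ u, |s u - s' u| ≤ ds)
    (hdK : ∀ w, |K w - K' w| ≤ dK) {Q : ℝ} (hQ : 0 ≤ Q) (u : ℝ) :
    |c1x150_rQ K s Q u - c1x150_rQ K' s' Q u| ≤ (ds + dK * (C' / (1 - h')) * (2 * Q)) / (1 - h) := by
  have hM0 := c1x150_bound_nonneg H
  have hM0' := c1x150_bound_nonneg H'
  have hvol : volume.real (Icc (-Q) Q) = 2 * Q := by
    rw [Real.volume_real_Icc, max_eq_left (by linarith)]; ring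
  refine d1x202_sup (F := fun v => c1x150_rQ K s Q v - c1x150_rQ K' s' Q v)
    (f := fun v => (s v - s' v)
      - c1x150_op (fun w => K w - K' w) (Icc (-Q) Q) (c1x150_rQ K' s' Q) v)
    (A := Icc (-Q) Q) H.K_int H.K_norm H.h_lt measurableSet_Icc
    (M := C / (1 - h) + C' / (1 - h')) (by positivity)
    (fun v _ => (abs_sub _ _).trans (add_le_add (c1x150_rQ_bdd H Q v) (c1x150_rQ_bdd H' Q v)))
    (fun v => ?_) (fun v => ?_) u
  · refine (abs_sub _ _).trans (add_le_add (hds v) ?_)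
    have := d1x202_op_small (K := fun w => K w - K' w) (F := c1x150_rQ K' s' Q)
      (D := Icc (-Q) Q) hdK (fun w _ => c1x150_rQ_bdd H' Q w) measure_Icc_lt_top v
    rwa [hvol] at this
  · rw [c1x150_op_sub H.K_int measurableSet_Icc (c1x150_rQ_continuous H Q).measurable
      (c1x150_rQ_continuous H' Q).measurable hM0 hM0' (fun w _ => c1x150_rQ_bdd H Q w)
      (fun w _ => c1x150_rQ_bdd H' Q w),
      c1x150_op_ker_sub H.K_int H'.K_int measurableSet_Icc (c1x150_rQ_continuous H' Q).measurable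
      hM0' (fun w _ => c1x150_rQ_bdd H' Q w)]
    linarith [c1x150_rQ_eq H Q v, c1x150_rQ_eq H' Q v]

/-- **(I1)**: `r_{t,Q}` is Lipschitz in `t ∈ [a,b] ⊂ (0,π)`, uniformly in `u` and in `Q ∈ [0,Qh]`. -/
theorem t1x150_rQ_lip_param {a b Qh : ℝ} (ha : 0 < a) (hb : b < Real.pi) :
    ∃ Lt : ℝ, 0 ≤ Lt ∧ ∀ t ∈ Icc a b, ∀ t' ∈ Icc a b, ∀ Q, 0 ≤ Q → Q ≤ Qh → ∀ u,
      |c1x150_rQ (ba230_ker (2 * t)) (ba230_ker t) Q u
        - c1x150_rQ (ba230_ker (2 * t')) (ba230_ker t') Q u| ≤ Lt * |t - t'| := by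
  have hpi := Real.pi_pos
  rcases lt_or_ge b a with hab | hab
  · exact ⟨0, le_rfl, fun t ht => absurd (ht.1.trans ht.2) (not_le.2 hab)⟩
  rcases lt_or_ge Qh 0 with hQh | hQh
  · exact ⟨0, le_rfl, fun t _ t' _ Q hQ hQ' => absurd (hQ.trans hQ') (not_le.2 hQh)⟩
  have hh1 := d1x202_hh_lt ha hb
  set ηs := 1 - Real.cos a with hηs
  have hηs0 : 0 < ηs := by
    have := Real.cos_lt_cos_of_nonneg_of_le_pi (x := 0) (y := a) le_rfl (by linarith) ha
    rw [Real.cos_zero] at this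
    rw [hηs]; linarith
  have hσ := d1x202_sin_min_pos ha hab hb
  set ηK := 2 * (min (Real.sin a) (Real.sin b)) ^ 2 with hηK
  have hηK0 : 0 < ηK := by positivity
  set Ls := (1 / ηs + 2 / ηs ^ 2) / Real.pi with hLs
  set LK := (1 / ηK + 2 / ηK ^ 2) / Real.pi with hLK
  have hLs0 : 0 ≤ Ls := by positivity
  have hLK0 : 0 ≤ LK := by positivity
  have hmem : a ∈ Icc a b := ⟨le_rfl, hab⟩
  have hM0 : 0 ≤ d1x202_Cs a / (1 - d1x202_hh a b) := c1x150_bound_nonneg (d1x202_KerU ha hb hmem)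
  have hden : 0 < 1 - d1x202_hh a b := by linarith
  refine ⟨(Ls + 2 * LK * (d1x202_Cs a / (1 - d1x202_hh a b)) * (2 * Qh)) / (1 - d1x202_hh a b),
    by positivity, fun t ht t' ht' Q hQ hQQ u => ?_⟩
  have hs : ∀ {τ : ℝ}, τ ∈ Icc a b → ηs ≤ 1 - Real.cos τ := fun {τ} hτ => by
    have := Real.cos_le_cos_of_nonneg_of_le_pi ha.le (by linarith [hτ.2]) hτ.1
    rw [hηs]; linarith
  have hK : ∀ {τ : ℝ}, τ ∈ Icc a b → ηK ≤ 1 - Real.cos (2 * τ) := fun {τ} hτ => by
    have h1 := d1x202_sin_ge ha hb hτ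
    have h2 : 1 - Real.cos (2 * τ) = 2 * Real.sin τ ^ 2 := by
      rw [Real.cos_two_mul, Real.sin_sq]; ring
    rw [h2, hηK]
    have := pow_le_pow_left₀ hσ.le h1 2
    linarith
  have h := t1x150_rQ_stab (d1x202_KerU ha hb ht) (d1x202_KerU ha hb ht')
    (ds := Ls * |t - t'|) (dK := 2 * LK * |t - t'|)
    (fun v => t1x150_ker_lip hηs0 (hs ht) (hs ht') v)
    (fun w => by
      have := t1x150_ker_lip hηK0 (hK ht) (hK ht') w
      have e : |2 * t - 2 * t'| = 2 * |t - t'| := by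
        rw [← mul_sub, abs_mul, abs_of_pos (two_pos : (0 : ℝ) < 2)]
      rw [e] at this
      calc |ba230_ker (2 * t) w - ba230_ker (2 * t') w| ≤ LK * (2 * |t - t'|) := this
        _ = 2 * LK * |t - t'| := by ring) hQ u
  refine h.trans ?_
  have e3 : (Ls + 2 * LK * (d1x202_Cs a / (1 - d1x202_hh a b)) * (2 * Qh)) / (1 - d1x202_hh a b)
      * |t - t'| = (Ls + 2 * LK * (d1x202_Cs a / (1 - d1x202_hh a b)) * (2 * Qh)) * |t - t'|
        / (1 - d1x202_hh a b) := by ring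
  rw [e3]
  refine div_le_div_of_nonneg_right ?_ hden.le
  have h3 : 2 * LK * |t - t'| * (d1x202_Cs a / (1 - d1x202_hh a b)) * (2 * Q)
      ≤ 2 * LK * |t - t'| * (d1x202_Cs a / (1 - d1x202_hh a b)) * (2 * Qh) :=
    mul_le_mul_of_nonneg_left (by linarith) (by positivity)
  calc Ls * |t - t'| + 2 * LK * |t - t'| * (d1x202_Cs a / (1 - d1x202_hh a b)) * (2 * Q)
      ≤ Ls * |t - t'| + 2 * LK * |t - t'| * (d1x202_Cs a / (1 - d1x202_hh a b)) * (2 * Qh) := by
        linarith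
    _ = (Ls + 2 * LK * (d1x202_Cs a / (1 - d1x202_hh a b)) * (2 * Qh)) * |t - t'| := by ring

end Claimed.Agent.R292
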