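import Claimed.Agent.R292.Bethe.BA3x80
import Claimed.Agent.R292.Bethe.D2x259
import Claimed.Agent.R292.Bethe.BA3i80
import Claimed.Agent.R292.Bethe.T1x150

/-!
# Row 292, unit BETHE, leaf L8 NEG-HULL (helper170, prefix `neg170_`)

Attractive sign (`K ≤ 0`, `Θ` antitone).  QUANTITATIVE comparison principle: a zero `y` of the Bethe map stays within
`E / (N smin)` of ANY approximate zero `z` (`|F_j z| ≤ E`) that lives in a box `[-Q, Q]`.
With the mid-quantiles of 259 as `z`: `N`-uniform bound of the hull up to half filling, and closeness to the quantiles.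

* `neg170_upper`  : at the index maximising `y - z` the interaction has the good sign.
* `neg170_step_left`, `neg170_step_right` : `S v - S u ≤ ε < smin` forces `v - u ≤ ε / smin`.
* `neg170_close`  : `|y j - z j| ≤ E / (N smin)` for all `j`.
* `neg170_quant`  : the same with `z = d2x259_xF ρ Q N n`, `E = Kmax / ρmin * (n / N)`.
* `neg170_hull`   : `|y j| ≤ Q + E / (N smin)`.
* `neg170_mass`   : `|∫_0^{y j} ρ - I j / N| ≤ ρmax * E / (N smin)`.
-/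

set_option autoImplicit false

namespace Claimed.Agent.R292

open Set MeasureTheory

theorem neg170_upper {n : ℕ} (Lr : ℝ) (S Θ : ℝ → ℝ → ℝ) (I : Fin n → ℝ) (μ : ℝ)
    (hΘ : Antitone (Θ μ)) (y z : Fin n → ℝ) (E : ℝ)
    (j : Fin n) (h : ba3x80_F Lr S Θ I (μ, y) j ≤ ba3x80_F Lr S Θ I (μ, z) j + E)
    (hj : ∀ i, y i - z i ≤ y j - z j) :
    Lr * (S μ (y j) - S μ (z j)) ≤ E := by
  have h3 : ∑ k, Θ μ (y j - y k) ≤ ∑ k, Θ μ (z j - z k) := by
    apply Finset.sum_le_sum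
    intro k _
    apply hΘ
    have := hj k
    linarith
  simp only [ba3x80_F] at h
  linarith

theorem neg170_mvt {S s : ℝ → ℝ} (hs : ∀ u, HasDerivAt S (s u) u) {B smin : ℝ}
    (hsmin : ∀ u, |u| ≤ B → smin ≤ s u) {u v : ℝ} (hu : |u| ≤ B) (hv : |v| ≤ B) (huv : u ≤ v) :
    smin * (v - u) ≤ S v - S u := by
  have hc : ContinuousOn S (Icc (-B) B) := fun x _ => (hs x).continuousAt.continuousWithinAt
  refine Convex.mul_sub_le_image_sub_of_le_deriv (convex_Icc (-B) B) hc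
    (fun x _ => (hs x).differentiableAt.differentiableWithinAt) (fun x hx => ?_) u (abs_le.1 hu) v
    (abs_le.1 hv) huv
  rw [(hs x).deriv]
  have hx' : x ∈ Icc (-B) B := interior_subset hx
  exact hsmin x (abs_le.2 hx')

/-- the lower point is in the box -/
theorem neg170_step_left {S s : ℝ → ℝ} (hs : ∀ u, HasDerivAt S (s u) u) (hmono : Monotone S)
    {Q smin ε : ℝ} (h0 : 0 < smin) (hsmin : ∀ u, |u| ≤ Q + 1 → smin ≤ s u) (hε : ε < smin)
    {u v : ℝ} (hu : |u| ≤ Q) (huv : u ≤ v) (h : S v - S u ≤ ε) : v - u ≤ ε / smin := by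
  obtain ⟨hu1, hu2⟩ := abs_le.1 hu
  set w := min v (u + 1) with hw
  have hw1 : u ≤ w := le_min huv (by linarith)
  have hw2 : w ≤ u + 1 := min_le_right _ _
  have hw3 : w ≤ v := min_le_left _ _
  have h1 := neg170_mvt hs hsmin (u := u) (v := w) (abs_le.2 ⟨by linarith, by linarith⟩)
    (abs_le.2 ⟨by linarith, by linarith⟩) hw1
  have h2 : S w ≤ S v := hmono hw3
  have h3 : smin * (w - u) < smin * 1 := by linarith
  have h4 : w - u < 1 := lt_of_mul_lt_mul_left h3 h0.le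
  have h5 : w = v := by
    rcases min_choice v (u + 1) with h | h
    · exact h
    · rw [← hw] at h; linarith
  rw [le_div_iff₀ h0]
  rw [h5] at h1
  linarith

/-- the upper point is in the box -/
theorem neg170_step_right {S s : ℝ → ℝ} (hs : ∀ u, HasDerivAt S (s u) u) (hmono : Monotone S)
    {Q smin ε : ℝ} (h0 : 0 < smin) (hsmin : ∀ u, |u| ≤ Q + 1 → smin ≤ s u) (hε : ε < smin)
    {u v : ℝ} (hv : |v| ≤ Q) (huv : u ≤ v) (h : S v - S u ≤ ε) : v - u ≤ ε / smin := by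
  obtain ⟨hv1, hv2⟩ := abs_le.1 hv
  set w := max u (v - 1) with hw
  have hw1 : w ≤ v := max_le huv (by linarith)
  have hw2 : v - 1 ≤ w := le_max_right _ _
  have hw3 : u ≤ w := le_max_left _ _
  have h1 := neg170_mvt hs hsmin (u := w) (v := v) (abs_le.2 ⟨by linarith, by linarith⟩)
    (abs_le.2 ⟨by linarith, by linarith⟩) hw1
  have h2 : S u ≤ S w := hmono hw3
  have h3 : smin * (v - w) < smin * 1 := by linarith
  have h4 : v - w < 1 := lt_of_mul_lt_mul_left h3 h0.le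
  have h5 : w = u := by
    rcases max_choice u (v - 1) with h | h
    · exact h
    · rw [← hw] at h; linarith
  rw [le_div_iff₀ h0]
  rw [h5] at h1
  linarith

/-- **Quantitative comparison** (`K ≤ 0`). -/
theorem neg170_close {n : ℕ} (Lr : ℝ) (hL : 0 < Lr) (S Θ : ℝ → ℝ → ℝ) (s : ℝ → ℝ) (I : Fin n → ℝ)
    (μ : ℝ) (hs : ∀ u, HasDerivAt (S μ) (s u) u) (hmono : Monotone (S μ)) (hΘ : Antitone (Θ μ))
    (y z : Fin n → ℝ) (E Q smin : ℝ) (hy : ba3x80_F Lr S Θ I (μ, y) = 0)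
    (hz : ∀ j, |ba3x80_F Lr S Θ I (μ, z) j| ≤ E) (hzQ : ∀ j, |z j| ≤ Q) (h0 : 0 < smin)
    (hsmin : ∀ u, |u| ≤ Q + 1 → smin ≤ s u) (hE : E < Lr * smin) (j : Fin n) :
    |y j - z j| ≤ E / (Lr * smin) := by
  classical
  have hne : Nonempty (Fin n) := ⟨j⟩
  have hE0 : 0 ≤ E := (abs_nonneg _).trans (hz j)
  have hb0 : 0 ≤ E / (Lr * smin) := by positivity
  have hε : E / Lr < smin := by rw [div_lt_iff₀ hL]; linarith
  have hdiv : E / Lr / smin = E / (Lr * smin) := by rw [div_div]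
  rw [abs_le]
  constructor
  · obtain ⟨i, hi⟩ := Finite.exists_max (fun i => z i - y i)
    have h1 : z i - y i ≤ E / (Lr * smin) := by
      rcases le_total (z i) (y i) with hle | hle
      · linarith
      · have h2 := neg170_upper Lr S Θ I μ hΘ z y E i (by
          rw [hy]; have := (abs_le.1 (hz i)).2; simpa using this) hi
        have h3 : S μ (z i) - S μ (y i) ≤ E / Lr := by rw [le_div_iff₀ hL]; linarith
        have := neg170_step_right hs hmono h0 hsmin hε (hzQ i) hle h3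
        rwa [hdiv] at this
    have := hi j
    linarith
  · obtain ⟨i, hi⟩ := Finite.exists_max (fun i => y i - z i)
    have h1 : y i - z i ≤ E / (Lr * smin) := by
      rcases le_total (y i) (z i) with hle | hle
      · linarith
      · have h2 := neg170_upper Lr S Θ I μ hΘ y z E i (by
          rw [hy]; have := (abs_le.1 (hz i)).1; simp only [Pi.zero_apply]; linarith) hi
        have h3 : S μ (y i) - S μ (z i) ≤ E / Lr := by rw [le_div_iff₀ hL]; linarith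
        have := neg170_step_left hs hmono h0 hsmin hε (hzQ i) hle h3
        rwa [hdiv] at this
    have := hi j
    linarith

/-! ## With the mid-quantiles of 259 -/

section Quant

variable {n : ℕ} {N Q ρmin Kmax smin : ℝ} (S Θ s K : ℝ → ℝ → ℝ) (μ : ℝ) (ρ : ℝ → ℝ) (I : Fin n → ℝ)

/-- the Bethe map of 80 at the quantiles of 259 is `O(1)` -/
theorem neg170_F_quant (hI : ∀ j : Fin n, I j = ((j : ℕ) : ℝ) + 1 - ((n : ℝ) + 1) / 2)
    (hρi : IntervalIntegrable ρ volume (-Q) Q) (hQ : 0 ≤ Q) (hρ0 : 0 < ρmin)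
    (hρm : ∀ x ∈ Icc (-Q) Q, ρmin ≤ ρ x) (hev : ∀ x ∈ Icc (-Q) Q, ρ (-x) = ρ x)
    (hN : 0 < N) (hmass : d2x259_P ρ Q Q = n / N)
    (hs : ∀ x, HasDerivAt (S μ) (s μ x) x) (hsc : Continuous (s μ)) (hS0 : S μ 0 = 0)
    (hK : ∀ x, HasDerivAt (Θ μ) (K μ x) x) (hKc : Continuous (K μ)) (hKb : ∀ x, |K μ x| ≤ Kmax)
    (hodd : ∀ x, Θ μ (-x) = -Θ μ x)
    (hEq : ∀ x ∈ Icc (-Q) Q, ρ x + ∫ y in (-Q)..Q, K μ (x - y) * ρ y = s μ x) (j : Fin n) :
    |ba3x80_F N S Θ I (μ, d2x259_xF ρ Q N n) j| ≤ Kmax / ρmin * (n / N) := by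
  have h := d2x259_G_bound_sym (κ := 1) hρi hQ hρ0 hρm hev hN hmass hs hsc hS0 hK hKc hKb hodd
    (fun x hx => by rw [one_mul]; exact hEq x hx) j
  have e : ba3x80_F N S Θ I (μ, d2x259_xF ρ Q N n) j
      = N * (S μ (d2x259_xF ρ Q N n j)
          - N⁻¹ * ∑ l, Θ μ (d2x259_xF ρ Q N n j - d2x259_xF ρ Q N n l)
          - 1 * ((((j : ℕ) : ℝ) + 1 - ((n : ℝ) + 1) / 2) / N)) := by
    simp only [ba3x80_F, hI]
    field_simp
  rw [e, abs_mul, abs_of_pos hN]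
  calc N * _ ≤ N * (Kmax / (N * ρmin) * (n / N)) := mul_le_mul_of_nonneg_left h hN.le
    _ = Kmax / ρmin * (n / N) := by field_simp

/-- **the roots are `O(1/N)`-close to the quantiles** (`K ≤ 0`), constants explicit. -/
theorem neg170_quant (hI : ∀ j : Fin n, I j = ((j : ℕ) : ℝ) + 1 - ((n : ℝ) + 1) / 2)
    (hρi : IntervalIntegrable ρ volume (-Q) Q) (hQ : 0 ≤ Q) (hρ0 : 0 < ρmin)
    (hρm : ∀ x ∈ Icc (-Q) Q, ρmin ≤ ρ x) (hev : ∀ x ∈ Icc (-Q) Q, ρ (-x) = ρ x)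
    (hN : 0 < N) (hmass : d2x259_P ρ Q Q = n / N)
    (hs : ∀ x, HasDerivAt (S μ) (s μ x) x) (hsc : Continuous (s μ)) (hS0 : S μ 0 = 0)
    (hK : ∀ x, HasDerivAt (Θ μ) (K μ x) x) (hKc : Continuous (K μ)) (hKb : ∀ x, |K μ x| ≤ Kmax)
    (hodd : ∀ x, Θ μ (-x) = -Θ μ x)
    (hEq : ∀ x ∈ Icc (-Q) Q, ρ x + ∫ y in (-Q)..Q, K μ (x - y) * ρ y = s μ x)
    (hspos : ∀ u, 0 ≤ s μ u) (hKneg : ∀ u, K μ u ≤ 0)
    (h0 : 0 < smin) (hsmin : ∀ u, |u| ≤ Q + 1 → smin ≤ s μ u)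
    (hbig : Kmax / ρmin * (n / N) < N * smin)
    (y : Fin n → ℝ) (hy : ba3x80_F N S Θ I (μ, y) = 0) (j : Fin n) :
    |y j - d2x259_xF ρ Q N n j| ≤ Kmax / ρmin * (n / N) / (N * smin) := by
  have hmono : Monotone (S μ) := by
    apply monotone_of_deriv_nonneg (fun u => (hs u).differentiableAt)
    intro u
    rw [(hs u).deriv]
    exact hspos u
  have hanti : Antitone (Θ μ) := by
    apply antitone_of_deriv_nonpos (fun u => (hK u).differentiableAt)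
    intro u
    rw [(hK u).deriv]
    exact hKneg u
  refine neg170_close N hN S Θ (s μ) I μ hs hmono hanti y _ _ Q smin hy
    (neg170_F_quant S Θ s K μ ρ I hI hρi hQ hρ0 hρm hev hN hmass hs hsc hS0 hK hKc hKb hodd hEq)
    (fun i => ?_) h0 hsmin hbig j
  exact abs_le.2 (d2x259_x_spec hρi hQ hN hmass i.2).1

/-- **`N`-uniform bound of the hull** (`K ≤ 0`), valid up to half filling. -/
theorem neg170_hull (hI : ∀ j : Fin n, I j = ((j : ℕ) : ℝ) + 1 - ((n : ℝ) + 1) / 2)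
    (hρi : IntervalIntegrable ρ volume (-Q) Q) (hQ : 0 ≤ Q) (hρ0 : 0 < ρmin)
    (hρm : ∀ x ∈ Icc (-Q) Q, ρmin ≤ ρ x) (hev : ∀ x ∈ Icc (-Q) Q, ρ (-x) = ρ x)
    (hN : 0 < N) (hmass : d2x259_P ρ Q Q = n / N)
    (hs : ∀ x, HasDerivAt (S μ) (s μ x) x) (hsc : Continuous (s μ)) (hS0 : S μ 0 = 0)
    (hK : ∀ x, HasDerivAt (Θ μ) (K μ x) x) (hKc : Continuous (K μ)) (hKb : ∀ x, |K μ x| ≤ Kmax)
    (hodd : ∀ x, Θ μ (-x) = -Θ μ x)
    (hEq : ∀ x ∈ Icc (-Q) Q, ρ x + ∫ y in (-Q)..Q, K μ (x - y) * ρ y = s μ x)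
    (hspos : ∀ u, 0 ≤ s μ u) (hKneg : ∀ u, K μ u ≤ 0)
    (h0 : 0 < smin) (hsmin : ∀ u, |u| ≤ Q + 1 → smin ≤ s μ u)
    (hbig : Kmax / ρmin * (n / N) < N * smin)
    (y : Fin n → ℝ) (hy : ba3x80_F N S Θ I (μ, y) = 0) (j : Fin n) :
    |y j| ≤ Q + Kmax / ρmin * (n / N) / (N * smin) ∧ |y j| ≤ Q + 1 := by
  have h := neg170_quant S Θ s K μ ρ I hI hρi hQ hρ0 hρm hev hN hmass hs hsc hS0 hK hKc hKb hodd hEq
    hspos hKneg h0 hsmin hbig y hy j
  have hx : |d2x259_xF ρ Q N n j| ≤ Q := abs_le.2 (d2x259_x_spec hρi hQ hN hmass j.2).1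
  have h1 : |y j| ≤ |y j - d2x259_xF ρ Q N n j| + |d2x259_xF ρ Q N n j| := by
    have := abs_add_le (y j - d2x259_xF ρ Q N n j) (d2x259_xF ρ Q N n j)
    rwa [sub_add_cancel] at this
  have h2 : Kmax / ρmin * (n / N) / (N * smin) ≤ 1 := by
    rw [div_le_one (by positivity)]
    exact hbig.le
  constructor <;> linarith

/-- **closeness in mass** (`K ≤ 0`): the last clause of `Bh271B2`.  Here `ρ` is the density on the whole line. -/
theorem neg170_mass {ρmax : ℝ} (hI : ∀ j : Fin n, I j = ((j : ℕ) : ℝ) + 1 - ((n : ℝ) + 1) / 2)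
    (hρc : Continuous ρ) (hQ : 0 ≤ Q) (hρ0 : 0 < ρmin)
    (hρm : ∀ x ∈ Icc (-Q) Q, ρmin ≤ ρ x) (hev : ∀ x ∈ Icc (-Q) Q, ρ (-x) = ρ x)
    (hρM : ∀ x, |x| ≤ Q + 1 → |ρ x| ≤ ρmax)
    (hN : 0 < N) (hmass : d2x259_P ρ Q Q = n / N)
    (hs : ∀ x, HasDerivAt (S μ) (s μ x) x) (hsc : Continuous (s μ)) (hS0 : S μ 0 = 0)
    (hK : ∀ x, HasDerivAt (Θ μ) (K μ x) x) (hKc : Continuous (K μ)) (hKb : ∀ x, |K μ x| ≤ Kmax)
    (hodd : ∀ x, Θ μ (-x) = -Θ μ x)
    (hEq : ∀ x ∈ Icc (-Q) Q, ρ x + ∫ y in (-Q)..Q, K μ (x - y) * ρ y = s μ x)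
    (hspos : ∀ u, 0 ≤ s μ u) (hKneg : ∀ u, K μ u ≤ 0)
    (h0 : 0 < smin) (hsmin : ∀ u, |u| ≤ Q + 1 → smin ≤ s μ u)
    (hbig : Kmax / ρmin * (n / N) < N * smin)
    (y : Fin n → ℝ) (hy : ba3x80_F N S Θ I (μ, y) = 0) (j : Fin n) :
    |(∫ u in (0 : ℝ)..(y j), ρ u) - I j / N| ≤ ρmax * (Kmax / ρmin * (n / N) / (N * smin)) := by
  have hρi : IntervalIntegrable ρ volume (-Q) Q := hρc.intervalIntegrable _ _
  have h := neg170_quant S Θ s K μ ρ I hI hρi hQ hρ0 hρm hev hN hmass hs hsc hS0 hK hKc hKb hodd hEq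
    hspos hKneg h0 hsmin hbig y hy j
  have hh := (neg170_hull S Θ s K μ ρ I hI hρi hQ hρ0 hρm hev hN hmass hs hsc hS0 hK hKc hKb hodd hEq
    hspos hKneg h0 hsmin hbig y hy j).2
  have hx : |d2x259_xF ρ Q N n j| ≤ Q := abs_le.2 (d2x259_x_spec hρi hQ hN hmass j.2).1
  have hq := d2x259_x_quantum hρi hQ hev hN hmass j.2
  have e : (∫ u in (0 : ℝ)..(y j), ρ u) - I j / N = ∫ u in (d2x259_xF ρ Q N n j)..(y j), ρ u := by
    rw [hI, ← hq]
    have := intervalIntegral.integral_add_adjacent_intervals (μ := volume)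
      (hρc.intervalIntegrable 0 (d2x259_x ρ Q N j)) (hρc.intervalIntegrable (d2x259_x ρ Q N j) (y j))
    have e2 : d2x259_xF ρ Q N n j = d2x259_x ρ Q N j := rfl
    rw [e2]
    linarith
  rw [e]
  have hb := intervalIntegral.norm_integral_le_of_norm_le_const (a := d2x259_xF ρ Q N n j) (b := y j)
    (f := ρ) (C := ρmax) (fun u hu => by
      rw [Real.norm_eq_abs]
      apply hρM
      have hu' := uIoc_subset_uIcc hu
      rw [abs_le]
      obtain ⟨a1, a2⟩ := abs_le.1 hx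
      obtain ⟨b1, b2⟩ := abs_le.1 hh
      rcases le_total (d2x259_xF ρ Q N n j) (y j) with hle | hle
      · rw [uIcc_of_le hle] at hu'
        exact ⟨by linarith [hu'.1], by linarith [hu'.2]⟩
      · rw [uIcc_of_ge hle] at hu'
        exact ⟨by linarith [hu'.1], by linarith [hu'.2]⟩)
  rw [Real.norm_eq_abs] at hb
  have hρmax : 0 ≤ ρmax := (abs_nonneg _).trans (hρM 0 (by rw [abs_zero]; linarith))
  exact hb.trans (mul_le_mul_of_nonneg_left h hρmax)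

end Quant

/-! ## The concrete kernels, `π/2 ≤ lam < 2π/3`: no hypothesis left -/

theorem neg170_Icc_interval (f : ℝ → ℝ) {Q : ℝ} (hQ : 0 ≤ Q) :
    ∫ u in Icc (-Q) Q, f u = ∫ u in (-Q)..Q, f u := by
  rw [intervalIntegral.integral_of_le (by linarith), integral_Icc_eq_integral_Ioc]

/-- the hypotheses of `neg170_quant` / `_hull` / `_mass` for the concrete kernels and the density of 150;
`smin = ρmin = ba230_ker lam (Q₂ + 1)`. -/
theorem neg170_inst_core {lam Q₂ : ℝ} (hl0 : Real.pi / 2 ≤ lam) (hl1 : lam < 2 * Real.pi / 3) :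
    ∃ Kmax : ℝ, 0 ≤ Kmax ∧ 0 < ba230_ker lam (Q₂ + 1) ∧ ∀ (N m : ℕ) (Q : ℝ), 0 < N → 0 ≤ Q → Q ≤ Q₂ →
      ((m + 1 : ℕ) : ℝ) = N * c1x150_Dq (ba230_ker (2 * lam)) (ba230_ker lam) Q →
      Kmax / ba230_ker lam (Q₂ + 1) < N * ba230_ker lam (Q₂ + 1) →
      ∀ y : Fin (m + 1) → ℝ, ba3x80_F (N : ℝ) ba3x80_S ba3x80_Th (ba3x80_I (m + 1)) (lam, y) = 0 →
      ∀ j, |y j - d2x259_xF (c1x150_rQ (ba230_ker (2 * lam)) (ba230_ker lam) Q) Q N (m + 1) j|
          ≤ Kmax / ba230_ker lam (Q₂ + 1) / (N * ba230_ker lam (Q₂ + 1)) ∧ |y j| ≤ Q + 1 := by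
  have hpi := Real.pi_pos
  have h0 : 0 < lam := by linarith
  have h1' : lam < Real.pi := by linarith
  obtain ⟨C, H⟩ := ba230_Ker h0 hl1
  obtain ⟨Kmax, hKmax⟩ := ba230_ker_bdd (a := 2 * lam) (by linarith) (by linarith)
  have hK0 : 0 ≤ Kmax := (abs_nonneg _).trans (hKmax 0)
  have hsm : 0 < ba230_ker lam (Q₂ + 1) := ba3x80_ker_pos h0 h1' _
  refine ⟨Kmax, hK0, hsm, ?_⟩
  intro N m Q hN hQ hQ2 hmass hbig y hy j
  set smin := ba230_ker lam (Q₂ + 1) with hsmin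
  set ρ := c1x150_rQ (ba230_ker (2 * lam)) (ba230_ker lam) Q with hρ
  have hNr : (0 : ℝ) < N := by exact_mod_cast hN
  have hKneg : ∀ u, ba230_ker (2 * lam) u ≤ 0 := ba230_ker_nonpos (by linarith) (by linarith)
  have hspos : ∀ u, 0 ≤ ba230_ker lam u := fun u => (ba3x80_ker_pos h0 h1' u).le
  have hlow : ∀ u, |u| ≤ Q₂ + 1 → smin ≤ ba230_ker lam u := by
    intro u hu
    apply ba3x80_ker_anti h0 h1'.le
    rwa [abs_of_nonneg (by linarith : (0 : ℝ) ≤ Q₂ + 1)]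
  have hρc : Continuous ρ := c1x150_rQ_continuous H Q
  have hρi : IntervalIntegrable ρ volume (-Q) Q := hρc.intervalIntegrable _ _
  have hρm : ∀ x ∈ Icc (-Q) Q, smin ≤ ρ x := by
    intro x hx
    have h2 : |x| ≤ Q₂ + 1 := by
      rw [abs_le]; exact ⟨by linarith [hx.1], by linarith [hx.2]⟩
    exact (hlow x h2).trans (c1x150_rQ_ge_source H hKneg hspos Q x)
  have hev : ∀ x ∈ Icc (-Q) Q, ρ (-x) = ρ x := fun x _ => c1x150_rQ_even H Q x
  have hD : c1x150_Dq (ba230_ker (2 * lam)) (ba230_ker lam) Q = ∫ u in (-Q)..Q, ρ u := by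
    unfold c1x150_Dq
    exact neg170_Icc_interval _ hQ
  have hmass' : d2x259_P ρ Q Q = ((m + 1 : ℕ) : ℝ) / N := by
    unfold d2x259_P
    rw [hmass, ← hD]
    field_simp
  have hEq : ∀ x ∈ Icc (-Q) Q, ρ x + ∫ y in (-Q)..Q, ba230_ker (2 * lam) (x - y) * ρ y
      = ba230_ker lam x := by
    intro x _
    have := c1x150_rQ_eq H Q x
    unfold c1x150_op at this
    rw [neg170_Icc_interval _ hQ] at this
    exact this
  have hfill : ((m + 1 : ℕ) : ℝ) / N ≤ 1 := by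
    rw [← hmass']
    unfold d2x259_P
    rw [← hD]
    rcases eq_or_lt_of_le hQ with h | h
    · rw [← h, c1x150_Dq_zero]; norm_num
    · have := (t1x150_main h0 hl1).2.2.2.2.1 Q h
      linarith
  have hfill0 : 0 ≤ ((m + 1 : ℕ) : ℝ) / N := by positivity
  have hE : Kmax / smin * (((m + 1 : ℕ) : ℝ) / N) ≤ Kmax / smin := by
    have : 0 ≤ Kmax / smin := by positivity
    nlinarith
  have hsminQ : ∀ u, |u| ≤ Q + 1 → smin ≤ ba230_ker lam u := fun u hu => hlow u (by linarith)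
  have hI : ∀ j : Fin (m + 1), ba3x80_I (m + 1) j
      = ((j : ℕ) : ℝ) + 1 - (((m + 1 : ℕ) : ℝ) + 1) / 2 := by
    intro j
    unfold ba3x80_I
    ring
  have hS0 : ba3x80_S lam 0 = 0 := by
    have := ba3x80_S_neg lam 0
    rw [neg_zero] at this
    linarith
  have hq := neg170_quant (N := (N : ℝ)) (Q := Q) (ρmin := smin) (Kmax := Kmax) (smin := smin)
    ba3x80_S ba3x80_Th ba230_ker (fun t => ba230_ker (2 * t)) lam ρ (ba3x80_I (m + 1)) hI hρi hQ hsm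
    hρm hev hNr hmass' (ba3x80_S_hasDerivAt h0 (by linarith))
    (ba230_ker_continuous h0 (by linarith)) hS0 (ba3x80_Th_hasDerivAt h0 h1')
    (ba230_ker_continuous (by linarith) (by linarith)) hKmax (ba3x80_Th_neg lam) hEq hspos hKneg hsm
    hsminQ (lt_of_le_of_lt hE hbig) y hy j
  have hh := neg170_hull (N := (N : ℝ)) (Q := Q) (ρmin := smin) (Kmax := Kmax) (smin := smin)
    ba3x80_S ba3x80_Th ba230_ker (fun t => ba230_ker (2 * t)) lam ρ (ba3x80_I (m + 1)) hI hρi hQ hsm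
    hρm hev hNr hmass' (ba3x80_S_hasDerivAt h0 (by linarith))
    (ba230_ker_continuous h0 (by linarith)) hS0 (ba3x80_Th_hasDerivAt h0 h1')
    (ba230_ker_continuous (by linarith) (by linarith)) hKmax (ba3x80_Th_neg lam) hEq hspos hKneg hsm
    hsminQ (lt_of_le_of_lt hE hbig) y hy j
  refine ⟨hq.trans ?_, hh.2⟩
  exact div_le_div_of_nonneg_right hE (by positivity)

/-- **THE HULL FOR (A) OF `ba_t3`, `π/2 ≤ lam < 2π/3`**: every zero of the Bethe map at the filling `Dq Q`, `Q ≤ Q₂`,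
lies in `[-(Q₂+1), Q₂+1]`, for `N ≥ N₀ (lam, Q₂)`. -/
theorem neg170_hull_inst {lam Q₁ Q₂ : ℝ} (hl0 : Real.pi / 2 ≤ lam) (hl1 : lam < 2 * Real.pi / 3)
    (hQ₁ : 0 < Q₁) :
    ∃ N₀ : ℕ, ∀ N m : ℕ, N₀ ≤ N → ∀ Q ∈ Icc Q₁ Q₂,
      ((m + 1 : ℕ) : ℝ) = N * c1x150_Dq (ba230_ker (2 * lam)) (ba230_ker lam) Q →
      ∀ y : Fin (m + 1) → ℝ, ba3x80_F (N : ℝ) ba3x80_S ba3x80_Th (ba3x80_I (m + 1)) (lam, y) = 0 →
      ∀ j, |y j| ≤ Q₂ + 1 := by
  obtain ⟨Kmax, hK0, hsm, hcore⟩ := neg170_inst_core (Q₂ := Q₂) hl0 hl1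
  set smin := ba230_ker lam (Q₂ + 1) with hsmin
  obtain ⟨N₀, hN₀⟩ := exists_nat_gt (Kmax / smin / smin)
  refine ⟨N₀ + 1, ?_⟩
  intro N m hN Q hQ hmass y hy j
  have hNpos : 0 < N := by omega
  have hNr : (N₀ : ℝ) < N := by exact_mod_cast (by omega : N₀ < N)
  have hbig : Kmax / smin < N * smin := by
    have : Kmax / smin / smin < N := hN₀.trans hNr
    rwa [div_lt_iff₀ hsm] at this
  have := (hcore N m Q hNpos (hQ₁.le.trans hQ.1) hQ.2 hmass hbig y hy j).2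
  linarith [hQ.2]

end Claimed.Agent.R292
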