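import Claimed.Agent.R292.Bethe.BA3i80
import Claimed.Agent.R292.Bethe.Neg170
import Claimed.Agent.R292.Bethe.T1x150

/-!
# Row 292, unit BETHE, block BA3 (helper80), Part H: the hand-over to `ba120_exit`, `c > √2`

An open interval `J = (a, π/2 + ε)` and a branch `y` with exactly the hypotheses `hy hBE hJac hne`
of `ba120_exit` (`BA4Exit120.lean`), together with all the properties of `ba3x80_inst_pos` on
`[a, π/2]`.
-/

set_option autoImplicit false

namespace Claimed.Agent.R292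

open Set Filter Topology MeasureTheory
open scoped ContDiff

/-- logarithmic equations in the `2π` normalisation of 120 / 130. -/
theorem ba3x80_BE_of_zero {N n : ℕ} {t : ℝ} {y : Fin n → ℝ}
    (hz : ba3x80_F N ba3x80_S ba3x80_Th (ba3x80_I n) (t, y) = 0) (j : Fin n) :
    (N : ℝ) * ba3x130_phi t (y j) - ∑ l, ba3x130_phi (2 * t) (y j - y l)
      = 2 * Real.pi * (((j : ℕ) : ℝ) + 1 - ((n : ℝ) + 1) / 2) := by
  have hpi := Real.pi_pos
  have h := congrFun hz j
  simp only [ba3x80_F, ba3x80_S, ba3x80_Th, ba3x80_I, Pi.zero_apply] at h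
  rw [← Finset.sum_div] at h
  have h2 : (N : ℝ) * ba3x130_phi t (y j) - ∑ l, ba3x130_phi (2 * t) (y j - y l)
      = 2 * Real.pi * ((N : ℝ) * (ba3x130_phi t (y j) / (2 * Real.pi))
        - (∑ l, ba3x130_phi (2 * t) (y j - y l)) / (2 * Real.pi)) := by
    field_simp
  rw [h2]
  have h3 : (N : ℝ) * (ba3x130_phi t (y j) / (2 * Real.pi))
        - (∑ l, ba3x130_phi (2 * t) (y j - y l)) / (2 * Real.pi)
      = ((j : ℕ) : ℝ) - ((n : ℝ) - 1) / 2 := by linarith
  rw [h3]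
  ring

/-- a strictly monotone symmetric list of even length has no zero entry. -/
theorem ba3x80_ne_zero {m : ℕ} (hev : Even (m + 1)) {y : Fin (m + 1) → ℝ} (hy : StrictMono y)
    (hs : ∀ j, y (Fin.rev j) = -y j) (j : Fin (m + 1)) : y j ≠ 0 := by
  intro h0
  have h1 : y (Fin.rev j) = y j := by rw [hs j, h0, neg_zero]
  have h2 : Fin.rev j = j := hy.injective h1
  have h3 := congrArg Fin.val h2
  rw [Fin.val_rev] at h3
  obtain ⟨r, hr⟩ := hev
  have := j.2
  omega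

theorem ba3x80_handover_pos {a x0 : ℝ} (ha : 0 < a) (ha2 : a < Real.pi / 2) (hx1 : x0 < 1) :
    ∃ N0 : ℕ, ∀ N m : ℕ, N0 ≤ N → 2 * (m : ℝ) ≤ x0 * N → Even (m + 1) →
      ∃ (ε : ℝ) (y : ℝ → Fin (m + 1) → ℝ), 0 < ε ∧ Real.pi / 2 + ε < Real.pi ∧
        ContinuousOn y (Ioo a (Real.pi / 2 + ε)) ∧
        (∀ lam ∈ Ioo a (Real.pi / 2 + ε), ∀ j : Fin (m + 1),
          (N : ℝ) * ba3x130_phi lam (y lam j) - ∑ l, ba3x130_phi (2 * lam) (y lam j - y lam l)
            = 2 * Real.pi * (((j : ℕ) : ℝ) + 1 - (((m + 1 : ℕ) : ℝ) + 1) / 2)) ∧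
        (∀ lam ∈ Ioo a (Real.pi / 2 + ε), ∀ v : Fin (m + 1) → ℝ,
          (∀ j, (N : ℝ) * ba230_ker lam (y lam j) * v j
            - ∑ l, ba230_ker (2 * lam) (y lam j - y lam l) * (v j - v l) = 0) → v = 0) ∧
        (∀ lam ∈ Ioo a (Real.pi / 2 + ε), ∀ j, y lam j ≠ 0) ∧
        (∀ t ∈ Icc a (Real.pi / 2),
          ba3x80_F N ba3x80_S ba3x80_Th (ba3x80_I (m + 1)) (t, y t) = 0 ∧ StrictMono (y t) ∧
          (∀ j, |y t j| ≤ Real.artanh x0) ∧
          (∀ u, N * ba230_rho t u - 15 * (1 / (Real.pi * (1 - Real.cos (2 * a))))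
            ≤ ba3x80_rho N ba230_ker (fun t => ba230_ker (2 * t)) t (y t) u) ∧
          (∀ u, |u| ≤ Real.artanh x0 →
            0 < ba3x80_rho N ba230_ker (fun t => ba230_ker (2 * t)) t (y t) u) ∧
          (∀ j, y t (Fin.rev j) = -y t j)) := by
  classical
  have hpi := Real.pi_pos
  obtain ⟨N0, hN0⟩ := ba3x80_inst_pos ha ha2 hx1
  refine ⟨N0 + 1, ?_⟩
  intro N m hN hx0 hev
  have hNpos : 0 < N := by omega
  have hNr : (0 : ℝ) < N := by exact_mod_cast hNpos
  obtain ⟨y, hy, hyc, hya⟩ := hN0 N m (by omega) hx0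
  have hB : Real.pi / 2 ∈ Icc a (Real.pi / 2) := ⟨ha2.le, le_rfl⟩
  set F := ba3x80_F N ba3x80_S ba3x80_Th (ba3x80_I (m + 1)) with hF
  -- analyticity of the residual at `π / 2`
  have hyB : ContDiffAt ℝ ω y (Real.pi / 2) := hya _ hB
  have hFB : ContDiffAt ℝ ω F (Real.pi / 2, y (Real.pi / 2)) :=
    ba3x80_F_contDiffAt N ba3x80_S ba3x80_Th _ _
      (fun u => ba3x80_S_contDiffAt (by linarith) (by linarith) u)
      (fun u => ba3x80_Th_contDiffAt (by linarith) (by linarith) u) _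
  have hres : ContDiffAt ℝ ω (fun t : ℝ => F (t, y t)) (Real.pi / 2) :=
    ContDiffAt.comp (Real.pi / 2) (f := fun t : ℝ => ((t, y t) : ℝ × (Fin (m + 1) → ℝ))) hFB
      (contDiffAt_id.prodMk hyB)
  have hresA : AnalyticAt ℝ (fun t : ℝ => F (t, y t)) (Real.pi / 2) := hres.analyticAt
  have e1 : ∀ᶠ t in 𝓝 (Real.pi / 2), F (t, y t) = 0 := by
    rcases hresA.eventually_eq_zero_or_eventually_ne_zero with h | h
    · exact h
    · exfalso
      have hfreq : ∃ᶠ t in 𝓝[≠] (Real.pi / 2), t ∈ Ioo a (Real.pi / 2) := by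
        have h0 : ∀ᶠ t in 𝓝[<] (Real.pi / 2), t ∈ Ioo a (Real.pi / 2) := Ioo_mem_nhdsLT ha2
        have h1 : ∃ᶠ t in 𝓝[<] (Real.pi / 2), t ∈ Ioo a (Real.pi / 2) := h0.frequently
        exact h1.filter_mono (nhdsWithin_mono _ (fun t ht => ne_of_lt ht))
      obtain ⟨t, ht, hne⟩ := (hfreq.and_eventually h).exists
      exact hne (hy t ⟨ht.1.le, ht.2.le⟩).1
  have e2 : ∀ᶠ t in 𝓝 (Real.pi / 2), ContinuousAt y t := by
    have : AnalyticAt ℝ y (Real.pi / 2) := hyB.analyticAt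
    exact this.eventually_analyticAt.mono fun t ht => ht.continuousAt
  have hneB : ∀ j, y (Real.pi / 2) j ≠ 0 := fun j =>
    ba3x80_ne_zero hev (hy _ hB).2.1 (hy _ hB).2.2.2.2.2.2.1 j
  have e3 : ∀ᶠ t in 𝓝 (Real.pi / 2), ∀ j, y t j ≠ 0 := by
    rw [eventually_all]
    intro j
    have hc : ContinuousAt (fun t => y t j) (Real.pi / 2) :=
      (continuous_apply j).continuousAt.comp hyB.continuousAt
    exact hc.eventually_ne (hneB j)
  have e4 : ∀ᶠ t in 𝓝 (Real.pi / 2), t < Real.pi :=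
    gt_mem_nhds (show Real.pi / 2 < Real.pi by linarith)
  obtain ⟨δ, hδ, hball⟩ := Metric.eventually_nhds_iff.1 (e1.and (e2.and (e3.and e4)))
  set ε : ℝ := min (δ / 2) (Real.pi / 4) with hε
  have hε0 : 0 < ε := lt_min (by linarith) (by linarith)
  have hεδ : ε < δ := lt_of_le_of_lt (min_le_left _ _) (by linarith)
  have hεπ : ε ≤ Real.pi / 4 := min_le_right _ _
  have hright : ∀ t, Real.pi / 2 < t → t < Real.pi / 2 + ε →
      F (t, y t) = 0 ∧ ContinuousAt y t ∧ (∀ j, y t j ≠ 0) ∧ t < Real.pi := by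
    intro t h1 h2
    apply hball
    rw [Real.dist_eq, abs_of_pos (by linarith)]
    linarith
  refine ⟨ε, y, hε0, by linarith, ?_, ?_, ?_, ?_, ?_⟩
  · intro t ht
    by_cases h : t ≤ Real.pi / 2
    · exact (hya t ⟨ht.1.le, h⟩).continuousAt.continuousWithinAt
    · exact (hright t (not_le.1 h) ht.2).2.1.continuousWithinAt
  · intro t ht j
    have hz : F (t, y t) = 0 := by
      by_cases h : t ≤ Real.pi / 2
      · exact (hy t ⟨ht.1.le, h⟩).1
      · exact (hright t (not_le.1 h) ht.2).1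
    exact ba3x80_BE_of_zero hz j
  · intro t ht v hv
    by_cases h : t ≤ Real.pi / 2
    · exact (hy t ⟨ht.1.le, h⟩).2.2.2.2.2.2.2 v hv
    · have h1 := not_le.1 h
      have h2 := (hright t h1 ht.2).2.2.2
      exact ba3x80_inj_neg (fun j => N * ba230_ker t (y t j))
        (fun j k => ba230_ker (2 * t) (y t j - y t k))
        (fun j => mul_pos hNr (ba3x80_ker_pos (by linarith) h2 _))
        (fun j k => ba230_ker_nonpos (by linarith) (by linarith) _) v hv
  · intro t ht j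
    by_cases h : t ≤ Real.pi / 2
    · exact ba3x80_ne_zero hev (hy t ⟨ht.1.le, h⟩).2.1 (hy t ⟨ht.1.le, h⟩).2.2.2.2.2.2.1 j
    · exact (hright t (not_le.1 h) ht.2).2.2.1 j
  · intro t ht
    obtain ⟨h1, h2, h3, h4, h5, -, h7, -⟩ := hy t ht
    exact ⟨h1, h2, h3, h4, h5, h7⟩

/-! ## The hull of the roots for `K ≤ 0` (`π/2 ≤ lam < 2π/3`): `neg170_hull` of 170 at `r_Q` of 150

Statement = `ba_hull_neg` of `Bethe/Thermo.lean` (= the announced `neg170_hull_inst`) verbatim. -/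

/-- **L8, hull of the roots, attractive sign, no hypothesis left.** -/
theorem ba3x80_hull_neg {lam Q1 Q2 : ℝ} (h0 : Real.pi / 2 ≤ lam) (h1 : lam < 2 * Real.pi / 3)
    (hQ1 : 0 < Q1) (hQ12 : Q1 ≤ Q2) :
    ∃ N0 : ℕ, ∀ N m : ℕ, N0 ≤ N → ∀ Q ∈ Icc Q1 Q2,
      ((m + 1 : ℕ) : ℝ) = N * c1x150_Dq (ba230_ker (2 * lam)) (ba230_ker lam) Q →
      ∀ y : Fin (m + 1) → ℝ,
        ba3x80_F (N : ℝ) ba3x80_S ba3x80_Th (ba3x80_I (m + 1)) (lam, y) = 0 → ∀ j, |y j| ≤ Q2 + 1 := by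
  have hpi := Real.pi_pos
  have hl0 : 0 < lam := by linarith
  have hlpi : lam < Real.pi := by linarith
  obtain ⟨C, H⟩ := ba230_Ker hl0 h1
  obtain ⟨-, -, -, -, hDlt, -⟩ := t1x150_main hl0 h1
  obtain ⟨BK, hBK⟩ := ba230_ker_bdd (a := 2 * lam) (by linarith) (by linarith)
  have hBK0 : 0 ≤ BK := (abs_nonneg _).trans (hBK 0)
  have hspos : ∀ u, 0 < ba230_ker lam u := fun u => by
    unfold ba230_ker
    have hs : 0 < Real.sin lam := Real.sin_pos_of_pos_of_lt_pi hl0 hlpi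
    have hd := ba230_ker_den_pos hl0 (by linarith : lam < 2 * Real.pi) u
    positivity
  have hKneg : ∀ w, ba230_ker (2 * lam) w ≤ 0 := ba230_ker_nonpos (by linarith) (by linarith)
  have hsc : Continuous (ba230_ker lam) := H.s_cont
  have hKc : Continuous (ba230_ker (2 * lam)) := ba230_ker_continuous (by linarith) (by linarith)
  have hQ2 : 0 < Q2 := lt_of_lt_of_le hQ1 hQ12
  obtain ⟨um, hum, hmin⟩ := (isCompact_Icc (a := -(Q2 + 1)) (b := Q2 + 1)).exists_isMinOn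
    (nonempty_Icc.2 (by linarith)) hsc.continuousOn
  set smin := ba230_ker lam um with hsmin
  have hsm0 : 0 < smin := hspos um
  obtain ⟨N0, hN0⟩ := exists_nat_gt (BK / smin / smin)
  refine ⟨N0 + 1, fun N m hN Q hQ hm y hy j => ?_⟩
  have hNr : (0 : ℝ) < N := by
    have : 1 ≤ N := by omega
    exact_mod_cast this
  have hQ0 : 0 < Q := lt_of_lt_of_le hQ1 hQ.1
  set ρ := c1x150_rQ (ba230_ker (2 * lam)) (ba230_ker lam) Q with hρ
  have hρc : Continuous ρ := c1x150_rQ_continuous H Q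
  have hnle : -Q ≤ Q := by linarith
  have hIcc : ∀ f : ℝ → ℝ, ∫ v in Icc (-Q) Q, f v = ∫ v in (-Q)..Q, f v := fun f => by
    rw [intervalIntegral.integral_of_le hnle, integral_Icc_eq_integral_Ioc]
  have hfill : (((m + 1 : ℕ) : ℝ)) / N = c1x150_Dq (ba230_ker (2 * lam)) (ba230_ker lam) Q := by
    rw [hm]; field_simp
  have hmass : d2x259_P ρ Q Q = ((m + 1 : ℕ) : ℝ) / N := by
    rw [hfill]
    unfold d2x259_P c1x150_Dq
    rw [hIcc]
  have hsmall : ∀ u, |u| ≤ Q + 1 → smin ≤ ba230_ker lam u := fun u hu => by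
    have hu' := abs_le.1 hu
    exact hmin (⟨by linarith [hQ.2], by linarith [hQ.2]⟩ : u ∈ Icc (-(Q2 + 1)) (Q2 + 1))
  have hbig : BK / smin * (((m + 1 : ℕ) : ℝ) / N) < N * smin := by
    rw [hfill]
    have hD1 : c1x150_Dq (ba230_ker (2 * lam)) (ba230_ker lam) Q ≤ 1 := by linarith [hDlt Q hQ0]
    have hN0' : BK / smin / smin < N := hN0.trans (by exact_mod_cast (by omega : N0 < N))
    rw [div_lt_iff₀ hsm0] at hN0'
    have : BK / smin * c1x150_Dq (ba230_ker (2 * lam)) (ba230_ker lam) Q ≤ BK / smin * 1 :=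
      mul_le_mul_of_nonneg_left hD1 (by positivity)
    linarith
  have key := (neg170_hull (n := m + 1) (N := (N : ℝ)) (Q := Q) (ρmin := smin) (Kmax := BK) (smin := smin)
    ba3x80_S ba3x80_Th ba230_ker (fun t => ba230_ker (2 * t)) lam ρ (ba3x80_I (m + 1))
    (fun j => by rw [ba3x80_I_eqns_cite]; ring)
    (hρc.intervalIntegrable _ _) hQ0.le hsm0
    (fun x hx => (hsmall x (abs_le.2 ⟨by linarith [hx.1], by linarith [hx.2]⟩)).trans
      (c1x150_rQ_ge_source H hKneg (fun u => (hspos u).le) Q x))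
    (fun x _ => c1x150_rQ_even H Q x) hNr hmass
    (ba3x80_S_hasDerivAt hl0 (by linarith)) hsc
    (by unfold ba3x80_S; rw [ba3x130_phi_zero, zero_div])
    (ba3x80_Th_hasDerivAt hl0 hlpi) hKc hBK (ba3x80_Th_neg lam)
    (fun x _ => by
      have := c1x150_rQ_eq H Q x
      unfold c1x150_op at this
      rw [hIcc] at this
      exact this)
    (fun u => (hspos u).le) hKneg hsm0 hsmall hbig y hy j).2
  linarith [hQ.2]

end Claimed.Agent.R292
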