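import Mathlib
import Claimed.Agent.R292.Bethe.BA4Wire120

/-!
# Rows 290 / 292, cell C1, unit BETHE, block B3 IDENT: the log-Bethe map, its Jacobian, THE EXIT OF THE BLOCK   (helper120; prefix `ba120_`)

`k th : ℝ × ℝ → ℝ` (parameter, rapidity) are abstract jointly analytic functions (`k = phi lam`, `th = phi (2 lam)` of the dictionary).

* `ba120F N k th Iq (lam, y) j = N k (lam, y j) - ∑ l, th (lam, y j - y l) - Iq j` : the log-Bethe map.
* `ba120_F_analyticAt`, `ba120_F_fderiv` : analytic; its derivative in `y` is the Jacobian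
  `v ↦ N k' (y j) v j - ∑ l, th' (y j - y l) (v j - v l)`.
* **`ba120_roots_analyticAt`** : a continuous branch of solutions with injective Jacobian is analytic.
* **`ba120_ident`** : EXIT OF B3: `log baZ (2 cos (lam / 2)) M N n / M → log Re Λ_B (y lam)` on the whole path.
-/

set_option autoImplicit false
set_option linter.unusedSectionVars false

namespace Claimed.Agent.R292

open Matrix Filter Topology Finset

variable {n : ℕ}

/-- the log-Bethe map -/
noncomputable def ba120F (N : ℕ) (k th : ℝ × ℝ → ℝ) (Iq : Fin n → ℝ) (p : ℝ × (Fin n → ℝ)) : Fin n → ℝ :=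
  fun j => N * k (p.1, p.2 j) - ∑ l, th (p.1, p.2 j - p.2 l) - Iq j

/-- partial derivative in the rapidity -/
noncomputable def ba120D2 (k : ℝ × ℝ → ℝ) (t u : ℝ) : ℝ := deriv (fun w => k (t, w)) u

theorem ba120_hasDerivAt_D2 {k : ℝ × ℝ → ℝ} {t u : ℝ} (hk : AnalyticAt ℝ k (t, u)) :
    HasDerivAt (fun w => k (t, w)) (ba120D2 k t u) u := by
  have h1 : AnalyticAt ℝ (fun w : ℝ => (t, w)) u := AnalyticAt.prod analyticAt_const analyticAt_id
  have h2 : AnalyticAt ℝ (fun w : ℝ => k (t, w)) u :=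
    AnalyticAt.comp (g := k) (f := fun w : ℝ => (t, w)) hk h1
  exact h2.differentiableAt.hasDerivAt

theorem ba120_F_analyticAt (N : ℕ) {k th : ℝ × ℝ → ℝ} (Iq : Fin n → ℝ) {t : ℝ} {y : Fin n → ℝ}
    (hk : ∀ j, AnalyticAt ℝ k (t, y j)) (hth : ∀ j l, AnalyticAt ℝ th (t, y j - y l)) :
    AnalyticAt ℝ (ba120F N k th Iq) (t, y) := by
  unfold ba120F
  refine AnalyticAt.pi fun j => ?_
  have hproj : ∀ i : Fin n, AnalyticAt ℝ (fun p : ℝ × (Fin n → ℝ) => p.2 i) (t, y) := fun i =>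
    ((ContinuousLinearMap.proj (R := ℝ) (φ := fun _ : Fin n => ℝ) i).comp
      (ContinuousLinearMap.snd ℝ ℝ (Fin n → ℝ))).analyticAt _
  have h1 : AnalyticAt ℝ (fun p : ℝ × (Fin n → ℝ) => k (p.1, p.2 j)) (t, y) :=
    AnalyticAt.comp (g := k) (f := fun p : ℝ × (Fin n → ℝ) => (p.1, p.2 j)) (hk j)
      (AnalyticAt.prod analyticAt_fst (hproj j))
  have h2 : ∀ l, AnalyticAt ℝ (fun p : ℝ × (Fin n → ℝ) => th (p.1, p.2 j - p.2 l)) (t, y) := fun l =>
    AnalyticAt.comp (g := th) (f := fun p : ℝ × (Fin n → ℝ) => (p.1, p.2 j - p.2 l)) (hth j l)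
      (AnalyticAt.prod analyticAt_fst ((hproj j).sub (hproj l)))
  exact ((analyticAt_const.mul h1).sub (Finset.analyticAt_fun_sum _ fun l _ => h2 l)).sub analyticAt_const

/-- the derivative of the log-Bethe map in the direction `(0, v)` is the Jacobian applied to `v` -/
theorem ba120_F_fderiv (N : ℕ) {k th : ℝ × ℝ → ℝ} (Iq : Fin n → ℝ) {t : ℝ} {y : Fin n → ℝ}
    (hk : ∀ j, AnalyticAt ℝ k (t, y j)) (hth : ∀ j l, AnalyticAt ℝ th (t, y j - y l)) (v : Fin n → ℝ) (j : Fin n) :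
    fderiv ℝ (ba120F N k th Iq) (t, y) (0, v) j
      = N * ba120D2 k t (y j) * v j - ∑ l, ba120D2 th t (y j - y l) * (v j - v l) := by
  have hF : HasFDerivAt (ba120F N k th Iq) (fderiv ℝ (ba120F N k th Iq) (t, y)) (t, y) :=
    (ba120_F_analyticAt N Iq hk hth).differentiableAt.hasFDerivAt
  -- the line through `(t, y)` in the direction `(0, v)`
  have hline : HasDerivAt (fun s : ℝ => ((t, y + s • v) : ℝ × (Fin n → ℝ))) ((0 : ℝ), v) 0 := by
    have h1 : HasDerivAt (fun s : ℝ => y + s • v) v 0 := by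
      have := ((hasDerivAt_id (0 : ℝ)).smul_const v).const_add y
      simpa using this
    exact (hasDerivAt_const (0 : ℝ) t).prodMk h1
  have hF0 : HasFDerivAt (ba120F N k th Iq) (fderiv ℝ (ba120F N k th Iq) (t, y))
      ((fun s : ℝ => ((t, y + s • v) : ℝ × (Fin n → ℝ))) 0) := by simpa using hF
  have hcomp := hF0.comp_hasDerivAt (0 : ℝ) hline
  have hj := (hasDerivAt_pi.mp hcomp) j
  -- the same derivative computed by the chain rule in one variable
  have hk1 : HasDerivAt (fun s : ℝ => k (t, y j + s * v j)) (ba120D2 k t (y j) * v j) 0 := by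
    have h1 : HasDerivAt (fun s : ℝ => y j + s * v j) (v j) 0 := by
      have := ((hasDerivAt_id (0 : ℝ)).mul_const (v j)).const_add (y j)
      simpa using this
    have h2 : HasDerivAt (fun w => k (t, w)) (ba120D2 k t (y j)) (y j + 0 * v j) := by
      simpa using ba120_hasDerivAt_D2 (hk j)
    exact h2.comp (0 : ℝ) h1
  have hth1 : ∀ l, HasDerivAt (fun s : ℝ => th (t, (y j + s * v j) - (y l + s * v l)))
      (ba120D2 th t (y j - y l) * (v j - v l)) 0 := by
    intro l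
    have h1 : HasDerivAt (fun s : ℝ => (y j + s * v j) - (y l + s * v l)) (v j - v l) 0 := by
      have a := ((hasDerivAt_id (0 : ℝ)).mul_const (v j)).const_add (y j)
      have b := ((hasDerivAt_id (0 : ℝ)).mul_const (v l)).const_add (y l)
      have c := a.fun_sub b
      simpa using c
    have h2 : HasDerivAt (fun w => th (t, w)) (ba120D2 th t (y j - y l)) ((y j + 0 * v j) - (y l + 0 * v l)) := by
      simpa using ba120_hasDerivAt_D2 (hth j l)
    exact h2.comp (0 : ℝ) h1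
  have hsum : HasDerivAt (fun s : ℝ => (N : ℝ) * k (t, y j + s * v j)
      - ∑ l, th (t, (y j + s * v j) - (y l + s * v l)) - Iq j)
      ((N : ℝ) * (ba120D2 k t (y j) * v j) - ∑ l, ba120D2 th t (y j - y l) * (v j - v l)) 0 :=
    ((hk1.const_mul (N : ℝ)).sub (HasDerivAt.fun_sum fun l _ => hth1 l)).sub_const _
  have huniq := hj.unique hsum
  rw [huniq]
  ring

/-- **the roots are analytic in the parameter** -/
theorem ba120_roots_analyticAt (N : ℕ) {k th : ℝ × ℝ → ℝ} (Iq : Fin n → ℝ) {y : ℝ → Fin n → ℝ} {t : ℝ}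
    (hk : ∀ j, AnalyticAt ℝ k (t, y t j)) (hth : ∀ j l, AnalyticAt ℝ th (t, y t j - y t l))
    (hy : ContinuousAt y t)
    (hBE : ∀ᶠ s in 𝓝 t, ∀ j, N * k (s, y s j) - ∑ l, th (s, y s j - y s l) = Iq j)
    (hJ : ∀ v : Fin n → ℝ,
      (∀ j, N * ba120D2 k t (y t j) * v j - ∑ l, ba120D2 th t (y t j - y t l) * (v j - v l) = 0) → v = 0) :
    AnalyticAt ℝ y t := by
  set F' := fderiv ℝ (ba120F N k th Iq) (t, y t) with hF'
  let f : (Fin n → ℝ) →ₗ[ℝ] (Fin n → ℝ) :=
    (F'.comp (ContinuousLinearMap.inr ℝ ℝ (Fin n → ℝ))).toLinearMap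
  have hf : ∀ v, f v = F' (0, v) := fun v => rfl
  have hinj : Function.Injective f := by
    rw [← LinearMap.ker_eq_bot, LinearMap.ker_eq_bot']
    intro v hv
    refine hJ v fun j => ?_
    rw [← ba120_F_fderiv N Iq hk hth v j, ← hF', ← hf, hv]
    rfl
  let B : (Fin n → ℝ) ≃L[ℝ] (Fin n → ℝ) := (LinearEquiv.ofInjectiveEndo f hinj).toContinuousLinearEquiv
  refine ba120_analytic_implicit (F := ba120F N k th Iq) (ba120_F_analyticAt N Iq hk hth) hy ?_ B ?_
  · filter_upwards [hBE] with s hs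
    funext j
    unfold ba120F
    simp only [Pi.zero_apply]
    rw [hs j, sub_self]
  · intro v
    rfl

/-- the Bethe roots on the unit circle -/
noncomputable def ba120z (k : ℝ × ℝ → ℝ) (y : ℝ → Fin n → ℝ) (lam : ℝ) (j : Fin n) : ℂ :=
  Complex.exp (Complex.I * ((k (lam, y lam j) : ℝ) : ℂ))

theorem ba120_z_analyticAt {k : ℝ × ℝ → ℝ} {y : ℝ → Fin n → ℝ} {t : ℝ} (hy : AnalyticAt ℝ y t) (j : Fin n)
    (hk : AnalyticAt ℝ k (t, y t j)) : AnalyticAt ℝ (fun lam => ba120z k y lam j) t := by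
  unfold ba120z
  have h1 : AnalyticAt ℝ (fun lam => y lam j) t := (analyticAt_pi_iff.mp hy) j
  have h2 : AnalyticAt ℝ (fun lam => k (lam, y lam j)) t :=
    AnalyticAt.comp (g := k) (f := fun lam : ℝ => (lam, y lam j)) hk (AnalyticAt.prod analyticAt_id h1)
  have h3 : AnalyticAt ℝ (fun lam => ((k (lam, y lam j) : ℝ) : ℂ)) t :=
    AnalyticAt.comp (g := fun r : ℝ => (r : ℂ)) (f := fun lam => k (lam, y lam j)) (Complex.ofRealCLM.analyticAt _) h2
  have h4 : AnalyticAt ℝ (fun lam => Complex.I * ((k (lam, y lam j) : ℝ) : ℂ)) t := analyticAt_const.mul h3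
  have h5 : AnalyticAt ℝ Complex.exp (Complex.I * ((k (t, y t j) : ℝ) : ℂ)) :=
    (analyticAt_cexp (z := Complex.I * ((k (t, y t j) : ℝ) : ℂ))).restrictScalars
  exact AnalyticAt.comp (g := Complex.exp) (f := fun lam => Complex.I * ((k (lam, y lam j) : ℝ) : ℂ)) h5 h4

/-- **EXIT OF THE BLOCK B3 IDENT.** -/
theorem ba120_ident {N : ℕ} [NeZero N] {m : ℕ} (h2 : 2 * (m + 1) ≤ N)
    (pos : ba1Sec N (m + 1) → ℕ → ℕ)
    (hpos : ∀ e, StrictMono fun i : Fin (m + 1) => pos e i) (hposL : ∀ e (i : Fin (m + 1)), pos e i < N)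
    {k th : ℝ × ℝ → ℝ} {J : Set ℝ} (hJo : IsOpen J) (hJc : IsPreconnected J) (hπ : Real.pi / 2 ∈ J)
    (hc : ∀ lam ∈ J, 0 < ba120c lam)
    (hk : ∀ lam ∈ J, ∀ u, AnalyticAt ℝ k (lam, u)) (hth : ∀ lam ∈ J, ∀ u, AnalyticAt ℝ th (lam, u))
    (hth0 : ∀ u, th (Real.pi / 2, u) = 0)
    {y : ℝ → Fin (m + 1) → ℝ} (hy : ContinuousOn y J)
    (hBE : ∀ lam ∈ J, ∀ j : Fin (m + 1), N * k (lam, y lam j) - ∑ l, th (lam, y lam j - y lam l)
      = 2 * Real.pi * (((j : ℕ) : ℝ) - (m : ℝ) / 2))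
    (hJac : ∀ lam ∈ J, ∀ v : Fin (m + 1) → ℝ,
      (∀ j, N * ba120D2 k lam (y lam j) * v j - ∑ l, ba120D2 th lam (y lam j - y lam l) * (v j - v l) = 0) → v = 0)
    (hz1 : ∀ lam ∈ J, ∀ j, ba120z k y lam j ≠ 1)
    (hB : ∀ lam ∈ J, ba120C (ba1T (ba120c lam) N (m + 1)) *ᵥ ba120Vec pos (ba120d lam) (ba120z k y lam)
      = ba120Lam ((ba120c lam : ℝ) : ℂ) (ba120z k y lam) • ba120Vec pos (ba120d lam) (ba120z k y lam)) :
    ∀ lam ∈ J, 0 < (ba120Lam ((ba120c lam : ℝ) : ℂ) (ba120z k y lam)).re ∧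
      Tendsto (fun M : ℕ => Real.log (baZ (ba120c lam) M N (m + 1)) / M) atTop
        (𝓝 (Real.log (ba120Lam ((ba120c lam : ℝ) : ℂ) (ba120z k y lam)).re)) := by
  have hyA : ∀ lam ∈ J, AnalyticAt ℝ y lam := fun lam hl =>
    ba120_roots_analyticAt N (fun j : Fin (m + 1) => 2 * Real.pi * (((j : ℕ) : ℝ) - (m : ℝ) / 2))
      (fun j => hk lam hl _) (fun j l => hth lam hl _) (hy.continuousAt (hJo.mem_nhds hl))
      (by filter_upwards [hJo.mem_nhds hl] with s hs using hBE s hs) (hJac lam hl)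
  refine ba120_wiring_log h2 pos hpos hposL hJc hπ hc (z := ba120z k y)
    (fun j lam hl => ba120_z_analyticAt (hyA lam hl) j (hk lam hl _)) hz1 ?_ hB
  funext j
  have h1 := hBE _ hπ j
  simp only [hth0, Finset.sum_const_zero, sub_zero] at h1
  have hN : (N : ℝ) ≠ 0 := by exact_mod_cast NeZero.ne N
  have h3 : k (Real.pi / 2, y (Real.pi / 2) j) = 2 * Real.pi * (((j : ℕ) : ℝ) - (m : ℝ) / 2) / N := by
    rw [eq_div_iff hN, mul_comm]; exact h1
  unfold ba120z ba120Z0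
  rw [h3]
  congr 1
  push_cast
  ring

end Claimed.Agent.R292
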