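import Mathlib
import Claimed.Agent.R292.Bethe.BA4Jac120
import Claimed.Agent.R292.Bethe.Ba3Roots130
import Claimed.Agent.R292.Bethe.B1w160

/-!
# Rows 290 / 292, cell C1, unit BETHE, block B3 IDENT: THE CONCRETE EXIT      (helper120; prefix `ba120_`)

**`ba120_exit`** : `J ⊆ (0, π)` open, preconnected, containing `π / 2`; `y : ℝ → Fin (m+1) → ℝ` continuous on `J`, solving the REAL
logarithmic Bethe equations of `Ba3Roots130` (`k = phi lam`, `θ = phi (2 lam)`, quantum numbers `j - m / 2`), no root `0`, Jacobian injective.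
Then for every `lam ∈ J`, with `c = 2 cos (lam / 2)`, `z j = exp (i k (y j))`:
`Λ_B = ∏ L (z j) + ∏ M (z j)` is real, `ba70Lam c N (m+1) = Re Λ_B`, `baF c N (m+1) = log Re Λ_B`.

Everything is proved (B1b B1c of 270 100 160, dictionary of 130, BA1 of 70 140, B3a B3b B3c of 120): no hypothesis left but the branch of roots.
-/

set_option autoImplicit false
set_option linter.unusedSectionVars false

namespace Claimed.Agent.R292

open Matrix Filter Topology Finset

/-- `k (lam, u) = phi lam u` -/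
noncomputable def ba120k (p : ℝ × ℝ) : ℝ := ba3x130_phi p.1 p.2

/-- `θ (lam, u) = phi (2 lam) u` -/
noncomputable def ba120th (p : ℝ × ℝ) : ℝ := ba3x130_phi (2 * p.1) p.2

theorem ba120_k_analyticAt {lam : ℝ} (h0 : 0 < lam) (h1 : lam < Real.pi) (u : ℝ) : AnalyticAt ℝ ba120k (lam, u) :=
  ba3x130_phi_analyticAt h0 (by linarith [Real.pi_pos]) u

theorem ba120_th_analyticAt {lam : ℝ} (h0 : 0 < lam) (h1 : lam < Real.pi) (u : ℝ) : AnalyticAt ℝ ba120th (lam, u) := by
  have h2 : AnalyticAt ℝ (fun p : ℝ × ℝ => ba3x130_phi p.1 p.2) ((fun p : ℝ × ℝ => (2 * p.1, p.2)) (lam, u)) :=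
    ba3x130_phi_analyticAt (a := 2 * lam) (by linarith) (by linarith) u
  have h3 : AnalyticAt ℝ (fun p : ℝ × ℝ => (2 * p.1, p.2)) (lam, u) :=
    AnalyticAt.prod (analyticAt_const.mul analyticAt_fst) analyticAt_snd
  exact AnalyticAt.comp (g := fun p : ℝ × ℝ => ba3x130_phi p.1 p.2) (f := fun p : ℝ × ℝ => (2 * p.1, p.2)) h2 h3

theorem ba120_D2_k {lam : ℝ} (h0 : 0 < lam) (h1 : lam < Real.pi) (u : ℝ) :
    ba120D2 ba120k lam u = 2 * Real.pi * ba230_ker lam u :=
  (ba3x130_phi_hasDerivAt h0 (by linarith [Real.pi_pos]) u).deriv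

theorem ba120_D2_th {lam : ℝ} (h0 : 0 < lam) (h1 : lam < Real.pi) (u : ℝ) :
    ba120D2 ba120th lam u = 2 * Real.pi * ba230_ker (2 * lam) u :=
  (ba3x130_phi_hasDerivAt (a := 2 * lam) (by linarith) (by linarith) u).deriv

theorem ba120_th_seed (u : ℝ) : ba120th (Real.pi / 2, u) = 0 := by
  unfold ba120th ba3x130_phi
  have h : 2 * (Real.pi / 2) / 2 = Real.pi / 2 := by ring
  simp only [h, Real.cos_pi_div_two, zero_div, zero_mul, Real.arctan_zero, mul_zero]

theorem ba120_c_pos {lam : ℝ} (h0 : 0 < lam) (h1 : lam < Real.pi) : 0 < ba120c lam := by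
  unfold ba120c
  have := Real.cos_pos_of_mem_Ioo (x := lam / 2) ⟨by linarith [Real.pi_pos], by linarith⟩
  linarith

theorem ba120_z_eq {n : ℕ} (y : ℝ → Fin n → ℝ) (lam : ℝ) (j : Fin n) :
    ba120z ba120k y lam j = ba3x130_z lam (y lam j) := by
  unfold ba120z ba3x130_z ba120k
  rw [mul_comm]

/-- a nonzero rapidity gives a root `≠ 1` -/
theorem ba120_z_ne_one {lam : ℝ} (h0 : 0 < lam) (h1 : lam < Real.pi) {u : ℝ} (hu : u ≠ 0) : ba3x130_z lam u ≠ 1 := by
  intro h
  have h2pi : lam < 2 * Real.pi := by linarith [Real.pi_pos]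
  rw [ba3x130_z_eq h0 h2pi, div_eq_one_iff_eq (ba3x130_D_ne_zero h0 h2pi u)] at h
  have hre := congrArg Complex.re h
  unfold ba3x130_Nm ba3x130_D at hre
  simp only [Complex.neg_re, Complex.sub_re, Complex.add_re, Complex.ofReal_re, Complex.mul_re, Complex.I_re,
    Complex.I_im, Complex.ofReal_im, mul_zero, mul_one, sub_zero, add_zero, sub_self] at hre
  have hcos : 0 < Real.cos (lam / 2) := Real.cos_pos_of_mem_Ioo ⟨by linarith [Real.pi_pos], by linarith⟩
  have hs : Real.sinh u * Real.cos (lam / 2) = 0 := by linarith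
  rcases mul_eq_zero.mp hs with h3 | h3
  · exact hu (Real.sinh_eq_zero.mp h3)
  · exact hcos.ne' h3

/-- **THE CONCRETE EXIT OF THE BLOCK B3 IDENT.** -/
theorem ba120_exit {N : ℕ} [NeZero N] {m : ℕ} (h2 : 2 * (m + 1) ≤ N)
    {J : Set ℝ} (hJo : IsOpen J) (hJc : IsPreconnected J) (hπ : Real.pi / 2 ∈ J) (hJ : J ⊆ Set.Ioo 0 Real.pi)
    {y : ℝ → Fin (m + 1) → ℝ} (hy : ContinuousOn y J)
    (hBE : ∀ lam ∈ J, ∀ j : Fin (m + 1),
      (N : ℝ) * ba3x130_phi lam (y lam j) - ∑ l, ba3x130_phi (2 * lam) (y lam j - y lam l)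
        = 2 * Real.pi * (((j : ℕ) : ℝ) + 1 - (((m + 1 : ℕ) : ℝ) + 1) / 2))
    (hJac : ∀ lam ∈ J, ∀ v : Fin (m + 1) → ℝ,
      (∀ j, (N : ℝ) * ba230_ker lam (y lam j) * v j - ∑ l, ba230_ker (2 * lam) (y lam j - y lam l) * (v j - v l) = 0) →
        v = 0)
    (hne : ∀ lam ∈ J, ∀ j, y lam j ≠ 0) :
    ∀ lam ∈ J, (ba120Lam ((ba120c lam : ℝ) : ℂ) (fun j => ba3x130_z lam (y lam j))).im = 0 ∧
      ba70Lam (ba120c lam) N (m + 1) = (ba120Lam ((ba120c lam : ℝ) : ℂ) (fun j => ba3x130_z lam (y lam j))).re ∧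
      baF (ba120c lam) N (m + 1) = Real.log (ba120Lam ((ba120c lam : ℝ) : ℂ) (fun j => ba3x130_z lam (y lam j))).re := by
  have hyA : ∀ lam ∈ J, AnalyticAt ℝ y lam := fun lam hl => by
    obtain ⟨h0, h1⟩ := hJ hl
    refine ba120_roots_analyticAt (k := ba120k) (th := ba120th) N
      (fun j : Fin (m + 1) => 2 * Real.pi * (((j : ℕ) : ℝ) + 1 - (((m + 1 : ℕ) : ℝ) + 1) / 2))
      (fun j => ba120_k_analyticAt h0 h1 _) (fun j l => ba120_th_analyticAt h0 h1 _)
      (hy.continuousAt (hJo.mem_nhds hl))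
      (by filter_upwards [hJo.mem_nhds hl] with s hs using hBE s hs) ?_
    intro v hv
    refine hJac lam hl v fun j => ?_
    have h3 := hv j
    simp only [ba120_D2_k h0 h1, ba120_D2_th h0 h1] at h3
    have h4 : 2 * Real.pi * ((N : ℝ) * ba230_ker lam (y lam j) * v j
        - ∑ l, ba230_ker (2 * lam) (y lam j - y lam l) * (v j - v l)) = 0 := by
      rw [mul_sub, Finset.mul_sum]
      rw [← h3]
      congr 1
      · ring
      · exact Finset.sum_congr rfl fun l _ => by ring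
    have hpi : (2 * Real.pi) ≠ 0 := by positivity
    exact (mul_eq_zero.mp h4).resolve_left hpi
  have hmain := b1w160_wired (L := N) (m := m) h2 hJc hπ (fun lam hl => ba120_c_pos (hJ hl).1 (hJ hl).2)
    (z := fun lam j => ba3x130_z lam (y lam j))
    (fun j lam hl => by
      have := ba120_z_analyticAt (k := ba120k) (hyA lam hl) j (ba120_k_analyticAt (hJ hl).1 (hJ hl).2 _)
      simpa only [ba120_z_eq] using this)
    (fun lam hl j => ba120_z_ne_one (hJ hl).1 (hJ hl).2 (hne lam hl j))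
    ?_
    (fun lam hl => ba3x130_BE (hJ hl).1 (hJ hl).2 (y lam) (hBE lam hl))
  · exact hmain
  · funext j
    have h1 := hBE _ hπ j
    have hz : ∀ u, ba3x130_phi (2 * (Real.pi / 2)) u = 0 := fun u => ba120_th_seed u
    simp only [hz, Finset.sum_const_zero, sub_zero] at h1
    have hN : (N : ℝ) ≠ 0 := by exact_mod_cast NeZero.ne N
    have h3 : ba3x130_phi (Real.pi / 2) (y (Real.pi / 2) j)
        = 2 * Real.pi * (((j : ℕ) : ℝ) + 1 - (((m + 1 : ℕ) : ℝ) + 1) / 2) / N := by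
      rw [eq_div_iff hN, mul_comm]; exact h1
    unfold ba3x130_z ba120Z0
    rw [h3]
    congr 1
    push_cast
    ring

end Claimed.Agent.R292
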