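import Claimed.Agent.R292.Bethe.Ba3Roots130
import Claimed.Agent.R292.Bethe.BA3x80

/-!
# Row 292, unit BETHE, leaf INST-NEG (order D-4 of helper180)   (helper130, prefix `in130_`)

The attractive side `π/2 ≤ μ ≤ b < π` (`K = ba230_ker (2 μ) ≤ 0`, i.e. `c ≤ √2`): the abstract theorem `ba3x80_roots_neg`
of helper80 applied to `S μ u = phi μ u / (2π)`, `Θ μ u = phi (2 μ) u / (2π)`, `s = ba230_ker μ`, `K = ba230_ker (2 μ)`,
`Lr = N`, `I j = j - m / 2` (`n = m + 1` roots, `2 m < N`).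

Sub- and supersolution: the staircases `∓ (Y + (m - j) Y)`, `Y + j Y` with `Y` large (constants do NOT work when `m / N ≥ 1 - b / π`).
Output in the shape consumed by `ba120_exit`.
-/

set_option autoImplicit false

namespace Claimed.Agent.R292

open Set Filter Topology
open scoped ContDiff

/-! ## the four functions -/

noncomputable def in130_S (μ u : ℝ) : ℝ := ba3x130_phi μ u / (2 * Real.pi)
noncomputable def in130_Th (μ u : ℝ) : ℝ := ba3x130_phi (2 * μ) u / (2 * Real.pi)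
noncomputable def in130_s (μ u : ℝ) : ℝ := ba230_ker μ u
noncomputable def in130_K (μ u : ℝ) : ℝ := ba230_ker (2 * μ) u
noncomputable def in130_I (m : ℕ) (j : Fin (m + 1)) : ℝ := ((j : ℕ) : ℝ) - (m : ℝ) / 2

theorem in130_S_contDiffAt {μ : ℝ} (h0 : 0 < μ) (h1 : μ < 2 * Real.pi) (u : ℝ) :
    ContDiffAt ℝ ω (fun q : ℝ × ℝ => in130_S q.1 q.2) (μ, u) :=
  (ba3x130_phi_contDiffAt h0 h1 u).div_const _

theorem in130_Th_contDiffAt {μ : ℝ} (h0 : 0 < μ) (h1 : μ < Real.pi) (u : ℝ) :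
    ContDiffAt ℝ ω (fun q : ℝ × ℝ => in130_Th q.1 q.2) (μ, u) := by
  have h := ba3x130_phi_contDiffAt (n := ω) (a := 2 * μ) (by linarith) (by linarith) u
  have h2 : ContDiffAt ℝ ω (fun q : ℝ × ℝ => ((2 * q.1, q.2) : ℝ × ℝ)) (μ, u) :=
    (contDiffAt_const.mul contDiffAt_fst).prodMk contDiffAt_snd
  exact (ContDiffAt.comp (μ, u) (f := fun q : ℝ × ℝ => ((2 * q.1, q.2) : ℝ × ℝ)) h h2).div_const _

theorem in130_S_hasDerivAt {μ : ℝ} (h0 : 0 < μ) (h1 : μ < 2 * Real.pi) (u : ℝ) :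
    HasDerivAt (in130_S μ) (in130_s μ u) u := by
  have h := (ba3x130_phi_hasDerivAt h0 h1 u).div_const (2 * Real.pi)
  have e : 2 * Real.pi * ba230_ker μ u / (2 * Real.pi) = in130_s μ u := by
    unfold in130_s
    have := Real.pi_pos.ne'
    field_simp
  rw [e] at h
  exact h

theorem in130_Th_hasDerivAt {μ : ℝ} (h0 : 0 < μ) (h1 : μ < Real.pi) (u : ℝ) :
    HasDerivAt (in130_Th μ) (in130_K μ u) u := by
  have h := (ba3x130_phi_hasDerivAt (a := 2 * μ) (by linarith) (by linarith) u).div_const (2 * Real.pi)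
  have e : 2 * Real.pi * ba230_ker (2 * μ) u / (2 * Real.pi) = in130_K μ u := by
    unfold in130_K
    have := Real.pi_pos.ne'
    field_simp
  rw [e] at h
  exact h

theorem in130_K_nonpos {μ : ℝ} (h0 : Real.pi / 2 ≤ μ) (h1 : μ < Real.pi) (u : ℝ) : in130_K μ u ≤ 0 := by
  unfold in130_K
  rcases h0.lt_or_eq with h | h
  · exact (ba3x130_ker_neg (a := 2 * μ) (by linarith) (by linarith) u).le
  · have : 2 * μ = Real.pi := by linarith
    rw [this]
    unfold ba230_ker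
    simp

/-- the Bethe map of helper80 in the normalisation of `ba120_exit`. -/
theorem in130_F_eq {m : ℕ} (N : ℝ) (μ : ℝ) (y : Fin (m + 1) → ℝ) (j : Fin (m + 1)) :
    ba3x80_F N in130_S in130_Th (in130_I m) (μ, y) j
      = (N * ba3x130_phi μ (y j) - ∑ k, ba3x130_phi (2 * μ) (y j - y k)
          - 2 * Real.pi * (((j : ℕ) : ℝ) - (m : ℝ) / 2)) / (2 * Real.pi) := by
  have hpi := Real.pi_pos.ne'
  simp only [ba3x80_F, in130_S, in130_Th, in130_I]
  rw [← Finset.sum_div]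
  field_simp

/-- the logarithmic Bethe map in the `2π` normalisation. -/
noncomputable def in130_G {m : ℕ} (N μ : ℝ) (y : Fin (m + 1) → ℝ) (j : Fin (m + 1)) : ℝ :=
  N * ba3x130_phi μ (y j) - ∑ k, ba3x130_phi (2 * μ) (y j - y k) - 2 * Real.pi * (((j : ℕ) : ℝ) - (m : ℝ) / 2)

theorem in130_F_eq_G {m : ℕ} (N μ : ℝ) (y : Fin (m + 1) → ℝ) (j : Fin (m + 1)) :
    ba3x80_F N in130_S in130_Th (in130_I m) (μ, y) j = in130_G N μ y j / (2 * Real.pi) :=
  in130_F_eq N μ y j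

/-- reflection `y ↦ - y ∘ rev`. -/
theorem in130_G_reflect {m : ℕ} (N μ : ℝ) (y : Fin (m + 1) → ℝ) (j : Fin (m + 1)) :
    in130_G N μ (fun i => -y (Fin.rev i)) j = -in130_G N μ y (Fin.rev j) := by
  unfold in130_G
  have h1 : ∑ k, ba3x130_phi (2 * μ) (-y (Fin.rev j) - -y (Fin.rev k))
      = -∑ k, ba3x130_phi (2 * μ) (y (Fin.rev j) - y k) := by
    rw [← Equiv.sum_comp Fin.revPerm (fun k => ba3x130_phi (2 * μ) (y (Fin.rev j) - y k)), ← Finset.sum_neg_distrib]
    refine Finset.sum_congr rfl fun k _ => ?_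
    have e : -y (Fin.rev j) - -y (Fin.rev k) = -(y (Fin.rev j) - y (Fin.rev k)) := by ring
    rw [e, ba3x130_phi_neg]
    rfl
  have h2 : (((Fin.rev j : Fin (m + 1)) : ℕ) : ℝ) = (m : ℝ) - ((j : ℕ) : ℝ) := by
    have hj := j.2
    have : ((Fin.rev j : Fin (m + 1)) : ℕ) = m - (j : ℕ) := by rw [Fin.val_rev]; omega
    rw [this, Nat.cast_sub (by omega)]
  rw [h1, ba3x130_phi_neg, h2]
  ring

/-! ## tails -/

theorem in130_arctan_sub_le (x y : ℝ) : |Real.arctan x - Real.arctan y| ≤ |x - y| := by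
  have h := Convex.norm_image_sub_le_of_norm_deriv_le (f := Real.arctan) (C := 1) (s := Set.univ)
    (fun x _ => Real.differentiableAt_arctan x)
    (fun x _ => by
      rw [Real.deriv_arctan, Real.norm_eq_abs, abs_of_pos (by positivity)]
      rw [div_le_one (by positivity)]
      nlinarith [sq_nonneg x])
    convex_univ (Set.mem_univ y) (Set.mem_univ x)
  simpa [Real.norm_eq_abs] using h

theorem in130_tail {a : ℝ} (h0 : 0 < a) (h1 : a < 2 * Real.pi) (u : ℝ) :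
    |(Real.pi - a) - ba3x130_phi a u| ≤ 2 * |Real.cos (a / 2) / Real.sin (a / 2)| * (1 - Real.tanh u) := by
  have hcot := ba3x130_arctan_cot h0 h1
  set C := Real.cos (a / 2) / Real.sin (a / 2) with hC
  have e : (Real.pi - a) - ba3x130_phi a u = 2 * (Real.arctan C - Real.arctan (C * Real.tanh u)) := by
    unfold ba3x130_phi
    rw [← hC, hcot]; ring
  rw [e, abs_mul, abs_of_pos (by norm_num : (0 : ℝ) < 2)]
  have h2 := in130_arctan_sub_le C (C * Real.tanh u)
  have h3 : |C - C * Real.tanh u| = |C| * (1 - Real.tanh u) := by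
    have : C - C * Real.tanh u = C * (1 - Real.tanh u) := by ring
    have h4 : |1 - Real.tanh u| = 1 - Real.tanh u := abs_of_pos (by linarith [Real.tanh_lt_one u])
    rw [this, abs_mul, h4]
  rw [h3] at h2
  linarith

theorem in130_cot_half_le {μ : ℝ} (h0 : Real.pi / 2 ≤ μ) (h1 : μ < Real.pi) :
    |Real.cos (μ / 2) / Real.sin (μ / 2)| ≤ 1 := by
  have hs : 0 < Real.sin (μ / 2) := Real.sin_pos_of_pos_of_lt_pi (by linarith [Real.pi_pos]) (by linarith)
  have hc : 0 ≤ Real.cos (μ / 2) := Real.cos_nonneg_of_mem_Icc ⟨by linarith [Real.pi_pos], by linarith⟩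
  rw [abs_of_nonneg (div_nonneg hc hs.le), div_le_one hs]
  have e : Real.cos (μ / 2) = Real.sin (Real.pi / 2 - μ / 2) := (Real.sin_pi_div_two_sub _).symm
  rw [e]
  exact Real.sin_le_sin_of_le_of_le_pi_div_two (by linarith) (by linarith) (by linarith)

theorem in130_sin_ge {μ b : ℝ} (h0 : Real.pi / 2 ≤ μ) (h1 : μ ≤ b) (hb : b < Real.pi) :
    Real.sin b ≤ Real.sin μ := by
  rw [← Real.sin_pi_sub b, ← Real.sin_pi_sub μ]
  exact Real.sin_le_sin_of_le_of_le_pi_div_two (by linarith) (by linarith) (by linarith)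

theorem in130_cot_le {μ b : ℝ} (h0 : Real.pi / 2 ≤ μ) (h1 : μ ≤ b) (hb : b < Real.pi) :
    |Real.cos (2 * μ / 2) / Real.sin (2 * μ / 2)| ≤ 1 / Real.sin b := by
  have e : 2 * μ / 2 = μ := by ring
  rw [e]
  have hsb : 0 < Real.sin b := Real.sin_pos_of_pos_of_lt_pi (by linarith [Real.pi_pos]) hb
  have hs := in130_sin_ge h0 h1 hb
  have hsμ : 0 < Real.sin μ := lt_of_lt_of_le hsb hs
  rw [abs_div, abs_of_pos hsμ]
  exact div_le_div₀ zero_le_one (Real.abs_cos_le_one μ) hsb hs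

theorem in130_theta_antitone {μ : ℝ} (h0 : Real.pi / 2 ≤ μ) (h1 : μ < Real.pi) :
    Antitone (ba3x130_phi (2 * μ)) := by
  have hpos : 0 < μ := by linarith [Real.pi_pos]
  apply antitone_of_deriv_nonpos
    (fun u => (ba3x130_phi_hasDerivAt (a := 2 * μ) (by linarith) (by linarith) u).differentiableAt)
  intro u
  rw [(ba3x130_phi_hasDerivAt (a := 2 * μ) (by linarith) (by linarith) u).deriv]
  exact mul_nonpos_of_nonneg_of_nonpos (by positivity) (in130_K_nonpos h0 h1 u)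

/-! ## the staircase barriers -/

theorem in130_sum_le {m : ℕ} (g : Fin (m + 1) → ℝ) (j : Fin (m + 1)) (A B : ℝ)
    (h1 : ∀ k, k < j → g k ≤ A) (h2 : g j ≤ 0) (h3 : ∀ k, j < k → g k ≤ B) :
    ∑ k, g k ≤ ((j : ℕ) : ℝ) * A + ((m : ℝ) - ((j : ℕ) : ℝ)) * B := by
  have hj := j.2
  have hle : ∀ k ∈ Finset.univ, g k ≤ A * (if k < j then 1 else 0) + B * (if j < k then 1 else 0) := by
    intro k _
    rcases lt_trichotomy k j with h | h | h
    · rw [if_pos h, if_neg (not_lt.2 h.le)]; linarith [h1 k h]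
    · subst h; simp only [lt_irrefl, if_false]; linarith
    · rw [if_neg (not_lt.2 h.le), if_pos h]; linarith [h3 k h]
  refine (Finset.sum_le_sum hle).trans (le_of_eq ?_)
  rw [Finset.sum_add_distrib, ← Finset.mul_sum, ← Finset.mul_sum, Finset.sum_boole, Finset.sum_boole]
  have e1 : (Finset.univ.filter (fun k : Fin (m + 1) => k < j)) = Finset.Iio j := by ext k; simp
  have e2 : (Finset.univ.filter (fun k : Fin (m + 1) => j < k)) = Finset.Ioi j := by ext k; simp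
  rw [e1, e2, Fin.card_Iio, Fin.card_Ioi]
  have e3 : ((m + 1 - 1 - (j : ℕ) : ℕ) : ℝ) = (m : ℝ) - ((j : ℕ) : ℝ) := by
    rw [Nat.add_sub_cancel, Nat.cast_sub (by omega)]
  rw [e3]
  ring

/-- the staircase `(j + 1) Y`. -/
noncomputable def in130_yp (m : ℕ) (Y : ℝ) (j : Fin (m + 1)) : ℝ := (((j : ℕ) : ℝ) + 1) * Y

/-- **supersolution.** -/
theorem in130_super {m : ℕ} {N b Y : ℝ} (hb : b < Real.pi) (hY : 0 ≤ Y) (hN : 0 ≤ N)
    (hYb : 2 * (1 - Real.tanh Y) * (N + m / Real.sin b) ≤ (N - 2 * m) * (Real.pi - b))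
    (hNm : 2 * (m : ℝ) ≤ N)
    {μ : ℝ} (h0 : Real.pi / 2 ≤ μ) (h1 : μ ≤ b) (j : Fin (m + 1)) :
    0 ≤ in130_G N μ (in130_yp m Y) j := by
  have hj : ((j : ℕ) : ℝ) ≤ m := by
    have := j.2
    exact_mod_cast Nat.lt_succ_iff.1 this
  have hj0 : (0 : ℝ) ≤ ((j : ℕ) : ℝ) := Nat.cast_nonneg _
  have hμpi : μ < Real.pi := lt_of_le_of_lt h1 hb
  have hμ0 : 0 < μ := by linarith [Real.pi_pos]
  have hsb : 0 < Real.sin b := Real.sin_pos_of_pos_of_lt_pi (by linarith) hb
  set ε := 1 - Real.tanh Y with hε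
  have hε0 : 0 < ε := by rw [hε]; linarith [Real.tanh_lt_one Y]
  -- (1) the momentum term
  have hk1 : (Real.pi - μ) - 2 * ε ≤ ba3x130_phi μ Y := by
    have h := in130_tail hμ0 (by linarith) Y
    have h2 := in130_cot_half_le h0 hμpi
    have h3 : 2 * |Real.cos (μ / 2) / Real.sin (μ / 2)| * (1 - Real.tanh Y) ≤ 2 * ε := by
      rw [← hε]; nlinarith
    linarith [(abs_le.1 (h.trans h3)).2]
  have hk2 : ba3x130_phi μ Y ≤ ba3x130_phi μ (in130_yp m Y j) := by
    apply (ba3x130_phi_strictMono hμ0 hμpi).monotone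
    unfold in130_yp
    nlinarith
  -- (2) the phases
  have hth1 : ba3x130_phi (2 * μ) Y ≤ (Real.pi - 2 * μ) + 2 * ε / Real.sin b := by
    have h := in130_tail (a := 2 * μ) (by linarith) (by linarith) Y
    have h2 := in130_cot_le h0 h1 hb
    have h3 : 2 * |Real.cos (2 * μ / 2) / Real.sin (2 * μ / 2)| * (1 - Real.tanh Y) ≤ 2 * ε / Real.sin b := by
      rw [← hε]
      have : 2 * ε / Real.sin b = 2 * (1 / Real.sin b) * ε := by ring
      rw [this]
      nlinarith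
    linarith [(abs_le.1 (h.trans h3)).1]
  have hanti := in130_theta_antitone h0 hμpi
  have hsum := in130_sum_le (fun k => ba3x130_phi (2 * μ) (in130_yp m Y j - in130_yp m Y k)) j
    ((Real.pi - 2 * μ) + 2 * ε / Real.sin b) (2 * μ - Real.pi)
    (by
      intro k hk
      refine le_trans (hanti ?_) hth1
      unfold in130_yp
      have hkj : ((k : ℕ) : ℝ) + 1 ≤ ((j : ℕ) : ℝ) := by
        have : (k : ℕ) + 1 ≤ (j : ℕ) := hk
        exact_mod_cast this
      nlinarith)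
    (by simp [ba3x130_phi_zero])
    (by
      intro k _
      have h := ba3x130_abs_phi_le (a := 2 * μ) (by linarith) (by linarith) (in130_yp m Y j - in130_yp m Y k)
      have e : |Real.pi - 2 * μ| = 2 * μ - Real.pi := by
        rw [abs_of_nonpos (by linarith)]; ring
      rw [e] at h
      exact (le_abs_self _).trans h)
  unfold in130_G
  have hδ : 0 ≤ 2 * ε / Real.sin b := by positivity
  have hmain : (Real.pi - b) * (N - 2 * m) ≤ (Real.pi - μ) * (N - 2 * (2 * ((j : ℕ) : ℝ) - m)) := by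
    have a1 : Real.pi - b ≤ Real.pi - μ := by linarith
    have a2 : N - 2 * m ≤ N - 2 * (2 * ((j : ℕ) : ℝ) - m) := by linarith
    have a3 : 0 ≤ N - 2 * (m : ℝ) := by linarith
    have a4 : 0 ≤ Real.pi - μ := by linarith
    nlinarith
  have hNk : N * ((Real.pi - μ) - 2 * ε) ≤ N * ba3x130_phi μ (in130_yp m Y j) :=
    mul_le_mul_of_nonneg_left (hk1.trans hk2) hN
  have hjδ : ((j : ℕ) : ℝ) * (2 * ε / Real.sin b) ≤ (m : ℝ) * (2 * ε / Real.sin b) :=
    mul_le_mul_of_nonneg_right hj hδ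
  have hYb' : 2 * ε * N + (m : ℝ) * (2 * ε / Real.sin b) ≤ (N - 2 * m) * (Real.pi - b) := by
    have : 2 * ε * (N + m / Real.sin b) = 2 * ε * N + (m : ℝ) * (2 * ε / Real.sin b) := by ring
    linarith
  nlinarith

/-- the mirrored staircase. -/
noncomputable def in130_ym (m : ℕ) (Y : ℝ) (j : Fin (m + 1)) : ℝ := -in130_yp m Y (Fin.rev j)

/-- **subsolution.** -/
theorem in130_sub {m : ℕ} {N b Y : ℝ} (hb : b < Real.pi) (hY : 0 ≤ Y) (hN : 0 ≤ N)
    (hYb : 2 * (1 - Real.tanh Y) * (N + m / Real.sin b) ≤ (N - 2 * m) * (Real.pi - b))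
    (hNm : 2 * (m : ℝ) ≤ N)
    {μ : ℝ} (h0 : Real.pi / 2 ≤ μ) (h1 : μ ≤ b) (j : Fin (m + 1)) :
    in130_G N μ (in130_ym m Y) j ≤ 0 := by
  have h := in130_G_reflect N μ (in130_yp m Y) j
  have h2 := in130_super hb hY hN hYb hNm h0 h1 (Fin.rev j)
  have e : in130_ym m Y = fun i => -in130_yp m Y (Fin.rev i) := rfl
  rw [e, h]
  linarith

theorem in130_exists_Y {m : ℕ} {N b : ℝ} (hb0 : 0 < b) (hb : b < Real.pi) (hNm : 2 * (m : ℝ) < N) :
    ∃ Y : ℝ, 0 ≤ Y ∧ 2 * (1 - Real.tanh Y) * (N + m / Real.sin b) ≤ (N - 2 * m) * (Real.pi - b) := by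
  have hsb : 0 < Real.sin b := Real.sin_pos_of_pos_of_lt_pi hb0 hb
  have hm0 : (0 : ℝ) ≤ m := Nat.cast_nonneg _
  have hA : 0 < 2 * (N + m / Real.sin b) := by
    have : 0 ≤ (m : ℝ) / Real.sin b := by positivity
    linarith
  have hR : 0 < (N - 2 * m) * (Real.pi - b) := mul_pos (by linarith) (by linarith)
  set η := (N - 2 * m) * (Real.pi - b) / (2 * (N + m / Real.sin b)) with hη
  have hη0 : 0 < η := div_pos hR hA
  have hev := (ba3x130_tendsto_tanh_atTop.eventually (lt_mem_nhds (show 1 - η < 1 by linarith))).and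
    (eventually_ge_atTop (0 : ℝ))
  obtain ⟨Y, hY1, hY0⟩ := hev.exists
  refine ⟨Y, hY0, ?_⟩
  have h1 : 1 - Real.tanh Y ≤ η := by linarith
  calc 2 * (1 - Real.tanh Y) * (N + m / Real.sin b) = (1 - Real.tanh Y) * (2 * (N + m / Real.sin b)) := by ring
    _ ≤ η * (2 * (N + m / Real.sin b)) := mul_le_mul_of_nonneg_right h1 hA.le
    _ = (N - 2 * m) * (Real.pi - b) := by rw [hη]; exact div_mul_cancel₀ _ hA.ne'

/-! ## the seed -/

theorem in130_seed {m : ℕ} {N : ℝ} (hNm : 2 * (m : ℝ) < N) :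
    ∃ y : Fin (m + 1) → ℝ, ∀ j, in130_G N (Real.pi / 2) y j = 0 := by
  have hN : 0 < N := lt_of_le_of_lt (by positivity) hNm
  have hpi := Real.pi_pos
  have hex : ∀ j : Fin (m + 1), ∃ u, ba3x130_phi (Real.pi / 2) u = 2 * Real.pi * (((j : ℕ) : ℝ) - (m : ℝ) / 2) / N := by
    intro j
    have hj : ((j : ℕ) : ℝ) ≤ m := by
      have := j.2
      exact_mod_cast Nat.lt_succ_iff.1 this
    have hj0 : (0 : ℝ) ≤ ((j : ℕ) : ℝ) := Nat.cast_nonneg _
    apply ba3x130_phi_surj (by linarith) (by linarith)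
    · rw [lt_div_iff₀ hN]; nlinarith
    · rw [div_lt_iff₀ hN]; nlinarith
  choose y hy using hex
  refine ⟨y, fun j => ?_⟩
  unfold in130_G
  simp only [ba3x130_phi_pi, Finset.sum_const_zero, sub_zero]
  rw [hy j]
  field_simp
  ring

/-! ## consequences of being a zero -/

/-- a zero is strictly ordered. -/
theorem in130_strictMono {m : ℕ} {N μ : ℝ} (hN : 0 < N) (h0 : Real.pi / 2 ≤ μ) (h1 : μ < Real.pi)
    {y : Fin (m + 1) → ℝ} (hy : ∀ j, in130_G N μ y j = 0) : StrictMono y := by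
  have hμ0 : 0 < μ := by linarith [Real.pi_pos]
  have hS := ba3x130_phi_strictMono hμ0 h1
  have hT := in130_theta_antitone h0 h1
  intro i j hij
  by_contra hcon
  rw [not_lt] at hcon
  have hi := hy i
  have hj := hy j
  unfold in130_G at hi hj
  have h2 : ba3x130_phi μ (y j) ≤ ba3x130_phi μ (y i) := hS.monotone hcon
  have h3 : ∑ k, ba3x130_phi (2 * μ) (y i - y k) ≤ ∑ k, ba3x130_phi (2 * μ) (y j - y k) :=
    Finset.sum_le_sum fun k _ => hT (by linarith)
  have h4 : ((i : ℕ) : ℝ) < ((j : ℕ) : ℝ) := by exact_mod_cast hij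
  have h5 : N * ba3x130_phi μ (y j) ≤ N * ba3x130_phi μ (y i) := mul_le_mul_of_nonneg_left h2 hN.le
  nlinarith [Real.pi_pos]

/-- injectivity of the Jacobian, in the shape `hJac` of `ba120_exit`. -/
theorem in130_jac {m : ℕ} {N μ : ℝ} (hN : 0 < N) (h0 : Real.pi / 2 ≤ μ) (h1 : μ < Real.pi)
    (y v : Fin (m + 1) → ℝ)
    (hv : ∀ j, N * ba230_ker μ (y j) * v j - ∑ l, ba230_ker (2 * μ) (y j - y l) * (v j - v l) = 0) : v = 0 :=
  ba3x80_inj_neg (fun j => N * ba230_ker μ (y j)) (fun j k => ba230_ker (2 * μ) (y j - y k))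
    (fun j => mul_pos hN (ba3x130_ker_pos (by linarith [Real.pi_pos]) h1 _))
    (fun j k => in130_K_nonpos h0 h1 _) v hv

/-- the derivative of the counting function dominates `N s > 0`. -/
theorem in130_rho_ge {m : ℕ} {N μ : ℝ} (h0 : Real.pi / 2 ≤ μ) (h1 : μ < Real.pi)
    (y : Fin (m + 1) → ℝ) (u : ℝ) :
    N * ba230_ker μ u ≤ ba3x80_rho N in130_s in130_K μ y u := by
  unfold ba3x80_rho
  have : ∑ k, in130_K μ (u - y k) ≤ 0 := Finset.sum_nonpos fun k _ => in130_K_nonpos h0 h1 _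
  show N * ba230_ker μ u ≤ N * ba230_ker μ u - _
  linarith

/-! ## INST-NEG -/

/-- **INST-NEG** in the vocabulary of this file: the branch of Bethe roots on `[π/2, b]` (`K ≤ 0`), all `2 m < N`. -/
theorem in130_inst_neg_aux {N m : ℕ} {b : ℝ} (hb1 : Real.pi / 2 ≤ b) (hb : b < Real.pi) (hNm : 2 * m < N) :
    ∃ y : ℝ → Fin (m + 1) → ℝ,
      (∀ t ∈ Icc (Real.pi / 2) b,
        ba3x80_F N in130_S in130_Th (in130_I m) (t, y t) = 0 ∧
        ∀ z, ba3x80_F N in130_S in130_Th (in130_I m) (t, z) = 0 → z = y t) ∧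
      ContinuousOn y (Icc (Real.pi / 2) b) ∧ ∀ t ∈ Ioc (Real.pi / 2) b, ContDiffAt ℝ ω y t := by
  have hpi := Real.pi_pos
  have h2pi : (0 : ℝ) < 2 * Real.pi := by positivity
  set b' : ℝ := (b + Real.pi) / 2 with hb'
  have hbb' : b < b' := by rw [hb']; linarith
  have hb'pi : b' < Real.pi := by rw [hb']; linarith
  have hNmR : 2 * (m : ℝ) < (N : ℝ) := by exact_mod_cast hNm
  have hNR : (0 : ℝ) < (N : ℝ) := lt_of_le_of_lt (by positivity) hNmR
  obtain ⟨Y, hY0, hY⟩ := in130_exists_Y (m := m) (N := (N : ℝ)) (b := b') (by linarith) hb'pi hNmR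
  have r0 : ∀ μ ∈ Icc (Real.pi / 2) b', 0 < μ := fun μ hμ => by linarith [hμ.1]
  have r1 : ∀ μ ∈ Icc (Real.pi / 2) b', μ < Real.pi := fun μ hμ => by linarith [hμ.2]
  obtain ⟨y, hy, hyc, hya⟩ := ba3x80_roots_neg (a := Real.pi / 2) (b := b') (c := Real.pi / 2)
    ⟨le_rfl, by linarith⟩ (N : ℝ) hNR in130_S in130_Th in130_s in130_K (in130_I m)
    (fun μ hμ u => in130_S_contDiffAt (r0 μ hμ) (by linarith [r1 μ hμ]) u)
    (fun μ hμ u => in130_Th_contDiffAt (r0 μ hμ) (r1 μ hμ) u)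
    (fun μ hμ u => in130_S_hasDerivAt (r0 μ hμ) (by linarith [r1 μ hμ]) u)
    (fun μ hμ u => in130_Th_hasDerivAt (r0 μ hμ) (r1 μ hμ) u)
    (fun μ hμ u => ba3x130_ker_pos (r0 μ hμ) (r1 μ hμ) u)
    (fun μ hμ u => in130_K_nonpos hμ.1 (r1 μ hμ) u)
    (in130_ym m Y) (in130_yp m Y)
    (fun μ hμ j => by
      rw [in130_F_eq_G]
      exact div_nonpos_of_nonpos_of_nonneg (in130_sub hb'pi hY0 hNR.le hY hNmR.le hμ.1 hμ.2 j) h2pi.le)
    (fun μ hμ j => by
      rw [in130_F_eq_G]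
      exact div_nonneg (in130_super hb'pi hY0 hNR.le hY hNmR.le hμ.1 hμ.2 j) h2pi.le)
    (by
      obtain ⟨y0, hy0⟩ := in130_seed (m := m) (N := (N : ℝ)) hNmR
      refine ⟨y0, funext fun j => ?_⟩
      rw [in130_F_eq_G, hy0 j]
      simp)
  have hsub : Icc (Real.pi / 2) b ⊆ Icc (Real.pi / 2) b' := Icc_subset_Icc le_rfl hbb'.le
  refine ⟨y, fun t ht => ⟨(hy t (hsub ht)).1, (hy t (hsub ht)).2.2.2⟩, hyc.mono hsub, fun t ht => ?_⟩
  exact hya t ⟨ht.1, lt_of_le_of_lt ht.2 hbb'⟩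

theorem in130_zero_iff {m : ℕ} (N μ : ℝ) (y : Fin (m + 1) → ℝ) :
    ba3x80_F N in130_S in130_Th (in130_I m) (μ, y) = 0 ↔ ∀ j, in130_G N μ y j = 0 := by
  have h2pi : (2 * Real.pi) ≠ 0 := by positivity
  constructor
  · intro h j
    have := congrFun h j
    rw [in130_F_eq_G] at this
    simpa [h2pi] using this
  · intro h
    funext j
    rw [in130_F_eq_G, h j]
    simp

/-- **INST-NEG**, same shape as `ba3x80_inst_pos` (helper80) and as the input of `ba120_final` (helper120):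
`S Th I` are free up to the pointwise equations (`fun _ _ => rfl` for `ba3x80_S`, `ba3x80_Th`, `fun _ => rfl` for `ba3x80_I (m+1)`).
No threshold on `N`: every `2 m < N`. The zero is unique among ALL vectors, and lies between any sub- and supersolution. -/
theorem in130_inst_neg {N m : ℕ} {b : ℝ} (hb1 : Real.pi / 2 ≤ b) (hb : b < Real.pi) (hNm : 2 * m < N)
    {S Th : ℝ → ℝ → ℝ} {I : Fin (m + 1) → ℝ}
    (hS : ∀ t u, S t u = ba3x130_phi t u / (2 * Real.pi))
    (hTh : ∀ t u, Th t u = ba3x130_phi (2 * t) u / (2 * Real.pi))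
    (hI : ∀ j, I j = ((j : ℕ) : ℝ) - (((m + 1 : ℕ) : ℝ) - 1) / 2) :
    ∃ y : ℝ → Fin (m + 1) → ℝ,
      (∀ t ∈ Icc (Real.pi / 2) b,
        ba3x80_F N S Th I (t, y t) = 0 ∧ StrictMono (y t) ∧
        (∀ u, N * ba230_ker t u ≤ ba3x80_rho N ba230_ker (fun t => ba230_ker (2 * t)) t (y t) u) ∧
        (∀ u, 0 < ba3x80_rho N ba230_ker (fun t => ba230_ker (2 * t)) t (y t) u) ∧
        (∀ z : Fin (m + 1) → ℝ, ba3x80_F N S Th I (t, z) = 0 → z = y t) ∧
        (∀ j, y t (Fin.rev j) = -y t j) ∧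
        (∀ v : Fin (m + 1) → ℝ, (∀ j, N * ba230_ker t (y t j) * v j
          - ∑ k, ba230_ker (2 * t) (y t j - y t k) * (v j - v k) = 0) → v = 0) ∧
        (∀ z : Fin (m + 1) → ℝ, (∀ j, 0 ≤ ba3x80_F N S Th I (t, z) j) → y t ≤ z) ∧
        (∀ z : Fin (m + 1) → ℝ, (∀ j, ba3x80_F N S Th I (t, z) j ≤ 0) → z ≤ y t)) ∧
      ContinuousOn y (Icc (Real.pi / 2) b) ∧
      ∀ t ∈ Ioc (Real.pi / 2) b, ContDiffAt ℝ ω y t := by
  have eS : S = in130_S := funext fun t => funext fun u => hS t u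
  have eTh : Th = in130_Th := funext fun t => funext fun u => hTh t u
  have eI : I = in130_I m := funext fun j => by
    rw [hI j]; unfold in130_I; push_cast; ring
  subst eS eTh eI
  have hpi := Real.pi_pos
  have hNmR : 2 * (m : ℝ) < (N : ℝ) := by exact_mod_cast hNm
  have hNR : (0 : ℝ) < (N : ℝ) := lt_of_le_of_lt (by positivity) hNmR
  obtain ⟨y, hy, hyc, hya⟩ := in130_inst_neg_aux hb1 hb hNm
  refine ⟨y, fun t ht => ?_, hyc, hya⟩
  obtain ⟨hz, hu⟩ := hy t ht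
  have ht0 : 0 < t := by linarith [ht.1]
  have ht1 : t < Real.pi := lt_of_le_of_lt ht.2 hb
  have hG := (in130_zero_iff (N : ℝ) t (y t)).1 hz
  have hSm : StrictMono (in130_S t) := by
    intro u v huv
    unfold in130_S
    exact div_lt_div_of_pos_right (ba3x130_phi_strictMono ht0 ht1 huv) (by positivity)
  have hTa : Antitone (in130_Th t) := by
    intro u v huv
    unfold in130_Th
    exact div_le_div_of_nonneg_right (in130_theta_antitone ht.1 ht1 huv) (by positivity)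
  have hrho := in130_rho_ge (N := (N : ℝ)) ht.1 ht1 (y t)
  refine ⟨hz, in130_strictMono hNR ht.1 ht1 hG, hrho, fun u => ?_, hu, fun j => ?_,
    fun v hv => in130_jac hNR ht.1 ht1 (y t) v hv, fun z hzz => ?_, fun z hzz => ?_⟩
  · exact lt_of_lt_of_le (mul_pos hNR (ba3x130_ker_pos ht0 ht1 u)) (hrho u)
  · have hrefl : ba3x80_F N in130_S in130_Th (in130_I m) (t, fun i => -y t (Fin.rev i)) = 0 := by
      rw [in130_zero_iff]
      intro i
      rw [in130_G_reflect, hG (Fin.rev i), neg_zero]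
    have h := congrFun (hu _ hrefl) (Fin.rev j)
    simp only [Fin.rev_rev] at h
    linarith
  · apply ba3x80_comparison (N : ℝ) hNR in130_S in130_Th (in130_I m) t hSm hTa
    intro j
    rw [hz]
    exact hzz j
  · apply ba3x80_comparison (N : ℝ) hNR in130_S in130_Th (in130_I m) t hSm hTa
    intro j
    rw [hz]
    exact hzz j

end Claimed.Agent.R292
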