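import Claimed.Agent.R292.Bethe.BA4Icc120
import Claimed.Agent.R292.Bethe.BA3i80
import Claimed.Agent.R292.Bethe.InstNeg130

/-!
# Row 292, unit BETHE, block B3 IDENT: the exit in the shape of the consumers   (helper120, prefix `ba120_`)

Input  = the output of `ba3x80_roots_pos` / `ba3x80_roots_neg` (a continuous branch of zeros of the logarithmic
Bethe map `ba3x80_F` on a closed segment having the free-fermion point `π/2` as a point (possibly an endpoint),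
analytic inside), which is symmetric and strictly increasing, with an even number of roots.

Output = `baF (2 cos (lam/2)) N n = log 2 + ∑ j, e0 lam (y lam j)`.
-/

set_option autoImplicit false

namespace Claimed.Agent.R292

open Filter Topology Finset

/-- a symmetric strictly increasing family with an even number of points avoids `0` -/
theorem ba120_ne_zero_of_symm {n : ℕ} (hn : Even n) {u : Fin n → ℝ} (hu : StrictMono u)
    (hsym : ∀ j, u (Fin.rev j) = -u j) (j : Fin n) : u j ≠ 0 := by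
  intro h0
  have h1 : u (Fin.rev j) = u j := by rw [hsym j, h0, neg_zero]
  have h2 : Fin.rev j = j := hu.injective h1
  have h3 : ((Fin.rev j : Fin n) : ℕ) = (j : ℕ) := by rw [h2]
  rw [Fin.val_rev] at h3
  obtain ⟨k, hk⟩ := hn
  have := j.2
  omega

/-- the zero of the logarithmic Bethe map of 80, in the normalisation of `ba3x130_BE` -/
theorem ba120_BE_of_F {n : ℕ} {Lr : ℝ} {S Θ : ℝ → ℝ → ℝ} {I : Fin n → ℝ}
    (hS : ∀ t u, S t u = ba3x130_phi t u / (2 * Real.pi))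
    (hΘ : ∀ t u, Θ t u = ba3x130_phi (2 * t) u / (2 * Real.pi))
    (hI : ∀ j : Fin n, I j = ((j : ℕ) : ℝ) - ((n : ℝ) - 1) / 2)
    {lam : ℝ} {y : Fin n → ℝ} (hF : ba3x80_F Lr S Θ I (lam, y) = 0) (j : Fin n) :
    Lr * ba3x130_phi lam (y j) - ∑ l, ba3x130_phi (2 * lam) (y j - y l)
      = 2 * Real.pi * (((j : ℕ) : ℝ) + 1 - ((n : ℝ) + 1) / 2) := by
  have h1 : ba3x80_F Lr S Θ I (lam, y) j = 0 := by rw [hF]; rfl
  unfold ba3x80_F at h1
  simp only [hS, hΘ, hI] at h1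
  rw [← Finset.sum_div] at h1
  have hpi : (2 * Real.pi) ≠ 0 := by positivity
  field_simp at h1
  linarith

/-- **THE EXIT OF B3 (final shape).** -/
theorem ba120_final {N : ℕ} [NeZero N] {m : ℕ} (h2 : 2 * (m + 1) ≤ N) (hev : Even (m + 1)) {a b : ℝ} (hab : a < b)
    (hπ : Real.pi / 2 ∈ Set.Icc a b) (ha : 0 < a) (hb : b < Real.pi)
    {S Θ : ℝ → ℝ → ℝ} {I : Fin (m + 1) → ℝ}
    (hS : ∀ t u, S t u = ba3x130_phi t u / (2 * Real.pi))
    (hΘ : ∀ t u, Θ t u = ba3x130_phi (2 * t) u / (2 * Real.pi))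
    (hI : ∀ j : Fin (m + 1), I j = ((j : ℕ) : ℝ) - (((m + 1 : ℕ) : ℝ) - 1) / 2)
    {y : ℝ → Fin (m + 1) → ℝ} (hy : ContinuousOn y (Set.Icc a b))
    (hyA : ∀ lam ∈ Set.Ioo a b, ContDiffAt ℝ ⊤ y lam)
    (hF : ∀ lam ∈ Set.Icc a b, ba3x80_F (N : ℝ) S Θ I (lam, y lam) = 0)
    (hmono : ∀ lam ∈ Set.Icc a b, StrictMono (y lam))
    (hsym : ∀ lam ∈ Set.Icc a b, ∀ j, y lam (Fin.rev j) = -y lam j) :
    ∀ lam ∈ Set.Icc a b,
      baF (ba120c lam) N (m + 1) = Real.log 2 + ∑ j, ba230_e0 lam (y lam j) := by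
  have hne : ∀ lam ∈ Set.Icc a b, ∀ j, y lam j ≠ 0 := fun lam hl j =>
    ba120_ne_zero_of_symm hev (hmono lam hl) (hsym lam hl) j
  have hmain := ba120_exit_Icc h2 hab hπ ha hb hy (fun lam hl => (hyA lam hl).analyticAt)
    (fun lam hl j => ba120_BE_of_F hS hΘ hI (hF lam hl) j) hne
  intro lam hl
  obtain ⟨-, h70, hbaF⟩ := hmain lam hl
  have h0 : 0 < lam := lt_of_lt_of_le ha hl.1
  have h1 : lam < Real.pi := lt_of_le_of_lt hl.2 hb
  have hc : 0 < ba120c lam := ba120_c_pos h0 h1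
  have hpos : 0 < (ba120Lam ((ba120c lam : ℝ) : ℂ) (fun j => ba3x130_z lam (y lam j))).re := by
    rw [← h70]
    have := (ba70Lam_spec hc.le N (m + 1) (by omega)).2.1
    linarith
  have hre := ba3x130_Lam_re h0 h1 (y lam) (hsym lam hl) (hne lam hl) hpos
  have hre' : (ba120Lam ((ba120c lam : ℝ) : ℂ) (fun j => ba3x130_z lam (y lam j))).re
      = 2 * Real.exp (∑ j, ba230_E (2 * lam) (y lam j)) := hre
  rw [hbaF, hre', Real.log_mul two_ne_zero (Real.exp_pos _).ne', Real.log_exp]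
  rfl

/-! ## (A) ROOTS of `ba_t3`, side `lam0 ≤ π/2` (`c ≥ √2`): `ba3x80_inst_pos` of 80 + `ba120_final` -/

/-- **the whole branch on `[a, π/2]`, with the identification of the free energy** -/
theorem ba120_roots_pos_branch {a x0 : ℝ} (ha : 0 < a) (ha2 : a < Real.pi / 2) (hx1 : x0 < 1) :
    ∃ N0 : ℕ, ∀ N m : ℕ, N0 ≤ N → 2 * (m : ℝ) ≤ x0 * N → 2 * (m + 1) ≤ N → Even (m + 1) →
      ∃ y : ℝ → Fin (m + 1) → ℝ,
        ∀ t ∈ Set.Icc a (Real.pi / 2),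
          ba3x80_F N ba3x80_S ba3x80_Th (ba3x80_I (m + 1)) (t, y t) = 0 ∧ StrictMono (y t) ∧
          (∀ j, |y t j| ≤ Real.artanh x0) ∧
          (∀ u, N * ba230_rho t u - 15 * (1 / (Real.pi * (1 - Real.cos (2 * a))))
            ≤ ba3x80_rho N ba230_ker (fun t => ba230_ker (2 * t)) t (y t) u) ∧
          (∀ u, |u| ≤ Real.artanh x0 →
            0 < ba3x80_rho N ba230_ker (fun t => ba230_ker (2 * t)) t (y t) u) ∧
          (∀ j, y t (Fin.rev j) = -y t j) ∧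
          baF (ba120c t) N (m + 1) = Real.log 2 + ∑ j, ba230_e0 t (y t j) := by
  obtain ⟨N0, hN0⟩ := ba3x80_inst_pos ha ha2 hx1
  refine ⟨N0, fun N m hN hm h2 hev => ?_⟩
  obtain ⟨y, hy, hyc, hyA⟩ := hN0 N m hN hm
  have : NeZero N := ⟨by omega⟩
  have hfin := ba120_final (N := N) (m := m) h2 hev ha2 ⟨ha2.le, le_refl _⟩ ha
    (by linarith [Real.pi_pos]) (S := ba3x80_S) (Θ := ba3x80_Th) (I := ba3x80_I (m + 1))
    (fun _ _ => rfl) (fun _ _ => rfl) (fun _ => rfl) hyc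
    (fun t ht => hyA t (Set.Ioo_subset_Icc_self ht))
    (fun t ht => (hy t ht).1) (fun t ht => (hy t ht).2.1) (fun t ht => (hy t ht).2.2.2.2.2.2.1)
  refine ⟨y, fun t ht => ?_⟩
  obtain ⟨h1, h2', h3, h4, h5, -, h7, -⟩ := hy t ht
  exact ⟨h1, h2', h3, h4, h5, h7, hfin t ht⟩

/-- **(A) ROOTS at a fixed `lam0 ≤ π/2`, fillings `(m+1)/N ≤ D2 < 1/2`** -/
theorem ba120_roots_pos {lam0 D2 : ℝ} (h0 : 0 < lam0) (h1 : lam0 ≤ Real.pi / 2) (hD : D2 < 1 / 2) :
    ∃ N0 : ℕ, ∀ N m : ℕ, N0 ≤ N → (((m + 1 : ℕ) : ℝ)) ≤ D2 * N → Even (m + 1) →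
      ∃ y : Fin (m + 1) → ℝ,
          ba3x80_F N ba3x80_S ba3x80_Th (ba3x80_I (m + 1)) (lam0, y) = 0 ∧ StrictMono y ∧
          (∀ j, |y j| ≤ Real.artanh (2 * D2)) ∧
          (∀ u, N * ba230_rho lam0 u - 15 * (1 / (Real.pi * (1 - Real.cos lam0)))
            ≤ ba3x80_rho N ba230_ker (fun t => ba230_ker (2 * t)) lam0 y u) ∧
          (∀ u, |u| ≤ Real.artanh (2 * D2) →
            0 < ba3x80_rho N ba230_ker (fun t => ba230_ker (2 * t)) lam0 y u) ∧
          (∀ j, y (Fin.rev j) = -y j) ∧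
          baF (ba120c lam0) N (m + 1) = Real.log 2 + ∑ j, ba230_e0 lam0 (y j) := by
  obtain ⟨N0, hN0⟩ := ba120_roots_pos_branch (a := lam0 / 2) (x0 := 2 * D2) (by linarith)
    (by linarith [Real.pi_pos]) (by linarith)
  refine ⟨N0, fun N m hN hm hev => ?_⟩
  have hNn : (0 : ℝ) ≤ N := Nat.cast_nonneg N
  have hm1 : 2 * (m : ℝ) ≤ 2 * D2 * N := by push_cast at hm; linarith
  have hm2 : 2 * (m + 1) ≤ N := by
    have : (2 : ℝ) * ((m + 1 : ℕ) : ℝ) ≤ N := by nlinarith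
    exact_mod_cast this
  obtain ⟨y, hy⟩ := hN0 N m hN hm1 hm2 hev
  have h := hy lam0 ⟨by linarith, h1⟩
  rw [show 2 * (lam0 / 2) = lam0 by ring] at h
  exact ⟨y lam0, h⟩

/-! ## (A) ROOTS of `ba_t3`, side `π/2 < lam0 < π` (`c < √2`): `in130_inst_neg` of 130 + `ba120_final` -/

/-- **(A) ROOTS at a fixed `π/2 < lam0 < π`: every `N`, every even filling up to `1/2`** -/
theorem ba120_roots_neg {lam0 : ℝ} (h0 : Real.pi / 2 < lam0) (h1 : lam0 < Real.pi) {N m : ℕ}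
    (h2 : 2 * (m + 1) ≤ N) (hev : Even (m + 1)) :
      ∃ y : Fin (m + 1) → ℝ,
          ba3x80_F N ba3x80_S ba3x80_Th (ba3x80_I (m + 1)) (lam0, y) = 0 ∧ StrictMono y ∧
          (∀ u, N * ba230_ker lam0 u ≤ ba3x80_rho N ba230_ker (fun t => ba230_ker (2 * t)) lam0 y u) ∧
          (∀ u, 0 < ba3x80_rho N ba230_ker (fun t => ba230_ker (2 * t)) lam0 y u) ∧
          (∀ z : Fin (m + 1) → ℝ,
            ba3x80_F N ba3x80_S ba3x80_Th (ba3x80_I (m + 1)) (lam0, z) = 0 → z = y) ∧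
          (∀ j, y (Fin.rev j) = -y j) ∧
          baF (ba120c lam0) N (m + 1) = Real.log 2 + ∑ j, ba230_e0 lam0 (y j) := by
  obtain ⟨y, hy, hyc, hyA⟩ := in130_inst_neg (N := N) (m := m) (b := lam0) h0.le h1 (by omega)
    (S := ba3x80_S) (Th := ba3x80_Th) (I := ba3x80_I (m + 1)) (fun _ _ => rfl) (fun _ _ => rfl) (fun _ => rfl)
  have : NeZero N := ⟨by omega⟩
  have hfin := ba120_final (N := N) (m := m) h2 hev h0 ⟨le_refl _, h0.le⟩ (by positivity) h1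
    (S := ba3x80_S) (Θ := ba3x80_Th) (I := ba3x80_I (m + 1))
    (fun _ _ => rfl) (fun _ _ => rfl) (fun _ => rfl) hyc
    (fun t ht => hyA t (Set.Ioo_subset_Ioc_self ht))
    (fun t ht => (hy t ht).1) (fun t ht => (hy t ht).2.1) (fun t ht => (hy t ht).2.2.2.2.2.1)
  have hl : lam0 ∈ Set.Icc (Real.pi / 2) lam0 := ⟨h0.le, le_refl _⟩
  obtain ⟨a1, a2, a3, a4, a5, a6, -⟩ := hy lam0 hl
  exact ⟨y lam0, a1, a2, a3, a4, a5, a6, hfin lam0 hl⟩

end Claimed.Agent.R292
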