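import Mathlib
import Claimed.Agent.R292.Bethe.BA4Exit120

/-!
# Rows 290 / 292, cell C1, unit BETHE, block B3 IDENT: THE EXIT ON A CLOSED SEGMENT (no gluing at `π / 2`)   (helper120; prefix `ba120_`)

The theorems of 80 (`ba3x80_roots_neg`, `ba3x80_roots_pos`) give a branch of roots CONTINUOUS on a closed segment `Icc a b` and ANALYTIC on
`Ioo a b`, the seed `π / 2` being an END POINT of the segment.  This file identifies the Bethe eigenvalue in exactly that situation: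

**`ba120_exit_Icc`** : `a < b`, `π / 2 ∈ Icc a b ⊆ (0, π)`; `y` continuous on `Icc a b`, analytic on `Ioo a b`, real logarithmic Bethe equations on
`Icc a b`, no root `0`  `⟹`  for every `lam ∈ Icc a b` : `Im Λ_B = 0`, `ba70Lam c N (m+1) = Re Λ_B`, `baF c N (m+1) = log Re Λ_B`, `0 < Re Λ_B`.
No Jacobian, no gluing, no neighbourhood of the end points.
-/

set_option autoImplicit false
set_option linter.unusedSectionVars false

namespace Claimed.Agent.R292

open Matrix Filter Topology Finset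

/-- the non-zeros of an analytic function which is not identically zero are dense -/
theorem ba120_dense_of_analytic {U : Set ℝ} (hU : IsPreconnected U) {f : ℝ → ℂ} (hf : AnalyticOnNhd ℝ f U)
    {D0 : ℝ} (hD0 : D0 ∈ U) (hf0 : f D0 ≠ 0) : U ⊆ closure {D | D ∈ U ∧ f D ≠ 0} := by
  intro D hD
  by_cases hfD : f D = 0
  · have hne : D ≠ D0 := fun h => hf0 (h ▸ hfD)
    have hnt : U.Nontrivial := ⟨D, hD, D0, hD0, hne⟩
    have hacc : ∃ᶠ y in 𝓝[≠] D, y ∈ U :=
      accPt_iff_frequently_nhdsNE.mp (hU.preperfect_of_nontrivial hnt D hD)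
    rcases (hf D hD).eventually_eq_zero_or_eventually_ne_zero with h | h
    · exact absurd (hf.eqOn_zero_of_preconnected_of_eventuallyEq_zero hU hD h hD0) hf0
    · rw [mem_closure_iff_frequently]
      exact Frequently.filter_mono (hacc.and_eventually h) nhdsWithin_le_nhds
  · exact subset_closure ⟨hD, hfD⟩

/-- a function continuous on `Icc a b`, analytic on `Ioo a b`, nonzero at one point of `Icc a b`: its non-zeros are dense in `Icc a b` -/
theorem ba120_dense_Icc {a b : ℝ} (hab : a < b) {f : ℝ → ℂ} (hc : ContinuousOn f (Set.Icc a b))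
    (hf : AnalyticOnNhd ℝ f (Set.Ioo a b)) {D0 : ℝ} (hD0 : D0 ∈ Set.Icc a b) (hf0 : f D0 ≠ 0) :
    Set.Icc a b ⊆ closure {D | D ∈ Set.Icc a b ∧ f D ≠ 0} := by
  -- a point of the open interval where `f ≠ 0`
  have h1 : ∃ D1 ∈ Set.Ioo a b, f D1 ≠ 0 := by
    have hev : ∀ᶠ x in 𝓝[Set.Icc a b] D0, f x ≠ 0 := (hc D0 hD0).eventually_ne hf0
    have hcl : D0 ∈ closure (Set.Ioo a b) := by rw [closure_Ioo hab.ne]; exact hD0
    have hfr : ∃ᶠ x in 𝓝[Set.Icc a b] D0, x ∈ Set.Ioo a b := by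
      have h2 : ∃ᶠ x in 𝓝 D0, x ∈ Set.Ioo a b := mem_closure_iff_frequently.mp hcl
      rw [frequently_nhdsWithin_iff]
      exact h2.mono fun x hx => ⟨hx, Set.Ioo_subset_Icc_self hx⟩
    obtain ⟨x, hx1, hx2⟩ := (hfr.and_eventually hev).exists
    exact ⟨x, hx1, hx2⟩
  obtain ⟨D1, hD1, hfD1⟩ := h1
  have h2 := ba120_dense_of_analytic isPreconnected_Ioo hf hD1 hfD1
  have h3 : {D | D ∈ Set.Ioo a b ∧ f D ≠ 0} ⊆ {D | D ∈ Set.Icc a b ∧ f D ≠ 0} :=
    fun D hD => ⟨Set.Ioo_subset_Icc_self hD.1, hD.2⟩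
  calc Set.Icc a b = closure (Set.Ioo a b) := (closure_Ioo hab.ne).symm
    _ ⊆ closure (closure {D | D ∈ Set.Ioo a b ∧ f D ≠ 0}) := closure_mono h2
    _ = closure {D | D ∈ Set.Ioo a b ∧ f D ≠ 0} := closure_closure
    _ ⊆ closure {D | D ∈ Set.Icc a b ∧ f D ≠ 0} := closure_mono h3

/-- the Bethe vector of BA2 is continuous in the parameter -/
theorem ba120_Psi_continuousOn {n : ℕ} {d : ℝ → ℂ} {z : ℝ → Fin n → ℂ} {I : Set ℝ}
    (hd : ContinuousOn d I) (hz : ∀ j, ContinuousOn (fun s => z s j) I) (y : ℕ → ℕ) :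
    ContinuousOn (fun s => ba2c270_Psi (ba2a270_A (d s) (z s)) (z s) y) I := by
  unfold ba2c270_Psi ba2a270_A ba2a270_s
  refine continuousOn_finsetSum _ fun σ _ => ?_
  refine ContinuousOn.mul (ContinuousOn.mul continuousOn_const ?_) ?_
  · refine continuousOn_finsetProd _ fun k _ => ?_
    refine continuousOn_finsetProd _ fun l _ => ?_
    exact ((continuousOn_const.sub (hd.mul (hz _))).add ((hz _).mul (hz _)))
  · exact continuousOn_finsetProd _ fun k _ => (hz _).pow _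

/-- **WIRING ON A CLOSED SEGMENT** -/
theorem ba120_wired_Icc {L : ℕ} [NeZero L] {m : ℕ} (h2 : 2 * (m + 1) ≤ L) {a b : ℝ} (hab : a < b)
    (hπ : Real.pi / 2 ∈ Set.Icc a b) (hc : ∀ lam ∈ Set.Icc a b, 0 < ba120c lam)
    {z : ℝ → Fin (m + 1) → ℂ} (hzc : ∀ j, ContinuousOn (fun lam => z lam j) (Set.Icc a b))
    (hz : ∀ j, AnalyticOnNhd ℝ (fun lam => z lam j) (Set.Ioo a b))
    (hz1 : ∀ lam ∈ Set.Icc a b, ∀ j, z lam j ≠ 1) (hseed : z (Real.pi / 2) = ba120Z0 L (m + 1))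
    (hBE : ∀ lam ∈ Set.Icc a b, ba2a270_BE (ba120d lam) L (z lam)) :
    ∀ lam ∈ Set.Icc a b, (ba120Lam ((ba120c lam : ℝ) : ℂ) (z lam)).im = 0 ∧
      ba70Lam (ba120c lam) L (m + 1) = (ba120Lam ((ba120c lam : ℝ) : ℂ) (z lam)).re ∧
      baF (ba120c lam) L (m + 1) = Real.log (ba120Lam ((ba120c lam : ℝ) : ℂ) (z lam)).re := by
  classical
  have hne : Nonempty (ba1Sec L (m + 1)) := ba1Sec_nonempty L (m + 1) (by omega)
  set e0 : ba1Sec L (m + 1) := Classical.arbitrary _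
  set r : ba1Sec L (m + 1) → ℝ := fun e =>
    ∏ i : Fin (m + 1), ∏ j ∈ Ioi i, (2 * Real.sin (Real.pi * ((b1w160_pos m e j : ℝ) - b1w160_pos m e i) / L)) with hr
  set z0 : ℂ := (∏ a : Fin (m + 1), ∏ b ∈ Ioi a, (1 + ba120Z0 L (m + 1) a * ba120Z0 L (m + 1) b)) *
      ∏ i : Fin (m + 1), ∏ _j ∈ Ioi i, Complex.I with hz0
  have hz0ne : z0 ≠ 0 := ba120_seed_const_ne_zero h2
  have hrpos : ∀ e, 0 < r e := fun e => ba120_seed_pos (b1w160_pos_strictMono m e) (b1w160_pos_lt m e)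
  have hseedψ : ∀ e, ba120Vec (b1w160_pos (L := L) m) (ba120d (Real.pi / 2)) (z (Real.pi / 2)) e = z0 * ((r e : ℝ) : ℂ) := by
    intro e
    unfold ba120Vec
    rw [ba120_d_seed, hseed, ba120_seed_Psi]
  have hdc : ContinuousOn ba120d (Set.Icc a b) := fun t _ => (ba120_analyticAt_d t).continuousAt.continuousWithinAt
  have hdense : Set.Icc a b ⊆ closure {D | D ∈ Set.Icc a b ∧ ba120Vec (b1w160_pos (L := L) m) (ba120d D) (z D) ≠ 0} := by
    have h3 := ba120_dense_Icc hab (f := fun lam => ba120Vec (b1w160_pos (L := L) m) (ba120d lam) (z lam) e0)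
      (ba120_Psi_continuousOn hdc hzc _)
      (fun lam hl => ba120_Psi_analyticAt (ba120_analyticAt_d lam) (fun j => hz j lam hl) _) hπ
      (by rw [hseedψ]; exact mul_ne_zero hz0ne (Complex.ofReal_ne_zero.mpr (hrpos e0).ne'))
    refine h3.trans (closure_mono ?_)
    rintro D ⟨hD1, hD2⟩
    exact ⟨hD1, fun h => hD2 (congrFun h e0)⟩
  have hmain := ba120_bethe_is_perron_of_dense (n := ba1Sec L (m + 1)) (X := ℝ) (I := Set.Icc a b) isPreconnected_Icc
    (V := fun lam => ba1T (ba120c lam) L (m + 1))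
    (ψ := fun lam => ba120Vec (b1w160_pos (L := L) m) (ba120d lam) (z lam))
    (Lam := fun lam => ba120Lam ((ba120c lam : ℝ) : ℂ) (z lam))
    (((ba120_continuous_ba1T L (m + 1)).comp ba120_continuous_c).continuousOn)
    (fun lam hl => ba1T_isPrimitive (hc lam hl) L (m + 1))
    (fun lam _ => ba1T_isSymm _ L (m + 1))
    (ba120_continuousOn_Lam hzc hz1)
    (fun lam hl => b1w160_hB (hc lam hl).ne' (z lam) (hz1 lam hl) (hBE lam hl))
    hdense hπ hz0ne hrpos hseedψ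
  intro lam hl
  obtain ⟨him, htop⟩ := hmain lam hl
  have h3 := b1w160_lam_of_top (hc lam hl).le (by omega : m + 1 ≤ L) htop
  exact ⟨him, h3, by rw [b1w160_baF (hc lam hl).le (by omega : m + 1 ≤ L), h3]⟩

/-- **THE EXIT OF B3 ON A CLOSED SEGMENT**, in the rapidities of `Ba3Roots130`. -/
theorem ba120_exit_Icc {N : ℕ} [NeZero N] {m : ℕ} (h2 : 2 * (m + 1) ≤ N) {a b : ℝ} (hab : a < b)
    (hπ : Real.pi / 2 ∈ Set.Icc a b) (ha : 0 < a) (hb : b < Real.pi)
    {y : ℝ → Fin (m + 1) → ℝ} (hy : ContinuousOn y (Set.Icc a b)) (hyA : ∀ lam ∈ Set.Ioo a b, AnalyticAt ℝ y lam)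
    (hBE : ∀ lam ∈ Set.Icc a b, ∀ j : Fin (m + 1),
      (N : ℝ) * ba3x130_phi lam (y lam j) - ∑ l, ba3x130_phi (2 * lam) (y lam j - y lam l)
        = 2 * Real.pi * (((j : ℕ) : ℝ) + 1 - (((m + 1 : ℕ) : ℝ) + 1) / 2))
    (hne : ∀ lam ∈ Set.Icc a b, ∀ j, y lam j ≠ 0) :
    ∀ lam ∈ Set.Icc a b, (ba120Lam ((ba120c lam : ℝ) : ℂ) (fun j => ba3x130_z lam (y lam j))).im = 0 ∧
      ba70Lam (ba120c lam) N (m + 1) = (ba120Lam ((ba120c lam : ℝ) : ℂ) (fun j => ba3x130_z lam (y lam j))).re ∧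
      baF (ba120c lam) N (m + 1) = Real.log (ba120Lam ((ba120c lam : ℝ) : ℂ) (fun j => ba3x130_z lam (y lam j))).re := by
  have hIcc : ∀ lam ∈ Set.Icc a b, 0 < lam ∧ lam < Real.pi := fun lam hl => ⟨lt_of_lt_of_le ha hl.1, lt_of_le_of_lt hl.2 hb⟩
  refine ba120_wired_Icc (L := N) (m := m) h2 hab hπ (fun lam hl => ba120_c_pos (hIcc lam hl).1 (hIcc lam hl).2)
    (z := fun lam j => ba3x130_z lam (y lam j)) ?_ ?_
    (fun lam hl j => ba120_z_ne_one (hIcc lam hl).1 (hIcc lam hl).2 (hne lam hl j)) ?_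
    (fun lam hl => ba3x130_BE (hIcc lam hl).1 (hIcc lam hl).2 (y lam) (hBE lam hl))
  · -- continuity of the roots on the circle
    intro j lam hl
    unfold ba3x130_z
    have h1 : ContinuousWithinAt (fun lam => (lam, y lam j)) (Set.Icc a b) lam :=
      continuousWithinAt_id.prodMk ((continuous_apply j).continuousAt.comp_continuousWithinAt (hy lam hl))
    have h3 : ContinuousAt (fun p : ℝ × ℝ => ba3x130_phi p.1 p.2) (lam, y lam j) :=
      (ba120_k_analyticAt (hIcc lam hl).1 (hIcc lam hl).2 (y lam j)).continuousAt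
    have h4 : ContinuousWithinAt (fun lam => ba3x130_phi lam (y lam j)) (Set.Icc a b) lam :=
      ContinuousAt.comp_continuousWithinAt (g := fun p : ℝ × ℝ => ba3x130_phi p.1 p.2) (f := fun lam => (lam, y lam j)) h3 h1
    exact Complex.continuous_exp.continuousAt.comp_continuousWithinAt
      ((Complex.continuous_ofReal.continuousAt.comp_continuousWithinAt h4).mul continuousWithinAt_const)
  · intro j lam hl
    have hl' := Set.Ioo_subset_Icc_self hl
    have := ba120_z_analyticAt (k := ba120k) (hyA lam hl) j (ba120_k_analyticAt (hIcc lam hl').1 (hIcc lam hl').2 _)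
    simpa only [ba120_z_eq] using this
  · funext j
    have h1 := hBE _ hπ j
    have hz : ∀ u, ba3x130_phi (2 * (Real.pi / 2)) u = 0 := fun u => ba120_th_seed u
    simp only [hz, Finset.sum_const_zero, sub_zero] at h1
    have hN : (N : ℝ) ≠ 0 := by exact_mod_cast NeZero.ne N
    have h3 : ba3x130_phi (Real.pi / 2) (y (Real.pi / 2) j)
        = 2 * Real.pi * (((j : ℕ) : ℝ) + 1 - (((m + 1 : ℕ) : ℝ) + 1) / 2) / N := by
      rw [eq_div_iff hN, mul_comm]; exact h1
    unfold ba3x130_z ba120Z0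
    rw [h3]
    congr 1
    push_cast
    ring

end Claimed.Agent.R292
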