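import Claimed.Agent.R292.Bethe.Ba2Scan100
import Claimed.Agent.R292.Bethe.Ba2Amp270
import Claimed.Agent.R292.Bethe.BA1x70
import Claimed.Agent.R292.Bethe.BA1x140
import Claimed.Agent.R292.Bethe.BA4x120

/-!
# Row 292, unit BETHE, leaf B1c (LINK): the coordinate Bethe ansatz for the transfer matrices of BA1
(helper100, prefix `ba2l100_`)
-/

set_option autoImplicit false
set_option linter.unusedSectionVars false

namespace Claimed.Agent.R292

open Matrix Finset

/-! ## A. the scan matrix `ba2s100_T` is the column matrix `ba1T0` -/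

section closed

variable {K : Type*} [CommRing K]

/-- closed chains = cyclic chains -/
theorem ba2l100_sum_closed {S : Type*} [Fintype S] [DecidableEq S] (n : ℕ) (F : (Fin (n + 2) → S) → K) :
    (∑ r : Fin (n + 2) → S, if r 0 = r (Fin.last (n + 1)) then F r else 0)
      = ∑ p : Fin (n + 1) → S, F (Fin.cons (p (Fin.last n)) p) := by
  rw [← (Fin.consEquiv (fun _ : Fin (n + 2) => S)).sum_comp, Fintype.sum_prod_type, Finset.sum_comm]
  refine Finset.sum_congr rfl fun p _ => ?_
  have h0 : ∀ x : S, (Fin.consEquiv (fun _ : Fin (n + 2) => S)) (x, p) = (Fin.cons x p : Fin (n + 2) → S) :=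
    fun _ => rfl
  have e : ∀ x : S, (Fin.cons x p : Fin (n + 2) → S) (Fin.last (n + 1)) = p (Fin.last n) := by
    intro x
    rw [← Fin.succ_last, Fin.cons_succ]
  simp only [h0, e, Fin.cons_zero]
  rw [Finset.sum_ite_eq']
  simp

theorem ba2l100_T_cyc (c : K) {n : ℕ} (e e' : Fin (n + 1) → Bool) :
    ba2s100_T c e e' = ∑ p : Fin (n + 1) → Fin 2, ∏ j, ba2s100_W c (e j) (p (j - 1)) (e' j) (p j) := by
  unfold ba2s100_T
  rw [ba2l100_sum_closed]
  refine Finset.sum_congr rfl fun p _ => Finset.prod_congr rfl fun j _ => ?_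
  rw [ba70_cons_castSucc, Fin.cons_succ]

theorem ba2l100_W_bool (c : K) (e e' a b : Bool) :
    ba2s100_W c e (finTwoEquiv.symm a) e' (finTwoEquiv.symm b)
      = if ba1Ice e e' a b then (if e = e' then 1 else c) else 0 := by
  cases e <;> cases e' <;> cases a <;> cases b <;> simp [ba2s100_W, ba1Ice, finTwoEquiv]

theorem ba2l100_T_bool (c : K) {n : ℕ} (e e' : Fin (n + 1) → Bool) :
    ba2s100_T c e e' = ∑ v : Fin (n + 1) → Bool,
      if ∀ b, ba1Ice (e b) (e' b) (v (b - 1)) (v b) then c ^ (univ.filter fun b => e b ≠ e' b).card else 0 := by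
  rw [ba2l100_T_cyc, ← (Equiv.piCongrRight fun _ : Fin (n + 1) => finTwoEquiv.symm).sum_comp]
  refine Finset.sum_congr rfl fun v _ => ?_
  simp only [Equiv.piCongrRight_apply, Pi.map_apply, ba2l100_W_bool]
  rw [Finset.prod_ite_zero]
  simp only [Finset.mem_univ, true_implies]
  congr 1
  rw [Finset.prod_ite, Finset.prod_const_one, one_mul, Finset.prod_const]

theorem ba2l100_T_map {K' : Type*} [CommRing K'] (f : K →+* K') (c : K) {N : ℕ} (e e' : Fin N → Bool) :
    f (ba2s100_T c e e') = ba2s100_T (f c) e e' := by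
  unfold ba2s100_T ba2s100_W
  simp only [map_sum, apply_ite f, map_prod, map_zero, map_one]

end closed

section real

/-- a column on `ZMod L` read on `Fin L` -/
def ba2l100_fin {L : ℕ} (h : ZMod L → Bool) : Fin L → Bool := fun j => h ((j : ℕ) : ZMod L)

theorem ba2l100_fin_succ {n : ℕ} (g : ZMod (n + 1) → Bool) : ba2l100_fin g = (g : Fin (n + 1) → Bool) :=
  funext fun j => congrArg g (Fin.cast_val_eq_self j)

/-- **AD-a**: the column matrix of BA1 (140) is the scan matrix -/
theorem ba2l100_ba1T0 (c : ℝ) (L : ℕ) [NeZero L] (h h' : ZMod L → Bool) :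
    ba1T0 c L h h' = ba2s100_T c (ba2l100_fin h) (ba2l100_fin h') := by
  obtain ⟨n, rfl⟩ := Nat.exists_eq_succ_of_ne_zero (NeZero.ne L)
  rw [ba2l100_fin_succ, ba2l100_fin_succ]
  refine Eq.trans ?_ (ba2l100_T_bool c (n := n) h h').symm
  unfold ba1T0 ba1w
  refine Finset.sum_congr rfl fun v _ => ?_
  congr 1

/-- the ice rule conserves the number of arrows -/
theorem ba2l100_conserve {L : ℕ} [NeZero L] {h v h' : ZMod L → Bool}
    (hi : ∀ b : ZMod L, ba1Ice (h b) (h' b) (v (b - 1)) (v b)) :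
    (univ.filter fun b : ZMod L => h b = true).card = (univ.filter fun b : ZMod L => h' b = true).card := by
  rw [Finset.card_filter, Finset.card_filter]
  have h1 : ∑ b : ZMod L, (if v (b - 1) = true then 1 else 0) = ∑ b : ZMod L, (if v b = true then 1 else 0) :=
    Equiv.sum_comp (Equiv.subRight (1 : ZMod L)) (fun b => if v b = true then 1 else 0)
  have h2 : ∑ b : ZMod L, ((if h b = true then 1 else 0) + (if v (b - 1) = true then 1 else 0))
      = ∑ b : ZMod L, ((if h' b = true then 1 else 0) + (if v b = true then 1 else 0)) := by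
    refine Finset.sum_congr rfl fun b _ => ?_
    have := hi b
    unfold ba1Ice at this
    revert this
    cases h b <;> cases h' b <;> cases v (b - 1) <;> cases v b <;> simp
  rw [Finset.sum_add_distrib, Finset.sum_add_distrib, h1] at h2
  exact Nat.add_right_cancel h2

theorem ba2l100_ba1T0_zero (c : ℝ) {L : ℕ} [NeZero L] {n : ℕ} {h h' : ZMod L → Bool} (hP : ba1P n h)
    (hP' : ¬ ba1P n h') : ba1T0 c L h h' = 0 := by
  unfold ba1T0
  refine Finset.sum_eq_zero fun v _ => ?_
  unfold ba1w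
  rw [if_neg]
  intro hi
  apply hP'
  unfold ba1P at hP ⊢
  rw [← ba2l100_conserve hi, hP]

/-- the sector matrix of 70 is the column matrix of 140 cut to the sector -/
theorem ba2l100_ba70T (c : ℝ) (L n : ℕ) [NeZero L] (σ σ' : ZMod L → Bool) :
    ba70T c L n σ σ' = if ba1P n σ ∧ ba1P n σ' then ba1T0 c L σ σ' else 0 := by
  unfold ba70T ba1T0
  by_cases hh : ba1P n σ ∧ ba1P n σ'
  · rw [if_pos hh]
    refine Finset.sum_congr rfl fun v _ => ?_
    unfold ba70W ba1w
    by_cases hi : ∀ b : ZMod L, ba1Ice (σ b) (σ' b) (v (b - 1)) (v b)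
    · rw [if_pos hi, if_pos ⟨hi, hh⟩]
      rfl
    · rw [if_neg hi, if_neg]
      rintro ⟨h1, -⟩
      exact hi h1
  · rw [if_neg hh]
    refine Finset.sum_eq_zero fun v _ => ?_
    unfold ba70W
    rw [if_neg]
    rintro ⟨-, h1⟩
    exact hh h1

/-- **(d)** the Perron eigenvalue of the sector matrix of 140 is `ba70Lam` -/
theorem ba2l100_lam_of_top {c : ℝ} (hc : 0 ≤ c) (L n : ℕ) [NeZero L] (hn : n ≤ L) {lam : ℝ}
    (h : Ba120Top (ba1T c L n) lam) : ba70Lam c L n = lam := by
  classical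
  obtain ⟨u, hu, he⟩ := h
  refine ba70Lam_eq_of_pos hc L n hn (fun σ => if hσ : ba1P n σ then u ⟨σ, hσ⟩ else 0) lam ?_ ?_ ?_
  · intro σ
    by_cases hσ : ba1P n σ
    · simp only [dif_pos hσ]
      exact (hu _).le
    · simp only [dif_neg hσ]
      exact le_rfl
  · intro σ hσ
    have hσ' : ba1P n σ := hσ
    simp only [dif_pos hσ']
    exact hu _
  · funext σ
    simp only [Matrix.mulVec, dotProduct, Pi.smul_apply, smul_eq_mul, ba2l100_ba70T]
    by_cases hσ : ba1P n σ
    · rw [dif_pos hσ]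
      have h1 := congrFun he ⟨σ, hσ⟩
      simp only [Matrix.mulVec, dotProduct, Pi.smul_apply, smul_eq_mul, ba1T] at h1
      rw [← h1]
      have h2 := Finset.sum_subtype (p := fun σ' => ba1P n σ') (F := inferInstance)
        (univ.filter fun σ' => ba1P n σ') (fun x => by simp)
        (fun σ' => (if ba1P n σ ∧ ba1P n σ' then ba1T0 c L σ σ' else 0) *
          (if hσ' : ba1P n σ' then u ⟨σ', hσ'⟩ else 0))
      rw [Finset.sum_filter_of_ne] at h2
      · rw [h2]
        refine Finset.sum_congr rfl fun a _ => ?_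
        rw [if_pos ⟨hσ, a.2⟩, dif_pos a.2]
      · intro x _ hx
        by_contra hx'
        apply hx
        rw [dif_neg hx', mul_zero]
    · rw [dif_neg hσ, mul_zero]
      refine Finset.sum_eq_zero fun σ' _ => ?_
      rw [if_neg (fun hh => hσ hh.1), zero_mul]

end real

/-! ## B. every column is the column of its positions -/

section positions

variable {N m : ℕ}

/-- the positions of the `true` of a column, continued by `X (m+1) = X 0 + N` -/
noncomputable def ba2l100_X (e : Fin N → Bool) (h : (univ.filter fun j => e j = true).card = m + 1) (k : ℕ) : ℕ :=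
  if hk : k < m + 1 then ((univ.filter fun j => e j = true).orderEmbOfFin h ⟨k, hk⟩ : ℕ)
  else ((univ.filter fun j => e j = true).orderEmbOfFin h 0 : ℕ) + N

theorem ba2l100_X_of_lt (e : Fin N → Bool) (h : (univ.filter fun j => e j = true).card = m + 1) {k : ℕ}
    (hk : k < m + 1) :
    ba2l100_X e h k = ((univ.filter fun j => e j = true).orderEmbOfFin h ⟨k, hk⟩ : ℕ) := by
  unfold ba2l100_X
  rw [dif_pos hk]

/-- **AD-b** -/
theorem ba2l100_pos (e : Fin N → Bool) (h : (univ.filter fun j => e j = true).card = m + 1) :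
    Ba2s100Pos m N (ba2l100_X e h) := by
  have hper : ba2l100_X e h (m + 1) = ba2l100_X e h 0 + N := by
    rw [ba2l100_X_of_lt e h (Nat.succ_pos m)]
    unfold ba2l100_X
    rw [dif_neg (lt_irrefl _)]
    rfl
  have hlt : ∀ k, k < m + 1 → ba2l100_X e h k < N := by
    intro k hk
    rw [ba2l100_X_of_lt e h hk]
    exact Fin.isLt _
  refine ⟨fun k hk => ?_, hper, hlt m (by omega)⟩
  rcases Nat.lt_or_ge k m with h1 | h1
  · rw [ba2l100_X_of_lt e h (by omega : k < m + 1), ba2l100_X_of_lt e h (by omega : k + 1 < m + 1)]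
    have := ((univ.filter fun j => e j = true).orderEmbOfFin h).strictMono
      (show (⟨k, by omega⟩ : Fin (m + 1)) < ⟨k + 1, by omega⟩ from by simp [Fin.lt_def])
    exact this
  · have : k = m := by omega
    subst this
    rw [hper]
    have := hlt k (by omega)
    omega

theorem ba2l100_col (e : Fin N → Bool) (h : (univ.filter fun j => e j = true).card = m + 1) :
    ba2s100_col m N (ba2l100_X e h) = e := by
  funext j
  unfold ba2s100_col ba2s100_E
  have hr := Finset.range_orderEmbOfFin (univ.filter fun j => e j = true) h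
  have h1 : e j = true ↔ j ∈ Set.range ((univ.filter fun j => e j = true).orderEmbOfFin h) := by
    rw [hr]
    simp
  cases hj : e j
  · rw [decide_eq_false_iff_not, Finset.mem_image]
    rintro ⟨k, hk, e1⟩
    rw [Finset.mem_range] at hk
    rw [ba2l100_X_of_lt e h hk] at e1
    have : e j = true := h1.2 ⟨⟨k, hk⟩, Fin.ext e1⟩
    rw [hj] at this
    exact Bool.noConfusion this
  · rw [decide_eq_true_iff, Finset.mem_image]
    obtain ⟨k, hk⟩ := h1.1 hj
    refine ⟨k, Finset.mem_range.2 k.isLt, ?_⟩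
    rw [ba2l100_X_of_lt e h k.isLt, ← hk]

end positions

/-! ## C. the Bethe vector is an eigenvector of the sector matrix -/

section eigen

theorem ba2l100_card_fin {L : ℕ} [NeZero L] (h : ZMod L → Bool) :
    (univ.filter fun j : Fin L => ba2l100_fin h j = true).card = (univ.filter fun b : ZMod L => h b = true).card := by
  obtain ⟨n, rfl⟩ := Nat.exists_eq_succ_of_ne_zero (NeZero.ne L)
  rw [ba2l100_fin_succ]
  rfl

/-- the Bethe wave function on the columns over `ZMod L` -/
noncomputable def ba2l100_Psi {m L : ℕ} (d : ℂ) (z : Fin (m + 1) → ℂ) (h : ZMod L → Bool) : ℂ :=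
  ba2s100_psi (ba2a270_A d z) z (ba2l100_fin h)

/-- the Bethe eigenvalue -/
noncomputable def ba2l100_Lam {m : ℕ} (c : ℂ) (z : Fin (m + 1) → ℂ) : ℂ :=
  (∏ j, ba2s100_L c (z j)) + ∏ j, ba2s100_M c (z j)

/-- sums over all columns on `ZMod L` and on `Fin L` -/
theorem ba2l100_sum_fin {L : ℕ} [NeZero L] (F : (Fin L → Bool) → ℂ) :
    ∑ h : ZMod L → Bool, F (ba2l100_fin h) = ∑ e : Fin L → Bool, F e := by
  obtain ⟨n, rfl⟩ := Nat.exists_eq_succ_of_ne_zero (NeZero.ne L)
  simp only [ba2l100_fin_succ]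
  rfl

/-- the row sum over all columns -/
theorem ba2l100_row {c : ℝ} (hc : c ≠ 0) (L : ℕ) [NeZero L] (m : ℕ) (z : Fin (m + 1) → ℂ) (hz : ∀ j, z j ≠ 1)
    (hBE : ba2a270_BE (2 - (c : ℂ) ^ 2) L z) (h : ZMod L → Bool) (hP : ba1P (m + 1) h) :
    ∑ h' : ZMod L → Bool, ((ba1T0 c L h h' : ℝ) : ℂ) * ba2l100_Psi (2 - (c : ℂ) ^ 2) z h'
      = ba2l100_Lam (c : ℂ) z * ba2l100_Psi (2 - (c : ℂ) ^ 2) z h := by
  have hcard : (univ.filter fun j : Fin L => ba2l100_fin h j = true).card = m + 1 := by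
    rw [ba2l100_card_fin]
    exact hP
  have hpos := ba2l100_pos (ba2l100_fin h) hcard
  have hcol := ba2l100_col (ba2l100_fin h) hcard
  have hc' : (c : ℂ) ≠ 0 := Complex.ofReal_ne_zero.2 hc
  have key := ba2s100_eigen hc' hpos (ba2a270_A (2 - (c : ℂ) ^ 2) z) z hz
    (fun σ a b hab => ba2a270_R1' (c : ℂ) z hz σ a b hab) (fun τ => ba2a270_R2 _ L z hBE τ)
  rw [hcol] at key
  unfold ba2l100_Lam ba2l100_Psi
  rw [← key, ← ba2l100_sum_fin (fun e' => ba2s100_T (c : ℂ) (ba2l100_fin h) e' *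
    ba2s100_psi (ba2a270_A (2 - (c : ℂ) ^ 2) z) z e')]
  refine Finset.sum_congr rfl fun h' _ => ?_
  rw [ba2l100_ba1T0]
  congr 1
  exact ba2l100_T_map Complex.ofRealHom c _ _

/-- **(c) LINK**: roots `z j ≠ 1` of the Bethe equations give an eigenvector (possibly `0`) of the sector matrix of
BA1, in the form consumed by `ba120_bethe_is_perron`. -/
theorem ba2l100_eigen {c : ℝ} (hc : c ≠ 0) (L : ℕ) [NeZero L] (m : ℕ) (z : Fin (m + 1) → ℂ) (hz : ∀ j, z j ≠ 1)
    (hBE : ba2a270_BE (2 - (c : ℂ) ^ 2) L z) :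
    (ba120C (ba1T c L (m + 1))) *ᵥ (fun h : ba1Sec L (m + 1) => ba2l100_Psi (2 - (c : ℂ) ^ 2) z h.1)
      = ba2l100_Lam (c : ℂ) z • (fun h : ba1Sec L (m + 1) => ba2l100_Psi (2 - (c : ℂ) ^ 2) z h.1) := by
  funext h
  simp only [Matrix.mulVec, dotProduct, Pi.smul_apply, smul_eq_mul, ba120C, Matrix.map_apply, ba1T]
  rw [← ba2l100_row hc L m z hz hBE h.1 h.2]
  have h2 := Finset.sum_subtype (p := fun σ' => ba1P (m + 1) σ') (F := inferInstance)
    (univ.filter fun σ' : ZMod L → Bool => ba1P (m + 1) σ') (fun x => by simp)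
    (fun h' => ((ba1T0 c L h.1 h' : ℝ) : ℂ) * ba2l100_Psi (2 - (c : ℂ) ^ 2) z h')
  rw [Finset.sum_filter_of_ne] at h2
  · exact h2.symm
  · intro x _ hx
    by_contra hx'
    apply hx
    rw [ba2l100_ba1T0_zero c h.2 hx', Complex.ofReal_zero, zero_mul]

end eigen

end Claimed.Agent.R292
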