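import Claimed.Agent.R292.Bethe.Ba2Amp270

/-!
# Row 292, unit BETHE, block BA4, the SEED (helper270): free fermions, `Δ = 0` (`c = √2`)

At `d = 2 Δ = 0` the roots are `z j = exp (i 2π (j - m/2) / N)` (`m + 1` particles), the amplitudes are
`sign σ` times one constant, and the Bethe wave function is a Vandermonde determinant:
`Psi x = C * ∏_{k<l} sin (π (x l - x k) / N)` with one constant `C ≠ 0`.
-/

set_option autoImplicit false

namespace Claimed.Agent.R292

open Finset

section General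

variable {K : Type*} [Field K]

/-- at `d = 0` the amplitudes are alternating. -/
theorem ba4f270_A_sign {m : ℕ} (z : Fin (m + 1) → K) (hz : ∀ i j, i ≠ j → 1 + z i * z j ≠ 0)
    (σ : Equiv.Perm (Fin (m + 1))) :
    ba2a270_A 0 z σ = ((Equiv.Perm.sign σ : ℤ) : K) * ba2a270_A 0 z 1 := by
  refine Submonoid.induction_of_closure_eq_top_right (Equiv.Perm.mclosure_swap_castSucc_succ m) σ
    (by simp) ?_
  rintro σ _ ⟨i, rfl⟩ ih
  have hne : i.castSucc ≠ i.succ := (Fin.castSucc_lt_succ).ne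
  have h := ba2a270_R1 0 z σ i.castSucc i.succ (by simp)
  have h2 : 1 + z (σ i.castSucc) * z (σ i.succ) ≠ 0 := hz _ _ (fun h => hne (σ.injective h))
  have h3 : (ba2a270_A 0 z σ + ba2a270_A 0 z (σ * Equiv.swap i.castSucc i.succ)) *
      (1 + z (σ i.castSucc) * z (σ i.succ)) = 0 := by
    unfold ba2a270_s at h
    linear_combination h
  have h4 := (mul_eq_zero.mp h3).resolve_right h2
  rw [Equiv.Perm.sign_mul, Equiv.Perm.sign_swap hne]
  push_cast
  linear_combination h4 - ih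

/-- at `d = 0` the wave function is a determinant. -/
theorem ba4f270_Psi_det {m : ℕ} (z : Fin (m + 1) → K) (hz : ∀ i j, i ≠ j → 1 + z i * z j ≠ 0)
    (x : ℕ → ℕ) :
    ba2c270_Psi (ba2a270_A 0 z) z x =
      ba2a270_A 0 z 1 * Matrix.det (Matrix.of fun i j : Fin (m + 1) => z i ^ x j) := by
  unfold ba2c270_Psi
  rw [Matrix.det_apply', mul_sum]
  refine sum_congr rfl fun σ _ => ?_
  rw [ba4f270_A_sign z hz σ]
  simp only [Matrix.of_apply]
  ring

theorem ba4f270_A_one_ne_zero {m : ℕ} (z : Fin (m + 1) → K)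
    (hz : ∀ i j, i ≠ j → 1 + z i * z j ≠ 0) : ba2a270_A 0 z 1 ≠ 0 := by
  unfold ba2a270_A
  refine mul_ne_zero (by simp) ?_
  refine prod_ne_zero_iff.mpr fun k _ => prod_ne_zero_iff.mpr fun l hl => ?_
  have hkl : k ≠ l := (mem_Ioi.mp hl).ne
  have := hz k l hkl
  simpa [ba2a270_s] using this

/-- `∏_{k<l} g k * g l = ∏_k g k ^ m`. -/
theorem ba4f270_pairs_mul {m : ℕ} (g : Fin (m + 1) → K) :
    ba2a270_P (fun a b => a * b) g = ∏ k, g k ^ m := by
  induction m with
  | zero => simp [ba2a270_P]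
  | succ m ih =>
    rw [ba2a270_P_succ, ih (fun k => g k.succ), Fin.prod_univ_succ (fun k => g k ^ (m + 1)),
      prod_mul_distrib, prod_const, card_univ, Fintype.card_fin, mul_assoc, ← prod_mul_distrib]
    congr 1
    exact prod_congr rfl fun k _ => by ring

end General

section Seed

open Complex

/-- the free-fermion roots: `m + 1` particles, period `N`. -/
noncomputable def ba4f270_z (m N : ℕ) (j : Fin (m + 1)) : ℂ :=
  Complex.exp (Complex.I * (2 * Real.pi * ((j : ℕ) - (m : ℂ) / 2) / N))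

theorem ba4f270_z_pow (m N : ℕ) (j : Fin (m + 1)) (e : ℕ) :
    ba4f270_z m N j ^ e =
      Complex.exp (-(Real.pi * Complex.I * m * e / N)) *
        Complex.exp (2 * Real.pi * Complex.I * e / N) ^ (j : ℕ) := by
  unfold ba4f270_z
  rw [← Complex.exp_nat_mul, ← Complex.exp_nat_mul, ← Complex.exp_add]
  congr 1
  ring

theorem ba4f270_z_pow_N (m N : ℕ) (hN : 0 < N) (j : Fin (m + 1)) :
    ba4f270_z m N j ^ N = (-1) ^ m := by
  have hN' : (N : ℂ) ≠ 0 := by exact_mod_cast hN.ne'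
  have h1 : ba4f270_z m N j ^ N * (-1) ^ m = 1 := by
    unfold ba4f270_z
    rw [← Complex.exp_pi_mul_I, ← Complex.exp_nat_mul, ← Complex.exp_nat_mul, ← Complex.exp_add]
    have : (N : ℂ) * (Complex.I * (2 * Real.pi * ((j : ℕ) - (m : ℂ) / 2) / N)) +
        (m : ℂ) * (Real.pi * Complex.I) = ((j : ℕ) : ℂ) * (2 * Real.pi * Complex.I) := by
      field_simp
      ring
    rw [this, Complex.exp_nat_mul, Complex.exp_two_pi_mul_I, one_pow]
  have h2 : ((-1 : ℂ) ^ m) * (-1) ^ m = 1 := by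
    rw [← mul_pow]
    simp
  calc ba4f270_z m N j ^ N = ba4f270_z m N j ^ N * ((-1 : ℂ) ^ m * (-1) ^ m) := by rw [h2, mul_one]
    _ = (ba4f270_z m N j ^ N * (-1) ^ m) * (-1) ^ m := by ring
    _ = (-1) ^ m := by rw [h1, one_mul]

/-- **(1)** the free-fermion roots solve the Bethe equations at `d = 0`. -/
theorem ba4f270_BE (m N : ℕ) (hN : 0 < N) : ba2a270_BE (0 : ℂ) N (ba4f270_z m N) := by
  intro j
  rw [ba4f270_z_pow_N m N hN j, Nat.add_sub_cancel]
  congr 1
  refine prod_congr rfl fun l _ => ?_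
  unfold ba2a270_s
  ring

theorem ba4f270_one_add_exp (t : ℝ) :
    1 + Complex.exp (Complex.I * t) = Complex.exp (Complex.I * (t / 2)) * (2 * Real.cos (t / 2)) := by
  rw [Complex.ofReal_cos, Complex.cos]
  have h1 : Complex.exp (Complex.I * (t / 2)) * Complex.exp (((t / 2 : ℝ) : ℂ) * Complex.I) =
      Complex.exp (Complex.I * t) := by
    rw [← Complex.exp_add]
    congr 1
    push_cast
    ring
  have h2 : Complex.exp (Complex.I * (t / 2)) * Complex.exp (-((t / 2 : ℝ) : ℂ) * Complex.I) = 1 := by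
    rw [← Complex.exp_add]
    have : Complex.I * ((t : ℂ) / 2) + -((t / 2 : ℝ) : ℂ) * Complex.I = 0 := by
      push_cast
      ring
    rw [this, Complex.exp_zero]
  linear_combination -h1 - h2

/-- **(2a)** no two roots scatter with a vanishing factor (`2 m < N + 2`, e.g. `m + 1 ≤ N / 2`). -/
theorem ba4f270_one_add_ne (m N : ℕ) (hmN : 2 * m < N + 2) (i j : Fin (m + 1)) (hij : i ≠ j) :
    1 + ba4f270_z m N i * ba4f270_z m N j ≠ 0 := by
  have hN : 0 < N := by
    rcases Nat.eq_zero_or_pos N with h | h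
    · exfalso
      have hi := i.2
      have hj := j.2
      have : (i : ℕ) ≠ j := fun h => hij (Fin.ext h)
      omega
    · exact h
  have hN' : (0 : ℝ) < N := by exact_mod_cast hN
  set t : ℝ := 2 * Real.pi * (((i : ℕ) : ℝ) + ((j : ℕ) : ℝ) - m) / N with ht
  have h1 : ba4f270_z m N i * ba4f270_z m N j = Complex.exp (Complex.I * t) := by
    unfold ba4f270_z
    rw [← Complex.exp_add]
    congr 1
    rw [ht]
    push_cast
    ring
  rw [h1, ba4f270_one_add_exp]
  refine mul_ne_zero (Complex.exp_ne_zero _) (mul_ne_zero two_ne_zero ?_)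
  have hne : (i : ℕ) ≠ j := fun h => hij (Fin.ext h)
  have hi := i.2
  have hj := j.2
  -- `|i + j - m| ≤ m - 1`
  have hb1 : (((i : ℕ) : ℝ) + ((j : ℕ) : ℝ) - m) * 2 < N := by
    have : ((i : ℕ) + (j : ℕ)) * 2 < N + 2 * m := by omega
    have h' : ((((i : ℕ) + (j : ℕ)) * 2 : ℕ) : ℝ) < ((N + 2 * m : ℕ) : ℝ) := by exact_mod_cast this
    push_cast at h'
    linarith
  have hb2 : -(N : ℝ) < (((i : ℕ) : ℝ) + ((j : ℕ) : ℝ) - m) * 2 := by
    have : 2 * m < N + ((i : ℕ) + (j : ℕ)) * 2 := by omega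
    have h' : ((2 * m : ℕ) : ℝ) < ((N + ((i : ℕ) + (j : ℕ)) * 2 : ℕ) : ℝ) := by exact_mod_cast this
    push_cast at h'
    linarith
  have hcos : 0 < Real.cos (t / 2) := by
    apply Real.cos_pos_of_mem_Ioo
    have e : t / 2 = Real.pi / 2 * ((((i : ℕ) : ℝ) + ((j : ℕ) : ℝ) - m) * 2 / N) := by
      rw [ht]
      field_simp
    have hp := Real.pi_pos
    constructor
    · rw [e]
      have : -1 < (((i : ℕ) : ℝ) + ((j : ℕ) : ℝ) - m) * 2 / N := by
        rw [lt_div_iff₀ hN']
        linarith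
      nlinarith
    · rw [e]
      have : (((i : ℕ) : ℝ) + ((j : ℕ) : ℝ) - m) * 2 / N < 1 := by
        rw [div_lt_iff₀ hN']
        linarith
      nlinarith
  exact_mod_cast hcos.ne'

/-- **(2b)** for an even number of particles no root is `1`. -/
theorem ba4f270_ne_one (m N : ℕ) (hN : 0 < N) (hm : Odd m) (j : Fin (m + 1)) :
    ba4f270_z m N j ≠ 1 := by
  intro h
  unfold ba4f270_z at h
  rw [Complex.exp_eq_one_iff] at h
  obtain ⟨k, hk⟩ := h
  have hN' : (N : ℂ) ≠ 0 := by exact_mod_cast hN.ne'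
  have hpi : (Real.pi : ℂ) ≠ 0 := by exact_mod_cast Real.pi_ne_zero
  have h1 : (2 * ((j : ℕ) : ℂ) - m) = 2 * (k * N) := by
    field_simp at hk
    linear_combination hk
  have h3 : (2 * ((j : ℕ) : ℤ) - m) = 2 * (k * N) := by exact_mod_cast h1
  obtain ⟨r, hr⟩ := hm
  obtain ⟨q, hq⟩ : ∃ q : ℤ, q = k * N := ⟨_, rfl⟩
  rw [← hq] at h3
  omega

/-- **(2c)** the roots are distinct (`m < N`). -/
theorem ba4f270_injective (m N : ℕ) (hmN : m < N) : Function.Injective (ba4f270_z m N) := by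
  intro i j h
  have hN : 0 < N := by omega
  have hN' : (N : ℂ) ≠ 0 := by exact_mod_cast hN.ne'
  have hpi : (Real.pi : ℂ) ≠ 0 := by exact_mod_cast Real.pi_ne_zero
  unfold ba4f270_z at h
  rw [Complex.exp_eq_exp_iff_exists_int] at h
  obtain ⟨k, hk⟩ := h
  have h1 : (((i : ℕ) : ℂ) - (j : ℕ)) = k * N := by
    field_simp at hk
    linear_combination hk / 2
  have h3 : (((i : ℕ) : ℤ) - (j : ℕ)) = k * N := by exact_mod_cast h1
  have hi := i.2
  have hj := j.2
  have hk0 : k = 0 := by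
    by_contra hk0
    rcases lt_or_gt_of_ne hk0 with h4 | h4
    · have : k * (N : ℤ) ≤ -1 * N := by
        apply mul_le_mul_of_nonneg_right (by omega) (by positivity)
      omega
    · have : 1 * (N : ℤ) ≤ k * N := by
        apply mul_le_mul_of_nonneg_right (by omega) (by positivity)
      omega
  rw [hk0] at h3
  apply Fin.ext
  omega

theorem ba4f270_exp_sub (a b : ℝ) :
    Complex.exp (2 * Real.pi * Complex.I * b) - Complex.exp (2 * Real.pi * Complex.I * a) =
      (Complex.exp (Real.pi * Complex.I * a) * Complex.exp (Real.pi * Complex.I * b)) *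
        ((2 * Complex.I) * (Real.sin (Real.pi * (b - a)) : ℝ)) := by
  rw [Complex.ofReal_sin, Complex.sin]
  have h1 : Complex.exp (Real.pi * Complex.I * a) * Complex.exp (Real.pi * Complex.I * b) *
      Complex.exp (((Real.pi * (b - a) : ℝ) : ℂ) * Complex.I) =
      Complex.exp (2 * Real.pi * Complex.I * b) := by
    rw [← Complex.exp_add, ← Complex.exp_add]
    congr 1
    push_cast
    ring
  have h2 : Complex.exp (Real.pi * Complex.I * a) * Complex.exp (Real.pi * Complex.I * b) *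
      Complex.exp (-((Real.pi * (b - a) : ℝ) : ℂ) * Complex.I) =
      Complex.exp (2 * Real.pi * Complex.I * a) := by
    rw [← Complex.exp_add, ← Complex.exp_add]
    congr 1
    push_cast
    ring
  have hI : Complex.I * Complex.I = -1 := Complex.I_mul_I
  linear_combination -h1 + h2 - (Complex.exp (Real.pi * Complex.I * a) *
    Complex.exp (Real.pi * Complex.I * b) *
    (Complex.exp (-((Real.pi * (b - a) : ℝ) : ℂ) * Complex.I) -
      Complex.exp (((Real.pi * (b - a) : ℝ) : ℂ) * Complex.I))) * hI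

/-- the constant of the seed. -/
noncomputable def ba4f270_C (m N : ℕ) : ℂ :=
  ba2a270_A 0 (ba4f270_z m N) 1 * ∏ k : Fin (m + 1), ∏ _l ∈ Ioi k, (2 * Complex.I)

theorem ba4f270_C_ne_zero (m N : ℕ) (hmN : 2 * m < N + 2) : ba4f270_C m N ≠ 0 := by
  unfold ba4f270_C
  refine mul_ne_zero (ba4f270_A_one_ne_zero _ (ba4f270_one_add_ne m N hmN)) ?_
  refine prod_ne_zero_iff.mpr fun k _ => prod_ne_zero_iff.mpr fun l _ => ?_
  exact mul_ne_zero two_ne_zero Complex.I_ne_zero

/-- the positive vector of the seed. -/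
noncomputable def ba4f270_R (m N : ℕ) (x : ℕ → ℕ) : ℝ :=
  ∏ k : Fin (m + 1), ∏ l ∈ Ioi k, Real.sin (Real.pi * (((x l : ℕ) : ℝ) / N - ((x k : ℕ) : ℝ) / N))

/-- **(3)** the Bethe wave function of the seed is one constant times the positive vector. -/
theorem ba4f270_Psi (m N : ℕ) (hmN : 2 * m < N + 2) (x : ℕ → ℕ) :
    ba2c270_Psi (ba2a270_A 0 (ba4f270_z m N)) (ba4f270_z m N) x =
      ba4f270_C m N * (ba4f270_R m N x : ℝ) := by
  rw [ba4f270_Psi_det _ (ba4f270_one_add_ne m N hmN)]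
  set v : Fin (m + 1) → ℂ := fun j => Complex.exp (-(Real.pi * Complex.I * m * (x j : ℕ) / N)) with hv
  set u : Fin (m + 1) → ℂ := fun j => Complex.exp (2 * Real.pi * Complex.I * (x j : ℕ) / N) with hu
  set g : Fin (m + 1) → ℂ :=
    fun j => Complex.exp (Real.pi * Complex.I * (((x j : ℕ) : ℝ) / N : ℝ)) with hg
  have h1 : (Matrix.of fun i j : Fin (m + 1) => ba4f270_z m N i ^ x j) =
      Matrix.of fun i j => v j * (Matrix.vandermonde u).transpose i j := by
    ext i j
    simp only [Matrix.of_apply, Matrix.transpose_apply, Matrix.vandermonde_apply]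
    rw [ba4f270_z_pow]
  rw [h1, Matrix.det_mul_row, Matrix.det_transpose, Matrix.det_vandermonde]
  have h2 : ∀ k l : Fin (m + 1), u l - u k = (g k * g l) * ((2 * Complex.I) *
      (Real.sin (Real.pi * (((x l : ℕ) : ℝ) / N - ((x k : ℕ) : ℝ) / N)) : ℝ)) := by
    intro k l
    have := ba4f270_exp_sub (((x k : ℕ) : ℝ) / N) (((x l : ℕ) : ℝ) / N)
    rw [← this, hu]
    simp only
    push_cast
    congr 1 <;> congr 1 <;> ring
  have h3 : ∏ i : Fin (m + 1), ∏ j ∈ Ioi i, (u j - u i) =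
      (∏ k, g k ^ m) * ((∏ k : Fin (m + 1), ∏ _l ∈ Ioi k, (2 * Complex.I)) *
        (ba4f270_R m N x : ℝ)) := by
    rw [← ba4f270_pairs_mul g]
    unfold ba2a270_P ba4f270_R
    push_cast
    rw [← prod_mul_distrib, ← prod_mul_distrib]
    refine prod_congr rfl fun k _ => ?_
    rw [← prod_mul_distrib, ← prod_mul_distrib]
    refine prod_congr rfl fun l _ => ?_
    rw [h2 k l]
    push_cast
    ring
  have h4 : (∏ i, v i) * ∏ k, g k ^ m = 1 := by
    rw [← prod_mul_distrib]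
    refine prod_eq_one fun k _ => ?_
    rw [hv, hg]
    simp only
    rw [← Complex.exp_nat_mul, ← Complex.exp_add]
    have : -(Real.pi * Complex.I * m * (x k : ℕ) / N) +
        (m : ℂ) * (Real.pi * Complex.I * (((x k : ℕ) : ℝ) / N : ℝ)) = 0 := by
      push_cast
      ring
    rw [this, Complex.exp_zero]
  rw [h3]
  unfold ba4f270_C
  linear_combination (ba2a270_A 0 (ba4f270_z m N) 1 *
    ((∏ k : Fin (m + 1), ∏ _l ∈ Ioi k, (2 * Complex.I)) * (ba4f270_R m N x : ℝ))) * h4

/-- **(4)** positivity of the seed vector on the sector. -/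
theorem ba4f270_R_pos (m N : ℕ) (x : ℕ → ℕ) (hx : ∀ i j : ℕ, i < j → j ≤ m → x i < x j)
    (hper : x m < x 0 + N) : 0 < ba4f270_R m N x := by
  unfold ba4f270_R
  refine prod_pos fun k _ => prod_pos fun l hl => ?_
  have hkl : (k : ℕ) < l := Fin.lt_def.mp (mem_Ioi.mp hl)
  have hl' : (l : ℕ) ≤ m := by have := l.2; omega
  have h1 : x k < x l := hx k l hkl hl'
  have h2 : x l ≤ x m := by
    rcases Nat.lt_or_ge (l : ℕ) m with h | h
    · exact (hx l m h le_rfl).le
    · have : (l : ℕ) = m := by omega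
      rw [this]
  have h3 : x 0 ≤ x k := by
    rcases Nat.eq_zero_or_pos (k : ℕ) with h | h
    · rw [h]
    · exact (hx 0 k h (by omega)).le
  have hN : 0 < N := by omega
  have hN' : (0 : ℝ) < N := by exact_mod_cast hN
  have h4 : ((x l : ℕ) : ℝ) / N - ((x k : ℕ) : ℝ) / N = (((x l : ℕ) : ℝ) - (x k : ℕ)) / N := by ring
  have h5 : (0 : ℝ) < ((x l : ℕ) : ℝ) - (x k : ℕ) := by
    have : ((x k : ℕ) : ℝ) < (x l : ℕ) := by exact_mod_cast h1
    linarith
  have h6 : ((x l : ℕ) : ℝ) - (x k : ℕ) < N := by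
    have : x l < x k + N := by omega
    have h' : ((x l : ℕ) : ℝ) < ((x k + N : ℕ) : ℝ) := by exact_mod_cast this
    push_cast at h'
    linarith
  apply Real.sin_pos_of_pos_of_lt_pi
  · rw [h4]
    exact mul_pos Real.pi_pos (div_pos h5 hN')
  · rw [h4]
    have : (((x l : ℕ) : ℝ) - (x k : ℕ)) / N < 1 := by
      rw [div_lt_iff₀ hN']
      linarith
    nlinarith [Real.pi_pos]

end Seed

/-!
## B3(a) DICTIONARY (helper270, prefix `ba3d270_`): rapidities `y` -> roots `z`, logarithmic Bethe equations -> `ba2a270_BE`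
-/

section Dict

/-- `sinh (a+y) sinh (a+y') + 2 cosh 2a sinh (a-y) sinh (a+y') + sinh (a-y) sinh (a-y')`. -/
theorem ba3d270_id_s (a y y' : ℂ) :
    Complex.sinh (a + y) * Complex.sinh (a + y') +
      2 * Complex.cosh (a + a) * Complex.sinh (a - y) * Complex.sinh (a + y') +
      Complex.sinh (a - y) * Complex.sinh (a - y') =
    Complex.sinh (a + a) * Complex.sinh (a + a - y + y') := by
  have ha := Complex.exp_ne_zero a
  have hy := Complex.exp_ne_zero y
  have hy' := Complex.exp_ne_zero y'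
  simp only [Complex.sinh, Complex.cosh, neg_add, neg_sub, Complex.exp_add, Complex.exp_sub,
    Complex.exp_neg]
  field_simp
  ring

theorem ba3d270_id_one_sub (a y : ℂ) :
    Complex.sinh (a + y) - Complex.sinh (a - y) = 2 * Complex.cosh a * Complex.sinh y := by
  rw [Complex.sinh_add, Complex.sinh_sub]
  ring

theorem ba3d270_id_L (a y : ℂ) :
    Complex.sinh y + 2 * Complex.cosh a * Complex.sinh (a - y) = Complex.sinh (a + a - y) := by
  have ha := Complex.exp_ne_zero a
  have hy := Complex.exp_ne_zero y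
  simp only [Complex.sinh, Complex.cosh, neg_add, neg_sub, Complex.exp_add, Complex.exp_sub,
    Complex.exp_neg]
  field_simp
  ring

theorem ba3d270_id_M (a y : ℂ) :
    Complex.sinh y - 2 * Complex.cosh a * Complex.sinh (a + y) = -Complex.sinh (a + a + y) := by
  have ha := Complex.exp_ne_zero a
  have hy := Complex.exp_ne_zero y
  simp only [Complex.sinh, Complex.cosh, neg_add, neg_sub, Complex.exp_add, Complex.exp_sub,
    Complex.exp_neg]
  field_simp
  ring

theorem ba3d270_id_d (a : ℂ) : 2 - (2 * Complex.cosh a) ^ 2 = -(2 * Complex.cosh (a + a)) := by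
  have ha := Complex.exp_ne_zero a
  simp only [Complex.cosh, Complex.exp_add, Complex.exp_neg, neg_add]
  field_simp
  ring

theorem ba3d270_id_prod (a y : ℂ) :
    Complex.sinh (a - y) * Complex.sinh (a + y) =
      (Complex.cosh (a + a) - Complex.cosh (y + y)) / 2 := by
  have ha := Complex.exp_ne_zero a
  have hy := Complex.exp_ne_zero y
  simp only [Complex.sinh, Complex.cosh, neg_add, neg_sub, Complex.exp_add, Complex.exp_sub,
    Complex.exp_neg]
  field_simp
  ring

/-- the root variable as a function of the rapidity (complex parameters). -/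
noncomputable def ba3d270_zc (a y : ℂ) : ℂ := Complex.sinh (a - y) / Complex.sinh (a + y)

theorem ba3d270_s_formula (a y y' : ℂ) (hy : Complex.sinh (a + y) ≠ 0)
    (hy' : Complex.sinh (a + y') ≠ 0) :
    ba2a270_s (2 - (2 * Complex.cosh a) ^ 2) (ba3d270_zc a y) (ba3d270_zc a y') =
      Complex.sinh (a + a) * Complex.sinh (a + a - y + y') /
        (Complex.sinh (a + y) * Complex.sinh (a + y')) := by
  rw [ba3d270_id_d, ← ba3d270_id_s]
  unfold ba2a270_s ba3d270_zc
  field_simp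
  ring

theorem ba3d270_one_sub_zc (a y : ℂ) (hy : Complex.sinh (a + y) ≠ 0) :
    1 - ba3d270_zc a y = 2 * Complex.cosh a * Complex.sinh y / Complex.sinh (a + y) := by
  rw [← ba3d270_id_one_sub]
  unfold ba3d270_zc
  field_simp

theorem ba3d270_zc_ne_one (a y : ℂ) (hD : Complex.sinh (a + y) ≠ 0) (ha : Complex.cosh a ≠ 0)
    (hy : Complex.sinh y ≠ 0) : ba3d270_zc a y ≠ 1 := by
  intro h
  have h1 := ba3d270_one_sub_zc a y hD
  rw [h, sub_self] at h1
  have h2 : 2 * Complex.cosh a * Complex.sinh y / Complex.sinh (a + y) ≠ 0 :=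
    div_ne_zero (mul_ne_zero (mul_ne_zero two_ne_zero ha) hy) hD
  exact h2 h1.symm

theorem ba3d270_L_formula (a y : ℂ) (hD : Complex.sinh (a + y) ≠ 0) (ha : Complex.cosh a ≠ 0)
    (hy : Complex.sinh y ≠ 0) :
    ba2a270_L (2 * Complex.cosh a) (ba3d270_zc a y) = Complex.sinh (a + a - y) / Complex.sinh y := by
  unfold ba2a270_L
  rw [ba3d270_one_sub_zc a y hD, ← ba3d270_id_L]
  unfold ba3d270_zc
  field_simp

theorem ba3d270_M_formula (a y : ℂ) (hD : Complex.sinh (a + y) ≠ 0) (ha : Complex.cosh a ≠ 0)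
    (hy : Complex.sinh y ≠ 0) :
    ba2a270_M (2 * Complex.cosh a) (ba3d270_zc a y) =
      -Complex.sinh (a + a + y) / Complex.sinh y := by
  unfold ba2a270_M
  rw [ba3d270_one_sub_zc a y hD, ← ba3d270_id_M]
  field_simp

/-- the Bethe equations of BA2 from the product form in the rapidities. -/
theorem ba3d270_BE_of_prod {n : ℕ} (a : ℂ) (N : ℕ) (y : Fin n → ℂ)
    (hD : ∀ j, Complex.sinh (a + y j) ≠ 0)
    (hE : ∀ j l, Complex.sinh (a + a + (y j - y l)) ≠ 0)
    (h : ∀ j, ba3d270_zc a (y j) ^ N =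
      (-1) ^ (n - 1) * ∏ l ∈ univ.erase j, ba3d270_zc (a + a) (y j - y l)) :
    ba2a270_BE (2 - (2 * Complex.cosh a) ^ 2) N (fun j => ba3d270_zc a (y j)) := by
  intro j
  have t1 : ∀ l ∈ univ.erase j, ba2a270_s (2 - (2 * Complex.cosh a) ^ 2) (ba3d270_zc a (y l))
      (ba3d270_zc a (y j)) = Complex.sinh (a + a) * Complex.sinh (a + a + (y j - y l)) /
        (Complex.sinh (a + y j) * Complex.sinh (a + y l)) := by
    intro l _
    rw [ba3d270_s_formula a _ _ (hD l) (hD j), mul_comm (Complex.sinh (a + y l))]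
    congr 3
    ring
  have t2 : ∀ l ∈ univ.erase j, ba2a270_s (2 - (2 * Complex.cosh a) ^ 2) (ba3d270_zc a (y j))
      (ba3d270_zc a (y l)) = ba3d270_zc (a + a) (y j - y l) *
        (Complex.sinh (a + a) * Complex.sinh (a + a + (y j - y l)) /
        (Complex.sinh (a + y j) * Complex.sinh (a + y l))) := by
    intro l _
    rw [ba3d270_s_formula a _ _ (hD j) (hD l)]
    unfold ba3d270_zc
    have e : a + a - y j + y l = a + a - (y j - y l) := by ring
    rw [e]
    have h0 := hE j l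
    have h1 := hD j
    have h2 := hD l
    generalize Complex.sinh (a + a + (y j - y l)) = X0 at h0 ⊢
    generalize Complex.sinh (a + a - (y j - y l)) = X1
    generalize Complex.sinh (a + a) = X2
    generalize Complex.sinh (a + y j) = X3 at h1 ⊢
    generalize Complex.sinh (a + y l) = X4 at h2 ⊢
    field_simp
  simp only
  rw [prod_congr rfl t1, prod_congr rfl t2, prod_mul_distrib, h j]
  ring

theorem ba3d270_sinh_re_im (θ y : ℝ) :
    Complex.sinh (Complex.I * θ + y) =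
      ((Real.cos θ * Real.sinh y : ℝ) : ℂ) + ((Real.sin θ * Real.cosh y : ℝ) : ℂ) * Complex.I := by
  rw [Complex.sinh_add, mul_comm Complex.I, Complex.sinh_mul_I, Complex.cosh_mul_I]
  push_cast
  ring

theorem ba3d270_sinh_ne (θ y : ℝ) (h : Real.sin θ ≠ 0) :
    Complex.sinh (Complex.I * θ + y) ≠ 0 := by
  intro h0
  rw [ba3d270_sinh_re_im] at h0
  have h1 := congrArg Complex.im h0
  simp only [Complex.add_im, Complex.ofReal_im, Complex.mul_im, Complex.ofReal_re, Complex.I_im,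
    Complex.I_re, mul_one, mul_zero, add_zero, zero_add, Complex.zero_im] at h1
  rcases mul_eq_zero.mp h1 with h2 | h2
  · exact h h2
  · exact (Real.cosh_pos y).ne' h2

/-- the kernel `P_a (u) = sin a / (π (cosh 2u - cos a))` of the unit. -/
noncomputable def ba3d270_ker (a u : ℝ) : ℝ :=
  Real.sin a / (Real.pi * (Real.cosh (2 * u) - Real.cos a))

theorem ba3d270_cosh_sub_cos_pos (a u : ℝ) (ha : Real.sin (a / 2) ≠ 0) :
    0 < Real.cosh (2 * u) - Real.cos a := by
  have h1 : 1 ≤ Real.cosh (2 * u) := Real.one_le_cosh _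
  have h2 : Real.cos a = 1 - 2 * Real.sin (a / 2) ^ 2 := by
    have := Real.cos_sq' (a / 2)
    have h3 := Real.cos_two_mul (a / 2)
    rw [show 2 * (a / 2) = a by ring] at h3
    rw [h3, this]
    ring
  have h3 : 0 < Real.sin (a / 2) ^ 2 := by positivity
  linarith

/-- **(F5)** `sinh (i a/2 - y) / sinh (i a/2 + y) = exp (2 π i S y)` for ANY primitive `S` of the kernel
`P_a` with `S 0 = 0`. -/
theorem ba3d270_zc_eq_exp (a : ℝ) (ha : Real.sin (a / 2) ≠ 0) (S : ℝ → ℝ) (hS0 : S 0 = 0)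
    (hS : ∀ y, HasDerivAt S (ba3d270_ker a y) y) (y : ℝ) :
    ba3d270_zc (Complex.I * ((a / 2 : ℝ) : ℂ)) y = Complex.exp (2 * Real.pi * Complex.I * S y) := by
  set c : ℂ := Complex.I * ((a / 2 : ℝ) : ℂ) with hc
  have hD : ∀ y : ℝ, Complex.sinh (c + y) ≠ 0 := fun y => ba3d270_sinh_ne (a / 2) y ha
  set f : ℝ → ℂ := fun y => ba3d270_zc c y * Complex.exp (-(2 * Real.pi * Complex.I * S y)) with hf
  have hder : ∀ y : ℝ, HasDerivAt f 0 y := by
    intro y
    have d1 : HasDerivAt (fun w : ℂ => Complex.sinh (c - w)) (Complex.cosh (c - y) * (-1)) (y : ℂ) :=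
      (Complex.hasDerivAt_sinh (c - y)).comp (y : ℂ) ((hasDerivAt_id (y : ℂ)).const_sub c)
    have d2 : HasDerivAt (fun w : ℂ => Complex.sinh (c + w)) (Complex.cosh (c + y) * 1) (y : ℂ) :=
      (Complex.hasDerivAt_sinh (c + y)).comp (y : ℂ) ((hasDerivAt_id (y : ℂ)).const_add c)
    have d3 := (d1.div d2 (hD y)).comp_ofReal
    have d4 : HasDerivAt (fun y : ℝ => -(2 * Real.pi * Complex.I * (S y : ℂ)))
        (-(2 * Real.pi * Complex.I * (ba3d270_ker a y : ℝ))) y :=
      (((hS y).ofReal_comp).const_mul (2 * Real.pi * Complex.I)).neg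
    have d5 := d3.mul d4.cexp
    have hz : (Complex.cosh (c - y) * (-1) * Complex.sinh (c + y) -
        Complex.sinh (c - y) * (Complex.cosh (c + y) * 1)) / Complex.sinh (c + y) ^ 2 *
        Complex.exp (-(2 * Real.pi * Complex.I * (S y : ℂ))) +
        Complex.sinh (c - y) / Complex.sinh (c + y) *
        (Complex.exp (-(2 * Real.pi * Complex.I * (S y : ℂ))) *
          -(2 * Real.pi * Complex.I * (ba3d270_ker a y : ℝ))) = 0 := by
      have e1 : Complex.cosh (c - y) * Complex.sinh (c + y) +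
          Complex.sinh (c - y) * Complex.cosh (c + y) = Complex.sinh (c + c) := by
        have h := Complex.sinh_add (c - y) (c + y)
        rw [show (c - y) + (c + y) = c + c by ring] at h
        rw [h]
        ring
      have e2 : Complex.sinh (c + c) = Real.sin a * Complex.I := by
        have : c + c = (a : ℂ) * Complex.I := by
          rw [hc]
          push_cast
          ring
        rw [this, Complex.sinh_mul_I, Complex.ofReal_sin]
      have e3 : Complex.sinh (c - y) * Complex.sinh (c + y) =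
          ((Real.cos a - Real.cosh (2 * y) : ℝ) : ℂ) / 2 := by
        rw [ba3d270_id_prod]
        have h1 : c + c = (a : ℂ) * Complex.I := by
          rw [hc]
          push_cast
          ring
        rw [h1, Complex.cosh_mul_I]
        push_cast
        rw [two_mul]
      have hpos := ba3d270_cosh_sub_cos_pos a y ha
      have e4 : ((ba3d270_ker a y : ℝ) : ℂ) * (Real.pi * ((Real.cos a - Real.cosh (2 * y) : ℝ) : ℂ)) =
          -(Real.sin a : ℝ) := by
        unfold ba3d270_ker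
        have hp := Real.pi_ne_zero
        have : Real.sin a / (Real.pi * (Real.cosh (2 * y) - Real.cos a)) *
            (Real.pi * (Real.cos a - Real.cosh (2 * y))) = -Real.sin a := by
          have h' := hpos.ne'
          field_simp
          ring
        exact_mod_cast this
      have hDy := hD y
      have key : (Complex.cosh (c - y) * (-1) * Complex.sinh (c + y) -
          Complex.sinh (c - y) * (Complex.cosh (c + y) * 1)) -
          Complex.sinh (c - y) * Complex.sinh (c + y) *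
            (2 * Real.pi * Complex.I * (ba3d270_ker a y : ℝ)) = 0 := by
        rw [e3]
        linear_combination -e1 - e2 - Complex.I * e4
      generalize Complex.exp (-(2 * Real.pi * Complex.I * (S y : ℂ))) = E
      generalize Complex.sinh (c + y) = X at hDy key ⊢
      field_simp
      linear_combination E * key
    have d6 : HasDerivAt f _ y := d5
    exact d6.congr_deriv hz
  have hconst : ∀ y, f y = f 0 :=
    fun y => is_const_of_deriv_eq_zero (fun y => (hder y).differentiableAt)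
      (fun y => (hder y).deriv) y 0
  have h0 : f 0 = 1 := by
    simp only [hf, hS0, ba3d270_zc]
    have := hD 0
    simp only [Complex.ofReal_zero, add_zero] at this
    simp [this]
  have h1 := hconst y
  rw [h0] at h1
  simp only [hf] at h1
  rw [Complex.exp_neg] at h1
  have h2 := Complex.exp_ne_zero (2 * Real.pi * Complex.I * (S y : ℂ))
  field_simp at h1
  exact h1

theorem ba3d270_exp_half (m j : ℕ) :
    Complex.exp (2 * Real.pi * Complex.I * ((j : ℂ) - (m : ℂ) / 2)) = (-1) ^ m := by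
  have h1 : Complex.exp (2 * Real.pi * Complex.I * ((j : ℂ) - (m : ℂ) / 2)) * (-1) ^ m = 1 := by
    rw [← Complex.exp_pi_mul_I, ← Complex.exp_nat_mul, ← Complex.exp_add]
    have : 2 * Real.pi * Complex.I * ((j : ℂ) - (m : ℂ) / 2) + (m : ℂ) * (Real.pi * Complex.I) =
        (j : ℂ) * (2 * Real.pi * Complex.I) := by ring
    rw [this, Complex.exp_nat_mul, Complex.exp_two_pi_mul_I, one_pow]
  have h2 : ((-1 : ℂ) ^ m) * (-1) ^ m = 1 := by
    rw [← mul_pow]
    simp
  calc Complex.exp (2 * Real.pi * Complex.I * ((j : ℂ) - (m : ℂ) / 2))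
      = Complex.exp (2 * Real.pi * Complex.I * ((j : ℂ) - (m : ℂ) / 2)) *
          ((-1 : ℂ) ^ m * (-1) ^ m) := by rw [h2, mul_one]
    _ = (Complex.exp (2 * Real.pi * Complex.I * ((j : ℂ) - (m : ℂ) / 2)) * (-1) ^ m) *
          (-1) ^ m := by ring
    _ = (-1) ^ m := by rw [h1, one_mul]

/-- the root variable of the unit: `z lam y = sinh (i lam/2 - y) / sinh (i lam/2 + y)`. -/
noncomputable def ba3d270_z (lam y : ℝ) : ℂ := ba3d270_zc (Complex.I * ((lam / 2 : ℝ) : ℂ)) y

theorem ba3d270_c_eq (lam : ℝ) :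
    2 * Complex.cosh (Complex.I * ((lam / 2 : ℝ) : ℂ)) = ((2 * Real.cos (lam / 2) : ℝ) : ℂ) := by
  rw [mul_comm Complex.I, Complex.cosh_mul_I]
  push_cast
  ring

/-- **(F4)** the logarithmic Bethe equations give the Bethe equations of BA2. -/
theorem ba3d270_BE_of_log {m : ℕ} (lam : ℝ) (h1 : Real.sin (lam / 2) ≠ 0) (h2 : Real.sin lam ≠ 0)
    (N : ℕ) (y : Fin (m + 1) → ℝ) (S Θ : ℝ → ℝ) (hS0 : S 0 = 0)
    (hS : ∀ u, HasDerivAt S (ba3d270_ker lam u) u) (hΘ0 : Θ 0 = 0)
    (hΘ : ∀ u, HasDerivAt Θ (ba3d270_ker (2 * lam) u) u)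
    (hlog : ∀ j, (N : ℝ) * S (y j) - ∑ l, Θ (y j - y l) = ((j : ℕ) : ℝ) - (m : ℝ) / 2) :
    ba2a270_BE (2 - (((2 * Real.cos (lam / 2) : ℝ) : ℂ)) ^ 2) N (fun j => ba3d270_z lam (y j)) := by
  rw [← ba3d270_c_eq]
  set a : ℂ := Complex.I * ((lam / 2 : ℝ) : ℂ) with ha
  have haa : a + a = Complex.I * ((2 * lam / 2 : ℝ) : ℂ) := by
    rw [ha]
    push_cast
    ring
  have haa' : a + a = Complex.I * (lam : ℂ) := by
    rw [ha]
    push_cast
    ring
  refine ba3d270_BE_of_prod a N (fun j => (y j : ℂ)) (fun j => ba3d270_sinh_ne _ _ h1) ?_ ?_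
  · intro j l
    have := ba3d270_sinh_ne lam (y j - y l) h2
    rw [haa']
    push_cast at this
    exact this
  · intro j
    have e1 : ba3d270_zc a (y j) = Complex.exp (2 * Real.pi * Complex.I * S (y j)) :=
      ba3d270_zc_eq_exp lam h1 S hS0 hS (y j)
    have e2 : ∀ l ∈ univ.erase j, ba3d270_zc (a + a) ((y j : ℂ) - (y l : ℂ)) =
        Complex.exp (2 * Real.pi * Complex.I * Θ (y j - y l)) := by
      intro l _
      have h3 : Real.sin (2 * lam / 2) ≠ 0 := by
        rw [show 2 * lam / 2 = lam by ring]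
        exact h2
      have := ba3d270_zc_eq_exp (2 * lam) h3 Θ hΘ0 hΘ (y j - y l)
      rw [haa, ← this]
      push_cast
      rfl
    rw [prod_congr rfl e2, e1, ← Complex.exp_sum, ← Complex.exp_nat_mul, Nat.add_sub_cancel,
      ← ba3d270_exp_half m j, ← Complex.exp_add]
    congr 1
    have e3 : ∑ l ∈ univ.erase j, 2 * Real.pi * Complex.I * (Θ (y j - y l) : ℂ) =
        2 * Real.pi * Complex.I * ((∑ l, Θ (y j - y l) : ℝ) : ℂ) := by
      rw [sum_erase _ (by simp [hΘ0]), ← mul_sum]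
      push_cast
      rfl
    rw [e3]
    have e4 : ((N : ℝ) : ℂ) * (S (y j) : ℂ) - ((∑ l, Θ (y j - y l) : ℝ) : ℂ) =
        (((j : ℕ) : ℝ) : ℂ) - ((m : ℝ) : ℂ) / 2 := by
      exact_mod_cast congrArg (fun r : ℝ => (r : ℂ)) (hlog j)
    push_cast at e4 ⊢
    linear_combination (2 * Real.pi * Complex.I) * e4

end Dict

section Dict2

theorem ba3d270_csinh_ofReal_ne {y : ℝ} (hy : y ≠ 0) : Complex.sinh (y : ℂ) ≠ 0 := by
  rw [← Complex.ofReal_sinh]
  exact_mod_cast (Real.sinh_ne_zero.mpr hy)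

theorem ba3d270_ccosh_ne (lam : ℝ) (h : Real.cos (lam / 2) ≠ 0) :
    Complex.cosh (Complex.I * ((lam / 2 : ℝ) : ℂ)) ≠ 0 := by
  rw [mul_comm Complex.I, Complex.cosh_mul_I, ← Complex.ofReal_cos]
  exact_mod_cast h

/-- **(F2)** `z ≠ 1` off `y = 0`. -/
theorem ba3d270_z_ne_one (lam y : ℝ) (h1 : Real.sin (lam / 2) ≠ 0) (h2 : Real.cos (lam / 2) ≠ 0)
    (hy : y ≠ 0) : ba3d270_z lam y ≠ 1 :=
  ba3d270_zc_ne_one _ _ (ba3d270_sinh_ne _ _ h1) (ba3d270_ccosh_ne lam h2)
    (ba3d270_csinh_ofReal_ne hy)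

theorem ba3d270_id_inj (a y y' : ℂ) :
    Complex.sinh (a - y) * Complex.sinh (a + y') - Complex.sinh (a - y') * Complex.sinh (a + y) =
      Complex.sinh (a + a) * Complex.sinh (y' - y) := by
  have ha := Complex.exp_ne_zero a
  have hy := Complex.exp_ne_zero y
  have hy' := Complex.exp_ne_zero y'
  simp only [Complex.sinh, neg_add, neg_sub, Complex.exp_add, Complex.exp_sub, Complex.exp_neg]
  field_simp
  ring

/-- **(F2')** `y ↦ z lam y` is injective. -/
theorem ba3d270_z_injective (lam : ℝ) (h1 : Real.sin (lam / 2) ≠ 0) (h2 : Real.sin lam ≠ 0) :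
    Function.Injective (ba3d270_z lam) := by
  intro y y' h
  unfold ba3d270_z ba3d270_zc at h
  have d1 := ba3d270_sinh_ne (lam / 2) y h1
  have d2 := ba3d270_sinh_ne (lam / 2) y' h1
  rw [div_eq_div_iff d1 d2] at h
  have h3 := ba3d270_id_inj (Complex.I * ((lam / 2 : ℝ) : ℂ)) y y'
  rw [h, sub_self] at h3
  have h4 : Complex.sinh (Complex.I * ((lam / 2 : ℝ) : ℂ) + Complex.I * ((lam / 2 : ℝ) : ℂ)) ≠ 0 := by
    have := ba3d270_sinh_ne lam 0 h2
    simp only [Complex.ofReal_zero, add_zero] at this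
    convert this using 2
    push_cast
    ring
  have h5 := (mul_eq_zero.mp h3.symm).resolve_left h4
  by_contra hne
  have h6 : y' - y ≠ 0 := sub_ne_zero.mpr (Ne.symm hne)
  have := ba3d270_csinh_ofReal_ne h6
  push_cast at this
  exact this h5

/-- the energy function `ell (y) = log |L (z (y))|`. -/
noncomputable def ba3d270_ell (lam y : ℝ) : ℝ :=
  Real.log ((Real.cosh (2 * y) - Real.cos (2 * lam)) / (Real.cosh (2 * y) - 1)) / 2

theorem ba3d270_L_z (lam y : ℝ) (h1 : Real.sin (lam / 2) ≠ 0) (h2 : Real.cos (lam / 2) ≠ 0)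
    (hy : y ≠ 0) :
    ba2a270_L ((2 * Real.cos (lam / 2) : ℝ) : ℂ) (ba3d270_z lam y) =
      Complex.sinh (Complex.I * lam + ((-y : ℝ) : ℂ)) / Complex.sinh y := by
  rw [← ba3d270_c_eq]
  unfold ba3d270_z
  rw [ba3d270_L_formula _ _ (ba3d270_sinh_ne _ _ h1) (ba3d270_ccosh_ne lam h2)
    (ba3d270_csinh_ofReal_ne hy)]
  congr 2
  push_cast
  ring

theorem ba3d270_M_z (lam y : ℝ) (h1 : Real.sin (lam / 2) ≠ 0) (h2 : Real.cos (lam / 2) ≠ 0)
    (hy : y ≠ 0) :
    ba2a270_M ((2 * Real.cos (lam / 2) : ℝ) : ℂ) (ba3d270_z lam y) =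
      -Complex.sinh (Complex.I * lam + (y : ℂ)) / Complex.sinh y := by
  rw [← ba3d270_c_eq]
  unfold ba3d270_z
  rw [ba3d270_M_formula _ _ (ba3d270_sinh_ne _ _ h1) (ba3d270_ccosh_ne lam h2)
    (ba3d270_csinh_ofReal_ne hy)]
  congr 3
  push_cast
  ring

/-- `M (z y) = L (z (-y))`. -/
theorem ba3d270_M_eq_L_neg (lam y : ℝ) (h1 : Real.sin (lam / 2) ≠ 0) (h2 : Real.cos (lam / 2) ≠ 0)
    (hy : y ≠ 0) :
    ba2a270_M ((2 * Real.cos (lam / 2) : ℝ) : ℂ) (ba3d270_z lam y) =
      ba2a270_L ((2 * Real.cos (lam / 2) : ℝ) : ℂ) (ba3d270_z lam (-y)) := by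
  rw [ba3d270_M_z lam y h1 h2 hy, ba3d270_L_z lam (-y) h1 h2 (neg_ne_zero.mpr hy)]
  simp only [neg_neg, Complex.ofReal_neg, Complex.sinh_neg]
  rw [neg_div, div_neg]

/-- `M (z y) = conj (L (z y))`. -/
theorem ba3d270_M_eq_conj_L (lam y : ℝ) (h1 : Real.sin (lam / 2) ≠ 0) (h2 : Real.cos (lam / 2) ≠ 0)
    (hy : y ≠ 0) :
    ba2a270_M ((2 * Real.cos (lam / 2) : ℝ) : ℂ) (ba3d270_z lam y) =
      (starRingEnd ℂ) (ba2a270_L ((2 * Real.cos (lam / 2) : ℝ) : ℂ) (ba3d270_z lam y)) := by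
  rw [ba3d270_M_z lam y h1 h2 hy, ba3d270_L_z lam y h1 h2 hy, map_div₀, ba3d270_sinh_re_im,
    ba3d270_sinh_re_im, ← Complex.ofReal_sinh, Complex.conj_ofReal]
  congr 1
  simp only [map_add, map_mul, Complex.conj_ofReal, Complex.conj_I, Real.sinh_neg, Real.cosh_neg]
  push_cast
  ring

/-- `|L (z y)| = exp (ell y)`. -/
theorem ba3d270_norm_L (lam y : ℝ) (h1 : Real.sin (lam / 2) ≠ 0) (h2 : Real.cos (lam / 2) ≠ 0)
    (h3 : Real.sin lam ≠ 0) (hy : y ≠ 0) :
    ‖ba2a270_L ((2 * Real.cos (lam / 2) : ℝ) : ℂ) (ba3d270_z lam y)‖ =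
      Real.exp (ba3d270_ell lam y) := by
  have hs : Real.sinh y ≠ 0 := Real.sinh_ne_zero.mpr hy
  have e1 : Real.cosh (2 * y) - 1 = 2 * Real.sinh y ^ 2 := by
    rw [Real.cosh_two_mul, Real.cosh_sq]
    ring
  have e2 : Real.cosh (2 * y) - Real.cos (2 * lam) =
      2 * ((Real.cos lam * Real.sinh y) ^ 2 + (Real.sin lam * Real.cosh y) ^ 2) := by
    rw [Real.cosh_two_mul, Real.cos_two_mul, Real.cosh_sq]
    have := Real.sin_sq_add_cos_sq lam
    have h' : Real.sin lam ^ 2 = 1 - Real.cos lam ^ 2 := by linarith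
    rw [mul_pow, mul_pow, h', Real.cosh_sq]
    ring
  have hpos2 : 0 < (Real.cos lam * Real.sinh y) ^ 2 + (Real.sin lam * Real.cosh y) ^ 2 := by
    have : 0 < (Real.sin lam * Real.cosh y) ^ 2 := by
      have := (Real.cosh_pos y).ne'
      positivity
    positivity
  have hn : ‖ba2a270_L ((2 * Real.cos (lam / 2) : ℝ) : ℂ) (ba3d270_z lam y)‖ ^ 2 =
      (Real.cosh (2 * y) - Real.cos (2 * lam)) / (Real.cosh (2 * y) - 1) := by
    rw [ba3d270_L_z lam y h1 h2 hy, norm_div, div_pow, ba3d270_sinh_re_im, ← Complex.ofReal_sinh,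
      Complex.norm_real, e1, e2, ← Complex.normSq_eq_norm_sq, Complex.normSq_add_mul_I,
      Real.norm_eq_abs, sq_abs, Real.sinh_neg, Real.cosh_neg]
    field_simp
  have hq : 0 < (Real.cosh (2 * y) - Real.cos (2 * lam)) / (Real.cosh (2 * y) - 1) := by
    rw [e1, e2]
    positivity
  unfold ba3d270_ell
  have h4 : Real.exp (Real.log ((Real.cosh (2 * y) - Real.cos (2 * lam)) /
      (Real.cosh (2 * y) - 1)) / 2) ^ 2 =
      (Real.cosh (2 * y) - Real.cos (2 * lam)) / (Real.cosh (2 * y) - 1) := by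
    rw [← Real.exp_nat_mul]
    push_cast
    rw [mul_div_cancel₀ _ (two_ne_zero), Real.exp_log hq]
  exact (pow_left_inj₀ (norm_nonneg _) (Real.exp_pos _).le two_ne_zero).mp (hn.trans h4.symm)

/-- **(F6)** the Bethe eigenvalue of a symmetric real root set without `0`: it is real and its modulus
is `2 exp (∑ ell (y j))` (its sign is fixed by the Perron identification). -/
theorem ba3d270_Lam {n : ℕ} (lam : ℝ) (h1 : Real.sin (lam / 2) ≠ 0) (h2 : Real.cos (lam / 2) ≠ 0)
    (h3 : Real.sin lam ≠ 0) (y : Fin n → ℝ) (hy0 : ∀ j, y j ≠ 0) (hsym : ∀ j, y (Fin.rev j) = -y j) :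
    ((∏ j, ba2a270_L ((2 * Real.cos (lam / 2) : ℝ) : ℂ) (ba3d270_z lam (y j))) +
      ∏ j, ba2a270_M ((2 * Real.cos (lam / 2) : ℝ) : ℂ) (ba3d270_z lam (y j))).im = 0 ∧
    |((∏ j, ba2a270_L ((2 * Real.cos (lam / 2) : ℝ) : ℂ) (ba3d270_z lam (y j))) +
      ∏ j, ba2a270_M ((2 * Real.cos (lam / 2) : ℝ) : ℂ) (ba3d270_z lam (y j))).re| =
      2 * Real.exp (∑ j, ba3d270_ell lam (y j)) := by
  set c : ℂ := ((2 * Real.cos (lam / 2) : ℝ) : ℂ) with hc
  set P : ℂ := ∏ j, ba2a270_L c (ba3d270_z lam (y j)) with hP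
  have e1 : ∏ j, ba2a270_M c (ba3d270_z lam (y j)) = P := by
    rw [hP, ← Equiv.prod_comp Fin.revPerm (fun j => ba2a270_L c (ba3d270_z lam (y j)))]
    refine prod_congr rfl fun j _ => ?_
    rw [ba3d270_M_eq_L_neg lam (y j) h1 h2 (hy0 j), Fin.revPerm_apply, hsym j]
  have e2 : ∏ j, ba2a270_M c (ba3d270_z lam (y j)) = (starRingEnd ℂ) P := by
    rw [hP, map_prod]
    exact prod_congr rfl fun j _ => ba3d270_M_eq_conj_L lam (y j) h1 h2 (hy0 j)
  have e3 : (starRingEnd ℂ) P = P := e2.symm.trans e1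
  have e4 : P.im = 0 := Complex.conj_eq_iff_im.mp e3
  have e5 : ‖P‖ = Real.exp (∑ j, ba3d270_ell lam (y j)) := by
    rw [hP, norm_prod, Real.exp_sum]
    exact prod_congr rfl fun j _ => ba3d270_norm_L lam (y j) h1 h2 h3 (hy0 j)
  have e6 : ‖P‖ = |P.re| := by
    have : P = ((P.re : ℝ) : ℂ) := by
      apply Complex.ext
      · simp
      · simp [e4]
    rw [this, Complex.norm_real, Real.norm_eq_abs]
    simp
  rw [e1]
  constructor
  · simp [e4]
  · rw [Complex.add_re, ← two_mul, abs_mul, abs_two, ← e6, e5]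

/-- **(F8)** analytic dependence on `lam` along an analytic branch of rapidities. -/
theorem ba3d270_z_analyticAt (y : ℝ → ℝ) (t : ℝ) (hy : AnalyticAt ℝ y t)
    (h1 : Real.sin (t / 2) ≠ 0) : AnalyticAt ℝ (fun lam => ba3d270_z lam (y lam)) t := by
  have hsinh : ∀ w : ℂ, AnalyticAt ℝ Complex.sinh w := by
    intro w
    have : AnalyticAt ℂ Complex.sinh w :=
      (Complex.differentiable_sinh).analyticAt w
    exact this.restrictScalars
  have hof : AnalyticAt ℝ (fun r : ℝ => (r : ℂ)) t := Complex.ofRealCLM.analyticAt t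
  have hofy : AnalyticAt ℝ (fun r : ℝ => ((y r : ℝ) : ℂ)) t :=
    (Complex.ofRealCLM.analyticAt (y t)).comp hy
  have ha : AnalyticAt ℝ (fun r : ℝ => Complex.I * ((r / 2 : ℝ) : ℂ)) t := by
    have : (fun r : ℝ => Complex.I * ((r / 2 : ℝ) : ℂ)) = fun r : ℝ => (Complex.I / 2) * (r : ℂ) := by
      funext r
      push_cast
      ring
    rw [this]
    exact analyticAt_const.mul hof
  unfold ba3d270_z ba3d270_zc
  refine AnalyticAt.div ?_ ?_ (ba3d270_sinh_ne _ _ h1)
  · exact (hsinh _).comp (ha.sub hofy)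
  · exact (hsinh _).comp (ha.add hofy)

/-- the value of the roots at the free-fermion point: `Θ = 0` there, so `N S (y j) = j - m/2`. -/
theorem ba3d270_seed {m : ℕ} (lam : ℝ) (h1 : Real.sin (lam / 2) ≠ 0) (N : ℕ) (hN : 0 < N)
    (y : Fin (m + 1) → ℝ) (S : ℝ → ℝ) (hS0 : S 0 = 0)
    (hS : ∀ u, HasDerivAt S (ba3d270_ker lam u) u)
    (hlog : ∀ j, (N : ℝ) * S (y j) = ((j : ℕ) : ℝ) - (m : ℝ) / 2) (j : Fin (m + 1)) :
    ba3d270_z lam (y j) = ba4f270_z m N j := by
  unfold ba3d270_z ba4f270_z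
  rw [ba3d270_zc_eq_exp lam h1 S hS0 hS (y j)]
  congr 1
  have hN' : (N : ℝ) ≠ 0 := by exact_mod_cast hN.ne'
  have e : S (y j) = (((j : ℕ) : ℝ) - (m : ℝ) / 2) / N := by
    rw [← hlog j]
    field_simp
  rw [e]
  push_cast
  ring

end Dict2

end Claimed.Agent.R292
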