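import Mathlib

/-!
# Row 292 (and 290), unit BETHE, block BA6 / C5 (model free): QUANTITATIVE stiffness at finite `Q`

helper220.  Prefix `ba6x220_`.  Mathlib only, 0 sorry.  No Wiener-Hopf, no half-line limit problem, no existence
theory, no derivative: Fubini only.

Setting: `R` even, integrable, `∫ |R| ≤ 1/2` (the dressed resolvent `R₀ = K * (1 + K*)⁻¹`, all `1 < c ≤ 2`),
`χ` even, integrable, `0` on `[-Q, Q]`, `χ = r + R * χ` on `(Q, ∞)` (the outside equation of `r_Q`),
`r ≈ a e^{-κ t}`, `e ≈ b e^{-κ t}` on `(Q, ∞)`.  With `x₀ = ∫_Q^∞ χ`, `P` the primitive of `X = χ 1_{(Q,∞)}`: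

* `ba6x220_self_prim`   `∫ X P = x₀² / 2`,
* `ba6x220_conv_prim`   `∫ (R * X) P = (∫ R) x₀² / 2`   (symmetrisation `ba6x220_sym`, `tail v + tail (-v) = ∫ R`),
* `ba6x220_quadratic`   `(1 - ∫ R) x₀² / 2 = ∫ X tail g + ∫ V P`   (pair the equation with `P`),
* `ba6x220_apriori`, `ba6x220_mass`   the `L¹` bound and the integrated equation (lower bound of `x₀`),
* `ba6x220_quant`, `ba6x220_quant_even`   `|∫_Q^∞ e χ - b κ (1 - ∫ R) / (2 a) x₀²| ≤ (explicit, LINEAR in the three
  small numbers `η_r`, `η_e`, `∫_{2Q}^∞ |R|`) e^{-2 κ Q}`  and  `a e^{-κ Q} / (6 κ) ≤ x₀ ≤ (7/3) a e^{-κ Q} / κ`,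
* `ba6x220_uniform`   for every `δ > 0` a threshold `Q₀` that depends on `R` ONLY through a tail bound `tb`:
  `|∫_Q^∞ e χ - b κ (1 - ∫ R) / (2 a) x₀²| ≤ δ x₀²` for all `Q ≥ Q₀`.

Use: in the variable `x = u / lam` the functions `r = 1 / (2 cosh π x)`, `e = log coth (π |x| / 2)` do not depend on `lam`
(`κ = π`, `a = 1`, `b = 2`), only `R` does, with `∫_T^∞ |R_lam| ≤ tb T` uniformly in `0 < lam ≤ π / 2`; so
`(Einf - Eq) / (1/2 - Dq)² → 2 arcsin (c / 2)` UNIFORMLY in `c`, which passes to `c = 2` by the Lipschitz bound in `log c`.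
-/

set_option autoImplicit false
set_option linter.unusedSimpArgs false

namespace Claimed.Agent.R292

open MeasureTheory Set Filter Topology

/-- upper tail `∫_x^∞ R`. -/
noncomputable def ba6x220_tail (R : ℝ → ℝ) (x : ℝ) : ℝ := ∫ v in Ioi x, R v

/-- lower primitive `∫_{-∞}^t X`. -/
noncomputable def ba6x220_prim (X : ℝ → ℝ) (t : ℝ) : ℝ := ∫ w in Iio t, X w

theorem ba6x220_tail_eq (R : ℝ → ℝ) (x : ℝ) :
    ba6x220_tail R x = ∫ v, (if x < v then R v else 0) := by
  unfold ba6x220_tail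
  rw [← integral_indicator measurableSet_Ioi]
  refine integral_congr_ae (ae_of_all _ fun v => ?_)
  simp [indicator_apply]

theorem ba6x220_prim_eq (X : ℝ → ℝ) (t : ℝ) :
    ba6x220_prim X t = ∫ w, (if w < t then X w else 0) := by
  unfold ba6x220_prim
  rw [← integral_indicator measurableSet_Iio]
  refine integral_congr_ae (ae_of_all _ fun v => ?_)
  simp [indicator_apply]

theorem ba6x220_tail_add_neg {R : ℝ → ℝ} (hR : Integrable R) (hRe : ∀ x, R (-x) = R x) (x : ℝ) :
    ba6x220_tail R x + ba6x220_tail R (-x) = ∫ v, R v := by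
  unfold ba6x220_tail
  have h1 : ∫ v in Ioi (-x), R v = ∫ v in Iic x, R v := by
    rw [← integral_comp_neg_Iic x R]
    simp only [hRe]
  rw [h1, add_comm]
  exact intervalIntegral.integral_Iic_add_Ioi hR.integrableOn hR.integrableOn

theorem ba6x220_abs_tail_le {R : ℝ → ℝ} (hR : Integrable R) (x : ℝ) :
    |ba6x220_tail R x| ≤ ∫ v, |R v| := by
  unfold ba6x220_tail
  calc |∫ v in Ioi x, R v| ≤ ∫ v in Ioi x, |R v| := abs_integral_le_integral_abs
    _ ≤ ∫ v, |R v| := setIntegral_le_integral hR.abs (ae_of_all _ fun v => abs_nonneg _)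

theorem ba6x220_abs_prim_le {X : ℝ → ℝ} (hX : Integrable X) (t : ℝ) :
    |ba6x220_prim X t| ≤ ∫ v, |X v| := by
  unfold ba6x220_prim
  calc |∫ v in Iio t, X v| ≤ ∫ v in Iio t, |X v| := abs_integral_le_integral_abs
    _ ≤ ∫ v, |X v| := setIntegral_le_integral hX.abs (ae_of_all _ fun v => abs_nonneg _)

theorem ba6x220_tail_abs_half {R : ℝ → ℝ} (hR : Integrable R) (hRe : ∀ x, R (-x) = R x) :
    ba6x220_tail (fun v => |R v|) 0 = (∫ v, |R v|) / 2 := by
  have h := ba6x220_tail_add_neg (R := fun v => |R v|) hR.abs (fun x => by simp [hRe]) 0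
  simp only [neg_zero] at h
  linarith

theorem ba6x220_tail_antitone {R : ℝ → ℝ} (hR : Integrable R) (hR0 : ∀ v, 0 ≤ R v) :
    Antitone (ba6x220_tail R) := by
  intro x y hxy
  unfold ba6x220_tail
  exact setIntegral_mono_set hR.integrableOn (ae_of_all _ hR0) (Ioi_subset_Ioi hxy).eventuallyLE

theorem ba6x220_abs_tail_le_tail_abs {R : ℝ → ℝ} (x : ℝ) :
    |ba6x220_tail R x| ≤ ba6x220_tail (fun v => |R v|) x := by
  unfold ba6x220_tail
  exact abs_integral_le_integral_abs

theorem ba6x220_measurable_tail {R : ℝ → ℝ} (hRm : Measurable R) : Measurable (ba6x220_tail R) := by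
  have h : (ba6x220_tail R) = fun x => ∫ v, (if x < v then R v else 0) := by
    funext x; exact ba6x220_tail_eq R x
  rw [h]
  have hm : Measurable (fun p : ℝ × ℝ => if p.1 < p.2 then R p.2 else 0) :=
    Measurable.ite (measurableSet_lt measurable_fst measurable_snd) (hRm.comp measurable_snd)
      measurable_const
  exact (hm.stronglyMeasurable.integral_prod_right').measurable

theorem ba6x220_measurable_prim {X : ℝ → ℝ} (hXm : Measurable X) : Measurable (ba6x220_prim X) := by
  have h : (ba6x220_prim X) = fun t => ∫ w, (if w < t then X w else 0) := by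
    funext x; exact ba6x220_prim_eq X x
  rw [h]
  have hm : Measurable (fun p : ℝ × ℝ => if p.2 < p.1 then X p.2 else 0) :=
    Measurable.ite (measurableSet_lt measurable_snd measurable_fst) (hXm.comp measurable_snd)
      measurable_const
  exact (hm.stronglyMeasurable.integral_prod_right').measurable

/-- **Symmetrisation.** -/
theorem ba6x220_sym {X k : ℝ → ℝ} {B c : ℝ} (hX : Integrable X) (hkm : Measurable k)
    (hkb : ∀ v, |k v| ≤ B) (hk : ∀ v, v ≠ 0 → k v + k (-v) = c) :
    ∫ s, ∫ w, X s * X w * k (w - s) = c / 2 * (∫ s, X s) ^ 2 := by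
  have hint : Integrable (Function.uncurry fun s w => X s * X w * k (w - s))
      ((volume : Measure ℝ).prod volume) := by
    refine (hX.mul_prod hX).mul_bdd (c := B) ?_ (ae_of_all _ fun p => ?_)
    · exact (hkm.comp (measurable_snd.sub measurable_fst)).aestronglyMeasurable
    · simpa using hkb _
  have hswap := integral_integral_swap hint
  have h1 : ∀ s, Integrable (fun w => X s * X w * k (w - s)) := fun s =>
    (hX.const_mul (X s)).mul_bdd (c := B)
      (hkm.comp (measurable_id.sub_const s)).aestronglyMeasurable (ae_of_all _ fun p => by simpa using hkb _)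
  have h2 : ∀ s, Integrable (fun w => X w * X s * k (s - w)) := fun s =>
    (hX.mul_const (X s)).mul_bdd (c := B)
      (hkm.comp (measurable_const.sub measurable_id)).aestronglyMeasurable
      (ae_of_all _ fun p => by simpa using hkb _)
  have hA : Integrable (fun s => ∫ w, X s * X w * k (w - s)) := hint.integral_prod_left
  have hB : Integrable (fun s => ∫ w, X w * X s * k (s - w)) := hint.integral_prod_right
  have hsum : (∫ s, ∫ w, X s * X w * k (w - s)) + (∫ s, ∫ w, X w * X s * k (s - w))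
      = c * (∫ s, X s) ^ 2 := by
    rw [← integral_add hA hB]
    have : ∀ s, (∫ w, X s * X w * k (w - s)) + (∫ w, X w * X s * k (s - w))
        = (c * ∫ w, X w) * X s := by
      intro s
      rw [← integral_add (h1 s) (h2 s), ← integral_const_mul, ← integral_mul_const]
      refine integral_congr_ae ?_
      filter_upwards [Measure.ae_ne volume s] with w hw
      have := hk (w - s) (sub_ne_zero.2 hw)
      rw [neg_sub] at this
      rw [← this]; ring
    simp only [this]
    rw [integral_const_mul]; ring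
  have hswap' : (∫ s, ∫ w, X s * X w * k (w - s)) = ∫ s, ∫ w, X w * X s * k (s - w) := hswap
  linarith


theorem ba6x220_measurable_tail' {R : ℝ → ℝ} (hR : Integrable R) : Measurable (ba6x220_tail R) := by
  have h : ba6x220_tail R = ba6x220_tail (hR.1.mk R) := by
    funext x
    unfold ba6x220_tail
    exact integral_congr_ae (ae_restrict_of_ae hR.1.ae_eq_mk)
  rw [h]
  exact ba6x220_measurable_tail hR.1.stronglyMeasurable_mk.measurable

theorem ba6x220_measurable_prim' {X : ℝ → ℝ} (hX : Integrable X) : Measurable (ba6x220_prim X) := by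
  have h : ba6x220_prim X = ba6x220_prim (hX.1.mk X) := by
    funext x
    unfold ba6x220_prim
    exact integral_congr_ae (ae_restrict_of_ae hX.1.ae_eq_mk)
  rw [h]
  exact ba6x220_measurable_prim hX.1.stronglyMeasurable_mk.measurable

theorem ba6x220_tail_shift (R : ℝ → ℝ) (s w : ℝ) :
    ba6x220_tail (fun t => R (t - s)) w = ba6x220_tail R (w - s) := by
  rw [ba6x220_tail_eq, ba6x220_tail_eq]
  rw [← integral_sub_right_eq_self (fun v => if w - s < v then R v else 0) s]
  refine integral_congr_ae (ae_of_all _ fun t => ?_)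
  by_cases h : w < t
  · have : w - s < t - s := by linarith
    simp [h, this]
  · have : ¬ (w - s < t - s) := by intro h'; exact h (by linarith)
    simp [h, this]

theorem ba6x220_conv_integrand {R X φ : ℝ → ℝ} {B : ℝ} (hR : Integrable R) (hX : Integrable X)
    (hφm : Measurable φ) (hφb : ∀ t, |φ t| ≤ B) :
    Integrable (Function.uncurry fun t s => R (t - s) * X s * φ t)
      ((volume : Measure ℝ).prod volume) := by
  have h0 := Integrable.convolution_integrand (μ := (volume : Measure ℝ)) (ν := (volume : Measure ℝ))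
    (ContinuousLinearMap.mul ℝ ℝ) hX hR
  have h1 : Integrable (fun p : ℝ × ℝ => R (p.1 - p.2) * X p.2) ((volume : Measure ℝ).prod volume) := by
    refine h0.congr (ae_of_all _ fun p => ?_)
    simp [mul_comm]
  exact h1.mul_bdd (c := B) (hφm.comp measurable_fst).aestronglyMeasurable
    (ae_of_all _ fun p => by simpa using hφb _)

/-- **Lemma A**: the convolution is moved to the test function. -/
theorem ba6x220_conv_pair {R X φ : ℝ → ℝ} {B : ℝ} (hR : Integrable R) (hX : Integrable X)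
    (hφm : Measurable φ) (hφb : ∀ t, |φ t| ≤ B) :
    ∫ t, (∫ s, R (t - s) * X s) * φ t = ∫ s, X s * ∫ t, R (t - s) * φ t := by
  have hint := ba6x220_conv_integrand hR hX hφm hφb
  have hswap := integral_integral_swap hint
  calc ∫ t, (∫ s, R (t - s) * X s) * φ t = ∫ t, ∫ s, R (t - s) * X s * φ t := by
        refine integral_congr_ae (ae_of_all _ fun t => ?_)
        simp only [integral_mul_const]
    _ = ∫ s, ∫ t, R (t - s) * X s * φ t := hswap
    _ = ∫ s, X s * ∫ t, R (t - s) * φ t := by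
        refine integral_congr_ae (ae_of_all _ fun s => ?_)
        simp only
        rw [← integral_const_mul]
        refine integral_congr_ae (ae_of_all _ fun t => ?_)
        simp only; ring

theorem ba6x220_conv_integrable {R X : ℝ → ℝ} (hR : Integrable R) (hX : Integrable X) :
    Integrable (fun t => ∫ s, R (t - s) * X s) := by
  have hint := ba6x220_conv_integrand (φ := fun _ => 1) (B := 1) hR hX measurable_const (by simp)
  have := hint.integral_prod_left
  simpa [Function.uncurry] using this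

/-- **Lemma B**: pairing with the primitive. -/
theorem ba6x220_pair_prim {f X : ℝ → ℝ} (hf : Integrable f) (hX : Integrable X) :
    ∫ t, f t * ba6x220_prim X t = ∫ w, X w * ba6x220_tail f w := by
  have hint : Integrable (Function.uncurry fun t w => f t * (if w < t then X w else 0))
      ((volume : Measure ℝ).prod volume) := by
    have h0 := (hf.mul_prod hX).indicator
      (measurableSet_lt (measurable_snd : Measurable (Prod.snd : ℝ × ℝ → ℝ)) measurable_fst)
    refine h0.congr (ae_of_all _ fun p => ?_)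
    by_cases h : p.2 < p.1 <;> simp [Function.uncurry, h]
  have hswap := integral_integral_swap hint
  calc ∫ t, f t * ba6x220_prim X t = ∫ t, ∫ w, f t * (if w < t then X w else 0) := by
        refine integral_congr_ae (ae_of_all _ fun t => ?_)
        simp only [ba6x220_prim_eq, integral_const_mul]
    _ = ∫ w, ∫ t, f t * (if w < t then X w else 0) := hswap
    _ = ∫ w, X w * ba6x220_tail f w := by
        refine integral_congr_ae (ae_of_all _ fun w => ?_)
        simp only [ba6x220_tail_eq]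
        rw [← integral_const_mul]
        refine integral_congr_ae (ae_of_all _ fun t => ?_)
        by_cases h : w < t <;> simp [h, mul_comm]

/-- (E1) `∫ X P = (∫ X)² / 2`. -/
theorem ba6x220_self_prim {X : ℝ → ℝ} (hX : Integrable X) :
    ∫ t, X t * ba6x220_prim X t = (∫ t, X t) ^ 2 / 2 := by
  have hs := ba6x220_sym (X := X) (k := fun v => if v < 0 then 1 else 0) (B := 1) (c := 1) hX
    (Measurable.ite measurableSet_Iio measurable_const measurable_const)
    (fun v => by by_cases h : v < 0 <;> simp [h])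
    (fun v hv => by
      rcases lt_or_gt_of_ne hv with h | h
      · have : ¬ (0 < v) := not_lt.2 h.le
        simp [h, this]
      · have : ¬ (v < 0) := not_lt.2 h.le
        simp [h, this])
  have : ∫ t, X t * ba6x220_prim X t = ∫ s, ∫ w, X s * X w * (if w - s < 0 then 1 else 0) := by
    refine integral_congr_ae (ae_of_all _ fun t => ?_)
    simp only [ba6x220_prim_eq]
    rw [← integral_const_mul]
    refine integral_congr_ae (ae_of_all _ fun w => ?_)
    by_cases h : w < t
    · have : w - t < 0 := by linarith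
      simp [h, this]
    · have : ¬ (w - t < 0) := by intro h'; exact h (by linarith)
      simp [h, this]
  rw [this, hs]; ring

/-- (E2) `∫ (R * X) P = (∫ R) (∫ X)² / 2`. -/
theorem ba6x220_conv_prim {R X : ℝ → ℝ} (hR : Integrable R) (hRe : ∀ x, R (-x) = R x)
    (hX : Integrable X) :
    ∫ t, (∫ s, R (t - s) * X s) * ba6x220_prim X t = (∫ v, R v) / 2 * (∫ t, X t) ^ 2 := by
  rw [ba6x220_conv_pair hR hX (ba6x220_measurable_prim' hX) (ba6x220_abs_prim_le hX)]
  have hs := ba6x220_sym (X := X) (k := ba6x220_tail R) (c := ∫ v, R v) hX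
    (ba6x220_measurable_tail' hR) (ba6x220_abs_tail_le hR)
    (fun v _ => ba6x220_tail_add_neg hR hRe v)
  rw [← hs]
  refine integral_congr_ae (ae_of_all _ fun s => ?_)
  simp only
  rw [ba6x220_pair_prim (hR.comp_sub_right s) hX, ← integral_const_mul]
  refine integral_congr_ae (ae_of_all _ fun w => ?_)
  simp only [ba6x220_tail_shift]; ring


theorem ba6x220_integral_add3 {μ : Measure ℝ} {a b c : ℝ → ℝ} (ha : Integrable a μ)
    (hb : Integrable b μ) (hc : Integrable c μ) :
    ∫ t, (a t + b t + c t) ∂μ = (∫ t, a t ∂μ) + (∫ t, b t ∂μ) + ∫ t, c t ∂μ := by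
  have hab : Integrable (fun t => a t + b t) μ := ha.add hb
  have h1 : ∫ t, (a t + b t + c t) ∂μ = (∫ t, (a t + b t) ∂μ) + ∫ t, c t ∂μ := integral_add hab hc
  have h2 : ∫ t, (a t + b t) ∂μ = (∫ t, a t ∂μ) + ∫ t, b t ∂μ := integral_add ha hb
  rw [h1, h2]

theorem ba6x220_prim_eq_zero {X : ℝ → ℝ} {Q : ℝ} (hX0 : ∀ t, t ≤ Q → X t = 0) {t : ℝ} (ht : t ≤ Q) :
    ba6x220_prim X t = 0 := by
  unfold ba6x220_prim
  rw [setIntegral_congr_fun measurableSet_Iio (g := fun _ => (0 : ℝ))
    (fun w hw => hX0 w (le_trans (le_of_lt hw) ht))]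
  simp

theorem ba6x220_integral_eq_Ioi {X : ℝ → ℝ} {Q : ℝ} (hX0 : ∀ t, t ≤ Q → X t = 0) :
    ∫ t, X t = ∫ t in Ioi Q, X t := by
  rw [← integral_indicator measurableSet_Ioi]
  refine integral_congr_ae (ae_of_all _ fun t => ?_)
  by_cases h : Q < t
  · simp [h]
  · simp [h, hX0 t (not_lt.1 h)]

/-- **(C1) the quadratic identity.** -/
theorem ba6x220_quadratic {R X g V : ℝ → ℝ} {Q : ℝ} (hR : Integrable R) (hRe : ∀ x, R (-x) = R x)
    (hX : Integrable X) (hX0 : ∀ t, t ≤ Q → X t = 0) (hg : Integrable g) (hV : Integrable V)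
    (heq : ∀ t, Q < t → X t = g t + (∫ s, R (t - s) * X s) + V t) :
    (1 - ∫ v, R v) / 2 * (∫ t, X t) ^ 2
      = (∫ w, X w * ba6x220_tail g w) + ∫ t, V t * ba6x220_prim X t := by
  have hPm := ba6x220_measurable_prim' hX
  have hPb : ∀ᵐ t ∂(volume : Measure ℝ), ‖ba6x220_prim X t‖ ≤ ∫ v, |X v| :=
    ae_of_all _ fun t => by simpa using ba6x220_abs_prim_le hX t
  have hU := ba6x220_conv_integrable hR hX
  have i1 := hg.mul_bdd hPm.aestronglyMeasurable hPb
  have i2 := hU.mul_bdd hPm.aestronglyMeasurable hPb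
  have i3 := hV.mul_bdd hPm.aestronglyMeasurable hPb
  have key : ∫ t, X t * ba6x220_prim X t
      = (∫ t, g t * ba6x220_prim X t) + (∫ t, (∫ s, R (t - s) * X s) * ba6x220_prim X t)
        + ∫ t, V t * ba6x220_prim X t := by
    rw [← ba6x220_integral_add3 i1 i2 i3]
    refine integral_congr_ae (ae_of_all _ fun t => ?_)
    by_cases h : Q < t
    · simp only
      rw [heq t h]; ring
    · simp [ba6x220_prim_eq_zero hX0 (not_lt.1 h)]
  rw [ba6x220_self_prim hX, ba6x220_conv_prim hR hRe hX, ba6x220_pair_prim hg hX] at key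
  linarith

theorem ba6x220_conv_abs_le {R X : ℝ → ℝ} (hR : Integrable R) (hX : Integrable X) :
    ∫ t, |∫ s, R (t - s) * X s| ≤ (∫ v, |R v|) * ∫ t, |X t| := by
  have hA := ba6x220_conv_pair (φ := fun _ => 1) (B := 1) hR.abs hX.abs measurable_const (by simp)
  have hU := ba6x220_conv_integrable hR hX
  have hU' := ba6x220_conv_integrable hR.abs hX.abs
  calc ∫ t, |∫ s, R (t - s) * X s| ≤ ∫ t, (∫ s, |R (t - s)| * |X s|) * 1 := by
        refine integral_mono hU.abs (by simpa using hU') fun t => ?_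
        simp only [mul_one]
        calc |∫ s, R (t - s) * X s| ≤ ∫ s, |R (t - s) * X s| := abs_integral_le_integral_abs
          _ = ∫ s, |R (t - s)| * |X s| := by simp only [abs_mul]
    _ = ∫ s, |X s| * ∫ t, |R (t - s)| * 1 := hA
    _ = (∫ v, |R v|) * ∫ t, |X t| := by
        have : ∀ s : ℝ, ∫ t, |R (t - s)| * 1 = ∫ v, |R v| := fun s => by
          simp only [mul_one]
          exact integral_sub_right_eq_self (fun v => |R v|) s
        simp only [this]
        rw [integral_mul_const]; ring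

/-- **(C2) a priori bound.** -/
theorem ba6x220_apriori {R X g V : ℝ → ℝ} {Q : ℝ} (hR : Integrable R)
    (hX : Integrable X) (hX0 : ∀ t, t ≤ Q → X t = 0) (hg : Integrable g) (hV : Integrable V)
    (heq : ∀ t, Q < t → X t = g t + (∫ s, R (t - s) * X s) + V t) :
    ∫ t, |X t| ≤ (∫ t in Ioi Q, |g t|) + (∫ v, |R v|) * (∫ t, |X t|) + ∫ t in Ioi Q, |V t| := by
  have hU := ba6x220_conv_integrable hR hX
  have h0 : ∫ t, |X t| = ∫ t in Ioi Q, |X t| :=
    ba6x220_integral_eq_Ioi (X := fun t => |X t|) (fun t ht => by simp [hX0 t ht])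
  have h1 : ∫ t in Ioi Q, |X t|
      ≤ ∫ t in Ioi Q, (|g t| + |∫ s, R (t - s) * X s| + |V t|) := by
    refine setIntegral_mono_on hX.abs.integrableOn
      ((hg.abs.add hU.abs).add hV.abs).integrableOn measurableSet_Ioi fun t ht => ?_
    rw [heq t ht]
    exact (abs_add_le _ _).trans (add_le_add (abs_add_le _ _) le_rfl)
  have h2 : ∫ t in Ioi Q, (|g t| + |∫ s, R (t - s) * X s| + |V t|)
      = (∫ t in Ioi Q, |g t|) + (∫ t in Ioi Q, |∫ s, R (t - s) * X s|) + ∫ t in Ioi Q, |V t| := by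
    exact ba6x220_integral_add3 hg.abs.integrableOn hU.abs.integrableOn hV.abs.integrableOn
  have h3 : ∫ t in Ioi Q, |∫ s, R (t - s) * X s| ≤ ∫ t, |∫ s, R (t - s) * X s| :=
    setIntegral_le_integral hU.abs (ae_of_all _ fun v => abs_nonneg _)
  have h4 := ba6x220_conv_abs_le hR hX
  linarith

/-- **(C3) the integrated equation.** -/
theorem ba6x220_mass {R X g V : ℝ → ℝ} {Q : ℝ} (hR : Integrable R) (hRe : ∀ x, R (-x) = R x)
    (hX : Integrable X) (hX0 : ∀ t, t ≤ Q → X t = 0) (hg : Integrable g) (hV : Integrable V)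
    (heq : ∀ t, Q < t → X t = g t + (∫ s, R (t - s) * X s) + V t) :
    (1 - ∫ v, R v) * (∫ t, X t)
      = (∫ t in Ioi Q, g t) - (∫ s, X s * ba6x220_tail R (s - Q)) + ∫ t in Ioi Q, V t := by
  have hU := ba6x220_conv_integrable hR hX
  have h0 : ∫ t, X t = ∫ t in Ioi Q, X t := ba6x220_integral_eq_Ioi hX0
  have h1 : ∫ t in Ioi Q, X t
      = (∫ t in Ioi Q, g t) + (∫ t in Ioi Q, ∫ s, R (t - s) * X s) + ∫ t in Ioi Q, V t := by
    rw [← ba6x220_integral_add3 hg.integrableOn hU.integrableOn hV.integrableOn]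
    exact setIntegral_congr_fun measurableSet_Ioi fun t ht => heq t ht
  have h2 : ∫ t in Ioi Q, ∫ s, R (t - s) * X s
      = ∫ t, (∫ s, R (t - s) * X s) * (if Q < t then 1 else 0) := by
    rw [← integral_indicator measurableSet_Ioi]
    refine integral_congr_ae (ae_of_all _ fun t => ?_)
    by_cases h : Q < t <;> simp [h]
  have h3 := ba6x220_conv_pair (φ := fun t => if Q < t then (1 : ℝ) else 0) (B := 1) hR hX
    (Measurable.ite measurableSet_Ioi measurable_const measurable_const)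
    (fun t => by by_cases h : Q < t <;> simp [h])
  have h4 : ∀ s, ∫ t, R (t - s) * (if Q < t then (1 : ℝ) else 0)
      = (∫ v, R v) - ba6x220_tail R (s - Q) := by
    intro s
    have e1 : ∫ t, R (t - s) * (if Q < t then (1 : ℝ) else 0) = ba6x220_tail (fun t => R (t - s)) Q := by
      rw [ba6x220_tail_eq]
      refine integral_congr_ae (ae_of_all _ fun t => ?_)
      by_cases h : Q < t <;> simp [h]
    rw [e1, ba6x220_tail_shift]
    have := ba6x220_tail_add_neg hR hRe (s - Q)
    rw [neg_sub] at this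
    linarith
  have hT : Integrable (fun s => X s * ba6x220_tail R (s - Q)) :=
    hX.mul_bdd (c := ∫ v, |R v|)
      ((ba6x220_measurable_tail' hR).comp (measurable_id.sub_const Q)).aestronglyMeasurable
      (ae_of_all _ fun t => by simpa using ba6x220_abs_tail_le hR _)
  have h5 : ∫ s, X s * ∫ t, R (t - s) * (if Q < t then (1 : ℝ) else 0)
      = (∫ v, R v) * (∫ t, X t) - ∫ s, X s * ba6x220_tail R (s - Q) := by
    simp only [h4, mul_sub]
    rw [integral_sub (hX.mul_const _) hT, integral_mul_const]; ring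
  rw [h2, h3, h5] at h1
  rw [← h0] at h1
  linarith


/-- pairing of `X` (supported in `(Q, ∞)`) with a function bounded on `(Q, ∞)`. -/
theorem ba6x220_pair_bound {F X : ℝ → ℝ} {Q C : ℝ} (hF : AEStronglyMeasurable F volume)
    (hX : Integrable X) (hX0 : ∀ t, t ≤ Q → X t = 0) (hFb : ∀ t, Q < t → |F t| ≤ C) :
    Integrable (fun t => F t * X t) ∧ |∫ t, F t * X t| ≤ C * ∫ t, |X t| := by
  have hb : ∀ t, ‖F t * X t‖ ≤ C * |X t| := by
    intro t
    by_cases h : Q < t
    · rw [norm_mul, Real.norm_eq_abs, Real.norm_eq_abs]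
      exact mul_le_mul_of_nonneg_right (hFb t h) (abs_nonneg _)
    · simp [hX0 t (not_lt.1 h)]
  refine ⟨(hX.abs.const_mul C).mono' (hF.mul hX.1) (ae_of_all _ hb), ?_⟩
  have := norm_integral_le_of_norm_le (hX.abs.const_mul C) (ae_of_all _ hb)
  rwa [Real.norm_eq_abs, integral_const_mul] at this

theorem ba6x220_exp_tail {κ : ℝ} (hκ : 0 < κ) (w : ℝ) :
    ∫ t in Ioi w, Real.exp (-κ * t) = Real.exp (-κ * w) / κ := by
  rw [integral_exp_mul_Ioi (by linarith : -κ < 0) w]
  field_simp

/-- tail of a function close to an exponential. -/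
theorem ba6x220_tail_exp {g : ℝ → ℝ} {Q κ a η : ℝ} (hκ : 0 < κ) (hg : Integrable g)
    (hgE : ∀ t, Q < t → |g t - a * Real.exp (-κ * t)| ≤ η * Real.exp (-κ * t)) {w : ℝ} (hw : Q ≤ w) :
    |κ * ba6x220_tail g w - a * Real.exp (-κ * w)| ≤ η * Real.exp (-κ * w) := by
  have hE := integrableOn_exp_mul_Ioi (by linarith : -κ < 0) w
  have h1 : ba6x220_tail g w - a * (Real.exp (-κ * w) / κ)
      = ∫ t in Ioi w, (g t - a * Real.exp (-κ * t)) := by
    unfold ba6x220_tail
    rw [integral_sub hg.integrableOn (hE.const_mul a), integral_const_mul, ba6x220_exp_tail hκ]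
  have h2 : |∫ t in Ioi w, (g t - a * Real.exp (-κ * t))| ≤ η * (Real.exp (-κ * w) / κ) := by
    rw [← ba6x220_exp_tail hκ, ← integral_const_mul]
    refine (abs_integral_le_integral_abs).trans ?_
    refine setIntegral_mono_on (hg.integrableOn.sub (hE.const_mul a)).abs (hE.const_mul η)
      measurableSet_Ioi fun t ht => hgE t (lt_of_le_of_lt hw ht)
  rw [← h1] at h2
  have h3 : κ * ba6x220_tail g w - a * Real.exp (-κ * w)
      = κ * (ba6x220_tail g w - a * (Real.exp (-κ * w) / κ)) := by field_simp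
  rw [h3, abs_mul, abs_of_pos hκ]
  calc κ * |ba6x220_tail g w - a * (Real.exp (-κ * w) / κ)|
      ≤ κ * (η * (Real.exp (-κ * w) / κ)) := mul_le_mul_of_nonneg_left h2 hκ.le
    _ = η * Real.exp (-κ * w) := by field_simp


/-- pure arithmetic at the end of `ba6x220_quant`. -/
theorem ba6x220_arith {a κ θ N b ηe η ε A1 A2 A3 : ℝ} (ha : 0 < a) (hκ : 0 < κ) (hθ : 0 < θ)
    (hN0 : 0 ≤ N) (hN : N ≤ 7 / 3 * (a * θ / κ)) (hηe : 0 ≤ ηe) (hη0 : 0 ≤ η) (hε0 : 0 ≤ ε)
    (h1 : |A1| ≤ ηe * θ * N) (h2 : |A2| ≤ η * θ * N) (h3 : |A3| ≤ ε * N ^ 2) :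
    |A1 - b / a * (A2 + κ * A3)|
      ≤ (ηe * (7 / 3 * a / κ) + |b| * (η * (7 / 3) / κ + ε * (49 / 9) * a / κ)) * θ ^ 2 := by
  have hY : 0 < a * θ / κ := by positivity
  have hN2 : N ^ 2 ≤ (7 / 3 * (a * θ / κ)) ^ 2 := by gcongr
  have e1 : |A1| ≤ ηe * (7 / 3 * a / κ) * θ ^ 2 := by
    calc |A1| ≤ ηe * θ * N := h1
      _ ≤ ηe * θ * (7 / 3 * (a * θ / κ)) := by gcongr
      _ = ηe * (7 / 3 * a / κ) * θ ^ 2 := by ring
  have e2 : |A2| ≤ a * (η * (7 / 3) / κ) * θ ^ 2 := by
    calc |A2| ≤ η * θ * N := h2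
      _ ≤ η * θ * (7 / 3 * (a * θ / κ)) := by gcongr
      _ = a * (η * (7 / 3) / κ) * θ ^ 2 := by ring
  have e3 : κ * |A3| ≤ a * (ε * (49 / 9) * a / κ) * θ ^ 2 := by
    calc κ * |A3| ≤ κ * (ε * N ^ 2) := by gcongr
      _ ≤ κ * (ε * (7 / 3 * (a * θ / κ)) ^ 2) := by gcongr
      _ = a * (ε * (49 / 9) * a / κ) * θ ^ 2 := by field_simp; ring
  have e4 : |A2 + κ * A3| ≤ a * ((η * (7 / 3) / κ + ε * (49 / 9) * a / κ) * θ ^ 2) := by
    calc |A2 + κ * A3| ≤ |A2| + |κ * A3| := abs_add_le _ _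
      _ = |A2| + κ * |A3| := by rw [abs_mul, abs_of_pos hκ]
      _ ≤ a * ((η * (7 / 3) / κ + ε * (49 / 9) * a / κ) * θ ^ 2) := by nlinarith [e2, e3]
  have e5 : |b / a * (A2 + κ * A3)| ≤ |b| * ((η * (7 / 3) / κ + ε * (49 / 9) * a / κ) * θ ^ 2) := by
    rw [abs_mul, abs_div, abs_of_pos ha]
    calc |b| / a * |A2 + κ * A3|
        ≤ |b| / a * (a * ((η * (7 / 3) / κ + ε * (49 / 9) * a / κ) * θ ^ 2)) := by gcongr
      _ = |b| * ((η * (7 / 3) / κ + ε * (49 / 9) * a / κ) * θ ^ 2) := by field_simp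
  calc |A1 - b / a * (A2 + κ * A3)| ≤ |A1| + |b / a * (A2 + κ * A3)| := abs_sub _ _
    _ ≤ (ηe * (7 / 3 * a / κ) + |b| * (η * (7 / 3) / κ + ε * (49 / 9) * a / κ)) * θ ^ 2 := by
        nlinarith [e1, e5]

/-- **The quantitative stiffness estimate** (one side, base point `Q`). -/
theorem ba6x220_quant {R X g V e : ℝ → ℝ} {Q κ a b η ηe ε : ℝ}
    (hR : Integrable R) (hRe : ∀ x, R (-x) = R x) (hτ : ∫ v, |R v| ≤ 1 / 2)
    (hX : Integrable X) (hX0 : ∀ t, t ≤ Q → X t = 0) (hg : Integrable g) (hV : Integrable V)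
    (heq : ∀ t, Q < t → X t = g t + (∫ s, R (t - s) * X s) + V t)
    (hκ : 0 < κ) (ha : 0 < a) (hη0 : 0 ≤ η) (hη : η ≤ a / 20) (hε0 : 0 ≤ ε) (hε : ε ≤ 1 / 20)
    (hηe : 0 ≤ ηe)
    (hgE : ∀ t, Q < t → |g t - a * Real.exp (-κ * t)| ≤ η * Real.exp (-κ * t))
    (hem : AEStronglyMeasurable e volume)
    (heE : ∀ t, Q < t → |e t - b * Real.exp (-κ * t)| ≤ ηe * Real.exp (-κ * t))
    (hVb : ∫ t in Ioi Q, |V t| ≤ ε * ∫ t, |X t|) :
    (∫ t, |X t|) ≤ 7 / 3 * (a * Real.exp (-κ * Q) / κ) ∧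
    a * Real.exp (-κ * Q) / (6 * κ) ≤ ∫ t, X t ∧
    |(∫ t, e t * X t) - b * κ * (1 - ∫ v, R v) / (2 * a) * (∫ t, X t) ^ 2|
      ≤ (ηe * (7 / 3 * a / κ) + |b| * (η * (7 / 3) / κ + ε * (49 / 9) * a / κ))
          * Real.exp (-κ * Q) ^ 2 := by
  set θ := Real.exp (-κ * Q) with hθdef
  set N := ∫ t, |X t| with hNdef
  set x0 := ∫ t, X t with hx0def
  set ρ := ∫ v, R v with hρdef
  set τ := ∫ v, |R v| with hτdef
  have hθ : 0 < θ := Real.exp_pos _
  have hN0 : 0 ≤ N := integral_nonneg fun t => abs_nonneg _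
  have hρ : |ρ| ≤ τ := abs_integral_le_integral_abs
  have hEle : ∀ t, Q < t → Real.exp (-κ * t) ≤ θ := fun t ht =>
    Real.exp_le_exp.2 (by nlinarith)
  have hE := integrableOn_exp_mul_Ioi (by linarith : -κ < 0) Q
  have hEm : AEStronglyMeasurable (fun t : ℝ => Real.exp (-κ * t)) volume :=
    (Real.continuous_exp.comp (continuous_const.mul continuous_id)).aestronglyMeasurable
  -- (1) the driving term
  have hg1 : ∫ t in Ioi Q, |g t| ≤ (a + η) * (θ / κ) := by
    rw [hθdef, ← ba6x220_exp_tail hκ, ← integral_const_mul]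
    refine setIntegral_mono_on hg.abs.integrableOn (hE.const_mul _) measurableSet_Ioi fun t ht => ?_
    have h := hgE t ht
    have hp := Real.exp_pos (-κ * t)
    have : |g t| ≤ |g t - a * Real.exp (-κ * t)| + |a * Real.exp (-κ * t)| := by
      have := abs_add_le (g t - a * Real.exp (-κ * t)) (a * Real.exp (-κ * t))
      simpa using this
    rw [abs_of_pos (mul_pos ha hp)] at this
    nlinarith
  have hg2 : (a - η) * (θ / κ) ≤ ∫ t in Ioi Q, g t := by
    rw [hθdef, ← ba6x220_exp_tail hκ, ← integral_const_mul]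
    refine setIntegral_mono_on (hE.const_mul _) hg.integrableOn measurableSet_Ioi fun t ht => ?_
    have h := (abs_le.1 (hgE t ht)).1
    nlinarith
  have hY : 0 < a * θ / κ := by positivity
  have hθκ : 0 < θ / κ := by positivity
  -- (2) a priori bound
  have hN : N ≤ 7 / 3 * (a * θ / κ) := by
    have h := ba6x220_apriori hR hX hX0 hg hV heq
    have h1 : τ * N ≤ 1 / 2 * N := mul_le_mul_of_nonneg_right hτ hN0
    have h2 : ε * N ≤ 1 / 20 * N := mul_le_mul_of_nonneg_right hε hN0
    have h3 : (a + η) * (θ / κ) ≤ 21 / 20 * (a * θ / κ) := by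
      have : (a + η) * (θ / κ) ≤ (a + a / 20) * (θ / κ) := by gcongr
      calc (a + η) * (θ / κ) ≤ (a + a / 20) * (θ / κ) := this
        _ = 21 / 20 * (a * θ / κ) := by ring
    linarith
  -- (3) lower bound of the mass
  have hTm : AEStronglyMeasurable (fun s => ba6x220_tail R (s - Q)) volume :=
    ((ba6x220_measurable_tail' hR).comp (measurable_id.sub_const Q)).aestronglyMeasurable
  have hTb : ∀ s, Q < s → |ba6x220_tail R (s - Q)| ≤ τ / 2 := by
    intro s hs
    calc |ba6x220_tail R (s - Q)| ≤ ba6x220_tail (fun v => |R v|) (s - Q) :=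
          ba6x220_abs_tail_le_tail_abs _
      _ ≤ ba6x220_tail (fun v => |R v|) 0 :=
          ba6x220_tail_antitone hR.abs (fun v => abs_nonneg _) (by linarith)
      _ = τ / 2 := ba6x220_tail_abs_half hR hRe
  have hx0 : a * θ / (6 * κ) ≤ x0 := by
    have h := ba6x220_mass hR hRe hX hX0 hg hV heq
    have h1 := (ba6x220_pair_bound hTm hX hX0 hTb).2
    have h1' : |∫ s, X s * ba6x220_tail R (s - Q)| ≤ τ / 2 * N := by
      have : (fun s => X s * ba6x220_tail R (s - Q)) = fun s => ba6x220_tail R (s - Q) * X s := by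
        funext s; ring
      rw [this]; exact h1
    have h2 : |∫ t in Ioi Q, V t| ≤ ε * N := (abs_integral_le_integral_abs).trans hVb
    have h3 : τ / 2 * N ≤ 1 / 4 * N := mul_le_mul_of_nonneg_right (by linarith) hN0
    have h4 : ε * N ≤ 1 / 20 * N := mul_le_mul_of_nonneg_right hε hN0
    have h5 : 19 / 20 * (a * θ / κ) ≤ (a - η) * (θ / κ) := by
      have : (a - a / 20) * (θ / κ) ≤ (a - η) * (θ / κ) := by gcongr
      calc 19 / 20 * (a * θ / κ) = (a - a / 20) * (θ / κ) := by ring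
        _ ≤ _ := this
    have h6 : 1 / 4 * (a * θ / κ) ≤ (1 - ρ) * x0 := by
      have := abs_le.1 h1'
      have := abs_le.1 h2
      rw [h]; linarith [this.1, (abs_le.1 h1').2]
    have hρ1 : 0 < 1 - ρ := by have := (abs_le.1 hρ).2; linarith
    have hρ2 : 1 - ρ ≤ 3 / 2 := by have := (abs_le.1 hρ).1; linarith
    have hx0pos : 0 < x0 := by
      by_contra hneg
      have : (1 - ρ) * x0 ≤ 0 := mul_nonpos_of_nonneg_of_nonpos hρ1.le (not_lt.1 hneg)
      linarith
    have h7 : (1 - ρ) * x0 ≤ 3 / 2 * x0 := mul_le_mul_of_nonneg_right hρ2 hx0pos.le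
    have h8 : a * θ / (6 * κ) = 1 / 6 * (a * θ / κ) := by field_simp
    rw [h8]; linarith
  refine ⟨hN, hx0, ?_⟩
  -- (4) the quadratic identity
  have hq := ba6x220_quadratic hR hRe hX hX0 hg hV heq
  have hEX := ba6x220_pair_bound (C := θ) hEm hX hX0
    (fun t ht => by rw [abs_of_pos (Real.exp_pos _)]; exact hEle t ht)
  have hGm : AEStronglyMeasurable (ba6x220_tail g) volume :=
    (ba6x220_measurable_tail' hg).aestronglyMeasurable
  have hGX := ba6x220_pair_bound (C := ∫ v, |g v|) hGm hX hX0 (fun t _ => ba6x220_abs_tail_le hg t)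
  have hA3 : |∫ t, V t * ba6x220_prim X t| ≤ ε * N ^ 2 := by
    have hb : ∀ t, ‖V t * ba6x220_prim X t‖ ≤ N * (Ioi Q).indicator (fun t => |V t|) t := by
      intro t
      by_cases h : Q < t
      · rw [norm_mul, Real.norm_eq_abs, Real.norm_eq_abs, indicator_of_mem (show t ∈ Ioi Q from h),
          mul_comm]
        exact mul_le_mul_of_nonneg_right (ba6x220_abs_prim_le hX t) (abs_nonneg _)
      · simp [ba6x220_prim_eq_zero hX0 (not_lt.1 h), h]
    have hi : Integrable (fun t => N * (Ioi Q).indicator (fun t => |V t|) t) :=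
      (hV.abs.indicator measurableSet_Ioi).const_mul N
    have := norm_integral_le_of_norm_le hi (ae_of_all _ hb)
    rw [Real.norm_eq_abs, integral_const_mul, integral_indicator measurableSet_Ioi] at this
    calc |∫ t, V t * ba6x220_prim X t| ≤ N * ∫ t in Ioi Q, |V t| := this
      _ ≤ N * (ε * N) := mul_le_mul_of_nonneg_left hVb hN0
      _ = ε * N ^ 2 := by ring
  have hA2 : |κ * (∫ w, X w * ba6x220_tail g w) - a * ∫ t, Real.exp (-κ * t) * X t| ≤ η * θ * N := by
    have hF := ba6x220_pair_bound (F := fun w => κ * ba6x220_tail g w - a * Real.exp (-κ * w))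
      (C := η * θ) ((hGm.const_mul κ).sub (hEm.const_mul a)) hX hX0
      (fun w hw => (ba6x220_tail_exp hκ hg hgE hw.le).trans
        (mul_le_mul_of_nonneg_left (hEle w hw) hη0))
    have : ∫ w, (κ * ba6x220_tail g w - a * Real.exp (-κ * w)) * X w
        = κ * (∫ w, X w * ba6x220_tail g w) - a * ∫ t, Real.exp (-κ * t) * X t := by
      have e1 : ∀ w, (κ * ba6x220_tail g w - a * Real.exp (-κ * w)) * X w
          = κ * (ba6x220_tail g w * X w) - a * (Real.exp (-κ * w) * X w) := fun w => by ring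
      simp only [e1]
      rw [integral_sub (hGX.1.const_mul κ) (hEX.1.const_mul a), integral_const_mul,
        integral_const_mul]
      congr 2
      refine integral_congr_ae (ae_of_all _ fun w => ?_)
      simp only; ring
    rw [← this]; exact hF.2
  have heb : ∀ t, Q < t → |e t| ≤ (ηe + |b|) * θ := by
    intro t ht
    have h := heE t ht
    have hp := Real.exp_pos (-κ * t)
    have h1 : |e t| ≤ |e t - b * Real.exp (-κ * t)| + |b * Real.exp (-κ * t)| := by
      have := abs_add_le (e t - b * Real.exp (-κ * t)) (b * Real.exp (-κ * t))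
      simpa using this
    rw [abs_mul, abs_of_pos hp] at h1
    have h2 : (ηe + |b|) * Real.exp (-κ * t) ≤ (ηe + |b|) * θ :=
      mul_le_mul_of_nonneg_left (hEle t ht) (by positivity)
    nlinarith
  have heX := ba6x220_pair_bound hem hX hX0 heb
  have hA1 : |(∫ t, e t * X t) - b * ∫ t, Real.exp (-κ * t) * X t| ≤ ηe * θ * N := by
    have hF := ba6x220_pair_bound (F := fun w => e w - b * Real.exp (-κ * w))
      (C := ηe * θ) (hem.sub (hEm.const_mul b)) hX hX0
      (fun w hw => (heE w hw).trans (mul_le_mul_of_nonneg_left (hEle w hw) hηe))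
    have : ∫ w, (e w - b * Real.exp (-κ * w)) * X w
        = (∫ t, e t * X t) - b * ∫ t, Real.exp (-κ * t) * X t := by
      have e1 : ∀ w, (e w - b * Real.exp (-κ * w)) * X w
          = e w * X w - b * (Real.exp (-κ * w) * X w) := fun w => by ring
      simp only [e1]
      rw [integral_sub heX.1 (hEX.1.const_mul b), integral_const_mul]
    rw [← this]; exact hF.2
  have hfin := ba6x220_arith (b := b) ha hκ hθ hN0 hN hηe hη0 hε0 hA1 hA2 hA3
  have hid : (∫ t, e t * X t) - b * κ * (1 - ρ) / (2 * a) * x0 ^ 2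
      = ((∫ t, e t * X t) - b * ∫ t, Real.exp (-κ * t) * X t)
        - b / a * ((κ * (∫ w, X w * ba6x220_tail g w) - a * ∫ t, Real.exp (-κ * t) * X t)
          + κ * ∫ t, V t * ba6x220_prim X t) := by
    have : b * κ * (1 - ρ) / (2 * a) * x0 ^ 2 = b * κ / a * ((1 - ρ) / 2 * x0 ^ 2) := by
      field_simp
    rw [this, hq]
    field_simp
    ring
  rw [hid]; exact hfin


/-! ## The two-sided (even) problem outside `[-Q, Q]` -/

theorem ba6x220_cross_bound {R Y : ℝ → ℝ} {Q : ℝ} (hR : Integrable R) (hY : Integrable Y)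
    (hY0 : ∀ s, -Q ≤ s → Y s = 0) :
    ∫ t in Ioi Q, |∫ s, R (t - s) * Y s|
      ≤ ba6x220_tail (fun v => |R v|) (2 * Q) * ∫ s, |Y s| := by
  have hU := ba6x220_conv_integrable hR hY
  have hU' := ba6x220_conv_integrable hR.abs hY.abs
  have hφm : Measurable (fun t : ℝ => if Q < t then (1 : ℝ) else 0) :=
    Measurable.ite measurableSet_Ioi measurable_const measurable_const
  have hφb : ∀ t : ℝ, |(if Q < t then (1 : ℝ) else 0)| ≤ 1 := fun t => by
    by_cases h : Q < t <;> simp [h]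
  have hA := ba6x220_conv_pair (φ := fun t => if Q < t then (1 : ℝ) else 0) (B := 1) hR.abs hY.abs
    hφm hφb
  have h1 : ∫ t in Ioi Q, |∫ s, R (t - s) * Y s|
      ≤ ∫ t, (∫ s, |R (t - s)| * |Y s|) * (if Q < t then (1 : ℝ) else 0) := by
    rw [← integral_indicator measurableSet_Ioi]
    refine integral_mono (hU.abs.indicator measurableSet_Ioi)
      (hU'.mul_bdd (c := 1) hφm.aestronglyMeasurable (ae_of_all _ fun t => by simpa using hφb t))
      fun t => ?_
    by_cases h : Q < t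
    · simp only [indicator_of_mem (show t ∈ Ioi Q from h), h, if_true, mul_one]
      calc |∫ s, R (t - s) * Y s| ≤ ∫ s, |R (t - s) * Y s| := abs_integral_le_integral_abs
        _ = ∫ s, |R (t - s)| * |Y s| := by simp only [abs_mul]
    · simp [h]
  have h2 : ∀ s, ∫ t, |R (t - s)| * (if Q < t then (1 : ℝ) else 0)
      = ba6x220_tail (fun v => |R v|) (Q - s) := by
    intro s
    rw [← ba6x220_tail_shift (fun v => |R v|) s Q, ba6x220_tail_eq]
    refine integral_congr_ae (ae_of_all _ fun t => ?_)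
    by_cases h : Q < t <;> simp [h]
  have hTm : Measurable (fun s => ba6x220_tail (fun v => |R v|) (Q - s)) :=
    (ba6x220_measurable_tail' hR.abs).comp (measurable_const.sub measurable_id)
  have h3 : ∫ s, |Y s| * ba6x220_tail (fun v => |R v|) (Q - s)
      ≤ ∫ s, ba6x220_tail (fun v => |R v|) (2 * Q) * |Y s| := by
    refine integral_mono
      (hY.abs.mul_bdd (c := ∫ v, |R v|) hTm.aestronglyMeasurable (ae_of_all _ fun s => by
        have := ba6x220_abs_tail_le hR.abs (Q - s)
        simpa using this))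
      (hY.abs.const_mul _) fun s => ?_
    by_cases h : -Q ≤ s
    · simp [hY0 s h]
    · have hle : ba6x220_tail (fun v => |R v|) (Q - s) ≤ ba6x220_tail (fun v => |R v|) (2 * Q) :=
        ba6x220_tail_antitone hR.abs (fun v => abs_nonneg _) (by linarith [not_le.1 h])
      simp only
      rw [mul_comm]
      exact mul_le_mul_of_nonneg_right hle (abs_nonneg _)
  rw [hA] at h1
  simp only [h2] at h1
  rw [integral_const_mul] at h3
  exact h1.trans h3

/-- **Two-sided form.**  `χ` even, integrable, `0` on `[-Q, Q]`, `χ = r + R * χ` on `(Q, ∞)`. -/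
theorem ba6x220_quant_even {R χ r e : ℝ → ℝ} {Q κ a b η ηe ε M : ℝ} (hQ : 0 ≤ Q)
    (hR : Integrable R) (hRe : ∀ x, R (-x) = R x) (hRb : ∀ x, |R x| ≤ M) (hτ : ∫ v, |R v| ≤ 1 / 2)
    (hχ : Integrable χ) (hχe : ∀ u, χ (-u) = χ u) (hχ0 : ∀ u, |u| ≤ Q → χ u = 0)
    (hr : IntegrableOn r (Ioi Q))
    (heq : ∀ u, Q < u → χ u = r u + ∫ v, R (u - v) * χ v)
    (hκ : 0 < κ) (ha : 0 < a) (hη0 : 0 ≤ η) (hη : η ≤ a / 20) (hε0 : 0 ≤ ε) (hε : ε ≤ 1 / 20)
    (hηe : 0 ≤ ηe)
    (hrE : ∀ t, Q < t → |r t - a * Real.exp (-κ * t)| ≤ η * Real.exp (-κ * t))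
    (hem : AEStronglyMeasurable e volume)
    (heE : ∀ t, Q < t → |e t - b * Real.exp (-κ * t)| ≤ ηe * Real.exp (-κ * t))
    (hRt : ba6x220_tail (fun v => |R v|) (2 * Q) ≤ ε) :
    (∫ t in Ioi Q, |χ t|) ≤ 7 / 3 * (a * Real.exp (-κ * Q) / κ) ∧
    a * Real.exp (-κ * Q) / (6 * κ) ≤ ∫ t in Ioi Q, χ t ∧
    |(∫ t in Ioi Q, e t * χ t) - b * κ * (1 - ∫ v, R v) / (2 * a) * (∫ t in Ioi Q, χ t) ^ 2|
      ≤ (ηe * (7 / 3 * a / κ) + |b| * (η * (7 / 3) / κ + ε * (49 / 9) * a / κ))
          * Real.exp (-κ * Q) ^ 2 := by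
  classical
  set X : ℝ → ℝ := (Ioi Q).indicator χ with hXdef
  set Y : ℝ → ℝ := (Iio (-Q)).indicator χ with hYdef
  set g : ℝ → ℝ := (Ioi Q).indicator r with hgdef
  set V : ℝ → ℝ := fun t => ∫ s, R (t - s) * Y s with hVdef
  have hX : Integrable X := hχ.indicator measurableSet_Ioi
  have hY : Integrable Y := hχ.indicator measurableSet_Iio
  have hg : Integrable g := hr.integrable_indicator measurableSet_Ioi
  have hV : Integrable V := ba6x220_conv_integrable hR hY
  have hX0 : ∀ t, t ≤ Q → X t = 0 := fun t ht => by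
    simp [hXdef, indicator_apply, not_lt.2 ht]
  have hY0 : ∀ s, -Q ≤ s → Y s = 0 := fun s hs => by
    simp [hYdef, indicator_apply, not_lt.2 hs]
  have hsplit : ∀ s, χ s = X s + Y s := by
    intro s
    by_cases h1 : Q < s
    · have h2 : ¬ (s < -Q) := by intro h2; linarith
      simp [hXdef, hYdef, indicator_apply, h1, h2]
    · by_cases h2 : s < -Q
      · simp [hXdef, hYdef, indicator_apply, h1, h2]
      · have : |s| ≤ Q := abs_le.2 ⟨not_lt.1 h2, not_lt.1 h1⟩
        simp [hXdef, hYdef, indicator_apply, h1, h2, hχ0 s this]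
  have hRX : ∀ (Z : ℝ → ℝ), Integrable Z → ∀ t, Integrable (fun s => R (t - s) * Z s) := by
    intro Z hZ t
    exact hZ.bdd_mul (c := M) (hR.comp_sub_left t).1 (ae_of_all _ fun s => by simpa using hRb _)
  have heq' : ∀ t, Q < t → X t = g t + (∫ s, R (t - s) * X s) + V t := by
    intro t ht
    have e1 : X t = χ t := by simp [hXdef, indicator_apply, ht]
    have e2 : g t = r t := by simp [hgdef, indicator_apply, ht]
    have e3 : ∫ v, R (t - v) * χ v = (∫ s, R (t - s) * X s) + ∫ s, R (t - s) * Y s := by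
      rw [← integral_add (hRX X hX t) (hRX Y hY t)]
      refine integral_congr_ae (ae_of_all _ fun s => ?_)
      simp only [hsplit s]; ring
    rw [e1, e2, heq t ht, e3]; ring
  have hXabs : ∫ t, |X t| = ∫ t in Ioi Q, |χ t| := by
    rw [← integral_indicator measurableSet_Ioi]
    refine integral_congr_ae (ae_of_all _ fun t => ?_)
    by_cases h : Q < t <;> simp [hXdef, indicator_apply, h]
  have hYabs : ∫ t, |Y t| = ∫ t in Ioi Q, |χ t| := by
    have e1 : ∫ t, |Y t| = ∫ t in Iio (-Q), |χ t| := by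
      rw [← integral_indicator measurableSet_Iio]
      refine integral_congr_ae (ae_of_all _ fun t => ?_)
      by_cases h : t < -Q <;> simp [hYdef, indicator_apply, h]
    rw [e1, ← integral_Iic_eq_integral_Iio, ← integral_comp_neg_Ioi Q (fun x => |χ x|)]
    simp only [hχe]
  have hVb : ∫ t in Ioi Q, |V t| ≤ ε * ∫ t, |X t| := by
    have h := ba6x220_cross_bound (Q := Q) hR hY hY0
    rw [hYabs, ← hXabs] at h
    exact h.trans (mul_le_mul_of_nonneg_right hRt (integral_nonneg fun t => abs_nonneg _))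
  have hgE : ∀ t, Q < t → |g t - a * Real.exp (-κ * t)| ≤ η * Real.exp (-κ * t) := by
    intro t ht
    have e2 : g t = r t := by simp [hgdef, indicator_apply, ht]
    rw [e2]; exact hrE t ht
  have hmain := ba6x220_quant hR hRe hτ hX hX0 hg hV heq' hκ ha hη0 hη hε0 hε hηe hgE hem heE hVb
  have hXint : ∫ t, X t = ∫ t in Ioi Q, χ t := integral_indicator measurableSet_Ioi
  have heXint : ∫ t, e t * X t = ∫ t in Ioi Q, e t * χ t := by
    rw [← integral_indicator measurableSet_Ioi]
    refine integral_congr_ae (ae_of_all _ fun t => ?_)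
    by_cases h : Q < t <;> simp [hXdef, indicator_apply, h]
  rw [hXabs, hXint, heXint] at hmain
  exact hmain


theorem ba6x220_exp_close {f : ℝ → ℝ} {κ a : ℝ}
    (hf : Tendsto (fun t => f t * Real.exp (κ * t)) atTop (𝓝 a)) {η : ℝ} (hη : 0 < η) :
    ∃ Q₁ : ℝ, ∀ t, Q₁ < t → |f t - a * Real.exp (-κ * t)| ≤ η * Real.exp (-κ * t) := by
  have h := (Metric.tendsto_atTop.1 hf) η hη
  obtain ⟨Q₁, hQ₁⟩ := h
  refine ⟨Q₁, fun t ht => ?_⟩
  have h1 := (hQ₁ t ht.le).le
  rw [Real.dist_eq] at h1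
  have hp := Real.exp_pos (-κ * t)
  have e1 : f t - a * Real.exp (-κ * t) = (f t * Real.exp (κ * t) - a) * Real.exp (-κ * t) := by
    have : Real.exp (κ * t) * Real.exp (-κ * t) = 1 := by
      rw [← Real.exp_add]; simp
    calc f t - a * Real.exp (-κ * t) = f t * (Real.exp (κ * t) * Real.exp (-κ * t))
          - a * Real.exp (-κ * t) := by rw [this]; ring
      _ = _ := by ring
  rw [e1, abs_mul, abs_of_pos hp]
  exact mul_le_mul_of_nonneg_right h1 hp.le

/-- **Uniform stiffness.**  The threshold `Q₀` depends on `R` only through the tail bound `tb`: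
this is the uniformity in `lam` (variable `x = u / lam`) that the end point `c = 2` needs. -/
theorem ba6x220_uniform {r e tb : ℝ → ℝ} {κ a b : ℝ} (hκ : 0 < κ) (ha : 0 < a)
    (hra : Tendsto (fun t => r t * Real.exp (κ * t)) atTop (𝓝 a))
    (heb : Tendsto (fun t => e t * Real.exp (κ * t)) atTop (𝓝 b))
    (hem : AEStronglyMeasurable e volume) (hr : IntegrableOn r (Ioi 0))
    (htb : Tendsto tb atTop (𝓝 0)) {δ : ℝ} (hδ : 0 < δ) :
    ∃ Q₀ : ℝ, 0 ≤ Q₀ ∧ ∀ (R χ : ℝ → ℝ) (Q M : ℝ), Q₀ ≤ Q →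
      Integrable R → (∀ x, R (-x) = R x) → (∀ x, |R x| ≤ M) → (∫ v, |R v|) ≤ 1 / 2 →
      (∀ T, ba6x220_tail (fun v => |R v|) T ≤ tb T) →
      Integrable χ → (∀ u, χ (-u) = χ u) → (∀ u, |u| ≤ Q → χ u = 0) →
      (∀ u, Q < u → χ u = r u + ∫ v, R (u - v) * χ v) →
      a * Real.exp (-κ * Q) / (6 * κ) ≤ (∫ t in Ioi Q, χ t) ∧
      (∫ t in Ioi Q, χ t) ≤ 7 / 3 * (a * Real.exp (-κ * Q) / κ) ∧
      |(∫ t in Ioi Q, e t * χ t) - b * κ * (1 - ∫ v, R v) / (2 * a) * (∫ t in Ioi Q, χ t) ^ 2|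
        ≤ δ * (∫ t in Ioi Q, χ t) ^ 2 := by
  set β : ℝ := δ * a ^ 2 / (36 * κ ^ 2) with hβdef
  have hβ : 0 < β := by positivity
  have hb1 : 0 < |b| + 1 := by positivity
  set ηe : ℝ := β * κ / (7 * a) with hηedef
  set η : ℝ := min (a / 20) (β * κ / (7 * (|b| + 1))) with hηdef
  set ε : ℝ := min (1 / 20) (3 * β * κ / (49 * a * (|b| + 1))) with hεdef
  have hηe : 0 < ηe := by positivity
  have hη : 0 < η := lt_min (by positivity) (by positivity)
  have hε : 0 < ε := lt_min (by norm_num) (by positivity)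
  obtain ⟨Q₁, hQ₁⟩ := ba6x220_exp_close hra hη
  obtain ⟨Q₂, hQ₂⟩ := ba6x220_exp_close heb hηe
  obtain ⟨Q₃, hQ₃⟩ := (Metric.tendsto_atTop.1 htb) ε hε
  refine ⟨max 0 (max Q₁ (max Q₂ Q₃)), le_max_left _ _, ?_⟩
  intro R χ Q M hQ hR hRe hRb hτ hRt hχ hχe hχ0 heq
  have hQ0 : 0 ≤ Q := (le_max_left _ _).trans hQ
  have hQ1 : Q₁ ≤ Q := ((le_max_left _ _).trans (le_max_right _ _)).trans hQ
  have hQ2 : Q₂ ≤ Q :=
    (((le_max_left _ _).trans (le_max_right _ _)).trans (le_max_right _ _)).trans hQ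
  have hQ3 : Q₃ ≤ Q :=
    (((le_max_right _ _).trans (le_max_right _ _)).trans (le_max_right _ _)).trans hQ
  have hRt' : ba6x220_tail (fun v => |R v|) (2 * Q) ≤ ε := by
    have h1 := hQ₃ (2 * Q) (by linarith)
    rw [Real.dist_eq, sub_zero] at h1
    exact (hRt _).trans ((le_abs_self _).trans h1.le)
  have hmain := ba6x220_quant_even (e := e) (b := b) (ηe := ηe) hQ0 hR hRe hRb hτ hχ hχe hχ0
    (hr.mono_set (Ioi_subset_Ioi hQ0)) heq hκ ha hη.le (min_le_left _ _) hε.le (min_le_left _ _)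
    hηe.le (fun t ht => hQ₁ t (lt_of_le_of_lt hQ1 ht)) hem
    (fun t ht => hQ₂ t (lt_of_le_of_lt hQ2 ht)) hRt'
  obtain ⟨hN, hx0, herr⟩ := hmain
  set θ := Real.exp (-κ * Q) with hθdef
  have hθ : 0 < θ := Real.exp_pos _
  set x0 := ∫ t in Ioi Q, χ t with hx0def
  refine ⟨hx0, ?_, ?_⟩
  · refine le_trans ?_ hN
    exact (le_abs_self _).trans abs_integral_le_integral_abs
  · refine herr.trans ?_
    have t1 : ηe * (7 / 3 * a / κ) = β / 3 := by
      rw [hηedef]; field_simp
    have t2 : |b| * (η * (7 / 3) / κ) ≤ β / 3 := by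
      have h1 : η ≤ β * κ / (7 * (|b| + 1)) := min_le_right _ _
      calc |b| * (η * (7 / 3) / κ) ≤ (|b| + 1) * ((β * κ / (7 * (|b| + 1))) * (7 / 3) / κ) := by
            gcongr; linarith
        _ = β / 3 := by field_simp
    have t3 : |b| * (ε * (49 / 9) * a / κ) ≤ β / 3 := by
      have h1 : ε ≤ 3 * β * κ / (49 * a * (|b| + 1)) := min_le_right _ _
      calc |b| * (ε * (49 / 9) * a / κ)
          ≤ (|b| + 1) * ((3 * β * κ / (49 * a * (|b| + 1))) * (49 / 9) * a / κ) := by
            gcongr; linarith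
        _ = β / 3 := by field_simp; ring
    have t4 : ηe * (7 / 3 * a / κ) + |b| * (η * (7 / 3) / κ + ε * (49 / 9) * a / κ) ≤ β := by
      rw [mul_add]; linarith
    have t5 : (a * θ / (6 * κ)) ^ 2 ≤ x0 ^ 2 := by
      have : 0 ≤ a * θ / (6 * κ) := by positivity
      gcongr
    calc (ηe * (7 / 3 * a / κ) + |b| * (η * (7 / 3) / κ + ε * (49 / 9) * a / κ)) * θ ^ 2
        ≤ β * θ ^ 2 := by gcongr
      _ = δ * (a * θ / (6 * κ)) ^ 2 := by rw [hβdef]; field_simp; ring
      _ ≤ δ * x0 ^ 2 := by gcongr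

end Claimed.Agent.R292
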