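import Claimed.Agent.R292.Bethe.BA3c80
import Claimed.Agent.R292.Bethe.Ba3Roots130

/-!
# Row 292, unit BETHE, block B4 DISC, leaf L1e: BOX and BARRIERS      (helper100, prefix `bx100_`)

For the logarithmic Bethe map `ba3x80_F` of 80 with the kernels of 130:
`S μ u = phi μ u / (2 π)`, `Θ μ u = phi (2 μ) u / (2 π)`, `I j = j + 1 - (n + 1) / 2`, `Lr = N`, `n ≤ D0 N`, `D0 < 1 / 2`.

* `bx100_hQ`       (`0 < μ ≤ π / 2`): EVERY zero has `|y j| ≤ artanh (2 D0)`; uniform in `μ`, `N`, `n`   (`hQ` of `ba3x80_roots_pos`).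
* `bx100_barriers` (`π / 2 ≤ μ ≤ b < π`): a subsolution and a supersolution, the same for all `μ`   (`hsub`, `hsup` of `ba3x80_roots_neg`).
  Constant barriers do not exist when `D0 ≥ 1 - μ / π`; the barriers are staircases `yp j = Q + j R`, `ym j = - yp (rev j)`.
-/

set_option autoImplicit false

namespace Claimed.Agent.R292

open Set Filter Topology Finset

/-! ## A. arctan and tanh -/

/-- concavity of `arctan` on the half line, in the only form needed -/
theorem bx100_arctan_concave {κ A : ℝ} (hκ0 : 0 ≤ κ) (hκ1 : κ ≤ 1) (hA : 0 ≤ A) :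
    κ * Real.arctan A ≤ Real.arctan (κ * A) := by
  have hd : ∀ x : ℝ, HasDerivAt (fun x => Real.arctan (κ * x) - κ * Real.arctan x)
      (1 / (1 + (κ * x) ^ 2) * κ - κ * (1 / (1 + x ^ 2))) x := by
    intro x
    have h1 : HasDerivAt (fun x => κ * x) κ x := by simpa using (hasDerivAt_id x).const_mul κ
    exact ((Real.hasDerivAt_arctan (κ * x)).comp x h1).sub ((Real.hasDerivAt_arctan x).const_mul κ)
  have hm : Monotone (fun x => Real.arctan (κ * x) - κ * Real.arctan x) := by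
    apply monotone_of_deriv_nonneg (fun x => (hd x).differentiableAt)
    intro x
    rw [(hd x).deriv]
    have h2 : (κ * x) ^ 2 ≤ x ^ 2 := by
      rw [mul_pow]
      have : κ ^ 2 ≤ 1 := by nlinarith
      nlinarith [sq_nonneg x]
    have h3 : 1 / (1 + x ^ 2) ≤ 1 / (1 + (κ * x) ^ 2) :=
      one_div_le_one_div_of_le (by positivity) (by linarith)
    nlinarith
  have := hm hA
  simp only [mul_zero, Real.arctan_zero, sub_zero] at this
  linarith

theorem bx100_arctan_lip (p q : ℝ) : |Real.arctan p - Real.arctan q| ≤ |p - q| := by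
  have h := Convex.norm_image_sub_le_of_norm_deriv_le (f := Real.arctan) (C := 1) (s := Set.univ) (x := q) (y := p)
    (fun x _ => (Real.hasDerivAt_arctan x).differentiableAt)
    (fun x _ => by
      rw [(Real.hasDerivAt_arctan x).deriv, Real.norm_eq_abs, abs_of_pos (by positivity)]
      rw [div_le_one (by positivity)]
      nlinarith [sq_nonneg x]) convex_univ (Set.mem_univ _) (Set.mem_univ _)
  simpa [Real.norm_eq_abs] using h

theorem bx100_tanh_mono : Monotone Real.tanh := by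
  intro x y hxy
  by_contra h
  rw [not_le] at h
  have := Real.artanh_lt_artanh (Real.neg_one_lt_tanh y) (Real.tanh_lt_one x) h
  rw [Real.artanh_tanh, Real.artanh_tanh] at this
  linarith

theorem bx100_abs_le_of_tanh {κ u : ℝ} (hκ : κ < 1) (h : |Real.tanh u| ≤ κ) : |u| ≤ Real.artanh κ := by
  have h' := abs_le.1 h
  rw [abs_le]
  constructor
  · have := Real.artanh_le_artanh (Real.neg_one_lt_tanh (-u)) hκ (by rw [Real.tanh_neg]; linarith)
    rw [Real.artanh_tanh] at this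
    linarith
  · have := Real.artanh_le_artanh (Real.neg_one_lt_tanh u) hκ h'.2
    rwa [Real.artanh_tanh] at this


theorem bx100_abs_arctan (x : ℝ) : |Real.arctan x| = Real.arctan |x| := by
  rcases le_total 0 x with hx | hx
  · rw [abs_of_nonneg hx, abs_of_nonneg (Real.arctan_nonneg.2 hx)]
  · have h3 : Real.arctan x ≤ 0 := by
      have := Real.arctan_mono hx
      rwa [Real.arctan_zero] at this
    rw [abs_of_nonpos hx, Real.arctan_neg, abs_of_nonpos h3]

/-! ## B. the phase `phi` -/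

theorem bx100_cot_pos {a : ℝ} (h0 : 0 < a) (h1 : a < Real.pi) : 0 < Real.cos (a / 2) / Real.sin (a / 2) :=
  div_pos (Real.cos_pos_of_mem_Ioo ⟨by linarith, by linarith⟩)
    (Real.sin_pos_of_pos_of_lt_pi (by linarith) (by linarith))

/-- a bound on `phi` below its limit bounds `tanh` -/
theorem bx100_tanh_of_phi {a κ u : ℝ} (h0 : 0 < a) (h1 : a < Real.pi) (hκ0 : 0 ≤ κ) (hκ1 : κ ≤ 1)
    (h : |ba3x130_phi a u| ≤ κ * (Real.pi - a)) : |Real.tanh u| ≤ κ := by
  have hA := bx100_cot_pos h0 h1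
  have hcot := ba3x130_arctan_cot h0 (by linarith [Real.pi_pos] : a < 2 * Real.pi)
  set A := Real.cos (a / 2) / Real.sin (a / 2) with hAdef
  unfold ba3x130_phi at h
  rw [← hAdef, abs_mul, abs_of_pos (by norm_num : (0 : ℝ) < 2), bx100_abs_arctan, abs_mul, abs_of_pos hA] at h
  have h2 := bx100_arctan_concave hκ0 hκ1 hA.le
  rw [hcot] at h2
  have h3 : Real.arctan (A * |Real.tanh u|) ≤ Real.arctan (κ * A) := by nlinarith
  have h4 := Real.arctan_strictMono.le_iff_le.1 h3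
  nlinarith

/-- lower bound of `phi` -/
theorem bx100_phi_ge {a Q : ℝ} (h0 : 0 < a) (h1 : a < Real.pi) (hQ : 0 ≤ Q) :
    Real.tanh Q * (Real.pi - a) ≤ ba3x130_phi a Q := by
  have hA := bx100_cot_pos h0 h1
  have hcot := ba3x130_arctan_cot h0 (by linarith [Real.pi_pos] : a < 2 * Real.pi)
  have ht0 : 0 ≤ Real.tanh Q := by
    have := bx100_tanh_mono hQ
    rwa [Real.tanh_zero] at this
  have h2 := bx100_arctan_concave ht0 (Real.tanh_lt_one Q).le hA.le
  rw [hcot] at h2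
  unfold ba3x130_phi
  rw [mul_comm (Real.cos (a / 2) / Real.sin (a / 2))]
  nlinarith

/-- the tail of `phi` -/
theorem bx100_phi_tail {a : ℝ} (h0 : 0 < a) (h1 : a < 2 * Real.pi) (x : ℝ) :
    |ba3x130_phi a x - (Real.pi - a)| ≤ 2 * |Real.cos (a / 2) / Real.sin (a / 2)| * (1 - Real.tanh x) := by
  have hcot := ba3x130_arctan_cot h0 h1
  set B := Real.cos (a / 2) / Real.sin (a / 2) with hB
  have e : ba3x130_phi a x - (Real.pi - a) = 2 * (Real.arctan (B * Real.tanh x) - Real.arctan B) := by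
    unfold ba3x130_phi
    rw [hcot]
    ring
  rw [e, abs_mul, abs_of_pos (by norm_num : (0 : ℝ) < 2)]
  have h2 := bx100_arctan_lip (B * Real.tanh x) B
  have e2 : B * Real.tanh x - B = -(B * (1 - Real.tanh x)) := by ring
  rw [e2, abs_neg, abs_mul, abs_of_pos (by linarith [Real.tanh_lt_one x] : 0 < 1 - Real.tanh x)] at h2
  nlinarith

/-! ## C. the box -/

section box

variable {n : ℕ}

theorem bx100_box_abs (Lr : ℝ) (S Θ : ℝ → ℝ → ℝ) (I : Fin n → ℝ) (μ T : ℝ) (y : Fin n → ℝ)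
    (hΘ : ∀ x, |Θ μ x| ≤ T) (hz : ba3x80_F Lr S Θ I (μ, y) = 0) (j : Fin n) :
    |Lr * S μ (y j)| ≤ |I j| + n * T := by
  have h1 := congrFun hz j
  simp only [ba3x80_F, Pi.zero_apply] at h1
  have e : Lr * S μ (y j) = I j + ∑ k, Θ μ (y j - y k) := by linarith
  rw [e]
  refine (abs_add_le _ _).trans (add_le_add_right ?_ _)
  refine (Finset.abs_sum_le_sum_abs _ _).trans ?_
  have := Finset.sum_le_card_nsmul (Finset.univ : Finset (Fin n)) (fun k => |Θ μ (y j - y k)|) T (fun k _ => hΘ _)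
  simpa using this

theorem bx100_abs_I (I : Fin n → ℝ) (hI : ∀ j : Fin n, I j = (j : ℝ) + 1 - ((n : ℝ) + 1) / 2) (j : Fin n) :
    |I j| ≤ (n : ℝ) / 2 := by
  have h1 : (j : ℝ) + 1 ≤ n := by exact_mod_cast j.isLt
  have h2 : (0 : ℝ) ≤ j := Nat.cast_nonneg _
  rw [hI, abs_le]
  constructor <;> linarith

/-- **(i) `hQ` of `ba3x80_roots_pos`**: every zero lies in the box `|y j| ≤ artanh (2 D0)`. -/
theorem bx100_hQ {N : ℕ} {D0 μ : ℝ} (hD : D0 < 1 / 2) (hn : (n : ℝ) ≤ D0 * N) (h0 : 0 < μ) (h1 : μ ≤ Real.pi / 2)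
    (S Θ : ℝ → ℝ → ℝ) (I : Fin n → ℝ)
    (hS : ∀ u, S μ u = ba3x130_phi μ u / (2 * Real.pi)) (hΘ : ∀ u, Θ μ u = ba3x130_phi (2 * μ) u / (2 * Real.pi))
    (hI : ∀ j : Fin n, I j = (j : ℝ) + 1 - ((n : ℝ) + 1) / 2)
    (y : Fin n → ℝ) (hz : ba3x80_F (N : ℝ) S Θ I (μ, y) = 0) (j : Fin n) :
    |y j| ≤ Real.artanh (2 * D0) := by
  have hπ := Real.pi_pos
  have hn1 : (1 : ℝ) ≤ n := by
    have : 0 < n := lt_of_le_of_lt (Nat.zero_le _) j.isLt
    exact_mod_cast this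
  have hN0 : (0 : ℝ) ≤ N := Nat.cast_nonneg _
  have hD0 : 0 < D0 := by
    by_contra h
    rw [not_lt] at h
    nlinarith
  have hN : (0 : ℝ) < N := by
    by_contra h
    have : (N : ℝ) = 0 := le_antisymm (not_lt.1 h) hN0
    rw [this] at hn
    linarith
  have hT : ∀ x, |Θ μ x| ≤ (Real.pi - 2 * μ) / (2 * Real.pi) := by
    intro x
    rw [hΘ, abs_div, abs_of_pos (by positivity : 0 < 2 * Real.pi)]
    have := ba3x130_abs_phi_le (a := 2 * μ) (by linarith) (by linarith) x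
    rw [abs_of_nonneg (by linarith : 0 ≤ Real.pi - 2 * μ)] at this
    exact div_le_div_of_nonneg_right this (by positivity)
  have h2 := bx100_box_abs (N : ℝ) S Θ I μ _ y hT hz j
  have h3 := bx100_abs_I I hI j
  rw [hS, abs_mul, abs_of_pos hN, abs_div, abs_of_pos (by positivity : 0 < 2 * Real.pi)] at h2
  apply bx100_abs_le_of_tanh (by linarith)
  apply bx100_tanh_of_phi h0 (by linarith) (by linarith) (by linarith)
  -- `N |phi| / (2 π) ≤ n / 2 + n (π - 2 μ) / (2 π) = n (π - μ) / π`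
  have h4 : (n : ℝ) / 2 + n * ((Real.pi - 2 * μ) / (2 * Real.pi)) = n * (Real.pi - μ) / Real.pi := by
    field_simp
    ring
  have h5 : (N : ℝ) * (|ba3x130_phi μ (y j)| / (2 * Real.pi)) ≤ n * (Real.pi - μ) / Real.pi := by
    rw [← h4]
    linarith
  have h6 : (N : ℝ) * |ba3x130_phi μ (y j)| ≤ 2 * (n * (Real.pi - μ)) := by
    have e1 : (N : ℝ) * (|ba3x130_phi μ (y j)| / (2 * Real.pi)) = (N * |ba3x130_phi μ (y j)|) / (2 * Real.pi) := by ring
    rw [e1, div_le_div_iff₀ (by positivity) hπ] at h5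
    nlinarith
  have h7 : 2 * ((n : ℝ) * (Real.pi - μ)) ≤ N * (2 * D0 * (Real.pi - μ)) := by
    have : 0 ≤ Real.pi - μ := by linarith
    nlinarith
  exact le_of_mul_le_mul_left (h6.trans h7) hN

/-- (i) in the exact shape of the hypothesis `hQ` of `ba3x80_roots_pos`, `Q = artanh (2 D0)`. -/
theorem bx100_hQ_shape {N : ℕ} {D0 a b : ℝ} (hD : D0 < 1 / 2) (hn : (n : ℝ) ≤ D0 * N) (ha : 0 < a) (hb : b ≤ Real.pi / 2)
    (S Θ : ℝ → ℝ → ℝ) (I : Fin n → ℝ)
    (hS : ∀ μ ∈ Icc a b, ∀ u, S μ u = ba3x130_phi μ u / (2 * Real.pi))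
    (hΘ : ∀ μ ∈ Icc a b, ∀ u, Θ μ u = ba3x130_phi (2 * μ) u / (2 * Real.pi))
    (hI : ∀ j : Fin n, I j = (j : ℝ) + 1 - ((n : ℝ) + 1) / 2) :
    ∀ μ ∈ Icc a b, ∀ y : Fin n → ℝ, Monotone y → ba3x80_F (N : ℝ) S Θ I (μ, y) = 0 →
      ∀ j, |y j| ≤ Real.artanh (2 * D0) :=
  fun μ hμ y _ hz j => bx100_hQ hD hn (lt_of_lt_of_le ha hμ.1) (hμ.2.trans hb) S Θ I (hS μ hμ) (hΘ μ hμ) hI y hz j

end box

/-! ## D. the staircase barriers -/

section stair

variable {n : ℕ}

theorem bx100_sum_stair (j : Fin n) (α β : ℝ) :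
    ∑ k : Fin n, ((if k < j then α else 0) + (if j < k then β else 0)) = j * α + ((n : ℝ) - 1 - j) * β := by
  rw [Finset.sum_add_distrib, ← Finset.sum_filter, ← Finset.sum_filter, Finset.sum_const, Finset.sum_const,
    Finset.filter_gt_eq_Iio, Finset.filter_lt_eq_Ioi, Fin.card_Iio, Fin.card_Ioi]
  have h : (j : ℕ) + 1 ≤ n := j.isLt
  have e : ((n - 1 - (j : ℕ) : ℕ) : ℝ) = (n : ℝ) - 1 - j := by
    rw [Nat.sub_sub, Nat.cast_sub (by omega)]
    push_cast
    ring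
  simp only [nsmul_eq_mul, e]

/-- the abstract staircase supersolution -/
theorem bx100_stair (Lr : ℝ) (S Θ : ℝ → ℝ) (T ε Q R : ℝ) (hR : 0 ≤ R) (hL : 0 ≤ Lr)
    (hSm : Monotone S) (hΘ0 : Θ 0 = 0) (hΘlow : ∀ x, R ≤ x → Θ x ≤ -T + ε) (hΘup : ∀ x, x ≤ 0 → Θ x ≤ T)
    (hT : 2 * T ≤ 1) (hε : 0 ≤ ε) (hmain : (1 - 2 * T) * ((n : ℝ) / 2) + n * ε ≤ Lr * S Q) (j : Fin n) :
    0 ≤ Lr * S (Q + j * R) - ∑ k : Fin n, Θ ((Q + j * R) - (Q + k * R)) - ((j : ℝ) + 1 - ((n : ℝ) + 1) / 2) := by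
  have hj1 : (j : ℝ) + 1 ≤ n := by exact_mod_cast j.isLt
  have hj0 : (0 : ℝ) ≤ j := Nat.cast_nonneg _
  have hterm : ∀ k : Fin n, Θ ((Q + j * R) - (Q + k * R)) ≤
      (if k < j then (-T + ε) else 0) + (if j < k then T else 0) := by
    intro k
    rcases lt_trichotomy k j with h | h | h
    · rw [if_pos h, if_neg (not_lt.2 h.le), add_zero]
      apply hΘlow
      have : (k : ℝ) + 1 ≤ j := by exact_mod_cast h
      nlinarith
    · subst h
      simp [hΘ0]
    · rw [if_neg (not_lt.2 h.le), if_pos h, zero_add]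
      apply hΘup
      have : (j : ℝ) + 1 ≤ k := by exact_mod_cast h
      nlinarith
  have hsum := (Finset.sum_le_sum fun k (_ : k ∈ Finset.univ) => hterm k).trans_eq (bx100_sum_stair j (-T + ε) T)
  have hS : S Q ≤ S (Q + j * R) := hSm (by nlinarith)
  have hS' : Lr * S Q ≤ Lr * S (Q + j * R) := mul_le_mul_of_nonneg_left hS hL
  have h1 : (1 - 2 * T) * (((j : ℝ) + 1 - ((n : ℝ) + 1) / 2)) ≤ (1 - 2 * T) * ((n : ℝ) / 2) :=
    mul_le_mul_of_nonneg_left (by linarith) (by linarith)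
  have h2 : (j : ℝ) * ε ≤ n * ε := mul_le_mul_of_nonneg_right (by linarith) hε
  nlinarith

/-- reflection of the Bethe map -/
theorem bx100_reflect (Lr : ℝ) (S Θ : ℝ → ℝ → ℝ) (I : Fin n → ℝ) (μ : ℝ) (hS : ∀ u, S μ (-u) = -S μ u)
    (hΘ : ∀ u, Θ μ (-u) = -Θ μ u) (hI : ∀ j, I (Fin.rev j) = -I j) (y : Fin n → ℝ) (j : Fin n) :
    ba3x80_F Lr S Θ I (μ, fun i => -y (Fin.rev i)) j = -ba3x80_F Lr S Θ I (μ, y) (Fin.rev j) := by
  simp only [ba3x80_F]
  rw [hS, hI, ← Equiv.sum_comp Fin.revPerm (fun k => Θ μ (y (Fin.rev j) - y k))]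
  have e : ∀ k : Fin n, Θ μ (-y (Fin.rev j) - -y (Fin.rev k)) = -Θ μ (y (Fin.rev j) - y (Fin.revPerm k)) := by
    intro k
    rw [← hΘ]
    congr 1
    simp only [Fin.revPerm_apply]
    ring
  simp only [e, Finset.sum_neg_distrib]
  ring

theorem bx100_I_rev (I : Fin n → ℝ) (hI : ∀ j : Fin n, I j = (j : ℝ) + 1 - ((n : ℝ) + 1) / 2) (j : Fin n) :
    I (Fin.rev j) = -I j := by
  rw [hI, hI, Fin.val_rev]
  have h : (j : ℕ) + 1 ≤ n := j.isLt
  rw [Nat.cast_sub h]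
  push_cast
  ring

/-- the tail of the scattering phase, uniformly on `[π / 2, b]` -/
theorem bx100_theta_tail {μ b x : ℝ} (h0 : Real.pi / 2 ≤ μ) (h1 : μ ≤ b) (hb : b < Real.pi) :
    ba3x130_phi (2 * μ) x ≤ (Real.pi - 2 * μ) + 2 * (1 - Real.tanh x) / Real.sin b := by
  have hπ := Real.pi_pos
  have hsb : 0 < Real.sin b := Real.sin_pos_of_pos_of_lt_pi (by linarith) hb
  have hsμ : Real.sin b ≤ Real.sin μ := by
    rw [← Real.sin_pi_sub b, ← Real.sin_pi_sub μ]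
    exact Real.sin_le_sin_of_le_of_le_pi_div_two (by linarith) (by linarith) (by linarith)
  have h2 := bx100_phi_tail (a := 2 * μ) (by linarith) (by linarith) x
  have e : 2 * μ / 2 = μ := by ring
  rw [e] at h2
  have h3 : |Real.cos μ / Real.sin μ| ≤ 1 / Real.sin b := by
    rw [abs_div, abs_of_pos (lt_of_lt_of_le hsb hsμ)]
    exact div_le_div₀ zero_le_one (Real.abs_cos_le_one μ) hsb hsμ
  have h4 : 0 < 1 - Real.tanh x := by linarith [Real.tanh_lt_one x]
  have h5 : 2 * |Real.cos μ / Real.sin μ| * (1 - Real.tanh x) ≤ 2 * (1 - Real.tanh x) / Real.sin b := by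
    have : 2 * (1 - Real.tanh x) / Real.sin b = 2 * (1 / Real.sin b) * (1 - Real.tanh x) := by ring
    rw [this]
    exact mul_le_mul_of_nonneg_right (by linarith) h4.le
  have h6 := (le_abs_self _).trans (h2.trans h5)
  linarith

/-- **(ii) `hsub`, `hsup` of `ba3x80_roots_neg`**: barriers for all `μ ∈ [π / 2, b]`, `b < π`, at any filling `n ≤ D0 N`,
`D0 < 1 / 2`. -/
theorem bx100_barriers {N : ℕ} {D0 b : ℝ} (hD0 : 0 < D0) (hD : D0 < 1 / 2) (hn : (n : ℝ) ≤ D0 * N) (hb : b < Real.pi)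
    (S Θ : ℝ → ℝ → ℝ) (I : Fin n → ℝ)
    (hS : ∀ μ ∈ Icc (Real.pi / 2) b, ∀ u, S μ u = ba3x130_phi μ u / (2 * Real.pi))
    (hΘ : ∀ μ ∈ Icc (Real.pi / 2) b, ∀ u, Θ μ u = ba3x130_phi (2 * μ) u / (2 * Real.pi))
    (hI : ∀ j : Fin n, I j = (j : ℝ) + 1 - ((n : ℝ) + 1) / 2) :
    ∃ ym yp : Fin n → ℝ, (∀ μ ∈ Icc (Real.pi / 2) b, ∀ j, ba3x80_F (N : ℝ) S Θ I (μ, ym) j ≤ 0) ∧
      (∀ μ ∈ Icc (Real.pi / 2) b, ∀ j, 0 ≤ ba3x80_F (N : ℝ) S Θ I (μ, yp) j) := by
  have hπ := Real.pi_pos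
  rcases lt_or_ge b (Real.pi / 2) with hbs | hbs
  · refine ⟨0, 0, fun μ hμ => ?_, fun μ hμ => ?_⟩ <;> exact absurd (hμ.1.trans hμ.2) (not_le.2 hbs)
  have hsb : 0 < Real.sin b := Real.sin_pos_of_pos_of_lt_pi (by linarith) hb
  set κ1 : ℝ := (1 + 2 * D0) / 2 with hκ1
  have hκ1m : κ1 ∈ Ioo (-1 : ℝ) 1 := ⟨by rw [hκ1]; linarith, by rw [hκ1]; linarith⟩
  set Q : ℝ := Real.artanh κ1 with hQ
  have hQ0 : 0 ≤ Q := Real.artanh_nonneg (by rw [hκ1]; linarith)
  have hQt : Real.tanh Q = κ1 := Real.tanh_artanh hκ1m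
  set ε : ℝ := (Real.pi - b) * (1 - 2 * D0) / (4 * Real.pi * D0) with hε
  have hε0 : 0 < ε := by
    rw [hε]
    exact div_pos (mul_pos (by linarith) (by linarith)) (by positivity)
  set η : ℝ := ε * Real.pi * Real.sin b with hη
  have hη0 : 0 < η := by rw [hη]; positivity
  set κ2 : ℝ := max 0 (1 - η) with hκ2
  have hκ2m : κ2 ∈ Ioo (-1 : ℝ) 1 :=
    ⟨lt_of_lt_of_le (by norm_num) (le_max_left _ _), max_lt (by norm_num) (by linarith)⟩
  set R : ℝ := Real.artanh κ2 with hR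
  have hR0 : 0 ≤ R := Real.artanh_nonneg (le_max_left _ _)
  have hRt : 1 - η ≤ Real.tanh R := by
    rw [hR, Real.tanh_artanh hκ2m]
    exact le_max_right _ _
  have hsup : ∀ μ ∈ Icc (Real.pi / 2) b, ∀ j : Fin n,
      0 ≤ ba3x80_F (N : ℝ) S Θ I (μ, fun i : Fin n => Q + (i : ℝ) * R) j := by
    intro μ hμ j
    have hμ0 : 0 < μ := by linarith [hμ.1]
    have hμπ : μ < Real.pi := lt_of_le_of_lt hμ.2 hb
    simp only [ba3x80_F]
    rw [hI j]
    refine bx100_stair (N : ℝ) (S μ) (Θ μ) ((2 * μ - Real.pi) / (2 * Real.pi)) ε Q R hR0 (Nat.cast_nonneg _)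
      ?_ ?_ ?_ ?_ ?_ hε0.le ?_ j
    · intro x y hxy
      rw [hS μ hμ, hS μ hμ]
      exact div_le_div_of_nonneg_right ((ba3x130_phi_strictMono hμ0 hμπ).monotone hxy) (by positivity)
    · rw [hΘ μ hμ, ba3x130_phi_zero, zero_div]
    · intro x hx
      rw [hΘ μ hμ]
      have h1 := bx100_theta_tail (x := x) hμ.1 hμ.2 hb
      have h2 : 1 - Real.tanh x ≤ η := by linarith [bx100_tanh_mono hx]
      have h3 : 2 * (1 - Real.tanh x) / Real.sin b ≤ 2 * Real.pi * ε := by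
        rw [div_le_iff₀ hsb]
        have : 2 * Real.pi * ε * Real.sin b = 2 * η := by rw [hη]; ring
        rw [this]
        linarith
      rw [div_le_iff₀ (by positivity)]
      have e : (-((2 * μ - Real.pi) / (2 * Real.pi)) + ε) * (2 * Real.pi) = (Real.pi - 2 * μ) + 2 * Real.pi * ε := by
        field_simp
        ring
      rw [e]
      linarith
    · intro x _
      rw [hΘ μ hμ]
      have h1 := ba3x130_abs_phi_le (a := 2 * μ) (by linarith) (by linarith) x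
      rw [abs_of_nonpos (by linarith [hμ.1] : Real.pi - 2 * μ ≤ 0)] at h1
      exact div_le_div_of_nonneg_right (by linarith [le_abs_self (ba3x130_phi (2 * μ) x)]) (by positivity)
    · rw [mul_div_assoc', div_le_one (by positivity)]
      linarith
    · rw [hS μ hμ]
      have h1 := bx100_phi_ge hμ0 hμπ hQ0
      rw [hQt] at h1
      have hN0 : (0 : ℝ) ≤ N := Nat.cast_nonneg _
      have hn0 : (0 : ℝ) ≤ n := Nat.cast_nonneg _
      have e1 : (1 - 2 * ((2 * μ - Real.pi) / (2 * Real.pi))) * ((n : ℝ) / 2) + n * ε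
          = n * ((Real.pi - μ) / Real.pi + ε) := by
        field_simp
        ring
      rw [e1]
      have h2 : 0 ≤ (Real.pi - μ) / Real.pi + ε := by
        have : 0 ≤ (Real.pi - μ) / Real.pi := div_nonneg (by linarith) hπ.le
        linarith
      have h3 : (n : ℝ) * ((Real.pi - μ) / Real.pi + ε) ≤ D0 * N * ((Real.pi - μ) / Real.pi + ε) :=
        mul_le_mul_of_nonneg_right hn h2
      have h4 : D0 * ε ≤ (Real.pi - μ) * (1 - 2 * D0) / (4 * Real.pi) := by
        have e2 : D0 * ε = (Real.pi - b) * (1 - 2 * D0) / (4 * Real.pi) := by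
          rw [hε]
          field_simp
        rw [e2]
        apply div_le_div_of_nonneg_right _ (by positivity)
        exact mul_le_mul_of_nonneg_right (by linarith [hμ.2]) (by linarith)
      have h5 : D0 * ((Real.pi - μ) / Real.pi + ε) ≤ κ1 * (Real.pi - μ) / (2 * Real.pi) := by
        have e3 : κ1 * (Real.pi - μ) / (2 * Real.pi) = D0 * ((Real.pi - μ) / Real.pi)
            + (Real.pi - μ) * (1 - 2 * D0) / (4 * Real.pi) := by
          rw [hκ1]
          field_simp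
          ring
        rw [e3, mul_add]
        linarith
      have h6 : κ1 * (Real.pi - μ) / (2 * Real.pi) ≤ ba3x130_phi μ Q / (2 * Real.pi) :=
        div_le_div_of_nonneg_right h1 (by positivity)
      calc (n : ℝ) * ((Real.pi - μ) / Real.pi + ε) ≤ D0 * N * ((Real.pi - μ) / Real.pi + ε) := h3
        _ = N * (D0 * ((Real.pi - μ) / Real.pi + ε)) := by ring
        _ ≤ N * (ba3x130_phi μ Q / (2 * Real.pi)) := mul_le_mul_of_nonneg_left (h5.trans h6) hN0
  refine ⟨fun i => -(Q + ((Fin.rev i : Fin n) : ℝ) * R), fun i => Q + (i : ℝ) * R, ?_, hsup⟩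
  intro μ hμ j
  have h1 := bx100_reflect (N : ℝ) S Θ I μ
    (fun u => by rw [hS μ hμ, hS μ hμ, ba3x130_phi_neg, neg_div])
    (fun u => by rw [hΘ μ hμ, hΘ μ hμ, ba3x130_phi_neg, neg_div])
    (bx100_I_rev I hI) (fun i : Fin n => Q + (i : ℝ) * R) j
  rw [h1]
  linarith [hsup μ hμ (Fin.rev j)]

end stair

end Claimed.Agent.R292
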