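/-
Row 292 (shared with row 290), unit BETHE, leaf C5 (+ the existence layer under C2-C4 of pen 200).
Owner: helper210.   Prefixes `ba6h_`, `Ba6h`, `c5x_`.
Blueprints: origin/helper210:notes/BA6_BLUEPRINT_210.md, origin/helper110:notes/R292/BETHE_WALL_110.md (C5).

A. Neumann lemma in `ℝ →ᵇ ℝ` with control of the `L¹(0,∞)` norm (Fatou).
B. the half-line operator and the two-edge operator as bounded operators.
C. existence / uniqueness: discharges the hypotheses of `Ba6H200` (γ, Y₀, Y_κ, y_q, `ba6h200_Uniq`).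
D. positivity for kernels `T ≤ 0`;  E. `L¹`-continuity of `y_q` in the kernel;  F. in `q`.
G. the concrete kernels in the rescaled variable, `P_a → P_0` in `L¹`;  H. ratio and mass for every profile.
I. `c5x_lim` : `a → 0+` at fixed `q` (L¹, mass, energy), any filter.   J. `c5x_rescale` : back to `u = λ x`.
K. OUTPUT (0 sorry), the six C5 inputs of `a4x10_hub_two` with `D₂ = c5xD2`, `dE₂ = c5xE2`, `A = π/2`:
   `c5x_Dq_tendsto`, `c5x_Eq_tendsto` (λ → 0+ at fixed q, Q = λ q, on `c1x150_Dq/_Eq` with 230's kernels),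
   `c5xD2_continuousOn`, `c5xD2_lt`, `c5xD2_tendsto`, `c5x_ratio2` / `c5x_ratio2'`, `c5x_lamOf_tendsto`.
-/
import Claimed.Agent.R292.Bethe.Ba6H200
import Claimed.Agent.R292.Bethe.Four230

set_option autoImplicit false

namespace Claimed.Agent.R292

open MeasureTheory Set Filter Topology BoundedContinuousFunction
open scoped Convolution

/-! ### A. The abstract Neumann lemma, with control of the `L¹` norm on the half line -/

/-- `φ + T φ = f` is solvable in `ℝ →ᵇ ℝ` when `‖T‖ ≤ q < 1`. -/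
theorem ba6h_solve (T : (ℝ →ᵇ ℝ) →L[ℝ] (ℝ →ᵇ ℝ)) {q : ℝ} (hq : q < 1) (hT : ‖T‖ ≤ q) (f : ℝ →ᵇ ℝ) :
    ∃ φ : ℝ →ᵇ ℝ, φ + T φ = f ∧ ‖φ‖ ≤ ‖f‖ / (1 - q) ∧
      ((∀ g : ℝ →ᵇ ℝ, IntegrableOn g (Ioi 0) → IntegrableOn (T g) (Ioi 0) ∧
          ∫ t in Ioi 0, |T g t| ≤ q * ∫ t in Ioi 0, |g t|) →
        IntegrableOn f (Ioi 0) →
          IntegrableOn φ (Ioi 0) ∧ ∫ t in Ioi 0, |φ t| ≤ (∫ t in Ioi 0, |f t|) / (1 - q)) := by
  have hq0 : 0 ≤ q := (norm_nonneg T).trans hT
  have h1q : 0 < 1 - q := by linarith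
  set Φ : (ℝ →ᵇ ℝ) → (ℝ →ᵇ ℝ) := fun φ => f - T φ with hΦ
  have hc : ContractingWith q.toNNReal Φ := by
    refine ⟨by simpa using (Real.toNNReal_lt_one).2 hq, ?_⟩
    refine LipschitzWith.of_dist_le_mul fun x y => ?_
    rw [Real.coe_toNNReal _ hq0, dist_eq_norm, dist_eq_norm]
    have : Φ x - Φ y = - T (x - y) := by simp [hΦ, map_sub]
    rw [this, norm_neg]
    exact (T.le_opNorm _).trans (mul_le_mul_of_nonneg_right hT (norm_nonneg _))
  set φ := ContractingWith.fixedPoint Φ hc with hφ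
  have hfix : Φ φ = φ := ContractingWith.fixedPoint_isFixedPt hc
  have heq : φ + T φ = f := by
    have : f - T φ = φ := hfix
    exact (eq_sub_iff_add_eq.1 this.symm)
  refine ⟨φ, heq, ?_, ?_⟩
  · rw [le_div_iff₀ h1q]
    have h1 : ‖φ‖ ≤ ‖f‖ + q * ‖φ‖ := by
      have : φ = f - T φ := hfix.symm
      calc ‖φ‖ = ‖f - T φ‖ := by rw [← this]
        _ ≤ ‖f‖ + ‖T φ‖ := norm_sub_le _ _
        _ ≤ ‖f‖ + q * ‖φ‖ := by
          gcongr
          exact (T.le_opNorm _).trans (mul_le_mul_of_nonneg_right hT (norm_nonneg _))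
    nlinarith
  · intro hL hf
    set M : ℝ := (∫ t in Ioi 0, |f t|) / (1 - q) with hM
    have hM0 : 0 ≤ M := div_nonneg (integral_nonneg fun _ => abs_nonneg _) h1q.le
    have hit : ∀ n : ℕ, IntegrableOn (Φ^[n] 0) (Ioi 0) ∧ ∫ t in Ioi 0, |Φ^[n] 0 t| ≤ M := by
      intro n
      induction n with
      | zero =>
        refine ⟨by simp [IntegrableOn], by simpa using hM0⟩
      | succ n ih =>
        rw [Function.iterate_succ_apply']
        obtain ⟨h1, h2⟩ := hL _ ih.1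
        have hi : IntegrableOn (Φ (Φ^[n] 0)) (Ioi 0) := by
          have : (⇑(Φ (Φ^[n] 0)) : ℝ → ℝ) = fun t => f t - T (Φ^[n] 0) t := by
            ext t; simp [hΦ]
          rw [this]
          exact hf.sub h1
        refine ⟨hi, ?_⟩
        calc ∫ t in Ioi 0, |Φ (Φ^[n] 0) t|
            ≤ ∫ t in Ioi 0, (|f t| + |T (Φ^[n] 0) t|) := by
              refine integral_mono hi.abs (hf.abs.add h1.abs) fun t => ?_
              simp only [hΦ, BoundedContinuousFunction.coe_sub, Pi.sub_apply]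
              exact abs_sub _ _
          _ = (∫ t in Ioi 0, |f t|) + ∫ t in Ioi 0, |T (Φ^[n] 0) t| := integral_add hf.abs h1.abs
          _ ≤ (∫ t in Ioi 0, |f t|) + q * M := by
              gcongr
              exact h2.trans (mul_le_mul_of_nonneg_left ih.2 hq0)
          _ = M := by rw [hM]; field_simp; ring
    have hlim : Tendsto (fun n => Φ^[n] 0) atTop (𝓝 φ) := hc.tendsto_iterate_fixedPoint 0
    have hpt : ∀ t : ℝ, Tendsto (fun n => Φ^[n] 0 t) atTop (𝓝 (φ t)) := fun t =>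
      ((continuous_apply t).tendsto _).comp ((BoundedContinuousFunction.continuous_coe.tendsto φ).comp hlim)
    have hint : IntegrableOn φ (Ioi 0) := by
      refine integrable_of_tendsto (G := fun n => Φ^[n] 0) (Eventually.of_forall hpt)
        (fun n => (hit n).1.aestronglyMeasurable) ?_
      refine ne_of_lt (lt_of_le_of_lt (liminf_le_of_frequently_le' (x := ENNReal.ofReal M)
        (Frequently.of_forall fun n => ?_)) ENNReal.ofReal_lt_top)
      have := (hit n).2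
      rw [← ofReal_integral_norm_eq_lintegral_enorm (hit n).1]
      exact ENNReal.ofReal_le_ofReal (by simpa [Real.norm_eq_abs] using this)
    refine ⟨hint, ?_⟩
    obtain ⟨h1, h2⟩ := hL _ hint
    rw [le_div_iff₀ h1q]
    have h3 : ∫ t in Ioi 0, |φ t| ≤ (∫ t in Ioi 0, |f t|) + q * ∫ t in Ioi 0, |φ t| := by
      calc ∫ t in Ioi 0, |φ t| ≤ ∫ t in Ioi 0, (|f t| + |T φ t|) := by
              refine integral_mono hint.abs (hf.abs.add h1.abs) fun t => ?_
              have : φ t = f t - T φ t := by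
                have := congrArg (fun ψ : ℝ →ᵇ ℝ => ψ t) hfix.symm
                simpa [hΦ] using this
              rw [this]
              exact abs_sub _ _
        _ = (∫ t in Ioi 0, |f t|) + ∫ t in Ioi 0, |T φ t| := integral_add hf.abs h1.abs
        _ ≤ _ := by gcongr
    nlinarith

/-! ### B. The half-line convolution operator -/

/-- the hypotheses on the kernel -/
structure Ba6hKer (J : ℝ → ℝ) : Prop where
  cont : Continuous J
  int : Integrable J
  even : ∀ x, J (-x) = J x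
  bdd : ∃ C, ∀ x, |J x| ≤ C
  lt_one : ∫ x, |J x| < 1

/-- the half-line convolution `(T φ)(t) = ∫_{s>0} J (t - s) φ s ds`, for every real `t`. -/
noncomputable def ba6hT (J φ : ℝ → ℝ) (t : ℝ) : ℝ := ∫ s in Ioi (0 : ℝ), J (t - s) * φ s

theorem ba6h_integrable_shift {J : ℝ → ℝ} (hJ : Integrable J) (t : ℝ) :
    Integrable fun s => J (t - s) := hJ.comp_sub_left t

theorem ba6h_integrand_integrable {J φ : ℝ → ℝ} (hJ : Integrable J) {C : ℝ}
    (hφm : AEStronglyMeasurable φ volume) (hφ : ∀ s, |φ s| ≤ C) (t : ℝ) :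
    Integrable fun s => J (t - s) * φ s :=
  (ba6h_integrable_shift hJ t).mul_bdd hφm (Eventually.of_forall fun s => by
    simpa [Real.norm_eq_abs] using hφ s)

theorem ba6hT_abs_le {J φ : ℝ → ℝ} (hJ : Integrable J) {C : ℝ}
    (hφ : ∀ s, |φ s| ≤ C) (t : ℝ) : |ba6hT J φ t| ≤ (∫ x, |J x|) * C := by
  have hC : 0 ≤ C := (abs_nonneg _).trans (hφ 0)
  have h1 : Integrable fun s => |J (t - s)| * C := ((ba6h_integrable_shift hJ t).abs).mul_const C
  calc |ba6hT J φ t| = ‖∫ s in Ioi (0 : ℝ), J (t - s) * φ s‖ := rfl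
    _ ≤ ∫ s in Ioi (0 : ℝ), |J (t - s)| * C := by
        refine norm_integral_le_of_norm_le h1.integrableOn (Eventually.of_forall fun s => ?_)
        rw [Real.norm_eq_abs, abs_mul]
        exact mul_le_mul_of_nonneg_left (hφ s) (abs_nonneg _)
    _ ≤ ∫ s, |J (t - s)| * C :=
        setIntegral_le_integral h1 (Eventually.of_forall fun s => mul_nonneg (abs_nonneg _) hC)
    _ = (∫ x, |J x|) * C := by
        rw [integral_mul_const, integral_sub_left_eq_self (fun x => |J x|)]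

theorem ba6hT_eq_swap (J φ : ℝ → ℝ) (t : ℝ) :
    ba6hT J φ t = ∫ u, J u * (Ioi (0 : ℝ)).indicator φ (t - u) := by
  rw [← integral_sub_left_eq_self (fun u => J u * (Ioi (0 : ℝ)).indicator φ (t - u)) volume t]
  unfold ba6hT
  rw [← integral_indicator measurableSet_Ioi]
  congr 1
  ext s
  by_cases hs : s ∈ Ioi (0 : ℝ)
  · simp [indicator_of_mem hs]
  · simp [indicator_of_notMem hs]

theorem ba6hT_continuous {J : ℝ → ℝ} (hJc : Continuous J) (hJ : Integrable J) (φ : ℝ →ᵇ ℝ) :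
    Continuous (ba6hT J φ) := by
  have e : ba6hT J φ = fun t => ∫ u, J u * (Ioi (0 : ℝ)).indicator φ (t - u) := by
    ext t; exact ba6hT_eq_swap J φ t
  rw [e, continuous_iff_continuousAt]
  intro t₀
  have hm : Measurable ((Ioi (0 : ℝ)).indicator φ) := φ.continuous.measurable.indicator measurableSet_Ioi
  refine continuousAt_of_dominated (bound := fun u => |J u| * ‖φ‖)
    (Eventually.of_forall fun t => ?_) (Eventually.of_forall fun t => Eventually.of_forall fun u => ?_)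
    (hJ.abs.mul_const _) ?_
  · exact (hJc.measurable.mul (hm.comp (measurable_const.sub measurable_id))).aestronglyMeasurable
  · rw [Real.norm_eq_abs, abs_mul]
    refine mul_le_mul_of_nonneg_left ?_ (abs_nonneg _)
    by_cases h : t - u ∈ Ioi (0 : ℝ)
    · rw [indicator_of_mem h]; exact φ.norm_coe_le_norm _
    · rw [indicator_of_notMem h]; simp
  · have hne : ∀ᵐ u : ℝ, u ≠ t₀ := by
      have : ({t₀}ᶜ : Set ℝ) ∈ ae volume := compl_mem_ae_iff.2 (measure_singleton t₀)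
      filter_upwards [this] with u hu using hu
    filter_upwards [hne] with u hu
    refine ContinuousAt.mul continuousAt_const ?_
    rcases lt_or_gt_of_ne hu with h | h
    · have h1 : ∀ᶠ t in 𝓝 t₀, (Ioi (0 : ℝ)).indicator φ (t - u) = φ (t - u) := by
        filter_upwards [lt_mem_nhds h] with t ht
        exact indicator_of_mem (by simpa using ht) _
      exact ContinuousAt.congr (by fun_prop) (h1.mono fun _ h => h.symm)
    · have h1 : ∀ᶠ t in 𝓝 t₀, (Ioi (0 : ℝ)).indicator φ (t - u) = 0 := by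
        filter_upwards [gt_mem_nhds h] with t ht
        exact indicator_of_notMem (by simpa using ht.le) _
      exact ContinuousAt.congr continuousAt_const (h1.mono fun _ h => h.symm)

/-- `T` as a bounded operator on `ℝ →ᵇ ℝ`. -/
noncomputable def ba6hOp {J : ℝ → ℝ} (hJ : Ba6hKer J) : (ℝ →ᵇ ℝ) →L[ℝ] (ℝ →ᵇ ℝ) :=
  LinearMap.mkContinuous
    { toFun := fun φ => BoundedContinuousFunction.ofNormedAddCommGroup (ba6hT J φ)
        (ba6hT_continuous hJ.cont hJ.int φ) ((∫ x, |J x|) * ‖φ‖)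
        (fun t => ba6hT_abs_le hJ.int (fun s => φ.norm_coe_le_norm s) t)
      map_add' := by
        intro φ ψ
        ext t
        simp only [BoundedContinuousFunction.coe_ofNormedAddCommGroup,
          BoundedContinuousFunction.coe_add, Pi.add_apply, ba6hT, mul_add]
        exact integral_add
          (ba6h_integrand_integrable hJ.int φ.continuous.aestronglyMeasurable
            (fun s => φ.norm_coe_le_norm s) t).integrableOn
          (ba6h_integrand_integrable hJ.int ψ.continuous.aestronglyMeasurable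
            (fun s => ψ.norm_coe_le_norm s) t).integrableOn
      map_smul' := by
        intro c φ
        ext t
        simp only [BoundedContinuousFunction.coe_ofNormedAddCommGroup,
          BoundedContinuousFunction.coe_smul, ba6hT, smul_eq_mul, RingHom.id_apply]
        rw [← integral_const_mul]
        congr 1
        ext s
        ring }
    (∫ x, |J x|)
    (fun φ => by
      refine (BoundedContinuousFunction.norm_le
        (mul_nonneg (integral_nonneg fun _ => abs_nonneg _) (norm_nonneg _))).2 fun t => ?_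
      exact ba6hT_abs_le hJ.int (fun s => φ.norm_coe_le_norm s) t)

@[simp] theorem ba6hOp_apply {J : ℝ → ℝ} (hJ : Ba6hKer J) (φ : ℝ →ᵇ ℝ) (t : ℝ) :
    ba6hOp hJ φ t = ba6hT J φ t := rfl

theorem ba6hOp_norm_le {J : ℝ → ℝ} (hJ : Ba6hKer J) : ‖ba6hOp hJ‖ ≤ ∫ x, |J x| :=
  LinearMap.mkContinuous_norm_le _ (integral_nonneg fun _ => abs_nonneg _) _

theorem ba6hT_eq_conv (J g : ℝ → ℝ) (t : ℝ) :
    ba6hT J g t = ((Ioi (0 : ℝ)).indicator g ⋆[ContinuousLinearMap.mul ℝ ℝ, volume] J) t := by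
  rw [convolution_def]
  unfold ba6hT
  rw [← integral_indicator measurableSet_Ioi]
  congr 1
  ext s
  by_cases hs : s ∈ Ioi (0 : ℝ)
  · simp [indicator_of_mem hs, mul_comm]
  · simp [indicator_of_notMem hs]

/-- `T` maps `L¹(0,∞)` to `L¹(ℝ)` with norm `≤ ∫ |J|`. -/
theorem ba6hT_L1 {J g : ℝ → ℝ} (hJ : Integrable J) (hg : IntegrableOn g (Ioi 0)) :
    Integrable (ba6hT J g) ∧ ∫ t, |ba6hT J g t| ≤ (∫ x, |J x|) * ∫ t in Ioi 0, |g t| := by
  have hG : Integrable ((Ioi (0 : ℝ)).indicator g) := (integrable_indicator_iff measurableSet_Ioi).2 hg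
  have e : ba6hT J g = ((Ioi (0 : ℝ)).indicator g ⋆[ContinuousLinearMap.mul ℝ ℝ, volume] J) := by
    ext t; exact ba6hT_eq_conv J g t
  have h1 : Integrable (ba6hT J g) := by
    rw [e]; exact hG.integrable_convolution _ hJ
  refine ⟨h1, ?_⟩
  have h2 : Integrable ((fun s => |(Ioi (0 : ℝ)).indicator g s|) ⋆[ContinuousLinearMap.mul ℝ ℝ, volume]
      fun x => |J x|) := hG.abs.integrable_convolution _ hJ.abs
  calc ∫ t, |ba6hT J g t|
      ≤ ∫ t, ((fun s => |(Ioi (0 : ℝ)).indicator g s|) ⋆[ContinuousLinearMap.mul ℝ ℝ, volume]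
          fun x => |J x|) t := by
        refine integral_mono h1.abs h2 fun t => ?_
        simp only [e, convolution_def, ContinuousLinearMap.mul_apply']
        refine (norm_integral_le_integral_norm
          (fun s => (Ioi (0 : ℝ)).indicator g s * J (t - s))).trans (le_of_eq ?_)
        congr 1
        ext s
        rw [Real.norm_eq_abs, abs_mul]
    _ = (∫ s, |(Ioi (0 : ℝ)).indicator g s|) * ∫ x, |J x| := by
        rw [integral_convolution _ hG.abs hJ.abs]; rfl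
    _ = (∫ x, |J x|) * ∫ t in Ioi 0, |g t| := by
        rw [mul_comm, ← integral_indicator measurableSet_Ioi]
        congr 2
        ext s
        by_cases hs : s ∈ Ioi (0 : ℝ)
        · simp [indicator_of_mem hs]
        · simp [indicator_of_notMem hs]

theorem ba6hOp_L1 {J : ℝ → ℝ} (hJ : Ba6hKer J) (g : ℝ →ᵇ ℝ) (hg : IntegrableOn g (Ioi 0)) :
    IntegrableOn (ba6hOp hJ g) (Ioi 0) ∧
      ∫ t in Ioi 0, |ba6hOp hJ g t| ≤ (∫ x, |J x|) * ∫ t in Ioi 0, |g t| := by
  obtain ⟨h1, h2⟩ := ba6hT_L1 hJ.int hg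
  refine ⟨h1.integrableOn, le_trans ?_ h2⟩
  exact setIntegral_le_integral h1.abs (Eventually.of_forall fun _ => abs_nonneg _)

/-! ### C. The resolvent function `R` -/

/-- `J` as a bounded continuous function -/
noncomputable def ba6hJb {J : ℝ → ℝ} (hJ : Ba6hKer J) : ℝ →ᵇ ℝ :=
  BoundedContinuousFunction.ofNormedAddCommGroup J hJ.cont hJ.bdd.choose hJ.bdd.choose_spec

theorem ba6h_exists_R {J : ℝ → ℝ} (hJ : Ba6hKer J) :
    ∃ R : ℝ →ᵇ ℝ, (∀ t, R t + ba6hT J R t = J t) ∧ Integrable R := by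
  obtain ⟨R, h1, -, h3⟩ := ba6h_solve (ba6hOp hJ) hJ.lt_one (ba6hOp_norm_le hJ) (ba6hJb hJ)
  have hRi := (h3 (fun g hg => ba6hOp_L1 hJ g hg) hJ.int.integrableOn).1
  have heq : ∀ t, R t + ba6hT J R t = J t := fun t => by
    have := congrArg (fun ψ : ℝ →ᵇ ℝ => ψ t) h1
    simpa [ba6hJb] using this
  refine ⟨R, heq, ?_⟩
  have : (R : ℝ → ℝ) = fun t => J t - ba6hT J R t := by
    ext t; linarith [heq t]
  rw [this]
  exact hJ.int.sub (ba6hT_L1 hJ.int hRi).1

/-- the resolvent function: `R + J ⋆ (1_{t>0} R) = J` on the whole line. -/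
noncomputable def ba6hR {J : ℝ → ℝ} (hJ : Ba6hKer J) : ℝ →ᵇ ℝ := (ba6h_exists_R hJ).choose

theorem ba6hR_eq {J : ℝ → ℝ} (hJ : Ba6hKer J) (t : ℝ) : ba6hR hJ t + ba6hT J (ba6hR hJ) t = J t :=
  (ba6h_exists_R hJ).choose_spec.1 t

theorem ba6hR_int {J : ℝ → ℝ} (hJ : Ba6hKer J) : Integrable (ba6hR hJ) :=
  (ba6h_exists_R hJ).choose_spec.2

theorem ba6hT_eq_op : ba6hT = ba6h200_op := rfl

/-! ### B2. The two-edge operator -/

theorem ba6h_tau_mono {F : ℝ → ℝ} (hF : Integrable F) (h0 : ∀ x, 0 ≤ F x) {a b : ℝ} (hab : a ≤ b) :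
    ba6h200_tau F a ≤ ba6h200_tau F b := by
  unfold ba6h200_tau
  exact setIntegral_mono_set hF.integrableOn (Eventually.of_forall h0)
    (Eventually.of_forall (Iic_subset_Iic.2 hab))

/-- sup bound with the primitive of `|J|`; only the values of `φ` on `s > 0` matter. -/
theorem ba6hT_abs_le_tau {J φ : ℝ → ℝ} (hJ : Integrable J) {C : ℝ}
    (hφ : ∀ s, 0 < s → |φ s| ≤ C) (t : ℝ) :
    |ba6hT J φ t| ≤ ba6h200_tau (fun x => |J x|) t * C := by
  have h1 : Integrable fun s => |J (t - s)| * C := ((ba6h_integrable_shift hJ t).abs).mul_const C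
  calc |ba6hT J φ t| = ‖∫ s in Ioi (0 : ℝ), J (t - s) * φ s‖ := rfl
    _ ≤ ∫ s in Ioi (0 : ℝ), |J (t - s)| * C := by
        refine norm_integral_le_of_norm_le h1.integrableOn ?_
        refine (ae_restrict_iff' measurableSet_Ioi).2 (Eventually.of_forall fun s hs => ?_)
        rw [Real.norm_eq_abs, abs_mul]
        exact mul_le_mul_of_nonneg_left (hφ s hs) (abs_nonneg _)
    _ = ba6h200_tau (fun x => |J x|) t * C := by
        rw [integral_mul_const, ba6h200_integral_Ioi_shift (fun x => |J x|) t 0, sub_zero]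

theorem ba6hT2_abs_le {J φ : ℝ → ℝ} (hJ : Integrable J) (hev : ∀ x, J (-x) = J x) {C : ℝ}
    (hC : 0 ≤ C) (hφ : ∀ s, 0 < s → |φ s| ≤ C) {q : ℝ} (hq : 0 ≤ q) (x : ℝ) :
    |ba6hT J φ x + ba6hT J φ (-(2 * q) - x)| ≤ (∫ u, |J u|) * C := by
  have h1 := ba6hT_abs_le_tau hJ hφ x
  have h2 := ba6hT_abs_le_tau hJ hφ (-(2 * q) - x)
  have h3 : ba6h200_tau (fun x => |J x|) (-(2 * q) - x) ≤ ba6h200_tau (fun x => |J x|) (-x) :=
    ba6h_tau_mono hJ.abs (fun _ => abs_nonneg _) (by linarith)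
  have h4 := ba6h200_tau_add_neg hJ.abs (fun x => by simp only [hev]) x
  calc |ba6hT J φ x + ba6hT J φ (-(2 * q) - x)|
      ≤ |ba6hT J φ x| + |ba6hT J φ (-(2 * q) - x)| := abs_add_le _ _
    _ ≤ ba6h200_tau (fun x => |J x|) x * C + ba6h200_tau (fun x => |J x|) (-x) * C :=
        add_le_add h1 (h2.trans (mul_le_mul_of_nonneg_right h3 hC))
    _ = (∫ u, |J u|) * C := by rw [← h4]; ring

/-- the reflection `x ↦ -(2q) - x` -/
def ba6hRefl (q : ℝ) : C(ℝ, ℝ) := ⟨fun x => -(2 * q) - x, by fun_prop⟩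

/-- the two-edge operator `φ ↦ T φ + (T φ)(-(2q) - ·)` on `ℝ →ᵇ ℝ`. -/
noncomputable def ba6hOp2 {J : ℝ → ℝ} (hJ : Ba6hKer J) {q : ℝ} (hq : 0 ≤ q) :
    (ℝ →ᵇ ℝ) →L[ℝ] (ℝ →ᵇ ℝ) :=
  LinearMap.mkContinuous
    { toFun := fun φ => ba6hOp hJ φ + (ba6hOp hJ φ).compContinuous (ba6hRefl q)
      map_add' := by
        intro φ ψ
        ext t
        simp only [map_add, BoundedContinuousFunction.coe_add, Pi.add_apply,
          BoundedContinuousFunction.compContinuous_apply]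
        ring
      map_smul' := by
        intro c φ
        ext t
        simp only [map_smul, BoundedContinuousFunction.coe_add, Pi.add_apply,
          BoundedContinuousFunction.compContinuous_apply, BoundedContinuousFunction.coe_smul,
          smul_eq_mul, RingHom.id_apply]
        ring }
    (∫ x, |J x|)
    (fun φ => by
      refine (BoundedContinuousFunction.norm_le
        (mul_nonneg (integral_nonneg fun _ => abs_nonneg _) (norm_nonneg _))).2 fun t => ?_
      exact ba6hT2_abs_le hJ.int hJ.even (norm_nonneg _) (fun s _ => φ.norm_coe_le_norm s) hq t)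

theorem ba6hOp2_apply {J : ℝ → ℝ} (hJ : Ba6hKer J) {q : ℝ} (hq : 0 ≤ q) (φ : ℝ →ᵇ ℝ) (t : ℝ) :
    ba6hOp2 hJ hq φ t = ba6h200_op J φ t + ba6h200_op J φ (-(2 * q) - t) := rfl

theorem ba6hOp2_norm_le {J : ℝ → ℝ} (hJ : Ba6hKer J) {q : ℝ} (hq : 0 ≤ q) :
    ‖ba6hOp2 hJ hq‖ ≤ ∫ x, |J x| :=
  LinearMap.mkContinuous_norm_le _ (integral_nonneg fun _ => abs_nonneg _) _

/-- `∫_{x>0} |F x| + |F (-(2q) - x)| ≤ ∫ |F|`. -/
theorem ba6h_fold_le {F : ℝ → ℝ} (hF : Integrable F) {q : ℝ} (hq : 0 ≤ q) :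
    (∫ x in Ioi (0 : ℝ), |F x|) + ∫ x in Ioi (0 : ℝ), |F (-(2 * q) - x)| ≤ ∫ x, |F x| := by
  have h1 : ∫ x in Ioi (0 : ℝ), |F (-(2 * q) - x)| = ba6h200_tau (fun x => |F x|) (-(2 * q)) := by
    rw [ba6h200_integral_Ioi_shift (fun x => |F x|) (-(2 * q)) 0, sub_zero]
  have h2 : ba6h200_tau (fun x => |F x|) (-(2 * q)) ≤ ba6h200_tau (fun x => |F x|) 0 :=
    ba6h_tau_mono hF.abs (fun _ => abs_nonneg _) (by linarith)
  have h3 : ba6h200_tau (fun x => |F x|) 0 + ∫ x in Ioi (0 : ℝ), |F x| = ∫ x, |F x| :=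
    intervalIntegral.integral_Iic_add_Ioi hF.abs.integrableOn hF.abs.integrableOn
  rw [h1]; linarith

theorem ba6hOp2_L1 {J : ℝ → ℝ} (hJ : Ba6hKer J) {q : ℝ} (hq : 0 ≤ q) (g : ℝ →ᵇ ℝ)
    (hg : IntegrableOn g (Ioi 0)) :
    IntegrableOn (ba6hOp2 hJ hq g) (Ioi 0) ∧
      ∫ t in Ioi 0, |ba6hOp2 hJ hq g t| ≤ (∫ x, |J x|) * ∫ t in Ioi 0, |g t| := by
  obtain ⟨h1, h2⟩ := ba6hT_L1 hJ.int hg
  have h3 : Integrable fun t => ba6hT J g (-(2 * q) - t) := h1.comp_sub_left _
  have e : (ba6hOp2 hJ hq g : ℝ → ℝ) = fun t => ba6hT J g t + ba6hT J g (-(2 * q) - t) := rfl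
  refine ⟨by rw [e]; exact (h1.add h3).integrableOn, le_trans ?_ h2⟩
  refine le_trans ?_ (ba6h_fold_le h1 hq)
  rw [← integral_add h1.abs.integrableOn h3.abs.integrableOn, e]
  exact integral_mono (h1.add h3).abs.integrableOn (h1.abs.add h3.abs).integrableOn
    fun t => abs_add_le _ _

/-! ### C2. Existence and uniqueness, in the shapes of `Ba6H200` -/

theorem ba6h_uniq {J : ℝ → ℝ} (hJ : Ba6hKer J) : ba6h200_Uniq J := by
  intro f _ ⟨B, hB⟩ hf x hx
  set θ := ∫ u, |J u| with hθ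
  have hθ0 : 0 ≤ θ := integral_nonneg fun _ => abs_nonneg _
  have hB0 : 0 ≤ B := (abs_nonneg _).trans (hB 0)
  have key : ∀ n : ℕ, ∀ x, 0 ≤ x → |f x| ≤ θ ^ n * B := by
    intro n
    induction n with
    | zero => intro x _; simpa using hB x
    | succ n ih =>
      intro x hx
      have h1 : f x = - ba6hT J f x := by have := hf x hx; rw [← ba6hT_eq_op] at this; linarith
      rw [h1, abs_neg]
      have h2 := ba6hT_abs_le_tau hJ.int (φ := f) (C := θ ^ n * B) (fun s hs => ih s hs.le) x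
      have h3 : ba6h200_tau (fun x => |J x|) x ≤ θ := by
        unfold ba6h200_tau
        exact setIntegral_le_integral hJ.int.abs (Eventually.of_forall fun _ => abs_nonneg _)
      calc |ba6hT J f x| ≤ ba6h200_tau (fun x => |J x|) x * (θ ^ n * B) := h2
        _ ≤ θ * (θ ^ n * B) := mul_le_mul_of_nonneg_right h3 (by positivity)
        _ = θ ^ (n + 1) * B := by ring
  have hlim : Tendsto (fun n : ℕ => θ ^ n * B) atTop (𝓝 0) := by
    simpa using (tendsto_pow_atTop_nhds_zero_of_lt_one hθ0 hJ.lt_one).mul_const B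
  have : |f x| ≤ 0 := ge_of_tendsto' hlim fun n => key n x hx
  exact abs_nonpos_iff.1 this

/-- one edge: `Y + T Y = f` on the whole line. -/
theorem ba6h_exists_sol {J : ℝ → ℝ} (hJ : Ba6hKer J) (f : ℝ →ᵇ ℝ) :
    ∃ Y : ℝ →ᵇ ℝ, (∀ x, Y x + ba6h200_op J Y x = f x) ∧ (Integrable f → Integrable Y) := by
  obtain ⟨Y, h1, -, h3⟩ := ba6h_solve (ba6hOp hJ) hJ.lt_one (ba6hOp_norm_le hJ) f
  have heq : ∀ t, Y t + ba6h200_op J Y t = f t := fun t => by
    have := congrArg (fun ψ : ℝ →ᵇ ℝ => ψ t) h1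
    rw [← ba6hT_eq_op]
    simpa using this
  refine ⟨Y, heq, fun hf => ?_⟩
  have hYi := (h3 (fun g hg => ba6hOp_L1 hJ g hg) hf.integrableOn).1
  have : (Y : ℝ → ℝ) = fun t => f t - ba6hT J Y t := by
    ext t; have := heq t; rw [← ba6hT_eq_op] at this; linarith
  rw [this]
  exact hf.sub (ba6hT_L1 hJ.int hYi).1

/-- two edges: `y + T y + (T y)(-(2q) - ·) = f` on the whole line. -/
theorem ba6h_exists_sol2 {J : ℝ → ℝ} (hJ : Ba6hKer J) {q : ℝ} (hq : 0 ≤ q) (f : ℝ →ᵇ ℝ) :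
    ∃ y : ℝ →ᵇ ℝ, (∀ x, y x + ba6h200_op J y x + ba6h200_op J y (-(2 * q) - x) = f x) ∧
      (IntegrableOn f (Ioi 0) → IntegrableOn y (Ioi 0)) := by
  obtain ⟨y, h1, -, h3⟩ := ba6h_solve (ba6hOp2 hJ hq) hJ.lt_one (ba6hOp2_norm_le hJ hq) f
  refine ⟨y, fun t => ?_, fun hf => (h3 (fun g hg => ba6hOp2_L1 hJ hq g hg) hf).1⟩
  have := congrArg (fun ψ : ℝ →ᵇ ℝ => ψ t) h1
  simp only [BoundedContinuousFunction.coe_add, Pi.add_apply, ba6hOp2_apply] at this
  linarith

/-! ### D. Positivity for kernels `T ≤ 0` -/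

theorem c5x_pos {T : ℝ → ℝ} (hT : Integrable T) {M : ℝ} (hTb : ∀ x, |T x| ≤ M)
    (hθ : ∫ u, |T u| < 1) (hneg : ∀ x, T x ≤ 0) {q : ℝ} (hq : 0 ≤ q) {y s : ℝ → ℝ}
    (hy : IntegrableOn y (Ioi 0)) (hs : ∀ x, 0 < x → 0 ≤ s x)
    (heq : ∀ x, 0 < x → y x + ba6h200_op T y x + ba6h200_op T y (-(2 * q) - x) = s x) :
    ∀ x, 0 < x → s x ≤ y x := by
  set n : ℝ → ℝ := fun x => max (-y x) 0 with hn
  have hni : IntegrableOn n (Ioi 0) := hy.neg.pos_part
  have hn0 : ∀ x, 0 ≤ n x := fun x => le_max_right _ _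
  have hyn : ∀ x, -n x ≤ y x := fun x => by
    have : -y x ≤ n x := le_max_left _ _
    linarith
  -- step 1
  have h1 : ∀ t, ba6h200_op T n t ≤ - ba6h200_op T y t := by
    intro t
    unfold ba6h200_op
    rw [← integral_neg]
    refine integral_mono (ba6h200_integrableOn_shift_mul hT hTb hni t)
      (ba6h200_integrableOn_shift_mul hT hTb hy t).neg fun u => ?_
    have := mul_le_mul_of_nonpos_left (hyn u) (hneg (t - u))
    simp only
    linarith
  have h1' : ∀ t, ba6h200_op T n t ≤ 0 := by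
    intro t
    unfold ba6h200_op
    exact integral_nonpos fun u => mul_nonpos_of_nonpos_of_nonneg (hneg _) (hn0 u)
  -- step 2
  have h2 : ∀ x, 0 < x → n x ≤ |ba6h200_op T n x| + |ba6h200_op T n (-(2 * q) - x)| := by
    intro x hx
    rw [abs_of_nonpos (h1' _), abs_of_nonpos (h1' _)]
    refine max_le ?_ (by linarith [h1' x, h1' (-(2 * q) - x)])
    have := heq x hx
    linarith [h1 x, h1 (-(2 * q) - x), hs x hx]
  -- step 3
  have hO := ba6h200_op_integrable hT hni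
  have h3 : ∫ x in Ioi (0 : ℝ), n x ≤ (∫ u, |T u|) * ∫ x in Ioi (0 : ℝ), n x := by
    calc ∫ x in Ioi (0 : ℝ), n x
        ≤ ∫ x in Ioi (0 : ℝ), (|ba6h200_op T n x| + |ba6h200_op T n (-(2 * q) - x)|) :=
          setIntegral_mono_on hni
            (hO.abs.integrableOn.add (hO.abs.comp_sub_left (-(2 * q))).integrableOn)
            measurableSet_Ioi h2
      _ = (∫ x in Ioi (0 : ℝ), |ba6h200_op T n x|) +
            ∫ x in Ioi (0 : ℝ), |ba6h200_op T n (-(2 * q) - x)| :=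
          integral_add hO.abs.integrableOn (hO.abs.comp_sub_left (-(2 * q))).integrableOn
      _ ≤ ∫ x, |ba6h200_op T n x| := ba6h_fold_le hO hq
      _ ≤ (∫ u, |T u|) * ∫ x in Ioi (0 : ℝ), |n x| := ba6h200_op_L1 hT hni
      _ = (∫ u, |T u|) * ∫ x in Ioi (0 : ℝ), n x := by
          congr 2; ext x; exact abs_of_nonneg (hn0 x)
  have hI0 : 0 ≤ ∫ x in Ioi (0 : ℝ), n x := integral_nonneg hn0
  have hI : ∫ x in Ioi (0 : ℝ), n x = 0 := by nlinarith
  have hae : n =ᵐ[volume.restrict (Ioi (0 : ℝ))] 0 :=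
    (integral_eq_zero_iff_of_nonneg hn0 hni).1 hI
  -- step 4
  have h4 : ∀ t, ba6h200_op T n t = 0 := by
    intro t
    unfold ba6h200_op
    rw [integral_congr_ae (g := fun _ => (0 : ℝ))]
    · simp
    · filter_upwards [hae] with u hu
      rw [hu]; simp
  intro x hx
  have := heq x hx
  have a1 := h1 x
  have a2 := h1 (-(2 * q) - x)
  rw [h4] at a1 a2
  linarith

/-! ### E. `L¹`-continuity in the kernel -/

theorem c5x_op_sub_kernel {T T' : ℝ → ℝ} (hT : Integrable T) (hT' : Integrable T') {M M' : ℝ}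
    (hTb : ∀ x, |T x| ≤ M) (hTb' : ∀ x, |T' x| ≤ M') {y : ℝ → ℝ} (hy : IntegrableOn y (Ioi 0))
    (t : ℝ) :
    ba6h200_op (fun u => T' u - T u) y t = ba6h200_op T' y t - ba6h200_op T y t := by
  unfold ba6h200_op
  rw [← integral_sub (ba6h200_integrableOn_shift_mul hT' hTb' hy t)
    (ba6h200_integrableOn_shift_mul hT hTb hy t)]
  congr 1
  ext u
  ring

theorem c5x_op_sub {T : ℝ → ℝ} (hT : Integrable T) {M : ℝ} (hTb : ∀ x, |T x| ≤ M)
    {f g : ℝ → ℝ} (hf : IntegrableOn f (Ioi 0)) (hg : IntegrableOn g (Ioi 0)) (t : ℝ) :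
    ba6h200_op T (fun x => f x - g x) t = ba6h200_op T f t - ba6h200_op T g t := by
  unfold ba6h200_op
  rw [← integral_sub (ba6h200_integrableOn_shift_mul hT hTb hf t)
    (ba6h200_integrableOn_shift_mul hT hTb hg t)]
  congr 1
  ext u
  ring

theorem c5x_kernel_L1 {T T' : ℝ → ℝ} (hT : Integrable T) (hT' : Integrable T') {M M' : ℝ}
    (hTb : ∀ x, |T x| ≤ M) (hTb' : ∀ x, |T' x| ≤ M') {q : ℝ} (hq : 0 ≤ q) {y y' s : ℝ → ℝ}
    (hy : IntegrableOn y (Ioi 0)) (hy' : IntegrableOn y' (Ioi 0))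
    (heq : ∀ x, 0 < x → y x + ba6h200_op T y x + ba6h200_op T y (-(2 * q) - x) = s x)
    (heq' : ∀ x, 0 < x → y' x + ba6h200_op T' y' x + ba6h200_op T' y' (-(2 * q) - x) = s x) :
    (1 - ∫ u, |T' u|) * ∫ x in Ioi (0 : ℝ), |y' x - y x| ≤
      (∫ u, |T' u - T u|) * ∫ x in Ioi (0 : ℝ), |y x| := by
  set D : ℝ → ℝ := fun u => T' u - T u with hD
  have hDi : Integrable D := hT'.sub hT
  have hO := ba6h200_op_integrable hDi hy
  set s' : ℝ → ℝ := fun x => - ba6h200_op D y x - ba6h200_op D y (-(2 * q) - x) with hs'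
  have hs'i : IntegrableOn s' (Ioi 0) := (hO.neg.sub (hO.comp_sub_left (-(2 * q)))).integrableOn
  have hz : ∀ x, 0 < x → (y' x - y x) + ba6h200_op T' (fun x => y' x - y x) x +
      ba6h200_op T' (fun x => y' x - y x) (-(2 * q) - x) = s' x := by
    intro x hx
    rw [c5x_op_sub hT' hTb' hy' hy, c5x_op_sub hT' hTb' hy' hy, hs', hD]
    simp only
    rw [c5x_op_sub_kernel hT hT' hTb hTb' hy, c5x_op_sub_kernel hT hT' hTb hTb' hy]
    linarith [heq x hx, heq' x hx]
  refine (ba6h200_apriori hT' hq (hy'.sub hy) hs'i hz).trans ?_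
  calc ∫ x in Ioi (0 : ℝ), |s' x|
      ≤ ∫ x in Ioi (0 : ℝ), (|ba6h200_op D y x| + |ba6h200_op D y (-(2 * q) - x)|) := by
        refine integral_mono hs'i.abs
          (hO.abs.integrableOn.add (hO.abs.comp_sub_left (-(2 * q))).integrableOn) fun x => ?_
        simp only [hs']
        calc |- ba6h200_op D y x - ba6h200_op D y (-(2 * q) - x)|
            ≤ |- ba6h200_op D y x| + |ba6h200_op D y (-(2 * q) - x)| := abs_sub _ _
          _ = _ := by rw [abs_neg]
    _ = (∫ x in Ioi (0 : ℝ), |ba6h200_op D y x|) +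
          ∫ x in Ioi (0 : ℝ), |ba6h200_op D y (-(2 * q) - x)| :=
        integral_add hO.abs.integrableOn (hO.abs.comp_sub_left (-(2 * q))).integrableOn
    _ ≤ ∫ x, |ba6h200_op D y x| := ba6h_fold_le hO hq
    _ ≤ (∫ u, |D u|) * ∫ x in Ioi (0 : ℝ), |y x| := ba6h200_op_L1 hDi hy

/-! ### F. `L¹`-continuity in `q` -/

/-- continuity of translations in `L¹(ℝ)`. -/
theorem c5x_translate_L1 {f : ℝ → ℝ} (hf : Integrable f) :
    Tendsto (fun h : ℝ => ∫ x, |f (x + h) - f x|) (𝓝 0) (𝓝 0) := by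
  have hm : MemLp f 1 volume := memLp_one_iff_integrable.2 hf
  have : Fact ((1 : ENNReal) ≠ ⊤) := ⟨ENNReal.one_ne_top⟩
  set F : Lp ℝ 1 (volume : Measure ℝ) := hm.toLp f with hF
  have hc : Continuous fun h : ℝ => (DomAddAct.mk h) +ᵥ F :=
    DomAddAct.continuous_mk.vadd continuous_const
  have h0 : Tendsto (fun h : ℝ => ‖((DomAddAct.mk h) +ᵥ F) - F‖) (𝓝 0) (𝓝 0) := by
    have h1 := (hc.tendsto 0)
    have h2 : (DomAddAct.mk (0 : ℝ)) +ᵥ F = F := by
      have : DomAddAct.mk (0 : ℝ) = 0 := rfl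
      rw [this, zero_vadd]
    rw [h2] at h1
    have := (h1.sub_const F).norm
    simpa using this
  refine h0.congr fun h => ?_
  rw [hF, DomAddAct.mk_vadd_toLp, ← MemLp.toLp_sub, L1.norm_eq_integral_norm]
  refine integral_congr_ae ?_
  filter_upwards [MemLp.coeFn_toLp
    ((hm.comp_measurePreserving (measurePreserving_vadd h volume)).sub hm)] with x hx
  have hx' : (MemLp.toLp ((fun x => f (h +ᵥ x)) - f)
      ((hm.comp_measurePreserving (measurePreserving_vadd h volume)).sub hm) : ℝ → ℝ) x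
      = f (h +ᵥ x) - f x := hx
  rw [hx']
  simp [Real.norm_eq_abs, add_comm]

theorem c5x_q_L1 {T : ℝ → ℝ} (hT : Integrable T) {M : ℝ} (hTb : ∀ x, |T x| ≤ M)
    {p : ℝ → ℝ} (hp : Integrable p) {q q' : ℝ} (hq' : 0 ≤ q') {y y' : ℝ → ℝ}
    (hy : IntegrableOn y (Ioi 0)) (hy' : IntegrableOn y' (Ioi 0))
    (heq : ∀ x, 0 < x → y x + ba6h200_op T y x + ba6h200_op T y (-(2 * q) - x) = p (x + q))
    (heq' : ∀ x, 0 < x →
      y' x + ba6h200_op T y' x + ba6h200_op T y' (-(2 * q') - x) = p (x + q')) :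
    (1 - ∫ u, |T u|) * ∫ x in Ioi (0 : ℝ), |y' x - y x| ≤
      (∫ x, |p (x + (q' - q)) - p x|) +
        ∫ x, |ba6h200_op T y (x + 2 * (q' - q)) - ba6h200_op T y x| := by
  set F := ba6h200_op T y with hF
  have hFi : Integrable F := ba6h200_op_integrable hT hy
  set s' : ℝ → ℝ := fun x => (p (x + q') - p (x + q)) + (F (-(2 * q) - x) - F (-(2 * q') - x))
    with hs'
  have i1 : Integrable fun x => p (x + q') - p (x + q) :=
    (hp.comp_add_right q').sub (hp.comp_add_right q)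
  have i2 : Integrable fun x => F (-(2 * q) - x) - F (-(2 * q') - x) :=
    (hFi.comp_sub_left _).sub (hFi.comp_sub_left _)
  have hs'i : Integrable s' := i1.add i2
  have hz : ∀ x, 0 < x → (y' x - y x) + ba6h200_op T (fun x => y' x - y x) x +
      ba6h200_op T (fun x => y' x - y x) (-(2 * q') - x) = s' x := by
    intro x hx
    rw [c5x_op_sub hT hTb hy' hy, c5x_op_sub hT hTb hy' hy, hs']
    simp only [hF]
    linarith [heq x hx, heq' x hx]
  refine (ba6h200_apriori hT hq' (hy'.sub hy) hs'i.integrableOn hz).trans ?_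
  calc ∫ x in Ioi (0 : ℝ), |s' x| ≤ ∫ x, |s' x| :=
        setIntegral_le_integral hs'i.abs (Eventually.of_forall fun _ => abs_nonneg _)
    _ ≤ ∫ x, (|p (x + q') - p (x + q)| + |F (-(2 * q) - x) - F (-(2 * q') - x)|) :=
        integral_mono hs'i.abs (i1.abs.add i2.abs) fun x => abs_add_le _ _
    _ = (∫ x, |p (x + q') - p (x + q)|) + ∫ x, |F (-(2 * q) - x) - F (-(2 * q') - x)| :=
        integral_add i1.abs i2.abs
    _ = _ := by
        congr 1
        · rw [← integral_add_right_eq_self (fun x => |p (x + (q' - q)) - p x|) q]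
          congr 1; ext x; congr 3; ring
        · rw [← integral_sub_left_eq_self (fun x => |F (x + 2 * (q' - q)) - F x|) volume
            (-(2 * q'))]
          congr 1; ext x; congr 3; ring

/-- the mass `q ↦ ∫ y_q` is continuous on `q ≥ 0`; more precisely `y_{q'} → y_q` in `L¹`. -/
theorem c5x_q_tendsto {T : ℝ → ℝ} (hT : Integrable T) {M : ℝ} (hTb : ∀ x, |T x| ≤ M)
    (hθ : ∫ u, |T u| < 1) {p : ℝ → ℝ} (hp : Integrable p) {y : ℝ → ℝ → ℝ}
    (hyi : ∀ q, 0 ≤ q → IntegrableOn (y q) (Ioi 0))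
    (hy : ∀ q, 0 ≤ q → ∀ x, 0 < x →
      y q x + ba6h200_op T (y q) x + ba6h200_op T (y q) (-(2 * q) - x) = p (x + q))
    {q : ℝ} (hq : 0 ≤ q) :
    Tendsto (fun q' => ∫ x in Ioi (0 : ℝ), |y q' x - y q x|) (𝓝[Ici 0] q) (𝓝 0) := by
  have h1θ : 0 < 1 - ∫ u, |T u| := by linarith
  have hFi : Integrable (ba6h200_op T (y q)) := ba6h200_op_integrable hT (hyi q hq)
  have t1 : Tendsto (fun q' : ℝ => ∫ x, |p (x + (q' - q)) - p x|) (𝓝 q) (𝓝 0) := by
    have : Tendsto (fun q' : ℝ => q' - q) (𝓝 q) (𝓝 0) := by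
      simpa using (by fun_prop : Continuous fun q' : ℝ => q' - q).tendsto q
    exact (c5x_translate_L1 hp).comp this
  have t2 : Tendsto (fun q' : ℝ => ∫ x, |ba6h200_op T (y q) (x + 2 * (q' - q)) -
      ba6h200_op T (y q) x|) (𝓝 q) (𝓝 0) := by
    have : Tendsto (fun q' : ℝ => 2 * (q' - q)) (𝓝 q) (𝓝 0) := by
      simpa using (by fun_prop : Continuous fun q' : ℝ => 2 * (q' - q)).tendsto q
    exact (c5x_translate_L1 hFi).comp this
  have t3 : Tendsto (fun q' : ℝ => ((∫ x, |p (x + (q' - q)) - p x|) +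
      ∫ x, |ba6h200_op T (y q) (x + 2 * (q' - q)) - ba6h200_op T (y q) x|) /
        (1 - ∫ u, |T u|)) (𝓝[Ici 0] q) (𝓝 0) := by
    have := ((t1.add t2).div_const (1 - ∫ u, |T u|)).mono_left
      (nhdsWithin_le_nhds (s := Ici (0 : ℝ)))
    simpa using this
  refine squeeze_zero' (Eventually.of_forall fun _ => integral_nonneg fun _ => abs_nonneg _) ?_ t3
  filter_upwards [self_mem_nhdsWithin] with q' hq'
  rw [le_div_iff₀ h1θ, mul_comm]
  exact c5x_q_L1 hT hTb hp hq' (hyi q hq) (hyi q' hq') (hy q hq) (hy q' hq')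

theorem c5x_mass_continuousOn {T : ℝ → ℝ} (hT : Integrable T) {M : ℝ} (hTb : ∀ x, |T x| ≤ M)
    (hθ : ∫ u, |T u| < 1) {p : ℝ → ℝ} (hp : Integrable p) {y : ℝ → ℝ → ℝ}
    (hyi : ∀ q, 0 ≤ q → IntegrableOn (y q) (Ioi 0))
    (hy : ∀ q, 0 ≤ q → ∀ x, 0 < x →
      y q x + ba6h200_op T (y q) x + ba6h200_op T (y q) (-(2 * q) - x) = p (x + q)) :
    ContinuousOn (fun q => ∫ x in Ioi (0 : ℝ), y q x) (Ici 0) := by
  intro q hq
  have h := c5x_q_tendsto hT hTb hθ hp hyi hy hq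
  unfold ContinuousWithinAt
  rw [tendsto_iff_dist_tendsto_zero]
  refine squeeze_zero' (Eventually.of_forall fun _ => dist_nonneg) ?_ h
  filter_upwards [self_mem_nhdsWithin] with q' hq'
  rw [Real.dist_eq, ← integral_sub (hyi q' hq') (hyi q hq)]
  exact abs_integral_le_integral_abs

/-! ### G. The concrete kernels in the rescaled variable `x = u / λ` -/

/-- admissible profile `P`: then `-(P * ρ₁)` is a kernel of the class `Ba6hKer`, `≤ 0`. -/
structure C5xProf (P : ℝ → ℝ) : Prop where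
  cont : Continuous P
  int : Integrable P
  even : ∀ x, P (-x) = P x
  bdd : ∃ C, ∀ x, |P x| ≤ C
  nonneg : ∀ x, 0 ≤ P x
  le_one : ∫ x, P x ≤ 1

/-- the kernel `T = -(P * ρ₁)`, `ρ₁ = 1/(2 cosh π x)`. -/
noncomputable def c5xT (P : ℝ → ℝ) (x : ℝ) : ℝ := - ba230_conv P (ba230_rho 1) x

theorem c5xT_nonpos {P : ℝ → ℝ} (hP : C5xProf P) (x : ℝ) : c5xT P x ≤ 0 :=
  neg_nonpos.2 (ba230_conv_nonneg hP.nonneg (fun v => (ba230_rho_pos one_pos v).le) x)

theorem c5xT_integrable {P : ℝ → ℝ} (hP : Integrable P) : Integrable (c5xT P) :=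
  (ba230_conv_integrable hP (ba230_rho_integrable one_pos)).neg

theorem c5xT_integral {P : ℝ → ℝ} (hP : Integrable P) : ∫ x, c5xT P x = - (∫ x, P x) / 2 := by
  unfold c5xT
  rw [integral_neg, ba230_conv_integral hP (ba230_rho_integrable one_pos),
    ba230_rho_integral one_pos]
  ring

theorem c5xT_abs_integral {P : ℝ → ℝ} (hP : C5xProf P) : ∫ x, |c5xT P x| = (∫ x, P x) / 2 := by
  have : ∀ x, |c5xT P x| = - c5xT P x := fun x => abs_of_nonpos (c5xT_nonpos hP x)
  simp_rw [this]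
  rw [integral_neg, c5xT_integral hP.int]
  ring

theorem c5xT_ker {P : ℝ → ℝ} (hP : C5xProf P) : Ba6hKer (c5xT P) where
  cont := by
    obtain ⟨C, hC⟩ := hP.bdd
    exact (ba230_conv_continuous hP.cont hC (ba230_rho_integrable one_pos)).neg
  int := c5xT_integrable hP.int
  even := fun x => by
    unfold c5xT
    rw [ba230_conv_even hP.even (ba230_rho_even 1)]
  bdd := by
    obtain ⟨C, hC⟩ := hP.bdd
    refine ⟨C * ∫ v, |ba230_rho 1 v|, fun x => ?_⟩
    unfold c5xT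
    rw [abs_neg]
    exact ba230_conv_abs_le hC (ba230_rho_integrable one_pos) x
  lt_one := by
    rw [c5xT_abs_integral hP]
    linarith [hP.le_one]

/-- Young: `∫ |T_P - T_P'| ≤ (∫ |P - P'|) / 2`. -/
theorem c5xT_sub_L1 {P P' : ℝ → ℝ} (hP : C5xProf P) (hP' : C5xProf P') :
    ∫ x, |c5xT P' x - c5xT P x| ≤ (∫ x, |P' x - P x|) / 2 := by
  have hρ := ba230_rho_integrable one_pos
  have hD : Integrable fun x => P' x - P x := hP'.int.sub hP.int
  obtain ⟨C, hC⟩ := hP.bdd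
  obtain ⟨C', hC'⟩ := hP'.bdd
  have hint : ∀ {Q : ℝ → ℝ} {B : ℝ}, Continuous Q → (∀ x, |Q x| ≤ B) → ∀ x,
      Integrable fun v => Q (x - v) * ba230_rho 1 v := by
    intro Q B hQc hQb x
    exact hρ.bdd_mul (c := B) (hQc.comp (by fun_prop)).aestronglyMeasurable
      (Eventually.of_forall fun v => by simpa using hQb (x - v))
  have e : ∀ x, c5xT P' x - c5xT P x = - ba230_conv (fun x => P' x - P x) (ba230_rho 1) x := by
    intro x
    unfold c5xT ba230_conv
    rw [← sub_eq_zero]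
    have := integral_sub (hint hP'.cont hC' x) (hint hP.cont hC x)
    have e2 : ∫ v, (P' (x - v) - P (x - v)) * ba230_rho 1 v =
        ∫ v, (P' (x - v) * ba230_rho 1 v - P (x - v) * ba230_rho 1 v) := by
      congr 1; ext v; ring
    rw [e2, this]; ring
  simp_rw [e, abs_neg]
  calc ∫ x, |ba230_conv (fun x => P' x - P x) (ba230_rho 1) x|
      ≤ ∫ x, ba230_conv (fun x => |P' x - P x|) (ba230_rho 1) x := by
        refine integral_mono (ba230_conv_integrable hD hρ).abs (ba230_conv_integrable hD.abs hρ)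
          fun x => ?_
        unfold ba230_conv
        refine abs_integral_le_integral_abs.trans (le_of_eq ?_)
        congr 1; ext v
        rw [abs_mul, abs_of_pos (ba230_rho_pos one_pos v)]
    _ = (∫ x, |P' x - P x|) / 2 := by
        rw [ba230_conv_integral hD.abs hρ, ba230_rho_integral one_pos]; ring

/-- the profile at `a > 0`: `P_a(x) = a ker_a (a x)`. -/
noncomputable def c5xP (a x : ℝ) : ℝ := a * ba230_ker a (a * x)

/-- the profile at `a = 0`: the Cauchy kernel of width `1/2`. -/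
noncomputable def c5xP0 (x : ℝ) : ℝ := 2 / (Real.pi * (4 * x ^ 2 + 1))

theorem c5xP_integral {a : ℝ} (h0 : 0 < a) (h1 : a < 2 * Real.pi) :
    ∫ x, c5xP a x = 1 - a / Real.pi := by
  unfold c5xP
  rw [integral_const_mul, Measure.integral_comp_mul_left (ba230_ker a),
    ba230_ker_integral h0 h1, abs_of_pos (inv_pos.2 h0), smul_eq_mul, ← mul_assoc,
    mul_inv_cancel₀ h0.ne', one_mul]

theorem c5xP_prof {a : ℝ} (h0 : 0 < a) (h1 : a ≤ Real.pi) : C5xProf (c5xP a) where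
  cont := continuous_const.mul ((ba230_ker_continuous h0 (by linarith [Real.pi_pos])).comp
    (by fun_prop))
  int := ((ba230_ker_integrable h0 (by linarith [Real.pi_pos])).comp_mul_left' h0.ne').const_mul _
  even := fun x => by unfold c5xP; rw [mul_neg, ba230_ker_even]
  bdd := by
    obtain ⟨b, hb⟩ := ba230_ker_bdd h0 (by linarith [Real.pi_pos] : a < 2 * Real.pi)
    refine ⟨a * b, fun x => ?_⟩
    unfold c5xP
    rw [abs_mul, abs_of_pos h0]
    exact mul_le_mul_of_nonneg_left (hb _) h0.le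
  nonneg := fun x => mul_nonneg h0.le (ba230_ker_nonneg h0 h1 _)
  le_one := by
    rw [c5xP_integral h0 (by linarith [Real.pi_pos])]
    have : 0 < a / Real.pi := div_pos h0 Real.pi_pos
    linarith

theorem c5xP0_eq (x : ℝ) : c5xP0 x = 2 / Real.pi * (1 + (2 * x) ^ 2)⁻¹ := by
  unfold c5xP0
  have : (0 : ℝ) < 4 * x ^ 2 + 1 := by positivity
  have := Real.pi_pos
  field_simp
  ring

theorem c5xP0_integrable : Integrable c5xP0 := by
  have : c5xP0 = fun x => 2 / Real.pi * (1 + (2 * x) ^ 2)⁻¹ := funext c5xP0_eq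
  rw [this]
  exact (integrable_inv_one_add_sq.comp_mul_left' two_ne_zero).const_mul _

theorem c5xP0_integral : ∫ x, c5xP0 x = 1 := by
  have : c5xP0 = fun x => 2 / Real.pi * (1 + (2 * x) ^ 2)⁻¹ := funext c5xP0_eq
  rw [this, integral_const_mul, Measure.integral_comp_mul_left (fun y : ℝ => (1 + y ^ 2)⁻¹),
    integral_univ_inv_one_add_sq]
  have := Real.pi_pos
  simp only [smul_eq_mul]
  rw [abs_of_pos (by norm_num : (0 : ℝ) < 2⁻¹)]
  field_simp

theorem c5xP0_prof : C5xProf c5xP0 where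
  cont := by
    unfold c5xP0
    refine Continuous.div continuous_const (by fun_prop) fun x => ?_
    have := Real.pi_pos
    positivity
  int := c5xP0_integrable
  even := fun x => by unfold c5xP0; rw [neg_sq]
  bdd := by
    refine ⟨2 / Real.pi, fun x => ?_⟩
    have hpi := Real.pi_pos
    unfold c5xP0
    rw [abs_of_nonneg (by positivity)]
    apply div_le_div_of_nonneg_left (by norm_num) hpi
    nlinarith [sq_nonneg x]
  nonneg := fun x => by
    have := Real.pi_pos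
    unfold c5xP0
    positivity
  le_one := c5xP0_integral.le

theorem c5xP_formula {a : ℝ} (x : ℝ) :
    c5xP a x = a * Real.sin a / (Real.pi * (2 * Real.sinh (a * x) ^ 2 + 2 * Real.sin (a / 2) ^ 2)) := by
  unfold c5xP ba230_ker
  have h1 : Real.cosh (2 * (a * x)) = 1 + 2 * Real.sinh (a * x) ^ 2 := by
    rw [Real.cosh_two_mul, Real.cosh_sq]; ring
  have h2 : Real.cos a = 1 - 2 * Real.sin (a / 2) ^ 2 := by
    have : a = 2 * (a / 2) := by ring
    conv_lhs => rw [this]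
    rw [Real.cos_two_mul, Real.cos_sq']; ring
  rw [h1, h2, mul_div_assoc]
  congr 3
  ring

theorem c5x_sq_le_sinh_sq (y : ℝ) : y ^ 2 ≤ Real.sinh y ^ 2 := by
  rcases le_total 0 y with h | h
  · exact pow_le_pow_left₀ h (Real.self_le_sinh_iff.2 h) 2
  · have := Real.sinh_le_self_iff.2 h
    nlinarith

/-- the dominating function -/
noncomputable def c5xG (x : ℝ) : ℝ := Real.pi / 2 * (1 + (Real.pi * x) ^ 2)⁻¹

theorem c5xG_integrable : Integrable c5xG :=
  (integrable_inv_one_add_sq.comp_mul_left' Real.pi_ne_zero).const_mul _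

theorem c5xP_le_G {a : ℝ} (h0 : 0 < a) (h1 : a ≤ Real.pi) (x : ℝ) : c5xP a x ≤ c5xG x := by
  have hpi := Real.pi_pos
  rw [c5xP_formula]
  unfold c5xG
  have hs : Real.sin a ≤ a := Real.sin_le h0.le
  have hs2 : a / Real.pi ≤ Real.sin (a / 2) := by
    have := Real.mul_le_sin (x := a / 2) (by positivity) (by linarith)
    calc a / Real.pi = 2 / Real.pi * (a / 2) := by field_simp
      _ ≤ _ := this
  have hs3 : (a / Real.pi) ^ 2 ≤ Real.sin (a / 2) ^ 2 := pow_le_pow_left₀ (by positivity) hs2 2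
  have hs4 := c5x_sq_le_sinh_sq (a * x)
  have hden : Real.pi * (2 * (a * x) ^ 2 + 2 * (a / Real.pi) ^ 2) ≤
      Real.pi * (2 * Real.sinh (a * x) ^ 2 + 2 * Real.sin (a / 2) ^ 2) := by
    apply mul_le_mul_of_nonneg_left _ hpi.le
    linarith
  have hpos : 0 < Real.pi * (2 * (a * x) ^ 2 + 2 * (a / Real.pi) ^ 2) := by positivity
  calc a * Real.sin a / (Real.pi * (2 * Real.sinh (a * x) ^ 2 + 2 * Real.sin (a / 2) ^ 2))
      ≤ a * a / (Real.pi * (2 * (a * x) ^ 2 + 2 * (a / Real.pi) ^ 2)) := by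
        apply div_le_div₀ (by positivity) (mul_le_mul_of_nonneg_left hs h0.le) hpos hden
    _ = Real.pi / 2 * (1 + (Real.pi * x) ^ 2)⁻¹ := by
        have : (0 : ℝ) < 1 + (Real.pi * x) ^ 2 := by positivity
        field_simp
        ring

theorem c5xP_tendsto (x : ℝ) : Tendsto (fun a => c5xP a x) (𝓝[>] 0) (𝓝 (c5xP0 x)) := by
  have hpi := Real.pi_pos
  have d1 : HasDerivAt Real.sin 1 0 := by simpa using Real.hasDerivAt_sin 0
  have d2 : HasDerivAt (fun a : ℝ => Real.sinh (a * x)) x 0 := by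
    have := ((hasDerivAt_id (0 : ℝ)).mul_const x).sinh
    simpa using this
  have d3 : HasDerivAt (fun a : ℝ => Real.sin (a / 2)) (1 / 2) 0 := by
    have := ((hasDerivAt_id (0 : ℝ)).div_const 2).sin
    simpa using this
  have hle : 𝓝[>] (0 : ℝ) ≤ 𝓝[≠] 0 := nhdsWithin_mono _ fun y hy => ne_of_gt hy
  have t1 := d1.tendsto_slope_zero.mono_left hle
  have t2 := d2.tendsto_slope_zero.mono_left hle
  have t3 := d3.tendsto_slope_zero.mono_left hle
  simp only [zero_add, Real.sin_zero, sub_zero, smul_eq_mul, zero_mul, Real.sinh_zero, zero_div] at t1 t2 t3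
  have t4 : Tendsto (fun a : ℝ => (a⁻¹ * Real.sin a) /
      (Real.pi * (2 * (a⁻¹ * Real.sinh (a * x)) ^ 2 + 2 * (a⁻¹ * Real.sin (a / 2)) ^ 2)))
      (𝓝[>] 0) (𝓝 (1 / (Real.pi * (2 * x ^ 2 + 2 * (1 / 2) ^ 2)))) := by
    refine t1.div ((((t2.pow 2).const_mul 2).add ((t3.pow 2).const_mul 2)).const_mul Real.pi) ?_
    positivity
  have e0 : c5xP0 x = 1 / (Real.pi * (2 * x ^ 2 + 2 * (1 / 2) ^ 2)) := by
    unfold c5xP0
    have : (0 : ℝ) < 4 * x ^ 2 + 1 := by positivity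
    field_simp
    ring
  rw [e0]
  refine t4.congr' ?_
  filter_upwards [self_mem_nhdsWithin] with a ha
  have ha0 : (a : ℝ) ≠ 0 := ne_of_gt ha
  rw [c5xP_formula]
  have : Real.pi * (2 * (a⁻¹ * Real.sinh (a * x)) ^ 2 + 2 * (a⁻¹ * Real.sin (a / 2)) ^ 2) =
      (Real.pi * (2 * Real.sinh (a * x) ^ 2 + 2 * Real.sin (a / 2) ^ 2)) / a ^ 2 := by
    field_simp
  rw [this, div_div_eq_mul_div]
  congr 1
  field_simp

theorem c5xP_tendsto_L1 : Tendsto (fun a => ∫ x, |c5xP a x - c5xP0 x|) (𝓝[>] 0) (𝓝 0) := by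
  have h := tendsto_integral_filter_of_dominated_convergence (μ := (volume : Measure ℝ))
    (l := 𝓝[>] (0 : ℝ)) (F := fun a x => |c5xP a x - c5xP0 x|) (f := fun _ => (0 : ℝ))
    (fun x => c5xG x + c5xP0 x) ?_ ?_ (c5xG_integrable.add c5xP0_integrable) ?_
  · simpa using h
  · have : Ioc (0 : ℝ) Real.pi ∈ 𝓝[>] (0 : ℝ) := Ioc_mem_nhdsGT Real.pi_pos
    filter_upwards [this] with a ha
    exact ((c5xP_prof ha.1 ha.2).cont.sub c5xP0_prof.cont).abs.aestronglyMeasurable
  · have : Ioc (0 : ℝ) Real.pi ∈ 𝓝[>] (0 : ℝ) := Ioc_mem_nhdsGT Real.pi_pos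
    filter_upwards [this] with a ha
    refine Eventually.of_forall fun x => ?_
    rw [Real.norm_eq_abs, abs_abs]
    calc |c5xP a x - c5xP0 x| ≤ |c5xP a x| + |c5xP0 x| := abs_sub _ _
      _ = c5xP a x + c5xP0 x := by
          rw [abs_of_nonneg ((c5xP_prof ha.1 ha.2).nonneg x), abs_of_nonneg (c5xP0_prof.nonneg x)]
      _ ≤ _ := by linarith [c5xP_le_G ha.1 ha.2 x]
  · refine Eventually.of_forall fun x => ?_
    have := ((c5xP_tendsto x).sub_const (c5xP0 x)).abs
    simpa using this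

/-! ### H. The solutions in the rescaled variable; the output for leaf A4 -/

theorem c5x_rho_le (x : ℝ) : |ba230_rho 1 x| ≤ 1 / 2 := by
  rw [abs_of_pos (ba230_rho_pos one_pos x)]
  unfold ba230_rho
  have := Real.one_le_cosh (Real.pi * x / 1)
  apply div_le_div_of_nonneg_left (by norm_num) (by norm_num)
  linarith

/-- the source `x ↦ ρ₁ (x + q)` -/
noncomputable def c5xRhoB (q : ℝ) : ℝ →ᵇ ℝ :=
  BoundedContinuousFunction.ofNormedAddCommGroup (fun x => ba230_rho 1 (x + q))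
    ((ba230_rho_continuous one_pos).comp (by fun_prop)) (1 / 2) (fun x => c5x_rho_le _)

/-- the solution `y_q` of the two-edge equation for `T = -(P * ρ₁)`, source `ρ₁ (· + q)`. -/
noncomputable def c5xY {P : ℝ → ℝ} (hP : C5xProf P) (q : ℝ) : ℝ → ℝ :=
  if hq : 0 ≤ q then (ba6h_exists_sol2 (c5xT_ker hP) hq (c5xRhoB q)).choose else 0

theorem c5xY_eq {P : ℝ → ℝ} (hP : C5xProf P) {q : ℝ} (hq : 0 ≤ q) (x : ℝ) :
    c5xY hP q x + ba6h200_op (c5xT P) (c5xY hP q) x +
      ba6h200_op (c5xT P) (c5xY hP q) (-(2 * q) - x) = ba230_rho 1 (x + q) := by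
  unfold c5xY
  rw [dif_pos hq]
  exact (ba6h_exists_sol2 (c5xT_ker hP) hq (c5xRhoB q)).choose_spec.1 x

theorem c5xY_int {P : ℝ → ℝ} (hP : C5xProf P) (q : ℝ) : IntegrableOn (c5xY hP q) (Ioi 0) := by
  unfold c5xY
  by_cases hq : 0 ≤ q
  · rw [dif_pos hq]
    exact (ba6h_exists_sol2 (c5xT_ker hP) hq (c5xRhoB q)).choose_spec.2
      ((ba230_rho_integrable one_pos).comp_add_right q).integrableOn
  · rw [dif_neg hq]
    exact integrableOn_zero

theorem c5xY_ge {P : ℝ → ℝ} (hP : C5xProf P) {q : ℝ} (hq : 0 ≤ q) {y : ℝ → ℝ}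
    (hy : IntegrableOn y (Ioi 0))
    (heq : ∀ x, 0 < x → y x + ba6h200_op (c5xT P) y x + ba6h200_op (c5xT P) y (-(2 * q) - x) =
      ba230_rho 1 (x + q)) : ∀ x, 0 < x → ba230_rho 1 (x + q) ≤ y x := by
  obtain ⟨M, hM⟩ := (c5xT_ker hP).bdd
  exact c5x_pos (c5xT_ker hP).int hM (c5xT_ker hP).lt_one (c5xT_nonpos hP) hq hy
    (fun x _ => (ba230_rho_pos one_pos _).le) heq

theorem c5x_rho_ge (u : ℝ) (hu : 0 ≤ u) : Real.exp (-(Real.pi / 1 * u)) / 2 ≤ ba230_rho 1 u := by
  unfold ba230_rho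
  have h1 : Real.cosh (Real.pi * u / 1) ≤ Real.exp (Real.pi / 1 * u) := by
    rw [Real.cosh_eq]
    have e : Real.pi * u / 1 = Real.pi / 1 * u := by ring
    rw [e]
    have : Real.exp (-(Real.pi / 1 * u)) ≤ Real.exp (Real.pi / 1 * u) := by
      apply Real.exp_le_exp.2
      have := Real.pi_pos
      have : 0 ≤ Real.pi / 1 * u := by positivity
      linarith
    linarith
  rw [Real.exp_neg, div_eq_mul_inv, ← mul_inv, one_div]
  apply inv_anti₀ (by have := Real.cosh_pos (Real.pi * u / 1); positivity)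
  nlinarith

/-- lower bound of the mass -/
theorem c5x_mass_ge {P : ℝ → ℝ} (hP : C5xProf P) {q : ℝ} (hq : 0 ≤ q) {y : ℝ → ℝ}
    (hy : IntegrableOn y (Ioi 0))
    (heq : ∀ x, 0 < x → y x + ba6h200_op (c5xT P) y x + ba6h200_op (c5xT P) y (-(2 * q) - x) =
      ba230_rho 1 (x + q)) :
    Real.exp (-(Real.pi / 1 * q)) / (2 * (Real.pi / 1)) ≤ ∫ x in Ioi (0 : ℝ), y x := by
  have hκ : 0 < Real.pi / 1 := by have := Real.pi_pos; positivity
  have h1 : ∫ x in Ioi (0 : ℝ), Real.exp (-(Real.pi / 1 * q)) / 2 * Real.exp (-(Real.pi / 1) * x) =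
      Real.exp (-(Real.pi / 1 * q)) / (2 * (Real.pi / 1)) := by
    rw [integral_const_mul, ba6h200_integral_exp_Ioi hκ]
    field_simp
  rw [← h1]
  refine setIntegral_mono_on
    ((integrableOn_exp_mul_Ioi (by linarith : -(Real.pi / 1) < 0) 0).const_mul _) hy
    measurableSet_Ioi fun x hx => ?_
  refine le_trans (le_of_eq ?_) ((c5x_rho_ge (x + q) (by have : 0 < x := hx; linarith)).trans
    (c5xY_ge hP hq hy heq x hx))
  rw [div_mul_eq_mul_div, ← Real.exp_add]
  congr 2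
  ring

/-- the source `e^{-κ |x|}` -/
noncomputable def c5xExpB (κ : ℝ) (hκ : 0 < κ) : ℝ →ᵇ ℝ :=
  BoundedContinuousFunction.ofNormedAddCommGroup (fun x => Real.exp (-κ * |x|))
    (by fun_prop) 1 (fun x => by
      rw [Real.norm_eq_abs, abs_of_pos (Real.exp_pos _), Real.exp_le_one_iff]
      have := abs_nonneg x
      nlinarith)

/-- **The limit of the ratio, and of the mass, for every admissible profile** (C2-C4 of pen 200 with all
hypotheses discharged). -/
theorem c5x_ratio {P : ℝ → ℝ} (hP : C5xProf P) {y : ℝ → ℝ → ℝ}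
    (hyi : ∀ q, IntegrableOn (y q) (Ioi 0))
    (hy : ∀ q, 0 ≤ q → ∀ x, 0 < x → y q x + ba6h200_op (c5xT P) (y q) x +
      ba6h200_op (c5xT P) (y q) (-(2 * q) - x) = ba230_rho 1 (x + q)) :
    Tendsto (fun q => (∫ x in Ioi (0 : ℝ), ba230_eps 1 (x + q) * y q x) /
        (∫ x in Ioi (0 : ℝ), y q x) ^ 2) atTop (𝓝 (Real.pi * (1 - (∫ x, P x) / 2))) ∧
      Tendsto (fun q => ∫ x in Ioi (0 : ℝ), y q x) atTop (𝓝 0) := by
  have hK := c5xT_ker hP
  obtain ⟨M, hM⟩ := hK.bdd
  have hκ : 0 < Real.pi / 1 := by have := Real.pi_pos; positivity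
  set κ : ℝ := Real.pi / 1 with hκd
  obtain ⟨Y₀, hY₀, -⟩ := ba6h_exists_sol hK (BoundedContinuousFunction.const ℝ 1)
  obtain ⟨Y, hY, hYi'⟩ := ba6h_exists_sol hK (c5xExpB κ hκ)
  have hYi : Integrable Y := hYi' (ba230_integrable_exp_abs hκ)
  have hYe : ∀ x, 0 ≤ x → Y x + ba6h200_op (c5xT P) Y x = Real.exp (-κ * x) := by
    intro x hx
    rw [hY x]
    show Real.exp (-κ * |x|) = _
    rw [abs_of_nonneg hx]
  have hm := ba6h200_mass_tendsto hK.int hM hK.lt_one hκ hYi.integrableOn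
    (fun x hx => hYe x hx.le) (ba230_rho_edge one_pos) hyi hy
  have he := ba6h200_energy_tendsto hK.int hM hK.lt_one hκ hYi.integrableOn
    (fun x hx => hYe x hx.le) (ba230_rho_edge one_pos) (ba230_eps_measurable 1)
    (ba230_eps_edge one_pos) hyi hy
  have hr := ba6h200_ratio hK.int hK.even hM (ba6hR_int hK) (fun x _ => ba6hR_eq hK x)
    (ba6h_uniq hK) Y₀.continuous.measurable (fun x => Y₀.norm_coe_le_norm x)
    (fun x _ => hY₀ x) hκ Y.continuous.measurable (fun x => Y.norm_coe_le_norm x) hYi hYe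
  set IY := ∫ x in Ioi (0 : ℝ), Y x with hIY
  set IE := ∫ x in Ioi (0 : ℝ), Real.exp (-κ * x) * Y x with hIE
  have hIYpos : 0 < 1 / 1 * IY := by
    have hlow : ∀ᶠ q in atTop, 1 / (2 * κ) ≤ Real.exp (κ * q) * ∫ x in Ioi (0 : ℝ), y q x := by
      filter_upwards [eventually_ge_atTop 0] with q hq
      have := c5x_mass_ge hP hq (hyi q) (hy q hq)
      have e : Real.exp (κ * q) * Real.exp (-(κ * q)) = 1 := by
        rw [← Real.exp_add]; simp
      calc 1 / (2 * κ) = Real.exp (κ * q) * (Real.exp (-(κ * q)) / (2 * κ)) := by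
            have e2 : Real.exp (κ * q) * (Real.exp (-(κ * q)) / (2 * κ)) =
                (Real.exp (κ * q) * Real.exp (-(κ * q))) / (2 * κ) := by ring
            rw [e2, e]
        _ ≤ _ := mul_le_mul_of_nonneg_left this (Real.exp_pos _).le
    have := ge_of_tendsto hm hlow
    have h2 : 0 < 1 / (2 * κ) := by positivity
    linarith
  constructor
  · have h1 : Tendsto (fun q => (Real.exp (2 * κ * q) * ∫ x in Ioi (0 : ℝ), ba230_eps 1 (x + q) * y q x) /
        (Real.exp (κ * q) * ∫ x in Ioi (0 : ℝ), y q x) ^ 2) atTop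
        (𝓝 ((2 * (1 / 1) * IE) / (1 / 1 * IY) ^ 2)) := he.div (hm.pow 2) (by positivity)
    have e1 : (2 * (1 / 1) * IE) / (1 / 1 * IY) ^ 2 = Real.pi * (1 - (∫ x, P x) / 2) := by
      have hIY0 : IY ≠ 0 := by
        intro h; rw [h] at hIYpos; simp at hIYpos
      rw [c5xT_integral hP.int] at hr
      have : 2 * (1 / 1) * IE = κ * (1 + -(∫ x, P x) / 2) * IY ^ 2 := by rw [← hr]; ring
      rw [this, hκd]
      field_simp
      ring
    rw [e1] at h1
    refine h1.congr fun q => ?_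
    have : Real.exp (2 * κ * q) = Real.exp (κ * q) ^ 2 := by
      rw [← Real.exp_nat_mul]; congr 1; push_cast; ring
    rw [this, mul_pow, mul_div_mul_left _ _ (by positivity)]
  · have h0 : Tendsto (fun q : ℝ => Real.exp (-(κ * q))) atTop (𝓝 0) := ba230_tendsto_exp_neg hκ
    have := h0.mul hm
    rw [zero_mul] at this
    refine this.congr fun q => ?_
    rw [← mul_assoc, ← Real.exp_add]
    simp

/-! ## Part I : the limit `a → 0+` at fixed `q` -/

/-- `0 ≤ ε₁(u) ≤ ε₁(q)` for `u ≥ q > 0`. -/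
theorem c5x_eps_bound {q u : ℝ} (hq : 0 < q) (hu : q ≤ u) :
    |ba230_eps 1 u| ≤ ba230_eps 1 q := by
  have hκ : 0 < Real.pi / 1 := by have := Real.pi_pos; positivity
  rw [ba230_eps_eq_artanh, ba230_eps_eq_artanh]
  set t := Real.exp (-(Real.pi / 1 * u)) with ht
  set t₀ := Real.exp (-(Real.pi / 1 * q)) with ht₀
  have h1 : t ≤ t₀ := Real.exp_le_exp.2 (by nlinarith)
  have h2 : t₀ < 1 := by
    rw [ht₀, Real.exp_lt_one_iff]
    have := mul_pos hκ hq
    linarith
  have h3 : 0 < t := Real.exp_pos _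
  have h4 : 1 ≤ (1 + t) / (1 - t) := by
    rw [le_div_iff₀ (by linarith)]; linarith
  rw [abs_of_nonneg (Real.log_nonneg h4)]
  apply Real.log_le_log (by linarith)
  exact div_le_div₀ (by linarith) (by linarith) (by linarith) (by linarith)

/-- **C5: the limit `a → 0+` at fixed `q`.** -/
theorem c5x_lam_tendsto {q : ℝ} (hq : 0 < q) {y : ℝ → ℝ → ℝ} {y0 : ℝ → ℝ}
    (hyi : ∀ a ∈ Ioc 0 Real.pi, IntegrableOn (y a) (Ioi 0))
    (hy : ∀ a ∈ Ioc 0 Real.pi, ∀ x, 0 < x → y a x + ba6h200_op (c5xT (c5xP a)) (y a) x +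
      ba6h200_op (c5xT (c5xP a)) (y a) (-(2 * q) - x) = ba230_rho 1 (x + q))
    (hy0i : IntegrableOn y0 (Ioi 0))
    (hy0 : ∀ x, 0 < x → y0 x + ba6h200_op (c5xT c5xP0) y0 x +
      ba6h200_op (c5xT c5xP0) y0 (-(2 * q) - x) = ba230_rho 1 (x + q)) :
    Tendsto (fun a => ∫ x in Ioi (0 : ℝ), |y a x - y0 x|) (𝓝[>] 0) (𝓝 0) ∧
    Tendsto (fun a => ∫ x in Ioi (0 : ℝ), y a x) (𝓝[>] 0) (𝓝 (∫ x in Ioi (0 : ℝ), y0 x)) ∧
    Tendsto (fun a => ∫ x in Ioi (0 : ℝ), ba230_eps 1 (x + q) * y a x) (𝓝[>] 0)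
      (𝓝 (∫ x in Ioi (0 : ℝ), ba230_eps 1 (x + q) * y0 x)) := by
  have hmem : Ioc (0 : ℝ) Real.pi ∈ 𝓝[>] (0 : ℝ) := Ioc_mem_nhdsGT Real.pi_pos
  have hK0 := c5xT_ker c5xP0_prof
  obtain ⟨M0, hM0⟩ := hK0.bdd
  have key : ∀ a ∈ Ioc 0 Real.pi, ∫ x in Ioi (0 : ℝ), |y a x - y0 x| ≤
      (∫ x, |c5xP a x - c5xP0 x|) * ∫ x in Ioi (0 : ℝ), |y0 x| := by
    intro a ha
    have hPa := c5xP_prof ha.1 ha.2
    have hKa := c5xT_ker hPa
    obtain ⟨Ma, hMa⟩ := hKa.bdd
    have h1 := c5x_kernel_L1 hK0.int hKa.int hM0 hMa hq.le hy0i (hyi a ha) hy0 (hy a ha)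
    have h2 := c5xT_sub_L1 c5xP0_prof hPa
    have h3 : ∫ u, |c5xT (c5xP a) u| ≤ 1 / 2 := by
      rw [c5xT_abs_integral hPa]; linarith [hPa.le_one]
    have h4 : 0 ≤ ∫ x in Ioi (0 : ℝ), |y a x - y0 x| := integral_nonneg fun _ => abs_nonneg _
    have h5 : 0 ≤ ∫ x in Ioi (0 : ℝ), |y0 x| := integral_nonneg fun _ => abs_nonneg _
    nlinarith [mul_le_mul_of_nonneg_right h2 h5]
  have t0 : Tendsto (fun a => ∫ x in Ioi (0 : ℝ), |y a x - y0 x|) (𝓝[>] 0) (𝓝 0) := by
    have := c5xP_tendsto_L1.mul_const (∫ x in Ioi (0 : ℝ), |y0 x|)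
    rw [zero_mul] at this
    refine squeeze_zero' (Eventually.of_forall fun _ => integral_nonneg fun _ => abs_nonneg _) ?_ this
    filter_upwards [hmem] with a ha using key a ha
  refine ⟨t0, ?_, ?_⟩
  · rw [tendsto_iff_dist_tendsto_zero]
    refine squeeze_zero' (Eventually.of_forall fun _ => dist_nonneg) ?_ t0
    filter_upwards [hmem] with a ha
    rw [Real.dist_eq, ← integral_sub (hyi a ha) hy0i]
    exact abs_integral_le_integral_abs
  · set W := ba230_eps 1 q with hW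
    have hb : ∀ᵐ x ∂(volume.restrict (Ioi (0 : ℝ))), ‖ba230_eps 1 (x + q)‖ ≤ W := by
      refine (ae_restrict_iff' measurableSet_Ioi).2 (Eventually.of_forall fun x hx => ?_)
      have hx' : (0 : ℝ) < x := hx
      exact c5x_eps_bound hq (by linarith)
    have hm : AEStronglyMeasurable (fun x => ba230_eps 1 (x + q)) (volume.restrict (Ioi (0 : ℝ))) :=
      ((ba230_eps_measurable 1).comp (measurable_id.add_const q)).aestronglyMeasurable
    have hi : ∀ {f : ℝ → ℝ}, IntegrableOn f (Ioi 0) →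
        IntegrableOn (fun x => ba230_eps 1 (x + q) * f x) (Ioi 0) := fun hf =>
      Integrable.bdd_mul (c := W) hf hm hb
    have t1 := t0.const_mul W
    rw [mul_zero] at t1
    rw [tendsto_iff_dist_tendsto_zero]
    refine squeeze_zero' (Eventually.of_forall fun _ => dist_nonneg) ?_ t1
    filter_upwards [hmem] with a ha
    rw [Real.dist_eq, ← integral_sub (hi (hyi a ha)) (hi hy0i), ← integral_const_mul]
    refine abs_integral_le_integral_abs.trans ?_
    refine integral_mono_ae ((hi (hyi a ha)).sub (hi hy0i)).abs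
      (((hyi a ha).sub hy0i).abs.const_mul W) ?_
    filter_upwards [hb] with x hx
    rw [← mul_sub, abs_mul]
    exact mul_le_mul_of_nonneg_right (by simpa using hx) (abs_nonneg _)

/-- **C5: the limit `a → 0+` at fixed `q`, along any filter.** -/
theorem c5x_lim {ι : Type*} {l : Filter ι} {a : ι → ℝ} (ha : Tendsto a l (𝓝[>] 0))
    {q : ℝ} (hq : 0 < q) {y : ι → ℝ → ℝ} {y0 : ℝ → ℝ}
    (hyi : ∀ᶠ i in l, IntegrableOn (y i) (Ioi 0))
    (hy : ∀ᶠ i in l, ∀ x, 0 < x → y i x + ba6h200_op (c5xT (c5xP (a i))) (y i) x +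
      ba6h200_op (c5xT (c5xP (a i))) (y i) (-(2 * q) - x) = ba230_rho 1 (x + q))
    (hy0i : IntegrableOn y0 (Ioi 0))
    (hy0 : ∀ x, 0 < x → y0 x + ba6h200_op (c5xT c5xP0) y0 x +
      ba6h200_op (c5xT c5xP0) y0 (-(2 * q) - x) = ba230_rho 1 (x + q)) :
    Tendsto (fun i => ∫ x in Ioi (0 : ℝ), |y i x - y0 x|) l (𝓝 0) ∧
    Tendsto (fun i => ∫ x in Ioi (0 : ℝ), y i x) l (𝓝 (∫ x in Ioi (0 : ℝ), y0 x)) ∧
    Tendsto (fun i => ∫ x in Ioi (0 : ℝ), ba230_eps 1 (x + q) * y i x) l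
      (𝓝 (∫ x in Ioi (0 : ℝ), ba230_eps 1 (x + q) * y0 x)) := by
  have hmem : ∀ᶠ i in l, a i ∈ Ioc (0 : ℝ) Real.pi := ha.eventually (Ioc_mem_nhdsGT Real.pi_pos)
  have hK0 := c5xT_ker c5xP0_prof
  obtain ⟨M0, hM0⟩ := hK0.bdd
  have key : ∀ i, a i ∈ Ioc 0 Real.pi → IntegrableOn (y i) (Ioi 0) →
      (∀ x, 0 < x → y i x + ba6h200_op (c5xT (c5xP (a i))) (y i) x +
        ba6h200_op (c5xT (c5xP (a i))) (y i) (-(2 * q) - x) = ba230_rho 1 (x + q)) →
      ∫ x in Ioi (0 : ℝ), |y i x - y0 x| ≤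
      (∫ x, |c5xP (a i) x - c5xP0 x|) * ∫ x in Ioi (0 : ℝ), |y0 x| := by
    intro i hai hyii hyi'
    have hPa := c5xP_prof hai.1 hai.2
    have hKa := c5xT_ker hPa
    obtain ⟨Ma, hMa⟩ := hKa.bdd
    have h1 := c5x_kernel_L1 hK0.int hKa.int hM0 hMa hq.le hy0i hyii hy0 hyi'
    have h2 := c5xT_sub_L1 c5xP0_prof hPa
    have h3 : ∫ u, |c5xT (c5xP (a i)) u| ≤ 1 / 2 := by
      rw [c5xT_abs_integral hPa]; linarith [hPa.le_one]
    have h4 : 0 ≤ ∫ x in Ioi (0 : ℝ), |y i x - y0 x| := integral_nonneg fun _ => abs_nonneg _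
    have h5 : 0 ≤ ∫ x in Ioi (0 : ℝ), |y0 x| := integral_nonneg fun _ => abs_nonneg _
    nlinarith [mul_le_mul_of_nonneg_right h2 h5]
  have t0 : Tendsto (fun i => ∫ x in Ioi (0 : ℝ), |y i x - y0 x|) l (𝓝 0) := by
    have := (c5xP_tendsto_L1.comp ha).mul_const (∫ x in Ioi (0 : ℝ), |y0 x|)
    rw [zero_mul] at this
    refine squeeze_zero' (Eventually.of_forall fun _ => integral_nonneg fun _ => abs_nonneg _) ?_ this
    filter_upwards [hmem, hyi, hy] with i h1 h2 h3 using key i h1 h2 h3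
  refine ⟨t0, ?_, ?_⟩
  · rw [tendsto_iff_dist_tendsto_zero]
    refine squeeze_zero' (Eventually.of_forall fun _ => dist_nonneg) ?_ t0
    filter_upwards [hyi] with i hi
    rw [Real.dist_eq, ← integral_sub hi hy0i]
    exact abs_integral_le_integral_abs
  · set W := ba230_eps 1 q with hW
    have hb : ∀ᵐ x ∂(volume.restrict (Ioi (0 : ℝ))), ‖ba230_eps 1 (x + q)‖ ≤ W := by
      refine (ae_restrict_iff' measurableSet_Ioi).2 (Eventually.of_forall fun x hx => ?_)
      have hx' : (0 : ℝ) < x := hx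
      exact c5x_eps_bound hq (by linarith)
    have hm : AEStronglyMeasurable (fun x => ba230_eps 1 (x + q)) (volume.restrict (Ioi (0 : ℝ))) :=
      ((ba230_eps_measurable 1).comp (measurable_id.add_const q)).aestronglyMeasurable
    have hi : ∀ {f : ℝ → ℝ}, IntegrableOn f (Ioi 0) →
        IntegrableOn (fun x => ba230_eps 1 (x + q) * f x) (Ioi 0) := fun hf =>
      Integrable.bdd_mul (c := W) hf hm hb
    have t1 := t0.const_mul W
    rw [mul_zero] at t1
    rw [tendsto_iff_dist_tendsto_zero]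
    refine squeeze_zero' (Eventually.of_forall fun _ => dist_nonneg) ?_ t1
    filter_upwards [hyi] with i hii
    rw [Real.dist_eq, ← integral_sub (hi hii) (hi hy0i), ← integral_const_mul]
    refine abs_integral_le_integral_abs.trans ?_
    refine integral_mono_ae ((hi hii).sub (hi hy0i)).abs
      ((hii.sub hy0i).abs.const_mul W) ?_
    filter_upwards [hb] with x hx
    rw [← mul_sub, abs_mul]
    exact mul_le_mul_of_nonneg_right (by simpa using hx) (abs_nonneg _)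

/-! ## Part J : back to the variable `u = λ x`; the output for leaf A4 -/

/-- scaling of the half-line operator -/
theorem c5x_op_scale (T g : ℝ → ℝ) {l : ℝ} (hl : 0 < l) (x : ℝ) :
    l * ba6h200_op T g (l * x) = ba6h200_op (fun u => l * T (l * u)) (fun z => l * g (l * z)) x := by
  unfold ba6h200_op
  have h := MeasureTheory.integral_comp_mul_left_Ioi (fun v => T (l * x - v) * g v) 0 hl
  rw [mul_zero, smul_eq_mul] at h
  have h' : ∫ v in Ioi (0 : ℝ), T (l * x - v) * g v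
      = l * ∫ z in Ioi (0 : ℝ), T (l * x - l * z) * g (l * z) := by
    rw [h, ← mul_assoc, mul_inv_cancel₀ hl.ne', one_mul]
  rw [h', ← mul_assoc, ← integral_const_mul]
  refine integral_congr_ae (Eventually.of_forall fun z => ?_)
  simp only
  rw [mul_sub]; ring

theorem c5xT_rescale {lam : ℝ} (h0 : 0 < lam) :
    c5xT (c5xP (ba230_g lam)) = fun u => lam * (- ba230_R lam (lam * u)) := by
  funext u
  have h := ba230_R_rescale h0 u
  have e : c5xP (ba230_g lam)
      = fun y => ba230_g lam * ba230_ker (ba230_g lam) (ba230_g lam * y) := rfl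
  unfold c5xT
  rw [e, ← h]; ring

theorem c5x_rho_scale {lam : ℝ} (h0 : 0 < lam) (y : ℝ) :
    lam * ba230_rho lam (lam * y) = ba230_rho 1 y := by
  unfold ba230_rho
  have : Real.pi * (lam * y) / lam = Real.pi * y / 1 := by field_simp
  rw [this]
  field_simp

theorem c5x_eps_scale {lam : ℝ} (h0 : 0 < lam) (y : ℝ) :
    ba230_eps lam (lam * y) = ba230_eps 1 y := by
  unfold ba230_eps
  congr 1
  field_simp

/-- **the rescaled density** `ỹ(x) = λ r(λ(q + x))` solves the two-edge equation with the kernel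
`-(P_a * ρ₁)`, `a = πλ/(π-λ)`; mass and energy are those of `r` outside `[-λq, λq]`. -/
theorem c5x_rescale {lam : ℝ} (h0 : 0 < lam) (h1 : lam < 2 * Real.pi / 3) {q : ℝ} (hq : 0 ≤ q)
    {f : ℝ → ℝ} (hfc : Continuous f)
    (hf : ∀ u, f u + c1x150_op (ba230_ker (2 * lam)) (Icc (-(lam * q)) (lam * q)) f u
      = ba230_ker lam u) :
    IntegrableOn (fun x => lam * f (lam * q + lam * x)) (Ioi 0) ∧
    (∀ x, lam * f (lam * q + lam * x)
        + ba6h200_op (c5xT (c5xP (ba230_g lam))) (fun x => lam * f (lam * q + lam * x)) x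
        + ba6h200_op (c5xT (c5xP (ba230_g lam))) (fun x => lam * f (lam * q + lam * x))
            (-(2 * q) - x) = ba230_rho 1 (x + q)) ∧
    (∫ x in Ioi (0 : ℝ), lam * f (lam * q + lam * x) = ∫ u in Ioi (lam * q), f u) ∧
    (∫ x in Ioi (0 : ℝ), ba230_eps 1 (x + q) * (lam * f (lam * q + lam * x))
      = ∫ u in Ioi (lam * q), ba230_eps lam u * f u) := by
  have hQ : 0 ≤ lam * q := by positivity
  have hfi := ba230_sol_integrable h0 h1 hfc hf
  have scale : ∀ F : ℝ → ℝ, ∫ x in Ioi (0 : ℝ), lam * F (lam * q + lam * x)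
      = ∫ u in Ioi (lam * q), F u := by
    intro F
    have h := MeasureTheory.integral_comp_mul_left_Ioi (fun v => F (lam * q + v)) 0 h0
    rw [mul_zero, smul_eq_mul, ba6h200_shift_Ioi F (lam * q)] at h
    rw [integral_const_mul, h, ← mul_assoc, mul_inv_cancel₀ h0.ne', one_mul]
  refine ⟨?_, ?_, scale f, ?_⟩
  · exact (((hfi.comp_add_left (lam * q)).comp_mul_left' h0.ne').const_mul lam).integrableOn
  · intro x
    have hc := ba6h200_complement_to_half (R := ba230_R lam) ba230_R_even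
      (ba230_sol_even h0 h1 hfc hf) (ba230_comp' h0 h1 hQ hfc hf) (lam * x)
    have s1 := c5x_op_scale (fun u => - ba230_R lam u) (fun t => f (lam * q + t)) h0 x
    have s2 := c5x_op_scale (fun u => - ba230_R lam u) (fun t => f (lam * q + t)) h0 (-(2 * q) - x)
    have e : lam * (-(2 * q) - x) = -(2 * (lam * q)) - lam * x := by ring
    rw [e] at s2
    rw [c5xT_rescale h0, ← s1, ← s2, ← c5x_rho_scale h0 (x + q)]
    have e2 : lam * (x + q) = lam * x + lam * q := by ring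
    rw [e2, ← hc]
    ring
  · rw [← scale (fun u => ba230_eps lam u * f u)]
    refine integral_congr_ae (Eventually.of_forall fun x => ?_)
    simp only
    have e : lam * q + lam * x = lam * (x + q) := by ring
    rw [e, c5x_eps_scale h0]
    ring


/-! ## Part K : THE OUTPUT OF LEAF C5 (inputs `hD5 hE5 hD₂c hD₂r hD₂lim hratio` of `a4x10_hub_two`) -/

/-- the mass at `λ = 0` : `m₀(q) = ∫_0^∞ y_q`, `y_q` the two-edge solution with the kernel `-(cau_{1/2} * ρ₁)`. -/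
noncomputable def c5xM0 (q : ℝ) : ℝ := ∫ x in Ioi (0 : ℝ), c5xY c5xP0_prof q x

/-- the filling at `λ = 0` (`c = 2`), in the rescaled Fermi point `q = Q / λ`. -/
noncomputable def c5xD2 (q : ℝ) : ℝ := 1 / 2 - c5xM0 q

/-- the energy defect at `λ = 0` (`c = 2`). -/
noncomputable def c5xE2 (q : ℝ) : ℝ :=
  2 * ∫ x in Ioi (0 : ℝ), ba230_eps 1 (x + q) * c5xY c5xP0_prof q x

theorem c5xM0_continuousOn : ContinuousOn c5xM0 (Ici 0) := by
  have hK := c5xT_ker c5xP0_prof
  obtain ⟨M, hM⟩ := hK.bdd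
  exact c5x_mass_continuousOn hK.int hM hK.lt_one (ba230_rho_integrable one_pos)
    (fun q _ => c5xY_int c5xP0_prof q) (fun q hq x _ => c5xY_eq c5xP0_prof hq x)

theorem c5xM0_pos {q : ℝ} (hq : 0 ≤ q) : 0 < c5xM0 q := by
  have h := c5x_mass_ge c5xP0_prof hq (c5xY_int c5xP0_prof q) (fun x _ => c5xY_eq c5xP0_prof hq x)
  have hpi := Real.pi_pos
  have : 0 < Real.exp (-(Real.pi / 1 * q)) / (2 * (Real.pi / 1)) := by positivity
  exact lt_of_lt_of_le this h

theorem c5xD2_continuousOn : ContinuousOn c5xD2 (Ioi 0) :=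
  (continuousOn_const.sub c5xM0_continuousOn).mono Ioi_subset_Ici_self

theorem c5xD2_lt {q : ℝ} (hq : 0 < q) : c5xD2 q < 1 / 2 := by
  have := c5xM0_pos hq.le
  unfold c5xD2; linarith

theorem c5xD2_tendsto : Tendsto c5xD2 atTop (𝓝 (1 / 2)) := by
  have h := (c5x_ratio c5xP0_prof (fun q => c5xY_int c5xP0_prof q)
    (fun q hq x _ => c5xY_eq c5xP0_prof hq x)).2
  have := (tendsto_const_nhds (x := (1 / 2 : ℝ))).sub h
  rw [sub_zero] at this
  exact this

/-- **the stiffness at `c = 2`** : `dE₂ / (1/2 - D₂)² → π = 2 arcsin (2/2)`. -/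
theorem c5x_ratio2 : Tendsto (fun q => c5xE2 q / (1 / 2 - c5xD2 q) ^ 2) atTop (𝓝 Real.pi) := by
  have h := (c5x_ratio c5xP0_prof (fun q => c5xY_int c5xP0_prof q)
    (fun q hq x _ => c5xY_eq c5xP0_prof hq x)).1
  rw [c5xP0_integral] at h
  have h2 := h.const_mul 2
  have e : 2 * (Real.pi * (1 - 1 / 2)) = Real.pi := by ring
  rw [e] at h2
  refine h2.congr fun q => ?_
  unfold c5xE2 c5xD2 c5xM0
  rw [sub_sub_cancel, mul_div_assoc]

theorem c5x_ratio2' : Tendsto (fun q => c5xE2 q / (1 / 2 - c5xD2 q) ^ 2) atTop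
    (𝓝 (2 * Real.arcsin (2 / 2))) := by
  have : 2 * Real.arcsin (2 / 2) = Real.pi := by
    rw [div_self two_ne_zero, Real.arcsin_one]; ring
  rw [this]; exact c5x_ratio2

theorem c5x_g_tendsto : Tendsto ba230_g (𝓝[>] 0) (𝓝[>] 0) := by
  have hpi := Real.pi_pos
  rw [tendsto_nhdsWithin_iff]
  constructor
  · have hc : ContinuousAt ba230_g 0 := by
      unfold ba230_g
      refine ContinuousAt.div (by fun_prop) (by fun_prop) (by simp [hpi.ne'])
    have h0 : ba230_g 0 = 0 := by unfold ba230_g; simp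
    have := hc.tendsto
    rw [h0] at this
    exact this.mono_left nhdsWithin_le_nhds
  · filter_upwards [Ioo_mem_nhdsGT (show (0 : ℝ) < 2 * Real.pi / 3 by positivity)] with lam hl
    exact ba230_g_pos hl.1 hl.2

theorem c5x_Z_tendsto : Tendsto (fun lam => 1 - ∫ u, ba230_R lam u) (𝓝[>] 0) (𝓝 (1 / 2)) := by
  have hpi := Real.pi_pos
  have hc : ContinuousAt (fun lam : ℝ => Real.pi / (2 * (Real.pi - lam))) 0 :=
    ContinuousAt.div (by fun_prop) (by fun_prop) (by simp [hpi.ne'])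
  have h0 : Real.pi / (2 * (Real.pi - 0)) = 1 / 2 := by rw [sub_zero]; field_simp
  have := hc.tendsto
  simp only [h0] at this
  refine (this.mono_left nhdsWithin_le_nhds).congr' ?_
  filter_upwards [Ioo_mem_nhdsGT (show (0 : ℝ) < 2 * Real.pi / 3 by positivity)] with lam hl
  exact (ba230_Z_eq hl.1 hl.2).symm

/-- **C5, for any family of continuous solutions of the truncated equations at `Q = λ q`.** -/
theorem c5x_limit {q : ℝ} (hq : 0 < q) {r : ℝ → ℝ → ℝ}
    (hc : ∀ lam, 0 < lam → lam < 2 * Real.pi / 3 → Continuous (r lam))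
    (heq : ∀ lam, 0 < lam → lam < 2 * Real.pi / 3 → ∀ u,
      r lam u + c1x150_op (ba230_ker (2 * lam)) (Icc (-(lam * q)) (lam * q)) (r lam) u
        = ba230_ker lam u) :
    Tendsto (fun lam => ∫ u in Icc (-(lam * q)) (lam * q), r lam u) (𝓝[>] 0) (𝓝 (c5xD2 q)) ∧
    Tendsto (fun lam => (∫ u, ba230_rho lam u * ba230_e0 lam u)
      - ∫ u in Icc (-(lam * q)) (lam * q), r lam u * ba230_e0 lam u) (𝓝[>] 0) (𝓝 (c5xE2 q)) := by
  have hpi := Real.pi_pos
  have hmem : Ioo (0 : ℝ) (2 * Real.pi / 3) ∈ 𝓝[>] (0 : ℝ) := Ioo_mem_nhdsGT (by positivity)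
  obtain ⟨-, hm, he⟩ := c5x_lim (l := 𝓝[>] (0 : ℝ)) (a := ba230_g) c5x_g_tendsto hq
    (y := fun lam x => lam * r lam (lam * q + lam * x)) (y0 := c5xY c5xP0_prof q)
    (by filter_upwards [hmem] with lam hl
        exact (c5x_rescale hl.1 hl.2 hq.le (hc lam hl.1 hl.2) (heq lam hl.1 hl.2)).1)
    (by filter_upwards [hmem] with lam hl x _
        exact (c5x_rescale hl.1 hl.2 hq.le (hc lam hl.1 hl.2) (heq lam hl.1 hl.2)).2.1 x)
    (c5xY_int c5xP0_prof q) (fun x _ => c5xY_eq c5xP0_prof hq.le x)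
  constructor
  · have h1 := ((c5x_Z_tendsto.const_mul 2).mul hm)
    have h2 := (tendsto_const_nhds (x := (1 / 2 : ℝ))).sub h1
    have e : 1 / 2 - 2 * (1 / 2) * ∫ x in Ioi (0 : ℝ), c5xY c5xP0_prof q x = c5xD2 q := by
      unfold c5xD2 c5xM0; ring
    rw [e] at h2
    refine h2.congr' ?_
    filter_upwards [hmem] with lam hl
    have hQ : 0 ≤ lam * q := mul_nonneg hl.1.le hq.le
    rw [(c5x_rescale hl.1 hl.2 hq.le (hc lam hl.1 hl.2) (heq lam hl.1 hl.2)).2.2.1,
      ← ba230_mass_id hl.1 hl.2 hQ (hc lam hl.1 hl.2) (heq lam hl.1 hl.2)]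
    ring
  · have h1 := he.const_mul 2
    refine h1.congr' ?_
    filter_upwards [hmem] with lam hl
    have hQ : 0 ≤ lam * q := mul_nonneg hl.1.le hq.le
    rw [(c5x_rescale hl.1 hl.2 hq.le (hc lam hl.1 hl.2) (heq lam hl.1 hl.2)).2.2.2,
      ← ba230_energy_id hl.1 hl.2 hQ (hc lam hl.1 hl.2) (heq lam hl.1 hl.2)]

/-- the canonical density of pen 150 for the concrete kernels. -/
theorem c5x_rQ_spec {lam : ℝ} (h0 : 0 < lam) (h1 : lam < 2 * Real.pi / 3) (Q : ℝ) :
    Continuous (c1x150_rQ (ba230_ker (2 * lam)) (ba230_ker lam) Q) ∧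
    ∀ u, c1x150_rQ (ba230_ker (2 * lam)) (ba230_ker lam) Q u
      + c1x150_op (ba230_ker (2 * lam)) (Icc (-Q) Q)
          (c1x150_rQ (ba230_ker (2 * lam)) (ba230_ker lam) Q) u = ba230_ker lam u := by
  have hpi := Real.pi_pos
  have hl : lam < Real.pi := by linarith
  obtain ⟨hn, hn1⟩ := ba230_K_norm h0 hl
  obtain ⟨bs, hbs⟩ := ba230_ker_bdd h0 (by linarith : lam < 2 * Real.pi)
  obtain ⟨hc, -, hs⟩ := c1x150_sol_spec
    (ba230_ker_integrable (a := 2 * lam) (by linarith) (by linarith))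
    hn.le hn1 (measurableSet_Icc (a := -Q) (b := Q)) (c1x150_frontier_Icc _ _)
    (ba230_ker_continuous h0 (by linarith : lam < 2 * Real.pi)) hbs
  exact ⟨hc, hs⟩

/-- `E(∞) = ∫ s ε = ∫ ρ e0`. -/
theorem c5x_Einf_eq {lam : ℝ} (h0 : 0 < lam) (h1 : lam < 2 * Real.pi / 3) :
    ∫ u, ba230_ker lam u * ba230_eps lam u = ∫ u, ba230_rho lam u * ba230_e0 lam u := by
  have hpi := Real.pi_pos
  have hK := ba230_ker_integrable (a := 2 * lam) (by linarith) (by linarith)
  have he : ∀ᵐ u, ba230_eps lam u + c1x150_op (ba230_ker (2 * lam)) univ (ba230_eps lam) u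
      = ba230_e0 lam u := by
    filter_upwards [ba230_ae_ne_zero] with u hu
    rw [ba230_op_univ_eq_conv]
    exact ba230_eps_solves h0 h1 hu
  have hrb : ∀ u, |ba230_rho lam u| ≤ 1 / (2 * lam) := by
    intro u
    rw [abs_of_pos (ba230_rho_pos h0 u)]
    unfold ba230_rho
    have := Real.one_le_cosh (Real.pi * u / lam)
    apply div_le_div_of_nonneg_left zero_le_one (by positivity)
    nlinarith
  exact c1x150_full_symm (s := ba230_ker lam) hK (ba230_ker_even _)
    (ba230_rho_continuous h0).measurable hrb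
    (fun u => by rw [ba230_op_univ_eq_conv]; exact ba230_rho_solves h0 (by linarith) u)
    (ba230_eps_integrable h0) he

/-- **C5 (Z2 of order B-4), filling** : `baDq λ (λ q) → D₂ q` as `λ → 0+`. -/
theorem c5x_Dq_tendsto {q : ℝ} (hq : 0 < q) :
    Tendsto (fun lam => c1x150_Dq (ba230_ker (2 * lam)) (ba230_ker lam) (lam * q)) (𝓝[>] 0)
      (𝓝 (c5xD2 q)) :=
  (c5x_limit hq (r := fun lam => c1x150_rQ (ba230_ker (2 * lam)) (ba230_ker lam) (lam * q))
    (fun _ h0 h1 => (c5x_rQ_spec h0 h1 _).1) (fun _ h0 h1 => (c5x_rQ_spec h0 h1 _).2)).1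

/-- **C5 (Z2 of order B-4), energy** : `baEinf λ - baEq λ (λ q) → dE₂ q` as `λ → 0+`. -/
theorem c5x_Eq_tendsto {q : ℝ} (hq : 0 < q) :
    Tendsto (fun lam => (∫ u, ba230_ker lam u * ba230_eps lam u)
      - c1x150_Eq (ba230_ker (2 * lam)) (ba230_ker lam) (ba230_e0 lam) (lam * q)) (𝓝[>] 0)
      (𝓝 (c5xE2 q)) := by
  have hpi := Real.pi_pos
  have h := (c5x_limit hq (r := fun lam => c1x150_rQ (ba230_ker (2 * lam)) (ba230_ker lam) (lam * q))
    (fun _ h0 h1 => (c5x_rQ_spec h0 h1 _).1) (fun _ h0 h1 => (c5x_rQ_spec h0 h1 _).2)).2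
  refine h.congr' ?_
  filter_upwards [Ioo_mem_nhdsGT (show (0 : ℝ) < 2 * Real.pi / 3 by positivity)] with lam hl
  rw [c5x_Einf_eq hl.1 hl.2]
  rfl

/-- `λ(c) = 2 arccos (c/2) → 0+` as `c ↑ 2`. -/
theorem c5x_lamOf_tendsto : Tendsto (fun c : ℝ => 2 * Real.arccos (c / 2)) (𝓝[<] 2) (𝓝[>] 0) := by
  rw [tendsto_nhdsWithin_iff]
  constructor
  · have hc : Continuous fun c : ℝ => 2 * Real.arccos (c / 2) := by
      have := Real.continuous_arccos
      fun_prop
    have h := hc.tendsto 2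
    simp only [div_self (two_ne_zero' ℝ), Real.arccos_one, mul_zero] at h
    exact h.mono_left nhdsWithin_le_nhds
  · filter_upwards [self_mem_nhdsWithin] with c hc
    have hc' : c < 2 := hc
    have : 0 < Real.arccos (c / 2) := Real.arccos_pos.2 (by linarith)
    show (0 : ℝ) < 2 * Real.arccos (c / 2)
    linarith

end Claimed.Agent.R292
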