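-- KEEP
import Claimed.Agent.R292.Bethe.B4x77

/-!
# Row 292, unit BETHE, leaf L6 (LOG): the log-singular observable on the UNFOLDED roots   (helper77; prefix `l6x77_`)

Roots `y 0 ≤ … ≤ y (n - 1)`, `n = 2 p`, symmetric; `ρ` continuous on the hull, `0 ≤ ρ ≤ Bρ` there, mass `h` on every gap
(`ρ = ba3x80_rho / N`, `h = 1 / N`).  `g` even, `|g x - g y| ≤ A (1 + 1/x) (y - x)` for `0 < x ≤ y`, `|g x| ≤ B / √x`
(`e0`: `A = 1`, `B = 2`, see `b4x77_e0_*`).  For EVERY `η > 0`: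

`|h ∑ g (y j) - ∫_hull g ρ| ≤ h A (1 + 1/η) (y_last - y_0) + h B / √η + 24 B Bρ √η`           (`l6x77_nat`, `l6x77_log`)

and if `|ρ - r| ≤ κ` on the hull, `|∫ g ρ - ∫ g r| ≤ 4 B κ √(y_last)`                           (`l6x77_dens`).
The separation `y (p + k) ≥ (k + 1/2) h / Bρ` is derived (`l6x77_sep`).  Over Mathlib + `B4x77` only; 0 sorry.
-/

set_option autoImplicit false
open MeasureTheory intervalIntegral Set Filter Topology

namespace Claimed.Agent.R292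

/-- integrability of `g ρ` on `[0, T]`, `ρ` continuous on `[0, T]` only -/
theorem l6x77_ig0 {A B T : ℝ} (hA : 0 ≤ A) {g ρ : ℝ → ℝ} (hT : 0 ≤ T)
    (hgL : ∀ x y, 0 < x → x ≤ y → |g x - g y| ≤ A * (1 + 1 / x) * (y - x))
    (hgB : ∀ x, 0 < x → |g x| ≤ B / √x) (hρ : ContinuousOn ρ (Icc 0 T)) :
    IntervalIntegrable (fun x => g x * ρ x) volume 0 T := by
  have hgc : ContinuousOn g (Ioi 0) := b4x77_contOn hA hgL
  obtain ⟨M, hM⟩ := isCompact_Icc.exists_bound_of_continuousOn (s := Icc 0 T) hρ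
  rw [intervalIntegrable_iff_integrableOn_Ioc_of_le hT]
  have ib : IntegrableOn (fun u : ℝ => B * M * u ^ (-(1 / 2) : ℝ)) (Ioc 0 T) volume := by
    rw [← intervalIntegrable_iff_integrableOn_Ioc_of_le hT]
    exact (intervalIntegral.intervalIntegrable_rpow' (by norm_num)).const_mul _
  refine Integrable.mono' ib ?_ ?_
  · exact ((hgc.mono Ioc_subset_Ioi_self).aestronglyMeasurable measurableSet_Ioc).mul
      ((hρ.mono Ioc_subset_Icc_self).aestronglyMeasurable measurableSet_Ioc)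
  · rw [ae_restrict_iff' measurableSet_Ioc]
    refine Filter.Eventually.of_forall (fun u hu => ?_)
    have hu' : u ∈ Icc 0 T := ⟨hu.1.le, hu.2⟩
    have h1 := hM u hu'
    rw [Real.norm_eq_abs] at h1
    rw [Real.norm_eq_abs, abs_mul, ← b4x77_inv_sqrt u hu.1]
    calc |g u| * |ρ u| ≤ (B / √u) * M :=
          mul_le_mul (hgB u hu.1) h1 (abs_nonneg _) ((abs_nonneg _).trans (hgB u hu.1))
      _ = B * M * (1 / √u) := by ring

theorem l6x77_neg_contOn {T : ℝ} {ρ : ℝ → ℝ} (hρ : ContinuousOn ρ (Icc (-T) T)) :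
    ContinuousOn (fun x => ρ (-x)) (Icc 0 T) := by
  apply hρ.comp continuous_neg.continuousOn
  intro x hx
  show -x ∈ Icc (-T) T
  exact ⟨by linarith [hx.2], by linarith [hx.1, hx.2]⟩

/-- the two halves of a symmetric interval -/
theorem l6x77_halves {A B T : ℝ} (hA : 0 ≤ A) {g ρ : ℝ → ℝ} (hT : 0 ≤ T)
    (hgE : ∀ x, g (-x) = g x)
    (hgL : ∀ x y, 0 < x → x ≤ y → |g x - g y| ≤ A * (1 + 1 / x) * (y - x))
    (hgB : ∀ x, 0 < x → |g x| ≤ B / √x) (hρ : ContinuousOn ρ (Icc (-T) T)) :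
    IntervalIntegrable (fun x => g x * ρ x) volume 0 T ∧
    IntervalIntegrable (fun x => g x * ρ (-x)) volume 0 T ∧
    IntervalIntegrable (fun x => g x * ρ x) volume (-T) 0 ∧
    ∫ x in (-T)..T, g x * ρ x
      = (∫ x in (0:ℝ)..T, g x * ρ (-x)) + ∫ x in (0:ℝ)..T, g x * ρ x := by
  have iR := l6x77_ig0 hA hT hgL hgB (hρ.mono (Icc_subset_Icc (by linarith) le_rfl))
  have iL := l6x77_ig0 hA hT hgL hgB (l6x77_neg_contOn hρ)
  have iL' : IntervalIntegrable (fun x => g x * ρ x) volume (-T) 0 := by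
    have h1 : IntervalIntegrable (fun x => g x * ρ x) volume 0 (-T) := by
      rw [IntervalIntegrable.iff_comp_neg]
      simp only [neg_zero, neg_neg, hgE]
      exact iL
    exact h1.symm
  refine ⟨iR, iL, iL', ?_⟩
  have eL : ∫ x in (0:ℝ)..T, g x * ρ (-x) = ∫ x in (-T)..0, g x * ρ x := by
    have := intervalIntegral.integral_comp_neg (a := 0) (b := T) (fun x => g x * ρ x)
    simp only [hgE, neg_zero] at this
    exact this
  rw [eL, intervalIntegral.integral_add_adjacent_intervals iL' iR]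

/-- an integrand `≤ M / √u`, vanishing beyond `η` -/
theorem l6x77_bInt {M η Q : ℝ} (hM : 0 ≤ M) (hη : 0 < η) (hQ : 0 ≤ Q) {F : ℝ → ℝ}
    (iF : IntervalIntegrable F volume 0 Q) (hF0 : ∀ u, η ≤ u → F u = 0)
    (hFb : ∀ u ∈ Ioc 0 Q, |F u| ≤ M / √u) :
    |∫ x in (0:ℝ)..Q, F x| ≤ 2 * M * √η := by
  set r := min η Q with hr
  have hr0 : 0 ≤ r := le_min hη.le hQ
  have hrQ : r ≤ Q := min_le_right _ _
  have hrη : r ≤ η := min_le_left _ _
  have i1 : IntervalIntegrable F volume 0 r :=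
    iF.mono_set (by rw [uIcc_of_le hr0, uIcc_of_le hQ]; exact Icc_subset_Icc le_rfl hrQ)
  have i2 : IntervalIntegrable F volume r Q :=
    iF.mono_set (by rw [uIcc_of_le hrQ, uIcc_of_le hQ]; exact Icc_subset_Icc hr0 le_rfl)
  have z2 : ∫ x in r..Q, F x = 0 := by
    apply intervalIntegral.integral_zero_ae
    refine Filter.Eventually.of_forall (fun x hx => ?_)
    rw [uIoc_of_le hrQ] at hx
    have : η ≤ x := by
      rcases le_total η Q with h | h
      · rw [hr, min_eq_left h] at hx; exact hx.1.le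
      · rw [hr, min_eq_right h] at hx; exact absurd hx.2 (not_le.mpr hx.1)
    exact hF0 x this
  rw [← intervalIntegral.integral_add_adjacent_intervals i1 i2, z2, add_zero]
  have := b4x77_small (M := M) (F := F) hr0 (fun u hu => hFb u ⟨hu.1, hu.2.trans hrQ⟩)
  calc _ ≤ 2 * M * √r := this
    _ ≤ 2 * M * √η := mul_le_mul_of_nonneg_left (Real.sqrt_le_sqrt hrη) (by positivity)

/-- mass of a gap against the sup of the density -/
theorem l6x77_gap_le {a b h Bρ : ℝ} {ρ : ℝ → ℝ} (hab : a ≤ b) (hρc : ContinuousOn ρ (Icc a b))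
    (hρB : ∀ x ∈ Icc a b, ρ x ≤ Bρ) (hgap : ∫ x in a..b, ρ x = h) : h ≤ Bρ * (b - a) := by
  have h1 : ∫ _x in a..b, Bρ = Bρ * (b - a) := by
    rw [intervalIntegral.integral_const, smul_eq_mul]; ring
  rw [← hgap, ← h1]
  exact intervalIntegral.integral_mono_on hab (hρc.intervalIntegrable_of_Icc hab)
    intervalIntegrable_const hρB

theorem l6x77_cell_sub {y : ℕ → ℝ} {n1 : ℕ} (hmono : ∀ j < n1, y j ≤ y (j + 1)) :
    ∀ j < n1, Icc (y j) (y (j + 1)) ⊆ Icc (y 0) (y n1) := by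
  intro j hj
  have hle := b4x77_le hmono
  exact Icc_subset_Icc (hle 0 j (Nat.zero_le _) hj.le) (hle (j + 1) n1 hj le_rfl)

/-- **Separation from `0`**, from the sup of the density alone. -/
theorem l6x77_sep {h Bρ : ℝ} {ρ : ℝ → ℝ} {y : ℕ → ℝ} (p : ℕ)
    (hmono : ∀ j < 2 * p - 1, y j ≤ y (j + 1))
    (hsymm : ∀ j < 2 * p, y (2 * p - 1 - j) = - y j)
    (hρc : ContinuousOn ρ (Icc (y 0) (y (2 * p - 1))))
    (hρB : ∀ x ∈ Icc (y 0) (y (2 * p - 1)), ρ x ≤ Bρ)
    (hgap : ∀ j < 2 * p - 1, ∫ x in y j..y (j + 1), ρ x = h) :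
    ∀ k < p, ((k:ℝ) + 1 / 2) * h ≤ Bρ * y (p + k) := by
  have hsub := l6x77_cell_sub hmono
  have cell : ∀ j < 2 * p - 1, h ≤ Bρ * (y (j + 1) - y j) := fun j hj =>
    l6x77_gap_le (hmono j hj) (hρc.mono (hsub j hj)) (fun x hx => hρB x (hsub j hj hx)) (hgap j hj)
  intro k
  induction k with
  | zero =>
    intro hp
    have h1 := cell (p - 1) (by omega)
    have e1 : p - 1 + 1 = p := by omega
    have e2 : y (p - 1) = - y p := by
      have := hsymm p (by omega)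
      have e3 : 2 * p - 1 - p = p - 1 := by omega
      rwa [e3] at this
    rw [e1, e2] at h1
    simp only [Nat.cast_zero, add_zero]
    linarith
  | succ k ih =>
    intro hk
    have h1 := cell (p + k) (by omega)
    have h2 := ih (by omega)
    have e1 : p + (k + 1) = p + k + 1 := by omega
    rw [e1]
    push_cast
    linarith

/-- **Leaf L6, `ℕ`-indexed.** -/
theorem l6x77_nat {h A B Bρ η : ℝ} {ρ g : ℝ → ℝ} {y : ℕ → ℝ} (p : ℕ) (hp : 0 < p)
    (hh : 0 < h) (hA : 0 ≤ A) (hB : 0 ≤ B) (hη : 0 < η)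
    (hmono : ∀ j < 2 * p - 1, y j ≤ y (j + 1))
    (hsymm : ∀ j < 2 * p, y (2 * p - 1 - j) = - y j)
    (hρc : ContinuousOn ρ (Icc (y 0) (y (2 * p - 1))))
    (hρ0 : ∀ x ∈ Icc (y 0) (y (2 * p - 1)), 0 ≤ ρ x)
    (hρB : ∀ x ∈ Icc (y 0) (y (2 * p - 1)), ρ x ≤ Bρ)
    (hgap : ∀ j < 2 * p - 1, ∫ x in y j..y (j + 1), ρ x = h)
    (hgE : ∀ x, g (-x) = g x)
    (hgL : ∀ x y, 0 < x → x ≤ y → |g x - g y| ≤ A * (1 + 1 / x) * (y - x))
    (hgB : ∀ x, 0 < x → |g x| ≤ B / √x) :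
    IntervalIntegrable (fun x => g x * ρ x) volume (y 0) (y (2 * p - 1)) ∧
    |h * ∑ j ∈ Finset.range (2 * p), g (y j) - ∫ x in y 0..y (2 * p - 1), g x * ρ x|
      ≤ h * (A * (1 + 1 / η)) * (y (2 * p - 1) - y 0) + h * B / √η + 24 * B * Bρ * √η := by
  set n1 := 2 * p - 1 with hn1
  have hn1' : 2 * p = n1 + 1 := by omega
  have hsub := l6x77_cell_sub hmono
  have hsepB := l6x77_sep p hmono hsymm hρc hρB hgap
  set T := y n1 with hT
  have hy0 : y 0 = - T := by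
    have := hsymm 0 (by omega)
    simp only [Nat.sub_zero] at this
    rw [hT, hn1, this, neg_neg]
  have hBρT : (1 / 2) * h ≤ Bρ * y p := by
    have := hsepB 0 hp
    simpa using this
  have hypT : y p ≤ T := b4x77_le hmono p n1 (by omega) le_rfl
  have hyp0 : - T ≤ y p := by rw [← hy0]; exact b4x77_le hmono 0 p (Nat.zero_le _) (by omega)
  have hT0 : 0 ≤ T := by linarith
  have h0mem : (0:ℝ) ∈ Icc (y 0) T := by rw [hy0]; exact ⟨by linarith, hT0⟩
  have hBρ0' : 0 ≤ Bρ := (hρ0 0 h0mem).trans (hρB 0 h0mem)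
  have hBρ0 : 0 < Bρ := by
    rcases hBρ0'.lt_or_eq with h1 | h1
    · exact h1
    · rw [← h1, zero_mul] at hBρT; linarith
  rw [hy0] at hρc hρ0 hρB ⊢
  have hL0 : 0 ≤ A * (1 + 1 / η) := by positivity
  -- the truncated function
  set gη : ℝ → ℝ := fun u => g (max |u| η) with hgη
  have hgηL : ∀ x y, |gη x - gη y| ≤ A * (1 + 1 / η) * |x - y| := by
    intro x y
    refine (b4x77_trunc_lip hA hη hgL |x| |y|).trans ?_
    exact mul_le_mul_of_nonneg_left (abs_abs_sub_abs_le_abs_sub x y) hL0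
  have hgηc : Continuous gη := b4x77_cont_of_lip hL0 hgηL
  obtain ⟨iη, bη⟩ := b4x77_lip (h := h) (δ := 0) (ρ := ρ) (g := gη) (b := y) (y := y) n1 hL0 hmono
    (fun j hj => (hρc.mono (by rw [← hy0]; exact hsub j hj)).intervalIntegrable_of_Icc (hmono j hj))
    (fun j hj x hx => hρ0 x (by rw [← hy0]; exact hsub j hj hx)) hgap hgηL
    (fun j hj => ⟨y j, left_mem_Icc.mpr (hmono j hj), by simp⟩)
  rw [hy0] at iη bη
  obtain ⟨iR, iL, iL', esplit⟩ := l6x77_halves hA hT0 hgE hgL hgB hρc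
  have ig : IntervalIntegrable (fun x => g x * ρ x) volume (-T) T := iL'.trans iR
  refine ⟨ig, ?_⟩
  -- the difference
  set D : ℝ → ℝ := fun u => g u - gη u with hD
  have hDE : ∀ u, D (-u) = D u := by
    intro u; simp only [hD, hgη, hgE, abs_neg]
  have hD0 : ∀ u, η ≤ u → D u = 0 := by
    intro u hu
    have hu0 : 0 ≤ u := hη.le.trans hu
    simp only [hD, hgη, abs_of_nonneg hu0, max_eq_left hu, sub_self]
  have hDb : ∀ u, 0 < u → u < η → |D u| ≤ 2 * B / √u := by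
    intro u hu huη
    have h1 : |D u| ≤ |g u| + |g η| := by
      simp only [hD, hgη, abs_of_pos hu, max_eq_right huη.le]; exact abs_sub _ _
    have h2 := hgB u hu
    have h3 := hgB η hη
    have h4 : B / √η ≤ B / √u :=
      div_le_div_of_nonneg_left hB (Real.sqrt_pos.mpr hu) (Real.sqrt_le_sqrt huη.le)
    calc |D u| ≤ B / √u + B / √u := by linarith
      _ = 2 * B / √u := by ring
  have hDb' : ∀ u, 0 < u → |D u| ≤ 2 * B / √u := by
    intro u hu
    rcases lt_or_ge u η with h1 | h1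
    · exact hDb u hu h1
    · rw [hD0 u h1, abs_zero]; positivity
  have iD : IntervalIntegrable (fun x => D x * ρ x) volume (-T) T := by
    refine (ig.sub iη).congr ?_
    intro x _
    simp only [hD]; ring
  have eInt : ∫ x in (-T)..T, g x * ρ x
      = (∫ x in (-T)..T, gη x * ρ x) + ∫ x in (-T)..T, D x * ρ x := by
    rw [← intervalIntegral.integral_add iη iD]
    apply intervalIntegral.integral_congr; intro x _; simp only [hD]; ring
  -- the integral of the difference: two halves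
  have hnT : -T ≤ 0 := by linarith
  have iDR : IntervalIntegrable (fun x => D x * ρ x) volume 0 T :=
    iD.mono_set (by rw [uIcc_of_le hT0, uIcc_of_le (by linarith : -T ≤ T)]
                    exact Icc_subset_Icc hnT le_rfl)
  have iDL : IntervalIntegrable (fun x => D x * ρ x) volume (-T) 0 :=
    iD.mono_set (by rw [uIcc_of_le hnT, uIcc_of_le (by linarith : -T ≤ T)]
                    exact Icc_subset_Icc le_rfl hT0)
  have iDL' : IntervalIntegrable (fun x => D x * ρ (-x)) volume 0 T := by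
    have h1 := iDL.symm
    rw [IntervalIntegrable.iff_comp_neg] at h1
    simp only [neg_zero, neg_neg, hDE] at h1
    exact h1
  have eDL : ∫ x in (0:ℝ)..T, D x * ρ (-x) = ∫ x in (-T)..0, D x * ρ x := by
    have := intervalIntegral.integral_comp_neg (a := 0) (b := T) (fun x => D x * ρ x)
    simp only [hDE, neg_zero] at this
    exact this
  have bR : |∫ x in (0:ℝ)..T, D x * ρ x| ≤ 2 * (2 * B * Bρ) * √η := by
    apply l6x77_bInt (by positivity) hη hT0 iDR (fun u hu => by rw [hD0 u hu, zero_mul])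
    intro u hu
    have hu' : u ∈ Icc (-T) T := ⟨by linarith [hu.1], hu.2⟩
    rw [abs_mul, abs_of_nonneg (hρ0 u hu')]
    calc |D u| * ρ u ≤ (2 * B / √u) * Bρ :=
          mul_le_mul (hDb' u hu.1) (hρB u hu') (hρ0 u hu') (by positivity)
      _ = 2 * B * Bρ / √u := by ring
  have bL : |∫ x in (0:ℝ)..T, D x * ρ (-x)| ≤ 2 * (2 * B * Bρ) * √η := by
    apply l6x77_bInt (by positivity) hη hT0 iDL' (fun u hu => by rw [hD0 u hu, zero_mul])
    intro u hu
    have hu' : -u ∈ Icc (-T) T := ⟨by linarith [hu.2], by linarith [hu.1]⟩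
    rw [abs_mul, abs_of_nonneg (hρ0 _ hu')]
    calc |D u| * ρ (-u) ≤ (2 * B / √u) * Bρ :=
          mul_le_mul (hDb' u hu.1) (hρB _ hu') (hρ0 _ hu') (by positivity)
      _ = 2 * B * Bρ / √u := by ring
  have bInt : |∫ x in (-T)..T, D x * ρ x| ≤ 8 * B * Bρ * √η := by
    rw [← intervalIntegral.integral_add_adjacent_intervals iDL iDR, ← eDL]
    have := abs_add_le (∫ x in (0:ℝ)..T, D x * ρ (-x)) (∫ x in (0:ℝ)..T, D x * ρ x)
    linarith
  -- the sum of the difference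
  have hc : 0 < 1 / Bρ := by positivity
  have hterm : ∀ k ∈ Finset.range p, |D (y (p + k))| ≤ 2 * B *
      (if 1 / Bρ * ((k:ℝ) + 1 / 2) * h < η then 1 / √(1 / Bρ * ((k:ℝ) + 1 / 2) * h) else 0) := by
    intro k hk
    have hk' : k < p := Finset.mem_range.mp hk
    have ht0 : 0 < 1 / Bρ * ((k:ℝ) + 1 / 2) * h := by positivity
    have hty : 1 / Bρ * ((k:ℝ) + 1 / 2) * h ≤ y (p + k) := by
      have := hsepB k hk'
      have e : 1 / Bρ * ((k:ℝ) + 1 / 2) * h = (((k:ℝ) + 1 / 2) * h) / Bρ := by ring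
      rw [e, div_le_iff₀ hBρ0]
      linarith
    rcases lt_or_ge (y (p + k)) η with hlt | hge
    · rw [if_pos (lt_of_le_of_lt hty hlt)]
      refine (hDb _ (lt_of_lt_of_le ht0 hty) hlt).trans ?_
      rw [mul_one_div]
      exact div_le_div_of_nonneg_left (by positivity) (Real.sqrt_pos.mpr ht0)
        (Real.sqrt_le_sqrt hty)
    · rw [hD0 _ hge, abs_zero]
      split_ifs <;> positivity
  have bHalf : h * ∑ k ∈ Finset.range p, |D (y (p + k))| ≤ 8 * B * Bρ * √η := by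
    calc h * ∑ k ∈ Finset.range p, |D (y (p + k))|
        ≤ h * ∑ k ∈ Finset.range p, 2 * B *
          (if 1 / Bρ * ((k:ℝ) + 1 / 2) * h < η then 1 / √(1 / Bρ * ((k:ℝ) + 1 / 2) * h) else 0) :=
          mul_le_mul_of_nonneg_left (Finset.sum_le_sum hterm) hh.le
      _ = 2 * B * (h * ∑ k ∈ Finset.range p,
          (if 1 / Bρ * ((k:ℝ) + 1 / 2) * h < η then 1 / √(1 / Bρ * ((k:ℝ) + 1 / 2) * h) else 0)) := by
          rw [← Finset.mul_sum]; ring
      _ ≤ 2 * B * (4 / (1 / Bρ) * √η) :=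
          mul_le_mul_of_nonneg_left (b4x77_tail_sum η hc hh p) (by positivity)
      _ = _ := by field_simp; ring
  have eRefl : ∀ k ∈ Finset.range p, |D (y (p - 1 - k))| = |D (y (p + k))| := by
    intro k hk
    have hk' : k < p := Finset.mem_range.mp hk
    have := hsymm (p + k) (by omega)
    have e3 : 2 * p - 1 - (p + k) = p - 1 - k := by omega
    rw [e3] at this
    rw [this, hDE]
  have bSum : |h * ∑ j ∈ Finset.range (2 * p), D (y j)| ≤ 16 * B * Bρ * √η := by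
    rw [abs_mul, abs_of_pos hh]
    calc h * |∑ j ∈ Finset.range (2 * p), D (y j)|
        ≤ h * ∑ j ∈ Finset.range (2 * p), |D (y j)| :=
          mul_le_mul_of_nonneg_left (Finset.abs_sum_le_sum_abs _ _) hh.le
      _ = h * (∑ k ∈ Finset.range p, |D (y (p + k))| + ∑ k ∈ Finset.range p, |D (y (p + k))|) := by
          rw [two_mul p, Finset.sum_range_add,
            ← Finset.sum_range_reflect (fun j => |D (y j)|) p, Finset.sum_congr rfl eRefl]
      _ ≤ _ := by linarith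
  -- the last point
  have bLast : |h * gη (y n1)| ≤ h * B / √η := by
    rw [abs_mul, abs_of_pos hh, mul_div_assoc]
    apply mul_le_mul_of_nonneg_left _ hh.le
    have hm : η ≤ max |y n1| η := le_max_right _ _
    refine (hgB _ (lt_of_lt_of_le hη hm)).trans ?_
    exact div_le_div_of_nonneg_left hB (Real.sqrt_pos.mpr hη) (Real.sqrt_le_sqrt hm)
  have eSum : ∑ j ∈ Finset.range (2 * p), g (y j)
      = (∑ j ∈ Finset.range n1, gη (y j) + gη (y n1)) + ∑ j ∈ Finset.range (2 * p), D (y j) := by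
    rw [← Finset.sum_range_succ (fun j => gη (y j)), ← hn1', ← Finset.sum_add_distrib]
    apply Finset.sum_congr rfl; intro j _; simp only [hD]; ring
  rw [eSum, eInt]
  set X1 := ∑ j ∈ Finset.range n1, gη (y j)
  set X2 := ∑ j ∈ Finset.range (2 * p), D (y j)
  set J1 := ∫ x in (-T)..T, gη x * ρ x
  set J2 := ∫ x in (-T)..T, D x * ρ x
  have e : h * (X1 + gη (y n1) + X2) - (J1 + J2)
      = (h * X1 - J1) + h * gη (y n1) + h * X2 - J2 := by ring
  rw [e]
  have t1 := abs_sub ((h * X1 - J1) + h * gη (y n1) + h * X2) J2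
  have t2 := abs_add_le ((h * X1 - J1) + h * gη (y n1)) (h * X2)
  have t3 := abs_add_le (h * X1 - J1) (h * gη (y n1))
  simp only [mul_zero, add_zero] at bη
  have e5 : T - -T = T - -T := rfl
  linarith

/-- Change of density: `|ρ - r| ≤ κ` on `[-T, T]`. -/
theorem l6x77_dens {A B κ T : ℝ} (hA : 0 ≤ A) (hT : 0 ≤ T) {g ρ r : ℝ → ℝ}
    (hgE : ∀ x, g (-x) = g x)
    (hgL : ∀ x y, 0 < x → x ≤ y → |g x - g y| ≤ A * (1 + 1 / x) * (y - x))
    (hgB : ∀ x, 0 < x → |g x| ≤ B / √x)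
    (hρc : ContinuousOn ρ (Icc (-T) T)) (hrc : ContinuousOn r (Icc (-T) T))
    (hκb : ∀ x ∈ Icc (-T) T, |ρ x - r x| ≤ κ) :
    IntervalIntegrable (fun x => g x * r x) volume (-T) T ∧
    |(∫ x in (-T)..T, g x * ρ x) - ∫ x in (-T)..T, g x * r x| ≤ 4 * B * κ * √T := by
  obtain ⟨a1, _, a3, _⟩ := l6x77_halves hA hT hgE hgL hgB hρc
  obtain ⟨b1, _, b3, _⟩ := l6x77_halves hA hT hgE hgL hgB hrc
  obtain ⟨_, _, _, c4⟩ := l6x77_halves (ρ := fun x => ρ x - r x) hA hT hgE hgL hgB (hρc.sub hrc)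
  refine ⟨b3.trans b1, ?_⟩
  have e : (∫ x in (-T)..T, g x * ρ x) - ∫ x in (-T)..T, g x * r x
      = ∫ x in (-T)..T, g x * (ρ x - r x) := by
    rw [← intervalIntegral.integral_sub (a3.trans a1) (b3.trans b1)]
    apply intervalIntegral.integral_congr; intro x _; simp only; ring
  rw [e, c4]
  have s1 := b4x77_small (M := B * κ) (F := fun x => g x * (ρ (-x) - r (-x))) hT (by
    intro u hu
    have hu' : -u ∈ Icc (-T) T := ⟨by linarith [hu.2], by linarith [hu.1, hu.2]⟩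
    rw [abs_mul]
    calc |g u| * |ρ (-u) - r (-u)| ≤ (B / √u) * κ :=
          mul_le_mul (hgB u hu.1) (hκb _ hu') (abs_nonneg _) ((abs_nonneg _).trans (hgB u hu.1))
      _ = B * κ / √u := by ring)
  have s2 := b4x77_small (M := B * κ) (F := fun x => g x * (ρ x - r x)) hT (by
    intro u hu
    have hu' : u ∈ Icc (-T) T := ⟨by linarith [hu.1, hu.2], hu.2⟩
    rw [abs_mul]
    calc |g u| * |ρ u - r u| ≤ (B / √u) * κ :=
          mul_le_mul (hgB u hu.1) (hκb _ hu') (abs_nonneg _) ((abs_nonneg _).trans (hgB u hu.1))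
      _ = B * κ / √u := by ring)
  have := abs_add_le (∫ x in (0:ℝ)..T, g x * (ρ (-x) - r (-x))) (∫ x in (0:ℝ)..T, g x * (ρ x - r x))
  linarith

/-- **Leaf L6 (LOG), unfolded shape, `Fin (m + 1)`** (beside `ba5q_cond_obs`). -/
theorem l6x77_log {m : ℕ} {h A B Bρ η : ℝ} {ρ g : ℝ → ℝ} (y : Fin (m + 1) → ℝ)
    (hm : Even (m + 1)) (hh : 0 < h) (hA : 0 ≤ A) (hB : 0 ≤ B) (hη : 0 < η)
    (hy : Monotone y) (hsymm : ∀ j, y (Fin.rev j) = - y j)
    (hρc : ContinuousOn ρ (Icc (y 0) (y (Fin.last m))))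
    (hρ0 : ∀ x ∈ Icc (y 0) (y (Fin.last m)), 0 ≤ ρ x)
    (hρB : ∀ x ∈ Icc (y 0) (y (Fin.last m)), ρ x ≤ Bρ)
    (hgap : ∀ k : Fin m, ∫ x in y k.castSucc..y k.succ, ρ x = h)
    (hgE : ∀ x, g (-x) = g x)
    (hgL : ∀ x y, 0 < x → x ≤ y → |g x - g y| ≤ A * (1 + 1 / x) * (y - x))
    (hgB : ∀ x, 0 < x → |g x| ≤ B / √x) :
    IntervalIntegrable (fun x => g x * ρ x) volume (y 0) (y (Fin.last m)) ∧
    |h * ∑ k, g (y k) - ∫ x in y 0..y (Fin.last m), g x * ρ x|
      ≤ h * (A * (1 + 1 / η)) * (y (Fin.last m) - y 0) + h * B / √η + 24 * B * Bρ * √η := by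
  obtain ⟨p, hp⟩ := hm
  have hm2 : 2 * p - 1 = m := by omega
  have hm3 : 2 * p = m + 1 := by omega
  set y' : ℕ → ℝ := fun j => y ⟨min j m, by omega⟩ with hy'
  have hy'c : ∀ (j : ℕ) (hj : j < m + 1), y' j = y ⟨j, hj⟩ := by
    intro j hj
    simp only [hy']
    congr 1
    apply Fin.ext
    simp only
    omega
  have e0 : y' 0 = y 0 := hy'c 0 (by omega)
  have el : y' m = y (Fin.last m) := hy'c m (by omega)
  have key := l6x77_nat (h := h) (A := A) (B := B) (Bρ := Bρ) (η := η) (ρ := ρ) (g := g) (y := y')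
    p (by omega) hh hA hB hη
    (by
      intro j hj
      rw [hy'c j (by omega), hy'c (j + 1) (by omega)]
      apply hy
      rw [Fin.mk_le_mk]; omega)
    (by
      intro j hj
      rw [hy'c j (by omega), hy'c (2 * p - 1 - j) (by omega), ← hsymm ⟨j, by omega⟩]
      congr 1
      apply Fin.ext
      rw [Fin.val_rev]
      simp only
      omega)
    (by rw [hm2, e0, el]; exact hρc) (by rw [hm2, e0, el]; exact hρ0)
    (by rw [hm2, e0, el]; exact hρB)
    (by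
      intro j hj
      have hj' : j < m := by omega
      rw [hy'c j (by omega), hy'c (j + 1) (by omega)]
      exact hgap ⟨j, hj'⟩)
    hgE hgL hgB
  rw [hm2, e0, el, hm3, ← Fin.sum_univ_eq_sum_range (fun j => g (y' j)) (m + 1)] at key
  have es : ∑ i : Fin (m + 1), g (y' i) = ∑ k, g (y k) := by
    apply Finset.sum_congr rfl
    intro i _
    rw [hy'c i i.isLt]
  rw [es] at key
  exact key

/-- **L6 + L5**: against any continuous `r` with `|ρ - r| ≤ κ` on the hull. -/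
theorem l6x77_log_dens {m : ℕ} {h A B Bρ η κ : ℝ} {ρ r g : ℝ → ℝ} (y : Fin (m + 1) → ℝ)
    (hm : Even (m + 1)) (hh : 0 < h) (hA : 0 ≤ A) (hB : 0 ≤ B) (hη : 0 < η)
    (hy : Monotone y) (hsymm : ∀ j, y (Fin.rev j) = - y j)
    (hρc : ContinuousOn ρ (Icc (y 0) (y (Fin.last m))))
    (hρ0 : ∀ x ∈ Icc (y 0) (y (Fin.last m)), 0 ≤ ρ x)
    (hρB : ∀ x ∈ Icc (y 0) (y (Fin.last m)), ρ x ≤ Bρ)
    (hgap : ∀ k : Fin m, ∫ x in y k.castSucc..y k.succ, ρ x = h)
    (hrc : ContinuousOn r (Icc (y 0) (y (Fin.last m))))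
    (hκb : ∀ x ∈ Icc (y 0) (y (Fin.last m)), |ρ x - r x| ≤ κ)
    (hgE : ∀ x, g (-x) = g x)
    (hgL : ∀ x y, 0 < x → x ≤ y → |g x - g y| ≤ A * (1 + 1 / x) * (y - x))
    (hgB : ∀ x, 0 < x → |g x| ≤ B / √x) :
    IntervalIntegrable (fun x => g x * r x) volume (y 0) (y (Fin.last m)) ∧
    |h * ∑ k, g (y k) - ∫ x in y 0..y (Fin.last m), g x * r x|
      ≤ h * (A * (1 + 1 / η)) * (2 * y (Fin.last m)) + h * B / √η + 24 * B * Bρ * √η
        + 4 * B * κ * √(y (Fin.last m)) := by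
  obtain ⟨_, b1⟩ := l6x77_log (η := η) y hm hh hA hB hη hy hsymm hρc hρ0 hρB hgap hgE hgL hgB
  have hy0 : y 0 = - y (Fin.last m) := by
    have := hsymm (Fin.last m)
    rw [Fin.rev_last] at this
    exact this
  have hT : 0 ≤ y (Fin.last m) := by
    have : y 0 ≤ y (Fin.last m) := hy (Fin.zero_le _)
    linarith
  rw [hy0] at hρc hrc hκb b1 ⊢
  obtain ⟨i2, b2⟩ := l6x77_dens hA hT hgE hgL hgB hρc hrc hκb
  refine ⟨i2, ?_⟩
  have := abs_sub_le (h * ∑ k, g (y k)) (∫ x in (-y (Fin.last m))..y (Fin.last m), g x * ρ x)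
    (∫ x in (-y (Fin.last m))..y (Fin.last m), g x * r x)
  have e : y (Fin.last m) - - y (Fin.last m) = 2 * y (Fin.last m) := by ring
  rw [e] at b1
  linarith

/-- **Uniform form**: all constants explicit, so one `h₀` for all configurations with the same
constants (`y_last ≤ Qm`, `ρ ≤ Bρ`, `|ρ - r| ≤ Cκ h`). -/
theorem l6x77_eps {A B Bρ Qm Cκ ε : ℝ} (hA : 0 ≤ A) (hB : 0 ≤ B) (hBρ : 0 ≤ Bρ) (hQm : 0 ≤ Qm)
    (hCκ : 0 ≤ Cκ) (hε : 0 < ε) :
    ∃ h₀ : ℝ, 0 < h₀ ∧ ∀ (h : ℝ), 0 < h → h ≤ h₀ → ∀ (m : ℕ) (y : Fin (m + 1) → ℝ) (ρ r g : ℝ → ℝ),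
      Even (m + 1) → Monotone y → (∀ j, y (Fin.rev j) = - y j) → y (Fin.last m) ≤ Qm →
      ContinuousOn ρ (Icc (y 0) (y (Fin.last m))) →
      (∀ x ∈ Icc (y 0) (y (Fin.last m)), 0 ≤ ρ x) →
      (∀ x ∈ Icc (y 0) (y (Fin.last m)), ρ x ≤ Bρ) →
      (∀ k : Fin m, ∫ x in y k.castSucc..y k.succ, ρ x = h) →
      ContinuousOn r (Icc (y 0) (y (Fin.last m))) →
      (∀ x ∈ Icc (y 0) (y (Fin.last m)), |ρ x - r x| ≤ Cκ * h) →
      (∀ x, g (-x) = g x) →
      (∀ x y, 0 < x → x ≤ y → |g x - g y| ≤ A * (1 + 1 / x) * (y - x)) →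
      (∀ x, 0 < x → |g x| ≤ B / √x) →
      |h * ∑ k, g (y k) - ∫ x in y 0..y (Fin.last m), g x * r x| ≤ ε := by
  set K2 := 24 * B * Bρ with hK2
  have hK20 : 0 ≤ K2 := by positivity
  set η := (ε / (2 * (K2 + 1))) ^ 2 with hη
  have hη0 : 0 < η := by positivity
  have hsη : √η = ε / (2 * (K2 + 1)) := by
    rw [hη]; exact Real.sqrt_sq (by positivity)
  have hK2η : K2 * √η ≤ ε / 2 := by
    rw [hsη]
    have : K2 * (ε / (2 * (K2 + 1))) = (ε / 2) * (K2 / (K2 + 1)) := by field_simp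
    rw [this]
    have h1 : K2 / (K2 + 1) ≤ 1 := by rw [div_le_one (by positivity)]; linarith
    nlinarith
  set K1 := A * (1 + 1 / η) * (2 * Qm) + B / √η + 4 * B * Cκ * √Qm with hK1
  have hK10 : 0 ≤ K1 := by positivity
  refine ⟨ε / (2 * (K1 + 1)), by positivity, ?_⟩
  intro h hh hh0 m y ρ r g hm hy hsymm hQ hρc hρ0 hρB hgap hrc hκb hgE hgL hgB
  obtain ⟨_, b⟩ := l6x77_log_dens (η := η) (κ := Cκ * h) y hm hh hA hB hη0 hy hsymm hρc hρ0 hρB hgap
    hrc hκb hgE hgL hgB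
  refine b.trans ?_
  have hT : 0 ≤ y (Fin.last m) := by
    have h1 : y 0 ≤ y (Fin.last m) := hy (Fin.zero_le _)
    have h2 := hsymm (Fin.last m)
    rw [Fin.rev_last] at h2
    linarith
  have hs : √(y (Fin.last m)) ≤ √Qm := Real.sqrt_le_sqrt hQ
  have t1 : h * (A * (1 + 1 / η)) * (2 * y (Fin.last m)) ≤ h * (A * (1 + 1 / η)) * (2 * Qm) :=
    mul_le_mul_of_nonneg_left (by linarith) (by positivity)
  have t2 : 4 * B * (Cκ * h) * √(y (Fin.last m)) ≤ 4 * B * (Cκ * h) * √Qm :=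
    mul_le_mul_of_nonneg_left hs (by positivity)
  have t3 : h * K1 ≤ ε / 2 := by
    have h1 : h * K1 ≤ ε / (2 * (K1 + 1)) * K1 := mul_le_mul_of_nonneg_right hh0 hK10
    have h2 : ε / (2 * (K1 + 1)) * K1 = (ε / 2) * (K1 / (K1 + 1)) := by field_simp
    have h3 : K1 / (K1 + 1) ≤ 1 := by rw [div_le_one (by positivity)]; linarith
    rw [h2] at h1
    nlinarith
  have e : h * K1 = h * (A * (1 + 1 / η)) * (2 * Qm) + h * B / √η + 4 * B * (Cκ * h) * √Qm := by
    rw [hK1]; ring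
  linarith

/-- dictionary: the `E a u` of `Four230` (`ba230_E`, `ba230_e0 lam = ba230_E (2 lam)`). -/
theorem l6x77_E_eq (a u : ℝ) :
    (1 / 2) * Real.log ((Real.cosh (2 * u) - Real.cos a) / (Real.cosh (2 * u) - 1))
      = b4x77_e0 (a / 2) u := by
  unfold b4x77_e0
  have : 2 * (a / 2) = a := by ring
  rw [this]; ring

end Claimed.Agent.R292
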