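import Mathlib

/-!
# Row 292 (S0540), Bethe/Tail89 : L7-TAIL (order B-5 of 116)      (helper89; prefix `tl89`)

Abstract, Mathlib only.  `D` strictly increasing and continuous on `[0,∞)`, `E` continuous on `(0,∞)`, `0 < Q1 ≤ Q2`.  Then for every `ε > 0` there is
`dl > 0` such that for all `Q ∈ [Q1,Q2]`, `Qh ≥ 0`:  `|D Qh - D Q| ≤ dl → |E Qh - E Q| ≤ ε`, and `Q1/2 ≤ Qh ≤ Q2+1`.
No Lipschitz constant: compactness only.  Consumer: `ba_t3` (`|n/N - baDq Qh| ≤ C/N`, `n = N baDq Q`).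
-/

set_option autoImplicit false

namespace Claimed.Agent.R292

open Set

/-- inverse modulus of continuity of an injective continuous function on a compact interval. -/
theorem tl89_inv_mod (D : ℝ → ℝ) (a b : ℝ) (hinj : InjOn D (Icc a b)) (hc : ContinuousOn D (Icc a b)) (η : ℝ) (hη : 0 < η) :
    ∃ dl : ℝ, 0 < dl ∧ ∀ x ∈ Icc a b, ∀ y ∈ Icc a b, |D x - D y| ≤ dl → |x - y| < η := by
  set S : Set (ℝ × ℝ) := (Icc a b ×ˢ Icc a b) ∩ {p | η ≤ |p.1 - p.2|} with hS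
  have hScomp : IsCompact S :=
    (isCompact_Icc.prod isCompact_Icc).inter_right (isClosed_le continuous_const (by fun_prop))
  have hf : ContinuousOn (fun p : ℝ × ℝ => |D p.1 - D p.2|) S := by
    have h1 : ContinuousOn (fun p : ℝ × ℝ => D p.1) S :=
      hc.comp continuous_fst.continuousOn fun p hp => hp.1.1
    have h2 : ContinuousOn (fun p : ℝ × ℝ => D p.2) S :=
      hc.comp continuous_snd.continuousOn fun p hp => hp.1.2
    exact (h1.sub h2).abs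
  rcases S.eq_empty_or_nonempty with hemp | hne
  · refine ⟨1, one_pos, fun x hx y hy _ => ?_⟩
    by_contra hcon
    have : (x, y) ∈ S := ⟨⟨hx, hy⟩, not_lt.1 hcon⟩
    rw [hemp] at this
    exact this
  · obtain ⟨p, hp, hmin⟩ := hScomp.exists_isMinOn hne hf
    have hpos : 0 < |D p.1 - D p.2| := by
      rw [abs_pos, sub_ne_zero]
      intro heq
      have h12 : p.1 = p.2 := hinj hp.1.1 hp.1.2 heq
      have h3 : η ≤ |p.1 - p.2| := hp.2
      rw [h12, sub_self, abs_zero] at h3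
      linarith
    refine ⟨|D p.1 - D p.2| / 2, by positivity, fun x hx y hy hxy => ?_⟩
    by_contra hcon
    have hmem : (x, y) ∈ S := ⟨⟨hx, hy⟩, not_lt.1 hcon⟩
    have h4 : |D p.1 - D p.2| ≤ |D x - D y| := hmin hmem
    linarith

/-- **L7-TAIL**. -/
theorem tl89_tail (D E : ℝ → ℝ) (hDm : StrictMonoOn D (Ici 0)) (hDc : ContinuousOn D (Ici 0))
    (hEc : ContinuousOn E (Ioi 0)) (Q1 Q2 : ℝ) (h1 : 0 < Q1) (h12 : Q1 ≤ Q2) (ε : ℝ) (hε : 0 < ε) :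
    ∃ dl : ℝ, 0 < dl ∧ ∀ Q ∈ Icc Q1 Q2, ∀ Qh : ℝ, 0 ≤ Qh → |D Qh - D Q| ≤ dl →
      |E Qh - E Q| ≤ ε ∧ Q1 / 2 ≤ Qh ∧ Qh ≤ Q2 + 1 := by
  have hsub0 : Icc (Q1 / 2) (Q2 + 1) ⊆ Ici (0 : ℝ) := fun x hx => by
    have := hx.1
    show (0 : ℝ) ≤ x
    linarith
  have hsub1 : Icc (Q1 / 2) (Q2 + 1) ⊆ Ioi (0 : ℝ) := fun x hx => by
    have := hx.1
    show (0 : ℝ) < x
    linarith
  -- uniform continuity of `E`
  have hEu : UniformContinuousOn E (Icc (Q1 / 2) (Q2 + 1)) :=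
    isCompact_Icc.uniformContinuousOn_of_continuous (hEc.mono hsub1)
  obtain ⟨η, hη, HE⟩ := Metric.uniformContinuousOn_iff.1 hEu ε hε
  obtain ⟨d1, hd1, HD⟩ := tl89_inv_mod D (Q1 / 2) (Q2 + 1) ((hDm.mono hsub0).injOn) (hDc.mono hsub0) η hη
  -- localisation
  have g1 : 0 < D Q1 - D (Q1 / 2) := sub_pos.2 (hDm (show (0 : ℝ) ≤ Q1 / 2 by linarith) (show (0 : ℝ) ≤ Q1 by linarith) (by linarith))
  have g2 : 0 < D (Q2 + 1) - D Q2 := sub_pos.2 (hDm (show (0 : ℝ) ≤ Q2 by linarith) (show (0 : ℝ) ≤ Q2 + 1 by linarith) (by linarith))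
  refine ⟨min d1 (min ((D Q1 - D (Q1 / 2)) / 2) ((D (Q2 + 1) - D Q2) / 2)), by positivity, ?_⟩
  intro Q hQ Qh hQh hd
  have e1 : |D Qh - D Q| ≤ d1 := hd.trans (min_le_left _ _)
  have e2 : |D Qh - D Q| ≤ (D Q1 - D (Q1 / 2)) / 2 := hd.trans ((min_le_right _ _).trans (min_le_left _ _))
  have e3 : |D Qh - D Q| ≤ (D (Q2 + 1) - D Q2) / 2 := hd.trans ((min_le_right _ _).trans (min_le_right _ _))
  have hQ0 : (0 : ℝ) ≤ Q := by linarith [hQ.1]
  have m1 : D Q1 ≤ D Q := hDm.monotoneOn (show (0 : ℝ) ≤ Q1 by linarith) hQ0 hQ.1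
  have m2 : D Q ≤ D Q2 := hDm.monotoneOn hQ0 (show (0 : ℝ) ≤ Q2 by linarith) hQ.2
  have lo : Q1 / 2 ≤ Qh := by
    by_contra hcon
    have : D Qh < D (Q1 / 2) := hDm hQh (show (0 : ℝ) ≤ Q1 / 2 by linarith) (not_le.1 hcon)
    have := (abs_le.1 e2).1
    linarith
  have hi : Qh ≤ Q2 + 1 := by
    by_contra hcon
    have : D (Q2 + 1) < D Qh := hDm (show (0 : ℝ) ≤ Q2 + 1 by linarith) hQh (not_le.1 hcon)
    have := (abs_le.1 e3).2
    linarith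
  have hQmem : Q ∈ Icc (Q1 / 2) (Q2 + 1) := ⟨by linarith [hQ.1], by linarith [hQ.2]⟩
  have hclose : |Qh - Q| < η := HD Qh ⟨lo, hi⟩ Q hQmem e1
  have := HE Qh ⟨lo, hi⟩ Q hQmem (by rwa [Real.dist_eq])
  rw [Real.dist_eq] at this
  exact ⟨this.le, lo, hi⟩

end Claimed.Agent.R292
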