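import Claimed.Agent.R292.Bethe.T1x150
import Claimed.Agent.R292.Bethe.Tail89
import Claimed.Agent.R292.Bethe.BA4Fin120
import Claimed.Agent.R292.Bethe.D2x259
import Claimed.Agent.R292.Bethe.L6x77
import Claimed.Agent.R292.Bethe.InstNeg130
import Claimed.Agent.R292.Bethe.Neg170

/-!
# Row 292 (S0540), unit BETHE, contract T3 = `ba_t3` of `Bethe/Thermo.lean` (ORDER B-6 of 116)      (helper259; prefix `t3x259_`, defs `T3x259*`)

CONDENSATION, EVEN SECTORS, UNIFORM ON COMPACTS OF THE FERMI POINT `Q`: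
`n = N Dq(Q)`, `n` even, `Q ∈ [Q₁,Q₂]`, `N ≥ N₀`   ⟹   `|baF (ba120c lam) N n / N - Eq(Q)| ≤ ε`.

The statement is on the UNFOLDED names (`c1x150_Dq (ba230_ker (2 lam)) (ba230_ker lam)` = `baDq lam`, ...), so that `Thermo.lean` can import this file.

CUT (shapes of 190's DEAL OF T3, 19:53Z; vocabulary of 80):
* `T3x259Conf lam N m y`   `y` is a zero of the Bethe map, strictly increasing, symmetric, `ρ ≥ 0` on the hull;
* `T3x259A lam`   (A) ROOTS + IDENTIFICATION: a configuration in a fixed box with `baF = log 2 + ∑ e0 (y j)`;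
* `T3x259B lam`   (B) CONDENSATION of any configuration in a box;
* (C) TAIL = `tl89_tail` (89), fed by T1 = `t1x150_main` (150, 202).
`t3x259_of_AB : T3x259A lam → T3x259B lam → (statement of ba_t3)`      PROVED.
-/

set_option autoImplicit false

namespace Claimed.Agent.R292

open Filter Topology MeasureTheory Set

/-- the filling, unfolded (`= baDq lam`) -/
noncomputable abbrev t3x259_Dq (lam : ℝ) : ℝ → ℝ := c1x150_Dq (ba230_ker (2 * lam)) (ba230_ker lam)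

/-- the free energy, unfolded (`= baEq lam`) -/
noncomputable abbrev t3x259_Eq (lam : ℝ) : ℝ → ℝ :=
  c1x150_Eq (ba230_ker (2 * lam)) (ba230_ker lam) (ba230_e0 lam)

/-- a Bethe configuration: zero of the logarithmic Bethe map at `lam`, strictly increasing, symmetric, with a nonnegative
counting density on its hull. -/
def T3x259Conf (lam : ℝ) (N m : ℕ) (y : Fin (m + 1) → ℝ) : Prop :=
  ba3x80_F (N : ℝ) ba3x80_S ba3x80_Th (ba3x80_I (m + 1)) (lam, y) = 0 ∧ StrictMono y ∧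
    (∀ j, y (Fin.rev j) = -y j) ∧
    ∀ u ∈ Icc (y 0) (y (Fin.last m)), 0 ≤ ba3x80_rho (N : ℝ) ba230_ker (fun t => ba230_ker (2 * t)) lam y u

/-- **(A) ROOTS + IDENTIFICATION.** -/
def T3x259A (lam : ℝ) : Prop :=
  ∀ Q₁ Q₂ : ℝ, 0 < Q₁ → Q₁ ≤ Q₂ → ∃ (Qm : ℝ) (N₀ : ℕ), ∀ N m : ℕ, N₀ ≤ N → Even (m + 1) →
    (∃ Q ∈ Icc Q₁ Q₂, ((m + 1 : ℕ) : ℝ) = N * t3x259_Dq lam Q) →
    ∃ y : Fin (m + 1) → ℝ, T3x259Conf lam N m y ∧ (∀ j, |y j| ≤ Qm) ∧
      baF (ba120c lam) N (m + 1) = Real.log 2 + ∑ j, ba230_e0 lam (y j)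

/-- **(B) CONDENSATION.** -/
def T3x259B (lam : ℝ) : Prop :=
  ∀ Qm ε : ℝ, 0 < ε → ∃ N₀ : ℕ, ∀ (N m : ℕ) (y : Fin (m + 1) → ℝ), N₀ ≤ N → m + 1 ≤ N → Even (m + 1) →
    T3x259Conf lam N m y → (∀ j, |y j| ≤ Qm) →
    |((m : ℝ) + 1) / N - t3x259_Dq lam (y (Fin.last m))| ≤ ε ∧
      |(1 / (N : ℝ)) * ∑ j, ba230_e0 lam (y j) - t3x259_Eq lam (y (Fin.last m))| ≤ ε

theorem t3x259_conf_last_nonneg {lam : ℝ} {N m : ℕ} {y : Fin (m + 1) → ℝ} (h : T3x259Conf lam N m y) :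
    0 ≤ y (Fin.last m) := by
  have h1 : y 0 ≤ y (Fin.last m) := h.2.1.monotone (Fin.zero_le _)
  have h2 := h.2.2.1 (Fin.last m)
  rw [Fin.rev_last] at h2
  linarith

theorem t3x259_log2_tendsto : Tendsto (fun N : ℕ => Real.log 2 / (N : ℝ)) atTop (𝓝 0) :=
  tendsto_const_div_atTop_nhds_zero_nat _

/-- **`ba_t3` FROM (A) AND (B).** -/
theorem t3x259_of_AB {lam : ℝ} (h0 : 0 < lam) (h1 : lam < 2 * Real.pi / 3) (hA : T3x259A lam)
    (hB : T3x259B lam) :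
    ∀ Q₁ Q₂ : ℝ, 0 < Q₁ → Q₁ ≤ Q₂ → ∀ ε : ℝ, 0 < ε → ∃ N₀ : ℕ, ∀ N n : ℕ, N₀ ≤ N → Even n →
      ∀ Q ∈ Set.Icc Q₁ Q₂, (n : ℝ) = N * c1x150_Dq (ba230_ker (2 * lam)) (ba230_ker lam) Q →
        |baF (ba120c lam) N n / N - c1x150_Eq (ba230_ker (2 * lam)) (ba230_ker lam) (ba230_e0 lam) Q| ≤ ε := by
  intro Q₁ Q₂ hQ1 hQ12 ε hε
  obtain ⟨hDc, hD0, hEc, hDm, hDlt, -⟩ := t1x150_main h0 h1
  obtain ⟨dl, hdl, htail⟩ := tl89_tail (t3x259_Dq lam) (t3x259_Eq lam) hDm hDc hEc Q₁ Q₂ hQ1 hQ12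
    (ε / 3) (by positivity)
  obtain ⟨Qm, NA, hA'⟩ := hA Q₁ Q₂ hQ1 hQ12
  obtain ⟨NB, hB'⟩ := hB Qm (min dl (ε / 3)) (lt_min hdl (by positivity))
  obtain ⟨NL, hNL⟩ := eventually_atTop.1
    (t3x259_log2_tendsto.eventually (gt_mem_nhds (show (0 : ℝ) < ε / 3 by positivity)))
  refine ⟨max (max NA NB) (max NL 1), fun N n hN hn Q hQ hnQ => ?_⟩
  have hNA : NA ≤ N := le_trans (le_trans (le_max_left _ _) (le_max_left _ _)) hN
  have hNB : NB ≤ N := le_trans (le_trans (le_max_right _ _) (le_max_left _ _)) hN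
  have hNL' : NL ≤ N := le_trans (le_trans (le_max_left _ _) (le_max_right _ _)) hN
  have hN1 : 1 ≤ N := le_trans (le_trans (le_max_right _ _) (le_max_right _ _)) hN
  have hNr : (0 : ℝ) < N := by exact_mod_cast hN1
  have hQ0 : 0 < Q := lt_of_lt_of_le hQ1 hQ.1
  have hDpos : 0 < t3x259_Dq lam Q := by
    have := hDm (mem_Ici.2 le_rfl) (mem_Ici.2 hQ0.le) hQ0
    rwa [hD0] at this
  have hDlt' : t3x259_Dq lam Q < 1 / 2 := hDlt Q hQ0
  have hnpos : 0 < n := by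
    have : (0 : ℝ) < n := by rw [hnQ]; exact mul_pos hNr hDpos
    exact_mod_cast this
  obtain ⟨m, rfl⟩ : ∃ m, n = m + 1 := ⟨n - 1, by omega⟩
  have hmN : m + 1 ≤ N := by
    have : ((m + 1 : ℕ) : ℝ) ≤ N := by
      rw [hnQ]
      have : (N : ℝ) * t3x259_Dq lam Q ≤ N * 1 := mul_le_mul_of_nonneg_left (by linarith) hNr.le
      linarith
    exact_mod_cast this
  obtain ⟨y, hconf, hbox, hF⟩ := hA' N m hNA hn ⟨Q, hQ, hnQ⟩
  obtain ⟨b1, b2⟩ := hB' N m y hNB hmN hn hconf hbox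
  have hDQ : ((m : ℝ) + 1) / N = t3x259_Dq lam Q := by
    rw [div_eq_iff hNr.ne', mul_comm]
    have := hnQ
    push_cast at this
    exact this
  rw [hDQ] at b1
  have b1' : |t3x259_Dq lam (y (Fin.last m)) - t3x259_Dq lam Q| ≤ dl := by
    rw [abs_sub_comm]
    exact b1.trans (min_le_left _ _)
  obtain ⟨c1, -, -⟩ := htail Q hQ (y (Fin.last m)) (t3x259_conf_last_nonneg hconf) b1'
  have b2' := b2.trans (min_le_right _ _)
  have hl := hNL N hNL'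
  have hl0 : 0 ≤ Real.log 2 / (N : ℝ) := div_nonneg (Real.log_nonneg (by norm_num)) hNr.le
  have e : baF (ba120c lam) N (m + 1) / N - t3x259_Eq lam Q =
      Real.log 2 / N + ((1 / (N : ℝ)) * ∑ j, ba230_e0 lam (y j) - t3x259_Eq lam (y (Fin.last m))) +
        (t3x259_Eq lam (y (Fin.last m)) - t3x259_Eq lam Q) := by
    rw [hF]
    ring
  show |baF (ba120c lam) N (m + 1) / N - t3x259_Eq lam Q| ≤ ε
  rw [e]
  refine (abs_add_le _ _).trans ?_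
  refine (add_le_add (abs_add_le _ _) le_rfl).trans ?_
  rw [abs_of_nonneg hl0]
  linarith

/-! ## (A) for `lam ≤ π/2` (`c ≥ √2`, `K ≥ 0`): from `ba120_roots_pos` (120, over 80's `ba3x80_inst_pos`) -/

/-- **(A), repulsive side, CLOSED.** -/
theorem t3x259_A_pos {lam : ℝ} (h0 : 0 < lam) (h1 : lam ≤ Real.pi / 2) : T3x259A lam := by
  intro Q₁ Q₂ hQ1 hQ12
  have h1' : lam < 2 * Real.pi / 3 := by linarith [Real.pi_pos]
  obtain ⟨-, -, -, hDm, hDlt, -⟩ := t1x150_main h0 h1'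
  have hQ2 : 0 < Q₂ := lt_of_lt_of_le hQ1 hQ12
  obtain ⟨N₀, hN₀⟩ := ba120_roots_pos (D2 := t3x259_Dq lam Q₂) h0 h1 (hDlt Q₂ hQ2)
  refine ⟨Real.artanh (2 * t3x259_Dq lam Q₂), N₀, fun N m hN hev hQ => ?_⟩
  obtain ⟨Q, hQm, hmQ⟩ := hQ
  have hle : ((m + 1 : ℕ) : ℝ) ≤ t3x259_Dq lam Q₂ * N := by
    rw [hmQ, mul_comm]
    refine mul_le_mul_of_nonneg_right ?_ (Nat.cast_nonneg N)
    exact hDm.monotoneOn (mem_Ici.2 (hQ1.le.trans hQm.1)) (mem_Ici.2 hQ2.le) hQm.2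
  obtain ⟨y, a1, a2, a3, -, a5, a6, a7⟩ := hN₀ N m hN hle hev
  refine ⟨y, ⟨a1, a2, a6, fun u hu => (a5 u ?_).le⟩, a3, a7⟩
  have e1 := abs_le.1 (a3 0)
  have e2 := abs_le.1 (a3 (Fin.last m))
  rw [abs_le]
  constructor <;> linarith [hu.1, hu.2]

/-! ## (B) CONDENSATION, both signs: L5 (180: `ba5q_cond_dens`, `ba5q_cond_mass`) + L6 (77: `l6x77_eps`) + L1b (259) + `c1x150_rQ` (150) -/

theorem t3x259_e0_eq (lam : ℝ) : ba230_e0 lam = b4x77_e0 lam := by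
  funext u
  unfold ba230_e0 ba230_E b4x77_e0
  ring

theorem t3x259_Icc_interval (f : ℝ → ℝ) {a b : ℝ} (hab : a ≤ b) :
    ∫ u in Icc a b, f u = ∫ u in a..b, f u := by
  rw [intervalIntegral.integral_of_le hab, integral_Icc_eq_integral_Ioc]

/-- **(B), CLOSED.** -/
theorem t3x259_B {lam : ℝ} (h0 : 0 < lam) (h1 : lam < 2 * Real.pi / 3) : T3x259B lam := by
  intro Qm ε hε
  have hpi := Real.pi_pos
  have hlπ : lam < Real.pi := by linarith
  obtain ⟨C, H⟩ := ba230_Ker h0 h1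
  have hκ1 : |1 - 2 * lam / Real.pi| < 1 := H.h_lt
  obtain ⟨VK, -, HK⟩ := l1b259_ba5qKer_seg (a := lam) (b := lam) h0 hlπ lam ⟨le_rfl, le_rfl⟩
  obtain ⟨κ, hκdef⟩ : ∃ κ : ℝ, κ = |1 - 2 * lam / Real.pi| := ⟨_, rfl⟩
  obtain ⟨B, hBdef⟩ : ∃ B : ℝ, B = l1b259_C (2 * min lam (Real.pi - lam)) := ⟨_, rfl⟩
  rw [← hBdef] at HK
  rw [← hκdef] at hκ1 H
  have hB0 : 0 ≤ B := (abs_nonneg _).trans (HK.bd 0)
  have h1κ : 0 < 1 - κ := by linarith
  obtain ⟨Cκ, hCκ⟩ : ∃ Cκ : ℝ, Cκ = (2 * B + B) / (1 - κ) := ⟨_, rfl⟩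
  have hCκ0 : 0 ≤ Cκ := by rw [hCκ]; exact div_nonneg (by positivity) h1κ.le
  have hCr0 : 0 ≤ C / (1 - κ) := c1x150_bound_nonneg H
  obtain ⟨h₀, hh₀, hL6⟩ := l6x77_eps (A := 1) (B := 2) (Bρ := C / (1 - κ) + Cκ) (Qm := max Qm 0)
    (Cκ := Cκ) (ε := ε) zero_le_one zero_le_two (by positivity) (le_max_right _ _) hCκ0 hε
  have t1 : Tendsto (fun N : ℕ => (1 / (N : ℝ)) * (1 + Cκ * (2 * max Qm 0))) atTop (𝓝 0) := by
    have := (tendsto_one_div_atTop_nhds_zero_nat (𝕜 := ℝ)).mul_const (1 + Cκ * (2 * max Qm 0))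
    rwa [zero_mul] at this
  obtain ⟨N1, hN1⟩ := eventually_atTop.1 ((t1.eventually (gt_mem_nhds hε)).and
    ((tendsto_one_div_atTop_nhds_zero_nat (𝕜 := ℝ)).eventually (gt_mem_nhds hh₀)))
  refine ⟨max N1 1, fun N m y hN _ hev hconf hbox => ?_⟩
  obtain ⟨e1, e2⟩ := hN1 N (le_trans (le_max_left _ _) hN)
  have hN1' : 1 ≤ N := le_trans (le_max_right _ _) hN
  have hNr : (0 : ℝ) < N := by exact_mod_cast hN1'
  have hNr1 : (1 : ℝ) ≤ N := by exact_mod_cast hN1'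
  have hQh0 := t3x259_conf_last_nonneg hconf
  obtain ⟨hz, hmono, hsym, hpos⟩ := hconf
  obtain ⟨Qh, hQh⟩ : ∃ Qh : ℝ, Qh = y (Fin.last m) := ⟨_, rfl⟩
  have hy0 : y 0 = -Qh := by
    have := hsym (Fin.last m)
    rw [Fin.rev_last] at this
    rw [hQh]; exact this
  rw [← hQh] at hQh0
  have hle : -Qh ≤ Qh := by linarith
  have hQhm : Qh ≤ max Qm 0 := by
    rw [hQh]
    exact ((le_abs_self _).trans (hbox _)).trans (le_max_left _ _)
  obtain ⟨r, hr⟩ : ∃ r : ℝ → ℝ, r = c1x150_rQ (ba230_ker (2 * lam)) (ba230_ker lam) Qh := ⟨_, rfl⟩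
  have hrc : Continuous r := by rw [hr]; exact c1x150_rQ_continuous H Qh
  have hrb : ∀ u, |r u| ≤ C / (1 - κ) := fun u => by rw [hr]; exact c1x150_rQ_bdd H Qh u
  have heq : ∀ x ∈ Icc (y 0) (y (Fin.last m)),
      r x + ∫ t in y 0..y (Fin.last m), (fun t => ba230_ker (2 * t)) lam (x - t) * r t
        = ba230_ker lam x := by
    intro x _
    have := c1x150_rQ_eq H Qh x
    unfold c1x150_op at this
    rw [t3x259_Icc_interval _ hle, ← hr] at this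
    rw [hy0, ← hQh]
    exact this
  have hKκ : ∀ x ∈ Icc (y 0) (y (Fin.last m)),
      ∫ t in y 0..y (Fin.last m), |(fun t => ba230_ker (2 * t)) lam (x - t)| ≤ κ := by
    intro x _
    rw [hκdef, hy0, ← hQh]
    exact l1b259_row_mass (a := 2 * lam) (by linarith) (by linarith) _ _ x hle
  have hS := ba3x80_S_hasDerivAt (t := lam) h0 (by linarith)
  have hT := ba3x80_Th_hasDerivAt (t := lam) h0 hlπ
  have hsc : Continuous (ba230_ker lam) := ba230_ker_continuous h0 (by linarith)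
  have hdens := ba5q_cond_dens (N : ℝ) hNr ba3x80_S ba3x80_Th ba230_ker (fun t => ba230_ker (2 * t))
    (ba3x80_I (m + 1)) (fun k => ba3x80_I_succ k) lam hS hT hsc HK hκ1 y hmono.monotone hz hpos hKκ
    hrc.continuousOn heq
  have hmass := ba5q_cond_mass (N : ℝ) hNr ba3x80_S ba3x80_Th ba230_ker (fun t => ba230_ker (2 * t))
    (ba3x80_I (m + 1)) (fun k => ba3x80_I_succ k) lam hS hT hsc HK hκ1 y hmono.monotone hz hpos hKκ
    hrc.continuousOn heq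
  have hR := ba5q_roots_of_zero (N : ℝ) hNr ba3x80_S ba3x80_Th ba230_ker (fun t => ba230_ker (2 * t))
    (ba3x80_I (m + 1)) (fun k => ba3x80_I_succ k) lam hS hT hsc HK.cont y hmono.monotone hz hpos
  rw [← hCκ] at hdens hmass
  constructor
  · -- the filling
    have eD : t3x259_Dq lam (y (Fin.last m)) = ∫ x in y 0..y (Fin.last m), r x := by
      show c1x150_Dq (ba230_ker (2 * lam)) (ba230_ker lam) (y (Fin.last m)) = _
      unfold c1x150_Dq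
      rw [← hQh, t3x259_Icc_interval _ hle, ← hr, hy0]
    rw [eD]
    refine hmass.trans (le_trans ?_ e1.le)
    refine mul_le_mul_of_nonneg_left ?_ (by positivity)
    have : y (Fin.last m) - y 0 ≤ 2 * max Qm 0 := by rw [hy0, ← hQh]; linarith
    have := mul_le_mul_of_nonneg_left this hCκ0
    linarith
  · -- the energy
    have hρc : Continuous fun x => ba3x80_rho (N : ℝ) ba230_ker (fun t => ba230_ker (2 * t)) lam y x / N :=
      (ba3x80_rho_continuous (N : ℝ) ba230_ker (fun t => ba230_ker (2 * t)) lam hsc HK.cont y).div_const _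
    have hgap : ∀ k : Fin m, ∫ x in y k.castSucc..y k.succ,
        ba3x80_rho (N : ℝ) ba230_ker (fun t => ba230_ker (2 * t)) lam y x / N = 1 / (N : ℝ) := by
      intro k
      have := hR.gap k.1 k.2
      rw [ba5qExt_castSucc y k.1 k.2, ba5qExt_succ y k.1 k.2] at this
      rw [← this]
      refine intervalIntegral.integral_congr fun x _ => ?_
      exact (ba5qRho_ext' (N : ℝ) hNr ba230_ker (fun t => ba230_ker (2 * t)) lam y x).symm
    have hκb : ∀ x ∈ Icc (y 0) (y (Fin.last m)),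
        |ba3x80_rho (N : ℝ) ba230_ker (fun t => ba230_ker (2 * t)) lam y x / N - r x| ≤ Cκ * (1 / (N : ℝ)) := by
      intro x hx
      exact (hdens x hx).trans (le_of_eq (by ring))
    have hρB : ∀ x ∈ Icc (y 0) (y (Fin.last m)),
        ba3x80_rho (N : ℝ) ba230_ker (fun t => ba230_ker (2 * t)) lam y x / N ≤ C / (1 - κ) + Cκ := by
      intro x hx
      have a1 := (abs_le.1 (hκb x hx)).2
      have a2 := (abs_le.1 (hrb x)).2
      have a3 : Cκ * (1 / (N : ℝ)) ≤ Cκ * 1 :=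
        mul_le_mul_of_nonneg_left (by rw [div_le_one hNr]; exact hNr1) hCκ0
      linarith
    have hfin := hL6 (1 / (N : ℝ)) (by positivity) e2.le m y
      (fun x => ba3x80_rho (N : ℝ) ba230_ker (fun t => ba230_ker (2 * t)) lam y x / N) r (ba230_e0 lam)
      hev hmono.monotone hsym (by rw [← hQh]; exact hQhm) hρc.continuousOn
      (fun x hx => div_nonneg (hpos x hx) hNr.le) hρB hgap hrc.continuousOn hκb (ba230_e0_even lam)
      (fun x y hx hxy => by rw [t3x259_e0_eq]; exact b4x77_e0_lip lam x y hx hxy)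
      (fun x hx => by rw [t3x259_e0_eq]; exact b4x77_e0_bound lam x hx)
    have eE : t3x259_Eq lam (y (Fin.last m)) = ∫ x in y 0..y (Fin.last m), ba230_e0 lam x * r x := by
      show c1x150_Eq (ba230_ker (2 * lam)) (ba230_ker lam) (ba230_e0 lam) (y (Fin.last m)) = _
      unfold c1x150_Eq
      rw [← hQh, t3x259_Icc_interval _ hle, ← hr, hy0]
      refine intervalIntegral.integral_congr fun x _ => ?_
      exact mul_comm _ _
    rw [eE]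
    exact hfin

/-- **`ba_t3` from (A) alone.** -/
theorem t3x259_of_A {lam : ℝ} (h0 : 0 < lam) (h1 : lam < 2 * Real.pi / 3) (hA : T3x259A lam) :
    ∀ Q₁ Q₂ : ℝ, 0 < Q₁ → Q₁ ≤ Q₂ → ∀ ε : ℝ, 0 < ε → ∃ N₀ : ℕ, ∀ N n : ℕ, N₀ ≤ N → Even n →
      ∀ Q ∈ Set.Icc Q₁ Q₂, (n : ℝ) = N * c1x150_Dq (ba230_ker (2 * lam)) (ba230_ker lam) Q →
        |baF (ba120c lam) N n / N - c1x150_Eq (ba230_ker (2 * lam)) (ba230_ker lam) (ba230_e0 lam) Q| ≤ ε :=
  t3x259_of_AB h0 h1 hA (t3x259_B h0 h1)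

/-- **`ba_t3` for `lam ≤ π/2` (`√2 ≤ c < 2`), CLOSED.** -/
theorem t3x259_t3_pos {lam : ℝ} (h0 : 0 < lam) (h1 : lam ≤ Real.pi / 2) :
    ∀ Q₁ Q₂ : ℝ, 0 < Q₁ → Q₁ ≤ Q₂ → ∀ ε : ℝ, 0 < ε → ∃ N₀ : ℕ, ∀ N n : ℕ, N₀ ≤ N → Even n →
      ∀ Q ∈ Set.Icc Q₁ Q₂, (n : ℝ) = N * c1x150_Dq (ba230_ker (2 * lam)) (ba230_ker lam) Q →
        |baF (ba120c lam) N n / N - c1x150_Eq (ba230_ker (2 * lam)) (ba230_ker lam) (ba230_e0 lam) Q| ≤ ε :=
  t3x259_of_A h0 (by linarith [Real.pi_pos]) (t3x259_A_pos h0 h1)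

/-! ## (A) for `π/2 < lam < 2π/3` (`1 < c < √2`, `K ≤ 0`): `in130_inst_neg` (130) + `ba120_final` (120) + `neg170_hull_inst` (170) -/

/-- **(A), attractive side, CLOSED.** -/
theorem t3x259_A_neg {lam : ℝ} (h0 : Real.pi / 2 < lam) (h1 : lam < 2 * Real.pi / 3) : T3x259A lam := by
  intro Q₁ Q₂ hQ1 hQ12
  have hpi := Real.pi_pos
  have hl0 : 0 < lam := by linarith
  have hlπ : lam < Real.pi := by linarith
  obtain ⟨-, -, -, -, hDlt, -⟩ := t1x150_main hl0 h1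
  obtain ⟨N₀, hN₀⟩ := neg170_hull_inst (Q₁ := Q₁) (Q₂ := Q₂) h0.le h1 hQ1
  refine ⟨Q₂ + 1, max N₀ 1, fun N m hN hev hQ => ?_⟩
  obtain ⟨Q, hQm, hmQ⟩ := hQ
  have hN0 : N₀ ≤ N := le_trans (le_max_left _ _) hN
  have hN1 : 1 ≤ N := le_trans (le_max_right _ _) hN
  have hNr : (0 : ℝ) < N := by exact_mod_cast hN1
  have : NeZero N := ⟨by omega⟩
  have hQ0 : 0 < Q := lt_of_lt_of_le hQ1 hQm.1
  have h2 : 2 * (m + 1) ≤ N := by
    have : (2 : ℝ) * ((m + 1 : ℕ) : ℝ) ≤ N := by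
      rw [hmQ]
      have := mul_le_mul_of_nonneg_left (hDlt Q hQ0).le hNr.le
      linarith
    exact_mod_cast this
  obtain ⟨y, hy, hyc, hya⟩ := in130_inst_neg (N := N) (m := m) (b := lam) h0.le hlπ (by omega)
    (S := ba3x80_S) (Th := ba3x80_Th) (I := ba3x80_I (m + 1)) (fun _ _ => rfl) (fun _ _ => rfl)
    (fun _ => rfl)
  have hfin := ba120_final (N := N) (m := m) h2 hev (a := Real.pi / 2) (b := lam) h0
    ⟨le_rfl, h0.le⟩ (by positivity) hlπ (S := ba3x80_S) (Θ := ba3x80_Th) (I := ba3x80_I (m + 1))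
    (fun _ _ => rfl) (fun _ _ => rfl) (fun _ => rfl) hyc
    (fun t ht => hya t ⟨ht.1, ht.2.le⟩) (fun t ht => (hy t ht).1) (fun t ht => (hy t ht).2.1)
    (fun t ht => (hy t ht).2.2.2.2.2.1) lam ⟨h0.le, le_rfl⟩
  obtain ⟨a1, a2, -, a4, -, a6, -⟩ := hy lam ⟨h0.le, le_rfl⟩
  exact ⟨y lam, ⟨a1, a2, a6, fun u _ => (a4 u).le⟩, hN₀ N m hN0 Q hQm hmQ (y lam) a1, hfin⟩

/-- **(A), CLOSED on the whole range.** -/
theorem t3x259_A {lam : ℝ} (h0 : 0 < lam) (h1 : lam < 2 * Real.pi / 3) : T3x259A lam := by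
  rcases le_or_gt lam (Real.pi / 2) with h | h
  · exact t3x259_A_pos h0 h
  · exact t3x259_A_neg h h1

/-- **`ba_t3`, CLOSED** (statement of `Bethe/Thermo.lean` on the unfolded names `baDq lam = c1x150_Dq ..`, `baEq lam = c1x150_Eq ..`). -/
theorem t3x259_t3 (lam : ℝ) (h0 : 0 < lam) (h1 : lam < 2 * Real.pi / 3) :
    ∀ Q₁ Q₂ : ℝ, 0 < Q₁ → Q₁ ≤ Q₂ → ∀ ε : ℝ, 0 < ε → ∃ N₀ : ℕ, ∀ N n : ℕ, N₀ ≤ N → Even n →
      ∀ Q ∈ Set.Icc Q₁ Q₂, (n : ℝ) = N * c1x150_Dq (ba230_ker (2 * lam)) (ba230_ker lam) Q →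
        |baF (ba120c lam) N n / N - c1x150_Eq (ba230_ker (2 * lam)) (ba230_ker lam) (ba230_e0 lam) Q| ≤ ε :=
  t3x259_of_A h0 h1 (t3x259_A h0 h1)

end Claimed.Agent.R292
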