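-- KEEP
import Claimed.Agent.R292.Bethe.L6x77
import Claimed.Agent.R292.Bethe.D2x259
import Claimed.Agent.R292.Bethe.C1x150
import Claimed.Agent.R292.Bethe.BA3i80
import Claimed.Agent.R292.Bethe.T3x259

/-!
# Row 292, unit BETHE, T3, part (B) of 190's deal: condensation on the hull, both signs of `K`   (helper77; prefix `condb77_`)

For `0 < lam < 2π/3`, every `Qm`, `ε > 0`: for `N ≥ N₀ (lam, Qm, ε)` EVERY monotone symmetric zero `y : Fin (m + 1) → ℝ` of the
logarithmic Bethe map (`m + 1` even, `m + 1 ≤ N`), with counting density `≥ 0` on its hull and `|y j| ≤ Qm`, satisfies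
`|(m + 1) / N - Dq (y_last)| ≤ ε` and `|(1/N) ∑ e0 (y j) - Eq (y_last)| ≤ ε`        (`condb77_B`).
`S`, `Θ`, `I` are parameters (`S' = ba230_ker lam`, `Θ' = ba230_ker (2 lam)`, `I` consecutive): `ba3x80_S`, `ba3x80_Th`, `ba3x80_I` fit.
Inputs: `ba5q_cond_dens`, `ba5q_cond_mass` (180), `l1b259_*` (259), `c1x150_rQ_*` (150), `ba230_Ker` (230), `l6x77_eps` (77).
-/

set_option autoImplicit false
open MeasureTheory intervalIntegral Set Filter Topology

namespace Claimed.Agent.R292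

theorem condb77_Icc (f : ℝ → ℝ) {a b : ℝ} (hab : a ≤ b) :
    ∫ v in Icc a b, f v = ∫ v in a..b, f v := by
  rw [intervalIntegral.integral_of_le hab, integral_Icc_eq_integral_Ioc]

theorem condb77_e0_eq (lam : ℝ) : ba230_e0 lam = b4x77_e0 lam := by
  funext u
  unfold ba230_e0 ba230_E
  rw [l6x77_E_eq]
  congr 1
  ring

theorem condb77_rho_continuous {n : ℕ} (N : ℝ) (s K : ℝ → ℝ → ℝ) (μ : ℝ) (hs : Continuous (s μ))
    (hK : Continuous (K μ)) (y : Fin n → ℝ) : Continuous (ba3x80_rho N s K μ y) := by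
  unfold ba3x80_rho
  exact (continuous_const.mul hs).sub (continuous_finsetSum _ fun k _ =>
    hK.comp (continuous_id.sub continuous_const))

/-- **(B) of T3**, `S Θ I` as parameters. -/
theorem condb77_B {lam : ℝ} (h0 : 0 < lam) (h1 : lam < 2 * Real.pi / 3) (S Θ : ℝ → ℝ → ℝ)
    (hs : ∀ u, HasDerivAt (S lam) (ba230_ker lam u) u)
    (hK : ∀ u, HasDerivAt (Θ lam) (ba230_ker (2 * lam) u) u)
    (Qm ε : ℝ) (hε : 0 < ε) :
    ∃ N₀ : ℕ, ∀ (N m : ℕ) (I : Fin (m + 1) → ℝ) (y : Fin (m + 1) → ℝ), N₀ ≤ N → m + 1 ≤ N →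
      Even (m + 1) → (∀ k : Fin m, I k.succ = I k.castSucc + 1) →
      ba3x80_F (N : ℝ) S Θ I (lam, y) = 0 → Monotone y → (∀ j, y (Fin.rev j) = - y j) →
      (∀ u ∈ Icc (y 0) (y (Fin.last m)),
        0 ≤ ba3x80_rho (N : ℝ) ba230_ker (fun t => ba230_ker (2 * t)) lam y u) →
      (∀ j, |y j| ≤ Qm) →
      |((m : ℝ) + 1) / N - c1x150_Dq (ba230_ker (2 * lam)) (ba230_ker lam) (y (Fin.last m))| ≤ ε ∧
      |(1 / (N : ℝ)) * ∑ j, ba230_e0 lam (y j)
        - c1x150_Eq (ba230_ker (2 * lam)) (ba230_ker lam) (ba230_e0 lam) (y (Fin.last m))| ≤ ε := by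
  have hpi := Real.pi_pos
  have hl : lam < Real.pi := by linarith
  obtain ⟨Cs, H⟩ := ba230_Ker h0 h1
  set κ := |1 - 2 * lam / Real.pi| with hκ
  have hκ1 : κ < 1 := H.h_lt
  set a₀ := min (2 * lam) (2 * Real.pi - 2 * lam) with ha₀def
  have ha₀ : 0 < a₀ := lt_min (by linarith) (by linarith)
  obtain ⟨VK, _, HK⟩ := l1b259_ba5qKer_unif (a₀ := a₀) (a := 2 * lam) ha₀ (min_le_left _ _)
    (by have := min_le_right (2 * lam) (2 * Real.pi - 2 * lam); linarith)
  set K0 := l1b259_C a₀ with hK0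
  have hK00 : 0 ≤ K0 := (abs_nonneg _).trans (HK.bd 0)
  have hCs0 : 0 ≤ Cs := (abs_nonneg _).trans (H.s_bdd 0)
  set C1 := (2 * K0 + K0) / (1 - κ) with hC1
  have hC10 : 0 ≤ C1 := div_nonneg (by positivity) (by linarith)
  set Qm' := max Qm 0 with hQm'
  have hQm'0 : 0 ≤ Qm' := le_max_right _ _
  obtain ⟨h₀, hh₀, hL6⟩ := l6x77_eps (A := 1) (B := 2) (Bρ := Cs + K0) (Qm := Qm') (Cκ := C1)
    (ε := ε) zero_le_one (by norm_num) (by positivity) hQm'0 hC10 hε
  obtain ⟨N₀, hN₀⟩ := exists_nat_ge (1 + 1 / h₀ + (1 + C1 * (2 * Qm')) / ε)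
  refine ⟨N₀, ?_⟩
  intro N m I y hNN hmN hm hI hz hy hsymm hpos hQ
  have t1 : 0 ≤ 1 / h₀ := by positivity
  have t2 : 0 ≤ (1 + C1 * (2 * Qm')) / ε := by positivity
  have hNX : 1 + 1 / h₀ + (1 + C1 * (2 * Qm')) / ε ≤ (N : ℝ) := hN₀.trans (by exact_mod_cast hNN)
  have hN : (0 : ℝ) < N := by linarith
  set Qh := y (Fin.last m) with hQh
  have hy0 : y 0 = - Qh := by
    have := hsymm (Fin.last m)
    rw [Fin.rev_last] at this
    exact this
  have hle : y 0 ≤ Qh := hy (Fin.zero_le _)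
  have hQh0 : 0 ≤ Qh := by linarith
  have hnle : -Qh ≤ Qh := by linarith
  have hQhm : Qh ≤ Qm' := ((le_abs_self _).trans (hQ _)).trans (le_max_left _ _)
  have hsc : Continuous (ba230_ker lam) := H.s_cont
  set r := c1x150_rQ (ba230_ker (2 * lam)) (ba230_ker lam) Qh with hr
  have hrc : Continuous r := c1x150_rQ_continuous H Qh
  have heq : ∀ x ∈ Icc (y 0) (y (Fin.last m)),
      r x + ∫ t in y 0..y (Fin.last m), (fun t => ba230_ker (2 * t)) lam (x - t) * r t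
        = ba230_ker lam x := by
    intro x _
    have := c1x150_rQ_eq H Qh x
    unfold c1x150_op at this
    rw [condb77_Icc _ hnle] at this
    rw [hy0]
    exact this
  have hKκ : ∀ x ∈ Icc (y 0) (y (Fin.last m)),
      ∫ t in y 0..y (Fin.last m), |(fun t => ba230_ker (2 * t)) lam (x - t)| ≤ κ := by
    intro x _
    exact l1b259_row_mass (a := 2 * lam) (by linarith) (by linarith) (y 0) (y (Fin.last m)) x hle
  have dens := ba5q_cond_dens (N : ℝ) hN S Θ ba230_ker (fun t => ba230_ker (2 * t)) I hI lam hs hK hsc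
    HK hκ1 y hy hz hpos hKκ hrc.continuousOn heq
  have mass := ba5q_cond_mass (N : ℝ) hN S Θ ba230_ker (fun t => ba230_ker (2 * t)) I hI lam hs hK hsc
    HK hκ1 y hy hz hpos hKκ hrc.continuousOn heq
  have R := ba5q_roots_of_zero (N : ℝ) hN S Θ ba230_ker (fun t => ba230_ker (2 * t)) I hI lam hs hK hsc
    HK.cont y hy hz hpos
  constructor
  · -- the filling
    have eD : c1x150_Dq (ba230_ker (2 * lam)) (ba230_ker lam) Qh = ∫ x in y 0..y (Fin.last m), r x := by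
      unfold c1x150_Dq
      rw [condb77_Icc _ hnle, hy0]
    rw [eD]
    refine mass.trans ?_
    have b1 : (2 * K0 + K0) / (1 - κ) * (y (Fin.last m) - y 0) ≤ C1 * (2 * Qm') := by
      apply mul_le_mul_of_nonneg_left _ hC10
      rw [hy0]; linarith
    have b2 : (1 + C1 * (2 * Qm')) / ε ≤ N := by linarith
    rw [div_le_iff₀ hε] at b2
    rw [one_div, inv_mul_le_iff₀ hN]
    linarith
  · -- the energy
    have hh : (0 : ℝ) < 1 / N := by positivity
    have hhh : 1 / (N : ℝ) ≤ h₀ := by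
      have : 1 / h₀ ≤ N := by linarith
      rw [div_le_iff₀ hh₀] at this
      rw [div_le_iff₀ hN]
      linarith
    have hρc : Continuous (ba3x80_rho (N : ℝ) ba230_ker (fun t => ba230_ker (2 * t)) lam y) :=
      condb77_rho_continuous _ _ _ _ hsc HK.cont y
    have key := hL6 (1 / N) hh hhh m y
      (fun x => ba3x80_rho (N : ℝ) ba230_ker (fun t => ba230_ker (2 * t)) lam y x / N) r
      (b4x77_e0 lam) hm hy hsymm hQhm (hρc.div_const _).continuousOn
      (fun x hx => div_nonneg (hpos x hx) hN.le)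
      (by
        intro x _
        rw [div_le_iff₀ hN]
        unfold ba3x80_rho
        have b1 : (N : ℝ) * ba230_ker lam x ≤ N * Cs :=
          mul_le_mul_of_nonneg_left ((le_abs_self _).trans (H.s_bdd x)) hN.le
        have b2 : -(∑ k, (fun t => ba230_ker (2 * t)) lam (x - y k)) ≤ N * K0 := by
          calc -(∑ k, (fun t => ba230_ker (2 * t)) lam (x - y k))
              ≤ |∑ k, (fun t => ba230_ker (2 * t)) lam (x - y k)| := neg_le_abs _
            _ ≤ ∑ k : Fin (m + 1), |(fun t => ba230_ker (2 * t)) lam (x - y k)| :=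
                Finset.abs_sum_le_sum_abs _ _
            _ ≤ ∑ _k : Fin (m + 1), K0 := Finset.sum_le_sum fun k _ => HK.bd _
            _ = ((m + 1 : ℕ) : ℝ) * K0 := by
                rw [Finset.sum_const, Finset.card_univ, Fintype.card_fin, nsmul_eq_mul]
            _ ≤ N * K0 := mul_le_mul_of_nonneg_right (by exact_mod_cast hmN) hK00
        linarith)
      (by
        intro k
        have g := R.gap k k.isLt
        rw [ba5qExt_castSucc y k k.isLt, ba5qExt_succ y k k.isLt] at g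
        have e : ∀ x, ba5qRho (1 / (N : ℝ)) m (ba5qExt y) (ba230_ker lam)
            ((fun t => ba230_ker (2 * t)) lam) x
            = ba3x80_rho (N : ℝ) ba230_ker (fun t => ba230_ker (2 * t)) lam y x / N :=
          fun x => ba5qRho_ext' (N : ℝ) hN ba230_ker (fun t => ba230_ker (2 * t)) lam y x
        rw [← g]
        apply intervalIntegral.integral_congr
        intro x _
        exact (e x).symm)
      hrc.continuousOn
      (by
        intro x hx
        have := dens x hx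
        calc _ ≤ (2 * K0 + K0) / (1 - κ) / N := this
          _ = C1 * (1 / N) := by rw [hC1]; ring)
      (b4x77_e0_even lam) (b4x77_e0_lip lam) (b4x77_e0_bound lam)
    have eE : c1x150_Eq (ba230_ker (2 * lam)) (ba230_ker lam) (ba230_e0 lam) Qh
        = ∫ x in y 0..y (Fin.last m), b4x77_e0 lam x * r x := by
      unfold c1x150_Eq
      rw [condb77_Icc _ hnle, hy0, condb77_e0_eq]
      apply intervalIntegral.integral_congr
      intro x _
      simp only
      rw [mul_comm]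
    rw [eE, condb77_e0_eq]
    exact key

/-- **(B) of 190's deal of T3, VERBATIM** (80's names; `CONF` unbundled). -/
theorem condb77_B80 {lam : ℝ} (h0 : 0 < lam) (h1 : lam < 2 * Real.pi / 3) (Qm ε : ℝ) (hε : 0 < ε) :
    ∃ N₀ : ℕ, ∀ (N m : ℕ) (y : Fin (m + 1) → ℝ), N₀ ≤ N → m + 1 ≤ N → Even (m + 1) →
      ba3x80_F (N : ℝ) ba3x80_S ba3x80_Th (ba3x80_I (m + 1)) (lam, y) = 0 → StrictMono y →
      (∀ j, y (Fin.rev j) = - y j) →
      (∀ u ∈ Icc (y 0) (y (Fin.last m)),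
        0 ≤ ba3x80_rho (N : ℝ) ba230_ker (fun t => ba230_ker (2 * t)) lam y u) →
      (∀ j, |y j| ≤ Qm) →
      |((m : ℝ) + 1) / N - c1x150_Dq (ba230_ker (2 * lam)) (ba230_ker lam) (y (Fin.last m))| ≤ ε ∧
      |(1 / (N : ℝ)) * ∑ j, ba230_e0 lam (y j)
        - c1x150_Eq (ba230_ker (2 * lam)) (ba230_ker lam) (ba230_e0 lam) (y (Fin.last m))| ≤ ε := by
  have hpi := Real.pi_pos
  obtain ⟨N₀, hN₀⟩ := condb77_B h0 h1 ba3x80_S ba3x80_Th
    (ba3x80_S_hasDerivAt h0 (by linarith)) (ba3x80_Th_hasDerivAt h0 (by linarith)) Qm ε hε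
  refine ⟨N₀, fun N m y hN hmN hm hz hy hsymm hpos hQ => ?_⟩
  exact hN₀ N m (ba3x80_I (m + 1)) y hN hmN hm ba3x80_I_succ hz hy.monotone hsymm hpos hQ

/-- **(B) in 259's typed shape.** -/
theorem condb77_T3B {lam : ℝ} (h0 : 0 < lam) (h1 : lam < 2 * Real.pi / 3) : T3x259B lam := by
  intro Qm ε hε
  obtain ⟨N₀, h⟩ := condb77_B80 h0 h1 Qm ε hε
  exact ⟨N₀, fun N m y hN hmN hm hc hQ =>
    h N m y hN hmN hm hc.1 hc.2.1 hc.2.2.1 hc.2.2.2 hQ⟩

/-- **`ba_t3` from (A) alone.** -/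
theorem condb77_t3_of_A {lam : ℝ} (h0 : 0 < lam) (h1 : lam < 2 * Real.pi / 3) (hA : T3x259A lam) :
    ∀ Q₁ Q₂ : ℝ, 0 < Q₁ → Q₁ ≤ Q₂ → ∀ ε : ℝ, 0 < ε → ∃ N₀ : ℕ, ∀ N n : ℕ, N₀ ≤ N → Even n →
      ∀ Q ∈ Set.Icc Q₁ Q₂, (n : ℝ) = N * c1x150_Dq (ba230_ker (2 * lam)) (ba230_ker lam) Q →
        |baF (ba120c lam) N n / N
          - c1x150_Eq (ba230_ker (2 * lam)) (ba230_ker lam) (ba230_e0 lam) Q| ≤ ε :=
  t3x259_of_AB h0 h1 hA (condb77_T3B h0 h1)

/-- **`ba_t3` for `0 < lam ≤ π/2` (`√2 ≤ c < 2`): CLOSED.** -/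
theorem condb77_t3_pos {lam : ℝ} (h0 : 0 < lam) (h1 : lam ≤ Real.pi / 2) :
    ∀ Q₁ Q₂ : ℝ, 0 < Q₁ → Q₁ ≤ Q₂ → ∀ ε : ℝ, 0 < ε → ∃ N₀ : ℕ, ∀ N n : ℕ, N₀ ≤ N → Even n →
      ∀ Q ∈ Set.Icc Q₁ Q₂, (n : ℝ) = N * c1x150_Dq (ba230_ker (2 * lam)) (ba230_ker lam) Q →
        |baF (ba120c lam) N n / N
          - c1x150_Eq (ba230_ker (2 * lam)) (ba230_ker lam) (ba230_e0 lam) Q| ≤ ε :=
  condb77_t3_of_A h0 (by have := Real.pi_pos; linarith) (t3x259_A_pos h0 h1)

end Claimed.Agent.R292
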