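import Mathlib

/-!
# Row 292, unit BETHE, block B4 DISC, step (u5), ABSTRACT (helper170, prefix `u5x170_`)

Continuation of a nondegenerate, isolated-in-`C`, unique zero along a segment of parameters.

`G : ℝ × E → E`, `C` compact.  If for every parameter `l ∈ [a, b]`
* every zero of `G (l, ·)` in `C` is interior to `C`                                   (u2),
* `G` is `C^n` (`n ≠ 0`; `n = ω` allowed) there with invertible partial derivative       (u3),
* there is at most one zero in `C`                                                     (u4),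
and there is a zero in `C` at ONE parameter of the segment (the seed), then there is exactly one zero `Y l ∈ C` for EVERY `l ∈ [a, b]`,
`Y` is continuous on `[a, b]` and `C^n` at every interior point.
-/

set_option autoImplicit false

namespace Claimed.Agent.R292

open Set Filter Topology
open scoped ContDiff

variable {E : Type*} [NormedAddCommGroup E] [NormedSpace ℝ E] [CompleteSpace E]

/-- The hypotheses (u2) (u3) at the zeros in `C`. -/
def U5x170Reg (G : ℝ × E → E) (C : Set E) (I : Set ℝ) (n : ℕ∞ω) : Prop :=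
  ∀ l ∈ I, ∀ y ∈ C, G (l, y) = 0 → y ∈ interior C ∧ ContDiffAt ℝ n G (l, y) ∧
    (fderiv ℝ G (l, y) ∘L ContinuousLinearMap.inr ℝ ℝ E).IsInvertible

/-- local branch through a regular zero -/
theorem u5x170_local {G : ℝ × E → E} {C : Set E} {n : ℕ∞ω} (hn : n ≠ 0) {l : ℝ} {y : E}
    (h0 : G (l, y) = 0) (hy : y ∈ interior C) (hG : ContDiffAt ℝ n G (l, y))
    (hinv : (fderiv ℝ G (l, y) ∘L ContinuousLinearMap.inr ℝ ℝ E).IsInvertible) :
    ∃ ψ : ℝ → E, ContDiffAt ℝ n ψ l ∧ ψ l = y ∧ ∀ᶠ μ in 𝓝 l, ψ μ ∈ C ∧ G (μ, ψ μ) = 0 := by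
  refine ⟨hG.implicitFunction hn hinv, hG.contDiffAt_implicitFunction hn hinv,
    hG.implicitFunction_apply_self hn hinv, ?_⟩
  have h1 := hG.eventually_apply_implicitFunction hn hinv
  have h2 : ContinuousAt (hG.implicitFunction hn hinv) l :=
    (hG.contDiffAt_implicitFunction hn hinv).continuousAt
  have h3 : ∀ᶠ μ in 𝓝 l, hG.implicitFunction hn hinv μ ∈ interior C := by
    apply h2.eventually_mem
    rw [hG.implicitFunction_apply_self hn hinv]
    exact isOpen_interior.mem_nhds hy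
  filter_upwards [h1, h3] with μ a1 a2
  exact ⟨interior_subset a2, by rw [a1, h0]⟩

omit [NormedSpace ℝ E] [CompleteSpace E] in
theorem u5x170_closed {G : ℝ × E → E} {C : Set E} {a b : ℝ} (hC : IsCompact C)
    (hcont : ContinuousOn G (Icc a b ×ˢ C)) :
    IsClosed ({l | ∃ y ∈ C, G (l, y) = 0} ∩ Icc a b) := by
  have hZ : IsClosed (Icc a b ×ˢ C ∩ G ⁻¹' {0}) :=
    hcont.preimage_isClosed_of_isClosed (isClosed_Icc.prod hC.isClosed) isClosed_singleton
  have hZc : IsCompact (Icc a b ×ˢ C ∩ G ⁻¹' {0}) :=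
    (isCompact_Icc.prod hC).of_isClosed_subset hZ inter_subset_left
  have : {l | ∃ y ∈ C, G (l, y) = 0} ∩ Icc a b = Prod.fst '' (Icc a b ×ˢ C ∩ G ⁻¹' {0}) := by
    ext l
    constructor
    · rintro ⟨⟨y, hy, h0⟩, hl⟩
      exact ⟨(l, y), ⟨⟨hl, hy⟩, h0⟩, rfl⟩
    · rintro ⟨⟨l', y⟩, ⟨⟨hl, hy⟩, h0⟩, rfl⟩
      exact ⟨⟨y, hy, h0⟩, hl⟩
  rw [this]
  exact (hZc.image continuous_fst).isClosed

/-- existence on the whole segment, seed anywhere on the segment -/
theorem u5x170_exists {G : ℝ × E → E} {C : Set E} {a b : ℝ} {n : ℕ∞ω} (hn : n ≠ 0)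
    (hC : IsCompact C) (hcont : ContinuousOn G (Icc a b ×ˢ C)) (hreg : U5x170Reg G C (Icc a b) n)
    (hseed : ∃ l₀ ∈ Icc a b, ∃ y ∈ C, G (l₀, y) = 0) : ∀ l ∈ Icc a b, ∃ y ∈ C, G (l, y) = 0 := by
  obtain ⟨l₀, hl₀, hs⟩ := hseed
  have : PreconnectedSpace (Icc a b) := Subtype.preconnectedSpace isPreconnected_Icc
  set S : Set (Icc a b) := {l | ∃ y ∈ C, G ((l : ℝ), y) = 0} with hS
  have hcl : IsClosed S := by
    have : S = Subtype.val ⁻¹' ({l | ∃ y ∈ C, G (l, y) = 0} ∩ Icc a b) := by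
      ext l
      simp only [hS, Set.mem_ofPred_eq, mem_preimage, mem_inter_iff, l.2, and_true]
    rw [this]
    exact (u5x170_closed hC hcont).preimage continuous_subtype_val
  have hop : IsOpen S := by
    rw [isOpen_iff_mem_nhds]
    rintro l ⟨y, hy, h0⟩
    obtain ⟨h1, h2, h3⟩ := hreg l l.2 y hy h0
    obtain ⟨ψ, -, -, hψ⟩ := u5x170_local hn h0 h1 h2 h3
    have := (continuous_subtype_val.continuousAt (x := l)).eventually hψ
    filter_upwards [this] with μ hμ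
    exact ⟨ψ μ, hμ.1, hμ.2⟩
  have huniv : S = univ := IsClopen.eq_univ ⟨hcl, hop⟩ ⟨⟨l₀, hl₀⟩, hs⟩
  intro l hl
  have : (⟨l, hl⟩ : Icc a b) ∈ S := huniv ▸ mem_univ _
  exact this

/-- **(u5).**  Seed anywhere on the segment. -/
theorem u5x170_branch {G : ℝ × E → E} {C : Set E} {a b : ℝ} {n : ℕ∞ω} (hn : n ≠ 0)
    (hC : IsCompact C) (hcont : ContinuousOn G (Icc a b ×ˢ C)) (hreg : U5x170Reg G C (Icc a b) n)
    (huniq : ∀ l ∈ Icc a b, ∀ y ∈ C, ∀ y' ∈ C, G (l, y) = 0 → G (l, y') = 0 → y = y')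
    (hseed : ∃ l₀ ∈ Icc a b, ∃ y ∈ C, G (l₀, y) = 0) :
    ∃ Y : ℝ → E, (∀ l ∈ Icc a b, Y l ∈ C ∧ G (l, Y l) = 0) ∧ ContinuousOn Y (Icc a b) ∧
      ∀ l ∈ Ioo a b, ContDiffAt ℝ n Y l := by
  have hex := u5x170_exists hn hC hcont hreg hseed
  choose! Y hY using hex
  have key : ∀ l ∈ Icc a b, ∃ ψ : ℝ → E, ContDiffAt ℝ n ψ l ∧ Y =ᶠ[𝓝[Icc a b] l] ψ ∧ Y l = ψ l := by
    intro l hl
    obtain ⟨h1, h2, h3⟩ := hreg l hl (Y l) (hY l hl).1 (hY l hl).2
    obtain ⟨ψ, c1, c2, hψ⟩ := u5x170_local hn (hY l hl).2 h1 h2 h3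
    refine ⟨ψ, c1, ?_, c2.symm⟩
    filter_upwards [mem_nhdsWithin_of_mem_nhds hψ, self_mem_nhdsWithin] with μ hμ hμI
    exact huniq μ hμI _ (hY μ hμI).1 _ hμ.1 (hY μ hμI).2 hμ.2
  refine ⟨Y, hY, ?_, ?_⟩
  · intro l hl
    obtain ⟨ψ, c1, c2, c3⟩ := key l hl
    exact (c1.continuousAt.continuousWithinAt).congr_of_eventuallyEq c2 c3
  · intro l hl
    obtain ⟨ψ, c1, c2, -⟩ := key l (Ioo_subset_Icc_self hl)
    rw [nhdsWithin_eq_nhds.2 (Icc_mem_nhds hl.1 hl.2)] at c2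
    exact c1.congr_of_eventuallyEq c2

/-! ## The set moves with the parameter (Newton balls around moving centres) -/

/-- **(u5), moving sets.**  `u l` is THE zero of `G (l, ·)` in `Cs l` for every `l ∈ I`; near `(l, u l)` the moving set is a
neighbourhood; `G` is `C^n` there with invertible partial derivative.  Then `u` coincides near `l` (within `I`) with the implicit
function: it is continuous within `I`, and `C^n` at `l` if `I` is a neighbourhood of `l`. -/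
theorem u5x170_moving_local {G : ℝ × E → E} {Cs : ℝ → Set E} {I : Set ℝ} {n : ℕ∞ω} (hn : n ≠ 0)
    {u : ℝ → E} (hu : ∀ l ∈ I, u l ∈ Cs l ∧ G (l, u l) = 0)
    (huniq : ∀ l ∈ I, ∀ y ∈ Cs l, G (l, y) = 0 → y = u l)
    {l : ℝ} (hl : l ∈ I) (hnh : {p : ℝ × E | p.2 ∈ Cs p.1} ∈ 𝓝 (l, u l))
    (hG : ContDiffAt ℝ n G (l, u l))
    (hinv : (fderiv ℝ G (l, u l) ∘L ContinuousLinearMap.inr ℝ ℝ E).IsInvertible) :
    ∃ ψ : ℝ → E, ContDiffAt ℝ n ψ l ∧ u =ᶠ[𝓝[I] l] ψ ∧ u l = ψ l := by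
  refine ⟨hG.implicitFunction hn hinv, hG.contDiffAt_implicitFunction hn hinv, ?_,
    (hG.implicitFunction_apply_self hn hinv).symm⟩
  have h1 := hG.eventually_apply_implicitFunction hn hinv
  have h2 : ContinuousAt (hG.implicitFunction hn hinv) l :=
    (hG.contDiffAt_implicitFunction hn hinv).continuousAt
  have h3 : ContinuousAt (fun μ : ℝ => (μ, hG.implicitFunction hn hinv μ)) l :=
    continuousAt_id.prodMk h2
  have h4 : ∀ᶠ μ in 𝓝 l, (μ, hG.implicitFunction hn hinv μ) ∈ {p : ℝ × E | p.2 ∈ Cs p.1} := by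
    apply h3.eventually_mem
    simp only [hG.implicitFunction_apply_self hn hinv]
    exact hnh
  filter_upwards [mem_nhdsWithin_of_mem_nhds h1, mem_nhdsWithin_of_mem_nhds h4, self_mem_nhdsWithin]
    with μ a1 a2 a3
  exact (huniq μ a3 _ a2 (by rw [a1]; exact (hu l hl).2)).symm

/-- Moving sets: continuity on `I`, smoothness (analyticity for `n = ω`) at the interior points of `I`. -/
theorem u5x170_moving {G : ℝ × E → E} {Cs : ℝ → Set E} {I : Set ℝ} {n : ℕ∞ω} (hn : n ≠ 0)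
    {u : ℝ → E} (hu : ∀ l ∈ I, u l ∈ Cs l ∧ G (l, u l) = 0)
    (huniq : ∀ l ∈ I, ∀ y ∈ Cs l, G (l, y) = 0 → y = u l)
    (hnh : ∀ l ∈ I, {p : ℝ × E | p.2 ∈ Cs p.1} ∈ 𝓝 (l, u l))
    (hG : ∀ l ∈ I, ContDiffAt ℝ n G (l, u l))
    (hinv : ∀ l ∈ I, (fderiv ℝ G (l, u l) ∘L ContinuousLinearMap.inr ℝ ℝ E).IsInvertible) :
    ContinuousOn u I ∧ ∀ l, I ∈ 𝓝 l → ContDiffAt ℝ n u l := by
  constructor
  · intro l hl
    obtain ⟨ψ, c1, c2, c3⟩ := u5x170_moving_local hn hu huniq hl (hnh l hl) (hG l hl) (hinv l hl)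
    exact (c1.continuousAt.continuousWithinAt).congr_of_eventuallyEq c2 c3
  · intro l hI
    have hl : l ∈ I := mem_of_mem_nhds hI
    obtain ⟨ψ, c1, c2, -⟩ := u5x170_moving_local hn hu huniq hl (hnh l hl) (hG l hl) (hinv l hl)
    rw [nhdsWithin_eq_nhds.2 hI] at c2
    exact c1.congr_of_eventuallyEq c2

omit [NormedSpace ℝ E] [CompleteSpace E] in
/-- The neighbourhood condition for closed balls of fixed radius around centres that are continuous at `l`. -/
theorem u5x170_ball_nhds {y₀ : ℝ → E} {r : ℝ} {l : ℝ} {y : E} (hc : ContinuousAt y₀ l)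
    (hy : ‖y - y₀ l‖ < r) : {p : ℝ × E | p.2 ∈ Metric.closedBall (y₀ p.1) r} ∈ 𝓝 (l, y) := by
  have h1 : ContinuousAt (fun p : ℝ × E => ‖p.2 - y₀ p.1‖) (l, y) := by
    have : ContinuousAt (fun p : ℝ × E => y₀ p.1) (l, y) :=
      ContinuousAt.comp (f := Prod.fst) (g := y₀) hc continuousAt_fst
    exact (continuousAt_snd.sub this).norm
  filter_upwards [h1.eventually_lt continuousAt_const hy] with p hp
  simp only [Metric.mem_closedBall, dist_eq_norm]
  exact hp.le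

omit [NormedSpace ℝ E] [CompleteSpace E] in
/-- It is enough that the centres oscillate by less than the free margin: no continuity of the centres is needed. -/
theorem u5x170_ball_nhds' {y₀ : ℝ → E} {r ρ : ℝ} {l : ℝ} {y : E}
    (hosc : ∀ᶠ μ in 𝓝 l, ‖y₀ μ - y₀ l‖ ≤ ρ) (hy : ‖y - y₀ l‖ + ρ < r) :
    {p : ℝ × E | p.2 ∈ Metric.closedBall (y₀ p.1) r} ∈ 𝓝 (l, y) := by
  have h1 : ∀ᶠ p : ℝ × E in 𝓝 (l, y), ‖y₀ p.1 - y₀ l‖ ≤ ρ :=
    (continuousAt_fst (p := (l, y))).eventually hosc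
  have h2 : ∀ᶠ p : ℝ × E in 𝓝 (l, y), ‖p.2 - y‖ < r - (‖y - y₀ l‖ + ρ) := by
    have : ContinuousAt (fun p : ℝ × E => ‖p.2 - y‖) (l, y) := (continuousAt_snd.sub continuousAt_const).norm
    apply this.eventually_lt continuousAt_const
    simp only [sub_self, norm_zero]
    linarith
  filter_upwards [h1, h2] with p a1 a2
  simp only [Metric.mem_closedBall, dist_eq_norm]
  have : p.2 - y₀ p.1 = (p.2 - y) + (y - y₀ l) - (y₀ p.1 - y₀ l) := by abel
  calc ‖p.2 - y₀ p.1‖ = ‖(p.2 - y) + (y - y₀ l) - (y₀ p.1 - y₀ l)‖ := by rw [this]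
    _ ≤ ‖p.2 - y‖ + ‖y - y₀ l‖ + ‖y₀ p.1 - y₀ l‖ :=
        (norm_sub_le _ _).trans (add_le_add_left (norm_add_le _ _) _)
    _ ≤ r := by linarith

end Claimed.Agent.R292
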