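import Mathlib
import Claimed.Agent.R292.Bethe.U5x170

/-!
# Row 292, unit BETHE, block B4 DISC, step (u5) WITHOUT (u4)      (helper100, prefix `bc100_`)

Continuation of a regular zero along a segment of parameters, with NO global uniqueness.

`G : ℝ × E → E`, `C` compact.  If for every parameter `l ∈ [a, b]` every zero of `G (l, ·)` in `C` is interior to `C` (u2) and `G` is
`C^n` there with invertible partial derivative (u3)  [`U5x170Reg G C (Icc a b) n` of `U5x170.lean`], then through every zero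
`(l₀, y₀)`, `l₀ ∈ [a, b]`, `y₀ ∈ C`, there is a branch `Y` of zeros in `C` over the WHOLE segment, continuous on `[a, b]`, `C^n` on `(a, b)`
(`n = ω`: analytic).

Proof: the zero set is compact and every point has an implicit-function box, so there is a uniform step `δ`; finitely many glued steps.
-/

set_option autoImplicit false

namespace Claimed.Agent.R292

open Set Filter Topology
open scoped ContDiff

section glue

variable {E : Type*} [TopologicalSpace E]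

theorem bc100_glue {f g : ℝ → E} {p q r : ℝ} (hf : ContinuousOn f (Icc p q)) (hg : ContinuousOn g (Icc q r))
    (h : f q = g q) : ContinuousOn (fun t => if t ≤ q then f t else g t) (Icc p r) := by
  have h1 : ContinuousOn (fun t => if t ≤ q then f t else g t) (Icc p q) :=
    hf.congr (fun t ht => if_pos ht.2)
  have h2 : ContinuousOn (fun t => if t ≤ q then f t else g t) (Icc q r) := by
    refine hg.congr (fun t ht => ?_)
    rcases eq_or_lt_of_le ht.1 with e | e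
    · subst e
      simp only [le_refl, if_true]
      exact h
    · exact if_neg (not_le.2 e)
  have h3 := h1.union_of_isClosed h2 isClosed_Icc isClosed_Icc
  exact h3.mono (fun t ht => (le_total t q).elim (fun e => Or.inl ⟨ht.1, e⟩) (fun e => Or.inr ⟨e, ht.2⟩))

/-- a continuous selection of the relation `R` over `[p, q]` -/
def Bc100Good (R : ℝ → E → Prop) (p q : ℝ) (Y : ℝ → E) : Prop :=
  ContinuousOn Y (Icc p q) ∧ ∀ t ∈ Icc p q, R t (Y t)

/-- uniform local solvability with step `δ` over `[a, b]` -/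
def Bc100Step (R : ℝ → E → Prop) (a b δ : ℝ) : Prop :=
  ∀ μ ∈ Icc a b, ∀ w, R μ w → ∃ ψ : ℝ → E, ψ μ = w ∧ ContinuousOn ψ (Icc (μ - δ) (μ + δ)) ∧
    ∀ t ∈ Icc (μ - δ) (μ + δ), t ∈ Icc a b → R t (ψ t)

theorem bc100_ext_right {R : ℝ → E → Prop} {a b δ p q q' : ℝ} (hS : Bc100Step R a b δ) {Y : ℝ → E}
    (hY : Bc100Good R p q Y) (hap : a ≤ p) (hpq : p ≤ q) (hqq : q ≤ q') (hq' : q' ≤ q + δ) (hb : q' ≤ b) :
    ∃ Y', Bc100Good R p q' Y' ∧ ∀ t ∈ Icc p q, Y' t = Y t := by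
  obtain ⟨ψ, h1, h2, h3⟩ := hS q ⟨hap.trans hpq, hqq.trans hb⟩ (Y q) (hY.2 q ⟨hpq, le_rfl⟩)
  have hδ : 0 ≤ δ := by linarith
  refine ⟨fun t => if t ≤ q then Y t else ψ t, ⟨?_, ?_⟩, fun t ht => if_pos ht.2⟩
  · exact bc100_glue hY.1 (h2.mono (Icc_subset_Icc (by linarith) hq')) h1.symm
  · intro t ht
    by_cases e : t ≤ q
    · simp only [if_pos e]
      exact hY.2 t ⟨ht.1, e⟩
    · simp only [if_neg e]
      have e' := not_le.1 e
      exact h3 t ⟨by linarith, ht.2.trans hq'⟩ ⟨by linarith, ht.2.trans hb⟩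

theorem bc100_ext_left {R : ℝ → E → Prop} {a b δ p p' q : ℝ} (hS : Bc100Step R a b δ) {Y : ℝ → E}
    (hY : Bc100Good R p q Y) (hqb : q ≤ b) (hpq : p ≤ q) (hpp : p' ≤ p) (hp' : p - δ ≤ p') (ha : a ≤ p') :
    ∃ Y', Bc100Good R p' q Y' ∧ ∀ t ∈ Icc p q, Y' t = Y t := by
  obtain ⟨ψ, h1, h2, h3⟩ := hS p ⟨ha.trans hpp, hpq.trans hqb⟩ (Y p) (hY.2 p ⟨le_rfl, hpq⟩)
  have hδ : 0 ≤ δ := by linarith
  refine ⟨fun t => if t ≤ p then ψ t else Y t, ⟨?_, ?_⟩, fun t ht => ?_⟩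
  · exact bc100_glue (h2.mono (Icc_subset_Icc hp' (by linarith))) hY.1 h1
  · intro t ht
    by_cases e : t ≤ p
    · simp only [if_pos e]
      exact h3 t ⟨hp'.trans ht.1, by linarith⟩ ⟨ha.trans ht.1, by linarith⟩
    · simp only [if_neg e]
      exact hY.2 t ⟨(not_le.1 e).le, ht.2⟩
  · rcases eq_or_lt_of_le ht.1 with e | e
    · subst e
      simp only [le_refl, if_true]
      exact h1
    · exact if_neg (not_le.2 e)

/-- finitely many steps -/
theorem bc100_steps {R : ℝ → E → Prop} {a b δ l₀ : ℝ} (hδ : 0 < δ) (hS : Bc100Step R a b δ) (hl : l₀ ∈ Icc a b)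
    {y₀ : E} (h0 : R l₀ y₀) (k : ℕ) :
    ∃ Y, Bc100Good R (max (l₀ - k * δ) a) (min (l₀ + k * δ) b) Y ∧ Y l₀ = y₀ := by
  induction k with
  | zero =>
    refine ⟨fun _ => y₀, ⟨continuousOn_const, ?_⟩, rfl⟩
    intro t ht
    have h1 : max (l₀ - (0 : ℕ) * δ) a = l₀ := by simp [hl.1]
    have h2 : min (l₀ + (0 : ℕ) * δ) b = l₀ := by simp [hl.2]
    rw [h1, h2] at ht
    have : t = l₀ := le_antisymm ht.2 ht.1
    rw [this]
    exact h0
  | succ k ih =>
    obtain ⟨Y, hY, hY0⟩ := ih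
    have hk : (0 : ℝ) ≤ k * δ := by positivity
    have c1 : ((k + 1 : ℕ) : ℝ) * δ = k * δ + δ := by push_cast; ring
    have m1 : max (l₀ - k * δ) a ≤ l₀ := max_le (by linarith) hl.1
    have m2 : l₀ ≤ min (l₀ + k * δ) b := le_min (by linarith) hl.2
    obtain ⟨Y1, hY1, e1⟩ := bc100_ext_right (q' := min (l₀ + (k + 1 : ℕ) * δ) b) hS hY (le_max_right _ _)
      (m1.trans m2) (min_le_min_right _ (by rw [c1]; linarith))
      (by
        rw [c1]
        rcases le_total (l₀ + k * δ) b with h | h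
        · rw [min_eq_left h]
          exact (min_le_left _ _).trans (by linarith)
        · rw [min_eq_right h]
          exact (min_le_right _ _).trans (by linarith)) (min_le_right _ _)
    have m2' : l₀ ≤ min (l₀ + (k + 1 : ℕ) * δ) b := le_min (by rw [c1]; linarith) hl.2
    obtain ⟨Y2, hY2, e2⟩ := bc100_ext_left (p' := max (l₀ - (k + 1 : ℕ) * δ) a) hS hY1 (min_le_right _ _)
      (m1.trans m2') (max_le_max_right _ (by rw [c1]; linarith))
      (by
        rw [c1]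
        rcases le_total a (l₀ - k * δ) with h | h
        · rw [max_eq_left h]
          exact le_trans (by linarith) (le_max_left _ _)
        · rw [max_eq_right h]
          exact le_trans (by linarith) (le_max_right _ _)) (le_max_right _ _)
    refine ⟨Y2, hY2, ?_⟩
    rw [e2 l₀ ⟨m1, m2'⟩, e1 l₀ ⟨m1, m2⟩, hY0]

/-- a uniform step gives a continuous selection over the whole segment -/
theorem bc100_selection {R : ℝ → E → Prop} {a b δ l₀ : ℝ} (hδ : 0 < δ) (hS : Bc100Step R a b δ) (hl : l₀ ∈ Icc a b)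
    {y₀ : E} (h0 : R l₀ y₀) : ∃ Y, Bc100Good R a b Y ∧ Y l₀ = y₀ := by
  obtain ⟨k, hk⟩ := exists_nat_gt ((b - a) / δ)
  have hk' : b - a < k * δ := by rwa [div_lt_iff₀ hδ] at hk
  obtain ⟨Y, hY, hY0⟩ := bc100_steps hδ hS hl h0 k
  have h1 : max (l₀ - k * δ) a = a := max_eq_right (by linarith [hl.2])
  have h2 : min (l₀ + k * δ) b = b := min_eq_right (by linarith [hl.1])
  rw [h1, h2] at hY
  exact ⟨Y, hY, hY0⟩

end glue

section ift

variable {E : Type*} [NormedAddCommGroup E] [NormedSpace ℝ E] [CompleteSpace E]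

/-- the relation "zero of `G (l, ·)` in `C`" -/
def bc100R (G : ℝ × E → E) (C : Set E) (l : ℝ) (y : E) : Prop := y ∈ C ∧ G (l, y) = 0

/-- the property of a set of points: all zeros in it have a local branch of uniform length -/
def Bc100Unif (G : ℝ × E → E) (C : Set E) (a b : ℝ) (S : Set (ℝ × E)) : Prop :=
  ∃ δ : ℝ, 0 < δ ∧ ∀ q ∈ S, bc100R G C q.1 q.2 → ∃ ψ : ℝ → E, ψ q.1 = q.2 ∧
    ContinuousOn ψ (Icc (q.1 - δ) (q.1 + δ)) ∧ ∀ t ∈ Icc (q.1 - δ) (q.1 + δ), t ∈ Icc a b → bc100R G C t (ψ t)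

/-- the implicit-function box around a regular zero -/
theorem bc100_box {G : ℝ × E → E} {C : Set E} {a b : ℝ} {n : ℕ∞ω} (hn : n ≠ 0) {l : ℝ} {y : E}
    (h0 : G (l, y) = 0) (hy : y ∈ interior C) (hG : ContDiffAt ℝ n G (l, y))
    (hinv : (fderiv ℝ G (l, y) ∘L ContinuousLinearMap.inr ℝ ℝ E).IsInvertible) :
    ∃ U ∈ 𝓝 (l, y), Bc100Unif G C a b U := by
  set ψ := hG.implicitFunction hn hinv with hψ
  have c0 : ContDiffAt ℝ n ψ l := hG.contDiffAt_implicitFunction hn hinv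
  have s0 : ψ l = y := hG.implicitFunction_apply_self hn hinv
  have e1 : ∀ᶠ μ in 𝓝 l, G (μ, ψ μ) = G (l, y) := hG.eventually_apply_implicitFunction hn hinv
  have e2 : ∀ᶠ μ in 𝓝 l, ψ μ ∈ interior C := by
    apply c0.continuousAt.eventually_mem
    rw [s0]
    exact isOpen_interior.mem_nhds hy
  have e3 : ∀ᶠ μ in 𝓝 l, ContinuousAt ψ μ := by
    have c1 : ContDiffAt ℝ 1 ψ l := c0.of_le (ENat.one_le_iff_ne_zero_withTop.2 hn)
    filter_upwards [c1.eventually (by simp)] with μ hμ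
    exact hμ.continuousAt
  have e4 : ∀ᶠ v in 𝓝 (l, y), G v = G (l, y) ↔ ψ v.1 = v.2 :=
    hG.eventually_apply_eq_iff_implicitFunction hn hinv
  obtain ⟨ε, hε, hball⟩ := Metric.eventually_nhds_iff.1 (e1.and (e2.and e3))
  have e5 : ∀ᶠ v in 𝓝 (l, y), dist v.1 l < ε / 2 := by
    have : ContinuousAt (fun v : ℝ × E => dist v.1 l) (l, y) := (continuousAt_fst).dist continuousAt_const
    apply this.eventually_lt continuousAt_const
    simp only [dist_self]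
    positivity
  refine ⟨{v | (G v = G (l, y) ↔ ψ v.1 = v.2) ∧ dist v.1 l < ε / 2}, e4.and e5, ε / 2, by positivity, ?_⟩
  rintro ⟨μ, w⟩ ⟨hq1, hq2⟩ ⟨-, hz⟩
  simp only at hq1 hq2 hz ⊢
  have hin : ∀ t ∈ Icc (μ - ε / 2) (μ + ε / 2), dist t l < ε := by
    intro t ht
    have h1 : dist t μ ≤ ε / 2 := by
      rw [Real.dist_eq, abs_le]
      constructor <;> linarith [ht.1, ht.2]
    calc dist t l ≤ dist t μ + dist μ l := dist_triangle _ _ _
      _ < ε := by linarith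
  refine ⟨ψ, hq1.1 (by rw [hz, h0]), fun t ht => ((hball (hin t ht)).2.2).continuousWithinAt, fun t ht _ => ?_⟩
  obtain ⟨a1, a2, -⟩ := hball (hin t ht)
  exact ⟨interior_subset a2, by rw [a1, h0]⟩

/-- the uniform step -/
theorem bc100_step {G : ℝ × E → E} {C : Set E} {a b : ℝ} {n : ℕ∞ω} (hn : n ≠ 0)
    (hC : IsCompact C) (hcont : ContinuousOn G (Icc a b ×ˢ C)) (hreg : U5x170Reg G C (Icc a b) n) :
    ∃ δ : ℝ, 0 < δ ∧ Bc100Step (bc100R G C) a b δ := by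
  have hZ : IsClosed (Icc a b ×ˢ C ∩ G ⁻¹' {0}) :=
    hcont.preimage_isClosed_of_isClosed (isClosed_Icc.prod hC.isClosed) isClosed_singleton
  have hZc : IsCompact (Icc a b ×ˢ C ∩ G ⁻¹' {0}) :=
    (isCompact_Icc.prod hC).of_isClosed_subset hZ inter_subset_left
  have key : Bc100Unif G C a b (Icc a b ×ˢ C ∩ G ⁻¹' {0}) := by
    refine hZc.induction_on (p := Bc100Unif G C a b) ?_ ?_ ?_ ?_
    · exact ⟨1, one_pos, fun q hq => absurd hq (notMem_empty q)⟩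
    · rintro s t hst ⟨δ, hδ, h⟩
      exact ⟨δ, hδ, fun q hq => h q (hst hq)⟩
    · rintro s t ⟨δ₁, hδ₁, h₁⟩ ⟨δ₂, hδ₂, h₂⟩
      refine ⟨min δ₁ δ₂, lt_min hδ₁ hδ₂, ?_⟩
      rintro q (hq | hq) hR
      · obtain ⟨ψ, a1, a2, a3⟩ := h₁ q hq hR
        have hsub : Icc (q.1 - min δ₁ δ₂) (q.1 + min δ₁ δ₂) ⊆ Icc (q.1 - δ₁) (q.1 + δ₁) :=
          Icc_subset_Icc (by linarith [min_le_left δ₁ δ₂]) (by linarith [min_le_left δ₁ δ₂])
        exact ⟨ψ, a1, a2.mono hsub, fun t ht => a3 t (hsub ht)⟩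
      · obtain ⟨ψ, a1, a2, a3⟩ := h₂ q hq hR
        have hsub : Icc (q.1 - min δ₁ δ₂) (q.1 + min δ₁ δ₂) ⊆ Icc (q.1 - δ₂) (q.1 + δ₂) :=
          Icc_subset_Icc (by linarith [min_le_right δ₁ δ₂]) (by linarith [min_le_right δ₁ δ₂])
        exact ⟨ψ, a1, a2.mono hsub, fun t ht => a3 t (hsub ht)⟩
    · rintro ⟨l, y⟩ ⟨⟨hl, hy⟩, h0⟩
      obtain ⟨h1, h2, h3⟩ := hreg l hl y hy h0
      obtain ⟨U, hU, hp⟩ := bc100_box (a := a) (b := b) hn h0 h1 h2 h3
      exact ⟨U, mem_nhdsWithin_of_mem_nhds hU, hp⟩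
  obtain ⟨δ, hδ, h⟩ := key
  refine ⟨δ, hδ, fun μ hμ w hw => ?_⟩
  exact h (μ, w) ⟨⟨hμ, hw.1⟩, hw.2⟩ hw

/-- **(u5) without (u4).**  The branch of zeros through a given zero, over the whole segment; no global uniqueness. -/
theorem bc100_branch {G : ℝ × E → E} {C : Set E} {a b : ℝ} {n : ℕ∞ω} (hn : n ≠ 0)
    (hC : IsCompact C) (hcont : ContinuousOn G (Icc a b ×ˢ C)) (hreg : U5x170Reg G C (Icc a b) n)
    {l₀ : ℝ} (hl₀ : l₀ ∈ Icc a b) {y₀ : E} (hy₀ : y₀ ∈ C) (h0 : G (l₀, y₀) = 0) :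
    ∃ Y : ℝ → E, Y l₀ = y₀ ∧ (∀ l ∈ Icc a b, Y l ∈ C ∧ G (l, Y l) = 0) ∧ ContinuousOn Y (Icc a b) ∧
      ∀ l ∈ Ioo a b, ContDiffAt ℝ n Y l := by
  obtain ⟨δ, hδ, hS⟩ := bc100_step hn hC hcont hreg
  obtain ⟨Y, ⟨hYc, hYz⟩, hY0⟩ := bc100_selection hδ hS hl₀ (y₀ := y₀) ⟨hy₀, h0⟩
  refine ⟨Y, hY0, hYz, hYc, fun l hl => ?_⟩
  have hl' : l ∈ Icc a b := Ioo_subset_Icc_self hl
  have hnh : Icc a b ∈ 𝓝 l := Icc_mem_nhds hl.1 hl.2
  obtain ⟨h1, h2, h3⟩ := hreg l hl' (Y l) (hYz l hl').1 (hYz l hl').2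
  have e4 := h2.eventually_apply_eq_iff_implicitFunction hn h3
  have cY : ContinuousAt Y l := hYc.continuousAt hnh
  have cP : ContinuousAt (fun μ : ℝ => (μ, Y μ)) l := continuousAt_id.prodMk cY
  have e5 := cP.eventually e4
  have e6 : Y =ᶠ[𝓝 l] h2.implicitFunction hn h3 := by
    filter_upwards [e5, hnh] with μ a1 a2
    exact (a1.1 (by rw [(hYz μ a2).2, (hYz l hl').2])).symm
  exact (h2.contDiffAt_implicitFunction hn h3).congr_of_eventuallyEq e6

/-- the analytic form (`n = ω`), on the open segment -/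
theorem bc100_branch_analytic {G : ℝ × E → E} {C : Set E} {a b : ℝ}
    (hC : IsCompact C) (hcont : ContinuousOn G (Icc a b ×ˢ C)) (hreg : U5x170Reg G C (Icc a b) ω)
    {l₀ : ℝ} (hl₀ : l₀ ∈ Icc a b) {y₀ : E} (hy₀ : y₀ ∈ C) (h0 : G (l₀, y₀) = 0) :
    ∃ Y : ℝ → E, Y l₀ = y₀ ∧ (∀ l ∈ Icc a b, Y l ∈ C ∧ G (l, Y l) = 0) ∧ ContinuousOn Y (Icc a b) ∧
      AnalyticOnNhd ℝ Y (Ioo a b) := by
  obtain ⟨Y, h1, h2, h3, h4⟩ := bc100_branch (n := ω) (by simp) hC hcont hreg hl₀ hy₀ h0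
  exact ⟨Y, h1, h2, h3, fun l hl => (h4 l hl).analyticAt⟩

end ift

end Claimed.Agent.R292
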