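import Mathlib

/-!
# Row 292, unit BETHE, block B2 / B4 DISC, step (u5) WITHOUT (u4)      (helper249, prefix `c249_`, defs `c249*`, `C249*`)      0 sorry

**Uniqueness is NOT a hypothesis: it propagates from the seed.**

`G : ℝ × E → E`, `K ⊆ ℝ × E` COMPACT (the class; it may move with the parameter: `K = {(l, y) | y ∈ Cs l}`), segment `[a, b]`,
`Z = c249Z G K a b` = the zeros `(l, y) ∈ K`, `l ∈ [a, b]`.  If
* `G` is continuous on `K`,
* at every zero `p ∈ Z`: `K` is a neighbourhood of `p` relative to `[a, b] × E`   (u2: "a zero in the class is interior to the class", self-improving bounds),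
  `G` is `C^n` at `p` (`n ≠ 0`, `n = ω` allowed) and its partial derivative in `y` is invertible   (u3),
* at ONE parameter `l₀ ∈ [a, b]` (the seed: free fermions, `K = 0`, decoupled equations) there is exactly one zero,
then for EVERY `l ∈ [a, b]` there is exactly one zero `Y l`, `Y` is continuous on `[a, b]` and `C^n` (analytic) on `(a, b)`.

Proof: `Z` is compact, the projection `Z → [a, b]` is a local homeomorphism (implicit function + strict differentiability), so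
"there is a zero" and "there is at most one zero" are both open and closed in `[a, b]`.
* `c249_local_unique`   zeros with the same parameter near a regular zero coincide
* `c249_local_branch`   the implicit branch stays in `K`
* `c249_exists`, `c249_atMost`
* **`c249_branch`**
-/

set_option autoImplicit false

namespace Claimed.Agent.R292

open Set Filter Topology
open scoped ContDiff

variable {E : Type*} [NormedAddCommGroup E] [NormedSpace ℝ E] [CompleteSpace E]

/-- the zeros of `G` in the class `K` over the segment `[a, b]` -/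
def c249Z (G : ℝ × E → E) (K : Set (ℝ × E)) (a b : ℝ) : Set (ℝ × E) :=
  {p | p ∈ K ∧ p.1 ∈ Icc a b ∧ G p = 0}

/-- (u2) + (u3) at the zeros -/
def C249Reg (G : ℝ × E → E) (K : Set (ℝ × E)) (a b : ℝ) (n : ℕ∞ω) : Prop :=
  ∀ p ∈ c249Z G K a b, K ∈ 𝓝[Icc a b ×ˢ (univ : Set E)] p ∧ ContDiffAt ℝ n G p ∧
    (fderiv ℝ G p ∘L ContinuousLinearMap.inr ℝ ℝ E).IsInvertible

omit [CompleteSpace E] in
theorem c249_Z_compact {G : ℝ × E → E} {K : Set (ℝ × E)} {a b : ℝ} (hK : IsCompact K) (hcont : ContinuousOn G K) :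
    IsCompact (c249Z G K a b) := by
  have h1 : IsClosed (K ∩ G ⁻¹' {0}) := hcont.preimage_isClosed_of_isClosed hK.isClosed isClosed_singleton
  have h2 : IsClosed (Prod.fst ⁻¹' Icc a b : Set (ℝ × E)) := isClosed_Icc.preimage continuous_fst
  have e : c249Z G K a b = (K ∩ G ⁻¹' {0}) ∩ Prod.fst ⁻¹' Icc a b := by
    ext p
    simp only [c249Z, mem_setOf_eq, mem_inter_iff, mem_preimage, mem_singleton_iff]
    tauto
  rw [e]
  exact hK.of_isClosed_subset (h1.inter h2) (fun p hp => hp.1.1)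

omit [CompleteSpace E] in
/-- near a regular point two points with the same parameter and the same value coincide -/
theorem c249_local_unique {G : ℝ × E → E} {p : ℝ × E} {n : ℕ∞ω} (hn : n ≠ 0) (hG : ContDiffAt ℝ n G p)
    (hinv : (fderiv ℝ G p ∘L ContinuousLinearMap.inr ℝ ℝ E).IsInvertible) :
    ∃ O ∈ 𝓝 p, IsOpen O ∧ ∀ q ∈ O, ∀ q' ∈ O, q.1 = q'.1 → G q = G q' → q = q' := by
  obtain ⟨e, he⟩ := hinv
  have hs : HasStrictFDerivAt G (fderiv ℝ G p) p := hG.hasStrictFDerivAt hn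
  set M : ℝ := ‖(e.symm : E →L[ℝ] E)‖ with hM
  have hM0 : 0 ≤ M := norm_nonneg _
  have hc : (0 : ℝ) < 1 / (M + 1) := by positivity
  have h1 := hs.isLittleO.def hc
  rw [nhds_prod_eq, Filter.eventually_iff, Filter.mem_prod_same_iff] at h1
  obtain ⟨t, ht, hsub⟩ := h1
  refine ⟨interior t, interior_mem_nhds.2 ht, isOpen_interior, fun q hq q' hq' h1 h2 => ?_⟩
  have h3 := hsub (mk_mem_prod (interior_subset hq) (interior_subset hq'))
  simp only [mem_setOf_eq] at h3
  set w : E := q.2 - q'.2 with hw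
  have e1 : q - q' = (0, w) := by
    ext
    · simp [h1]
    · simp [hw]
  have e2 : fderiv ℝ G p (q - q') = e w := by
    rw [e1]
    have : (e : E →L[ℝ] E) w = (fderiv ℝ G p ∘L ContinuousLinearMap.inr ℝ ℝ E) w := by rw [he]
    simpa using this.symm
  have e3 : ‖q - q'‖ = ‖w‖ := by
    rw [e1, Prod.norm_def]
    simp
  rw [h2, sub_self, zero_sub, norm_neg, e2, e3] at h3
  have h4 : ‖w‖ ≤ M * ‖e w‖ := by
    calc ‖w‖ = ‖(e.symm : E →L[ℝ] E) (e w)‖ := by simp
      _ ≤ M * ‖e w‖ := ContinuousLinearMap.le_opNorm _ _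
  have h5 : ‖w‖ ≤ M * (1 / (M + 1) * ‖w‖) := h4.trans (by gcongr)
  have h6 : ‖w‖ = 0 := by
    have hpos : 0 < M + 1 := by positivity
    have : M * (1 / (M + 1) * ‖w‖) = M / (M + 1) * ‖w‖ := by field_simp
    rw [this] at h5
    have h7 : M / (M + 1) < 1 := by rw [div_lt_one hpos]; linarith
    by_contra hne
    have hwpos : 0 < ‖w‖ := lt_of_le_of_ne (norm_nonneg _) (Ne.symm hne)
    nlinarith
  have h7 : w = 0 := norm_eq_zero.1 h6
  ext
  · exact h1
  · exact sub_eq_zero.1 h7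

/-- the implicit branch through a regular zero stays in the class -/
theorem c249_local_branch {G : ℝ × E → E} {K : Set (ℝ × E)} {a b : ℝ} {n : ℕ∞ω} (hn : n ≠ 0)
    (hreg : C249Reg G K a b n) {l : ℝ} {y : E} (hp : (l, y) ∈ c249Z G K a b) :
    ∃ ψ : ℝ → E, ContDiffAt ℝ n ψ l ∧ ψ l = y ∧ ∀ᶠ μ in 𝓝[Icc a b] l, (μ, ψ μ) ∈ c249Z G K a b := by
  obtain ⟨hnh, hG, hinv⟩ := hreg _ hp
  refine ⟨hG.implicitFunction hn hinv, hG.contDiffAt_implicitFunction hn hinv,
    hG.implicitFunction_apply_self hn hinv, ?_⟩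
  have h1 := hG.eventually_apply_implicitFunction hn hinv
  have h2 : ContinuousAt (hG.implicitFunction hn hinv) l :=
    (hG.contDiffAt_implicitFunction hn hinv).continuousAt
  have h3 : Tendsto (fun μ : ℝ => (μ, hG.implicitFunction hn hinv μ)) (𝓝[Icc a b] l)
      (𝓝[Icc a b ×ˢ (univ : Set E)] (l, y)) := by
    refine tendsto_nhdsWithin_iff.2 ⟨?_, ?_⟩
    · have : ContinuousAt (fun μ : ℝ => (μ, hG.implicitFunction hn hinv μ)) l := continuousAt_id.prodMk h2
      have h4 := this.tendsto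
      simp only [hG.implicitFunction_apply_self hn hinv] at h4
      exact h4.mono_left nhdsWithin_le_nhds
    · filter_upwards [self_mem_nhdsWithin] with μ hμ
      exact ⟨hμ, mem_univ _⟩
  filter_upwards [h3.eventually hnh, mem_nhdsWithin_of_mem_nhds h1, self_mem_nhdsWithin] with μ a1 a2 a3
  exact ⟨a1, a3, by rw [a2]; exact hp.2.2⟩

/-- existence of a zero at every parameter of the segment -/
theorem c249_exists {G : ℝ × E → E} {K : Set (ℝ × E)} {a b : ℝ} {n : ℕ∞ω} (hn : n ≠ 0)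
    (hK : IsCompact K) (hcont : ContinuousOn G K) (hreg : C249Reg G K a b n)
    (hseed : (c249Z G K a b).Nonempty) : ∀ l ∈ Icc a b, ∃ y, (l, y) ∈ c249Z G K a b := by
  obtain ⟨⟨l₀, y₀⟩, h0⟩ := hseed
  have : PreconnectedSpace (Icc a b) := Subtype.preconnectedSpace isPreconnected_Icc
  set S : Set (Icc a b) := {l | ∃ y, ((l : ℝ), y) ∈ c249Z G K a b} with hS
  have hcl : IsClosed S := by
    have e : S = Subtype.val ⁻¹' (Prod.fst '' c249Z G K a b) := by
      ext l
      simp only [hS, mem_setOf_eq, mem_preimage, mem_image, Prod.exists, exists_and_right, exists_eq_right]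
    rw [e]
    exact ((c249_Z_compact hK hcont).image continuous_fst).isClosed.preimage continuous_subtype_val
  have hop : IsOpen S := by
    rw [isOpen_iff_mem_nhds]
    rintro l ⟨y, hy⟩
    obtain ⟨ψ, -, -, hψ⟩ := c249_local_branch hn hreg hy
    have h1 : Tendsto (Subtype.val : Icc a b → ℝ) (𝓝 l) (𝓝[Icc a b] (l : ℝ)) :=
      tendsto_nhdsWithin_iff.2 ⟨continuous_subtype_val.continuousAt, Eventually.of_forall fun x => x.2⟩
    filter_upwards [h1.eventually hψ] with μ hμ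
    exact ⟨ψ μ, hμ⟩
  have huniv : S = univ := IsClopen.eq_univ ⟨hcl, hop⟩ ⟨⟨l₀, h0.2.1⟩, y₀, h0⟩
  intro l hl
  have : (⟨l, hl⟩ : Icc a b) ∈ S := huniv ▸ mem_univ _
  exact this

/-- **uniqueness propagates from the seed** -/
theorem c249_atMost {G : ℝ × E → E} {K : Set (ℝ × E)} {a b : ℝ} {n : ℕ∞ω} (hn : n ≠ 0)
    (hK : IsCompact K) (hcont : ContinuousOn G K) (hreg : C249Reg G K a b n)
    {l₀ : ℝ} (hl₀ : l₀ ∈ Icc a b)
    (hseed : ∀ y y', (l₀, y) ∈ c249Z G K a b → (l₀, y') ∈ c249Z G K a b → y = y') :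
    ∀ l ∈ Icc a b, ∀ y y', (l, y) ∈ c249Z G K a b → (l, y') ∈ c249Z G K a b → y = y' := by
  have : PreconnectedSpace (Icc a b) := Subtype.preconnectedSpace isPreconnected_Icc
  have hZ := c249_Z_compact (a := a) (b := b) hK hcont
  set S : Set (Icc a b) :=
    {l | ∀ y y', ((l : ℝ), y) ∈ c249Z G K a b → ((l : ℝ), y') ∈ c249Z G K a b → y = y'} with hS
  have hval : ∀ l : Icc a b, Tendsto (Subtype.val : Icc a b → ℝ) (𝓝 l) (𝓝[Icc a b] (l : ℝ)) := fun l =>
    tendsto_nhdsWithin_iff.2 ⟨continuous_subtype_val.continuousAt, Eventually.of_forall fun x => x.2⟩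
  have hop : IsOpen S := by
    rw [isOpen_iff_mem_nhds]
    intro l hl
    -- an open set `O` which contains all the zeros at `l` and in which zeros are unique
    obtain ⟨O, hOo, hOl, hOu⟩ : ∃ O : Set (ℝ × E), IsOpen O ∧ (∀ y, ((l : ℝ), y) ∈ c249Z G K a b → ((l : ℝ), y) ∈ O) ∧
        ∀ q ∈ O, ∀ q' ∈ O, q.1 = q'.1 → G q = G q' → q = q' := by
      by_cases hex : ∃ y, ((l : ℝ), y) ∈ c249Z G K a b
      · obtain ⟨y, hy⟩ := hex
        obtain ⟨-, hG, hinv⟩ := hreg _ hy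
        obtain ⟨O, hO, hOo, hOu⟩ := c249_local_unique hn hG hinv
        refine ⟨O, hOo, fun y' hy' => ?_, hOu⟩
        rw [hl y' y hy' hy]
        exact mem_of_mem_nhds hO
      · exact ⟨∅, isOpen_empty, fun y hy => (hex ⟨y, hy⟩).elim, fun q hq => hq.elim⟩
    have hc : IsClosed (Prod.fst '' (c249Z G K a b \ O)) :=
      ((hZ.diff hOo).image continuous_fst).isClosed
    have hnot : (l : ℝ) ∉ Prod.fst '' (c249Z G K a b \ O) := by
      rintro ⟨⟨l', y⟩, ⟨h1, h2⟩, h3⟩
      simp only at h3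
      subst h3
      exact h2 (hOl y h1)
    have h1 : ∀ᶠ μ in 𝓝 (l : ℝ), μ ∉ Prod.fst '' (c249Z G K a b \ O) := hc.isOpen_compl.mem_nhds hnot
    filter_upwards [(continuous_subtype_val.continuousAt (x := l)).eventually h1] with μ hμ
    intro y y' hy hy'
    have m1 : ((μ : ℝ), y) ∈ O := by
      by_contra hno
      exact hμ ⟨_, ⟨hy, hno⟩, rfl⟩
    have m2 : ((μ : ℝ), y') ∈ O := by
      by_contra hno
      exact hμ ⟨_, ⟨hy', hno⟩, rfl⟩
    have := hOu _ m1 _ m2 rfl (by rw [hy.2.2, hy'.2.2])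
    exact (Prod.ext_iff.1 this).2
  have hcl : IsClosed S := by
    rw [← isOpen_compl_iff, isOpen_iff_mem_nhds]
    intro l hl
    simp only [hS, mem_compl_iff, mem_setOf_eq, not_forall] at hl
    obtain ⟨y, y', hy, hy', hne⟩ := hl
    obtain ⟨ψ, c1, c2, hψ⟩ := c249_local_branch hn hreg hy
    obtain ⟨ψ', c1', c2', hψ'⟩ := c249_local_branch hn hreg hy'
    have t1 : Tendsto ψ (𝓝 (l : ℝ)) (𝓝 y) := c2 ▸ c1.continuousAt.tendsto
    have t2 : Tendsto ψ' (𝓝 (l : ℝ)) (𝓝 y') := c2' ▸ c1'.continuousAt.tendsto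
    have hne' : ∀ᶠ μ in 𝓝 (l : ℝ), ψ μ ≠ ψ' μ :=
      (c1.continuousAt.ne_iff_eventually_ne c1'.continuousAt).1 (by rw [c2, c2']; exact hne)
    filter_upwards [(hval l).eventually hψ, (hval l).eventually hψ',
      (continuous_subtype_val.continuousAt (x := l)).eventually hne'] with μ a1 a2 a3
    simp only [hS, mem_compl_iff, mem_setOf_eq, not_forall]
    exact ⟨ψ μ, ψ' μ, a1, a2, a3⟩
  have huniv : S = univ := IsClopen.eq_univ ⟨hcl, hop⟩ ⟨⟨l₀, hl₀⟩, hseed⟩
  intro l hl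
  have : (⟨l, hl⟩ : Icc a b) ∈ S := huniv ▸ mem_univ _
  exact this

/-- **(u5) without (u4).**  One regular class, exactly one zero at the seed: exactly one zero everywhere, continuous, `C^n` inside. -/
theorem c249_branch {G : ℝ × E → E} {K : Set (ℝ × E)} {a b : ℝ} {n : ℕ∞ω} (hn : n ≠ 0)
    (hK : IsCompact K) (hcont : ContinuousOn G K) (hreg : C249Reg G K a b n)
    {l₀ : ℝ} {y₀ : E} (h0 : (l₀, y₀) ∈ c249Z G K a b)
    (hseed : ∀ y, (l₀, y) ∈ c249Z G K a b → y = y₀) :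
    ∃ Y : ℝ → E, Y l₀ = y₀ ∧
      (∀ l ∈ Icc a b, (l, Y l) ∈ K ∧ G (l, Y l) = 0 ∧ ∀ y, (l, y) ∈ K → G (l, y) = 0 → y = Y l) ∧
      ContinuousOn Y (Icc a b) ∧ ∀ l ∈ Ioo a b, ContDiffAt ℝ n Y l := by
  have hex := c249_exists hn hK hcont hreg ⟨_, h0⟩
  have hun := c249_atMost hn hK hcont hreg h0.2.1 (fun y y' hy hy' => (hseed y hy).trans (hseed y' hy').symm)
  choose! Y hY using hex
  have key : ∀ l ∈ Icc a b, ∃ ψ : ℝ → E, ContDiffAt ℝ n ψ l ∧ Y =ᶠ[𝓝[Icc a b] l] ψ ∧ Y l = ψ l := by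
    intro l hl
    obtain ⟨ψ, c1, c2, hψ⟩ := c249_local_branch hn hreg (hY l hl)
    refine ⟨ψ, c1, ?_, c2.symm⟩
    filter_upwards [hψ, self_mem_nhdsWithin] with μ hμ hμI
    exact hun μ hμI _ _ (hY μ hμI) hμ
  refine ⟨Y, hseed _ (hY l₀ h0.2.1), fun l hl => ⟨(hY l hl).1, (hY l hl).2.2, fun y h1 h2 => ?_⟩, ?_, ?_⟩
  · exact hun l hl _ _ ⟨h1, hl, h2⟩ (hY l hl)
  · intro l hl
    obtain ⟨ψ, c1, c2, c3⟩ := key l hl
    exact (c1.continuousAt.continuousWithinAt).congr_of_eventuallyEq c2 c3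
  · intro l hl
    obtain ⟨ψ, c1, c2, -⟩ := key l (Ioo_subset_Icc_self hl)
    rw [nhdsWithin_eq_nhds.2 (Icc_mem_nhds hl.1 hl.2)] at c2
    exact c1.congr_of_eventuallyEq c2

end Claimed.Agent.R292
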