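import Claimed.Agent.R292.Bethe.D1x202

/-!
# Row 292, unit BETHE, leaf D4 (helper160, prefix `pc160_`): the continuum family is Lipschitz in the parameter

* `pc160_ker_lip` (PB)  : `|ba230_ker x u - ba230_ker x' u| ≤ (1/η + 2/η²)/π |x - x'|` when `η ≤ 1 - cos x, 1 - cos x'`.
* `pc160_stab`   (PC, abstract) : stability of `c1x150_rQ K s Q` in the pair (kernel, source).
* `pc160_I1`     : (I1) of 202, verbatim.
* `pc160_PC`     : joint Lipschitz bound in `(t, Q)` on `[a, b] × [0, Qb]`, uniform on the line.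
-/

namespace Claimed.Agent.R292

open MeasureTheory Filter Topology Set

/-- **PB**: the kernel `ba230_ker x u` is Lipschitz in the parameter `x`, uniformly in `u`. -/
theorem pc160_ker_lip {x x' η : ℝ} (hη : 0 < η) (h1 : η ≤ 1 - Real.cos x)
    (h2 : η ≤ 1 - Real.cos x') (u : ℝ) :
    |ba230_ker x u - ba230_ker x' u| ≤ (1 / η + 2 / η ^ 2) / Real.pi * |x - x'| := by
  have hpi := Real.pi_pos
  have hc : 1 ≤ Real.cosh (2 * u) := Real.one_le_cosh _
  set c := Real.cosh (2 * u) with hcdef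
  have hD : η ≤ c - Real.cos x := by linarith
  have hD' : η ≤ c - Real.cos x' := by linarith
  have hD0 : 0 < c - Real.cos x := by linarith
  have hD0' : 0 < c - Real.cos x' := by linarith
  have e : ba230_ker x u - ba230_ker x' u =
      (c * (Real.sin x - Real.sin x') - Real.sin (x - x')) /
        (Real.pi * ((c - Real.cos x) * (c - Real.cos x'))) := by
    unfold ba230_ker
    rw [← hcdef, Real.sin_sub]
    field_simp
    ring
  have hnum : |c * (Real.sin x - Real.sin x') - Real.sin (x - x')| ≤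
      ((c - Real.cos x) + 2) * |x - x'| := by
    have a1 : |c * (Real.sin x - Real.sin x')| ≤ c * |x - x'| := by
      rw [abs_mul, abs_of_pos (by linarith : 0 < c)]
      exact mul_le_mul_of_nonneg_left (Real.abs_sin_sub_sin_le x x') (by linarith)
    have a2 : |Real.sin (x - x')| ≤ |x - x'| := Real.abs_sin_le_abs
    have a3 := abs_sub (c * (Real.sin x - Real.sin x')) (Real.sin (x - x'))
    have a4 : -1 ≤ Real.cos x := Real.neg_one_le_cos x
    have a5 : 0 ≤ |x - x'| := abs_nonneg _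
    nlinarith
  rw [e, abs_div, abs_of_pos (by positivity : 0 < Real.pi * ((c - Real.cos x) * (c - Real.cos x')))]
  have hfrac : ((c - Real.cos x) + 2) / ((c - Real.cos x) * (c - Real.cos x')) ≤ 1 / η + 2 / η ^ 2 := by
    have e2 : ((c - Real.cos x) + 2) / ((c - Real.cos x) * (c - Real.cos x')) =
        1 / (c - Real.cos x') + 2 / ((c - Real.cos x) * (c - Real.cos x')) := by
      field_simp
    rw [e2]
    apply add_le_add
    · exact one_div_le_one_div_of_le hη hD'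
    · apply div_le_div_of_nonneg_left (by norm_num) (by positivity)
      rw [sq]
      exact mul_le_mul hD hD' hη.le hD0.le
  calc |c * (Real.sin x - Real.sin x') - Real.sin (x - x')| /
        (Real.pi * ((c - Real.cos x) * (c - Real.cos x')))
      ≤ ((c - Real.cos x) + 2) * |x - x'| / (Real.pi * ((c - Real.cos x) * (c - Real.cos x'))) :=
        div_le_div_of_nonneg_right hnum (by positivity)
    _ = ((c - Real.cos x) + 2) / ((c - Real.cos x) * (c - Real.cos x')) / Real.pi * |x - x'| := by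
        field_simp
    _ ≤ (1 / η + 2 / η ^ 2) / Real.pi * |x - x'| := by
        apply mul_le_mul_of_nonneg_right _ (abs_nonneg _)
        exact div_le_div_of_nonneg_right hfrac hpi.le

/-- **PC, abstract** (vocabulary of 150 / 202): stability of `r_Q` in the pair (kernel, source), same `Q`. -/
theorem pc160_stab {K K' s s' : ℝ → ℝ} {h C : ℝ} (H : C1x150Ker K s h C) (H' : C1x150Ker K' s' h C)
    {Es EK Q : ℝ} (hQ : 0 ≤ Q) (hs : ∀ u, |s u - s' u| ≤ Es) (hK : ∀ w, |K w - K' w| ≤ EK) (u : ℝ) :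
    |c1x150_rQ K s Q u - c1x150_rQ K' s' Q u| ≤ (Es + EK * (C / (1 - h)) * (2 * Q)) / (1 - h) := by
  have hB := c1x150_bound_nonneg H
  have hm := (c1x150_rQ_continuous H Q).measurable
  have hm' := (c1x150_rQ_continuous H' Q).measurable
  have hvol : volume.real (Icc (-Q) Q) = 2 * Q := by
    rw [Real.volume_real_Icc_of_le (by linarith)]; ring
  refine d1x202_sup (F := fun v => c1x150_rQ K s Q v - c1x150_rQ K' s' Q v)
    (f := fun v => (s v - s' v) + c1x150_op (fun w => K' w - K w) (Icc (-Q) Q) (c1x150_rQ K' s' Q) v)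
    (A := Icc (-Q) Q) H.K_int H.K_norm H.h_lt measurableSet_Icc (M := C / (1 - h) + C / (1 - h)) (by positivity)
    (fun v _ => (abs_sub _ _).trans (add_le_add (c1x150_rQ_bdd H Q v) (c1x150_rQ_bdd H' Q v)))
    (fun v => ?_) (fun v => ?_) u
  · refine (abs_add_le _ _).trans (add_le_add (hs v) ?_)
    have := d1x202_op_small (K := fun w => K' w - K w) (F := c1x150_rQ K' s' Q) (D := Icc (-Q) Q)
      (BK := EK) (M := C / (1 - h)) (fun w => by rw [abs_sub_comm]; exact hK w)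
      (fun w _ => c1x150_rQ_bdd H' Q w) measure_Icc_lt_top v
    rwa [hvol] at this
  · rw [c1x150_op_sub H.K_int measurableSet_Icc hm hm' hB hB (fun w _ => c1x150_rQ_bdd H Q w)
      (fun w _ => c1x150_rQ_bdd H' Q w),
      c1x150_op_ker_sub H'.K_int H.K_int measurableSet_Icc hm' hB (fun w _ => c1x150_rQ_bdd H' Q w)]
    linarith [c1x150_rQ_eq H Q v, c1x150_rQ_eq H' Q v]

/-- **(I1) of 202, verbatim**: `t ↦ r_{t,Q}(u)` is Lipschitz on `[a, b] ⊂ (0, π)`, uniformly in `u` and in `Q ∈ [0, Qh]`. -/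
theorem pc160_I1 {a b Qh : ℝ} (ha : 0 < a) (hb : b < Real.pi) :
    ∃ Lt : ℝ, 0 ≤ Lt ∧ ∀ t ∈ Icc a b, ∀ t' ∈ Icc a b, ∀ Q, 0 ≤ Q → Q ≤ Qh → ∀ u,
      |c1x150_rQ (ba230_ker (2 * t)) (ba230_ker t) Q u -
        c1x150_rQ (ba230_ker (2 * t')) (ba230_ker t') Q u| ≤ Lt * |t - t'| := by
  have hpi := Real.pi_pos
  by_cases hab : a ≤ b
  swap
  · exact ⟨0, le_rfl, fun t ht => absurd (ht.1.trans ht.2) hab⟩
  have hca : Real.cos a < 1 := by
    have := Real.cos_lt_cos_of_nonneg_of_le_pi (x := 0) (y := a) le_rfl (by linarith) ha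
    simpa using this
  set ηs : ℝ := 1 - Real.cos a with hηs
  have hηs0 : 0 < ηs := by rw [hηs]; linarith
  have hσ := d1x202_sin_min_pos ha hab hb
  set ηK : ℝ := 2 * (min (Real.sin a) (Real.sin b)) ^ 2 with hηK
  have hηK0 : 0 < ηK := by rw [hηK]; positivity
  set Ls : ℝ := (1 / ηs + 2 / ηs ^ 2) / Real.pi with hLs
  set LK : ℝ := (1 / ηK + 2 / ηK ^ 2) / Real.pi with hLK
  have hLs0 : 0 ≤ Ls := by rw [hLs]; positivity
  have hLK0 : 0 ≤ LK := by rw [hLK]; positivity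
  have hh1 : 0 < 1 - d1x202_hh a b := by linarith [d1x202_hh_lt ha hb]
  have hB : 0 ≤ d1x202_Cs a / (1 - d1x202_hh a b) :=
    c1x150_bound_nonneg (d1x202_KerU ha hb (t := a) ⟨le_rfl, hab⟩)
  have es : ∀ t ∈ Icc a b, ηs ≤ 1 - Real.cos t := by
    intro t ht
    have := Real.cos_le_cos_of_nonneg_of_le_pi ha.le (by linarith [ht.2]) ht.1
    rw [hηs]; linarith
  have eK : ∀ t ∈ Icc a b, ηK ≤ 1 - Real.cos (2 * t) := by
    intro t ht
    have h1 := d1x202_sin_ge ha hb ht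
    have h2 : 1 - Real.cos (2 * t) = 2 * Real.sin t ^ 2 := by
      rw [Real.cos_two_mul, Real.sin_sq]; ring
    rw [h2, hηK]
    have := pow_le_pow_left₀ hσ.le h1 2
    linarith
  refine ⟨(Ls + 2 * LK * (d1x202_Cs a / (1 - d1x202_hh a b)) * (2 * |Qh|)) / (1 - d1x202_hh a b),
    by positivity, ?_⟩
  intro t ht t' ht' Q hQ hQh u
  have h := pc160_stab (d1x202_KerU ha hb ht) (d1x202_KerU ha hb ht') (Es := Ls * |t - t'|)
    (EK := 2 * LK * |t - t'|) hQ (fun v => pc160_ker_lip hηs0 (es t ht) (es t' ht') v)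
    (fun w => by
      have := pc160_ker_lip hηK0 (eK t ht) (eK t' ht') w
      have e : |2 * t - 2 * t'| = 2 * |t - t'| := by
        rw [← mul_sub, abs_mul, abs_of_pos (by norm_num : (0 : ℝ) < 2)]
      rw [e] at this
      calc _ ≤ _ := this
        _ = _ := by ring) u
  refine h.trans ?_
  have e0 : (Ls + 2 * LK * (d1x202_Cs a / (1 - d1x202_hh a b)) * (2 * |Qh|)) / (1 - d1x202_hh a b) *
      |t - t'| = (Ls + 2 * LK * (d1x202_Cs a / (1 - d1x202_hh a b)) * (2 * |Qh|)) * |t - t'| /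
        (1 - d1x202_hh a b) := div_mul_eq_mul_div _ _ _
  rw [e0]
  apply div_le_div_of_nonneg_right _ hh1.le
  have hQ2 : Q ≤ |Qh| := hQh.trans (le_abs_self _)
  have hd : 0 ≤ |t - t'| := abs_nonneg _
  have h3 : 2 * LK * |t - t'| * (d1x202_Cs a / (1 - d1x202_hh a b)) * (2 * Q) ≤
      2 * LK * |t - t'| * (d1x202_Cs a / (1 - d1x202_hh a b)) * (2 * |Qh|) :=
    mul_le_mul_of_nonneg_left (by linarith) (by positivity)
  calc Ls * |t - t'| + 2 * LK * |t - t'| * (d1x202_Cs a / (1 - d1x202_hh a b)) * (2 * Q)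
      ≤ Ls * |t - t'| + 2 * LK * |t - t'| * (d1x202_Cs a / (1 - d1x202_hh a b)) * (2 * |Qh|) := by
        linarith
    _ = (Ls + 2 * LK * (d1x202_Cs a / (1 - d1x202_hh a b)) * (2 * |Qh|)) * |t - t'| := by ring

/-- **(PC) of 282 / 271, joint version**: `(t, Q) ↦ r_{t,Q}(u)` is Lipschitz on `[a, b] × [0, Qb]`, uniformly in `u`. -/
theorem pc160_PC {a b : ℝ} (ha : 0 < a) (hb : b < Real.pi) (Qb : ℝ) :
    ∃ A : ℝ, 0 ≤ A ∧ ∀ t ∈ Icc a b, ∀ t' ∈ Icc a b, ∀ q ∈ Icc 0 Qb, ∀ q' ∈ Icc 0 Qb, ∀ u,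
      |c1x150_rQ (ba230_ker (2 * t)) (ba230_ker t) q u -
        c1x150_rQ (ba230_ker (2 * t')) (ba230_ker t') q' u| ≤ A * (|t - t'| + |q - q'|) := by
  obtain ⟨Lt, hLt0, hLt⟩ := pc160_I1 (Qh := Qb) ha hb
  by_cases hab : a ≤ b
  swap
  · exact ⟨0, le_rfl, fun t ht => absurd (ht.1.trans ht.2) hab⟩
  have hL0 : 0 ≤ d1x202_Lr (d1x202_BK a b) (d1x202_Cs a) (d1x202_hh a b) :=
    d1x202_Lr_nonneg (d1x202_KerU ha hb (t := a) ⟨le_rfl, hab⟩) (d1x202_K_le ha hb ⟨le_rfl, hab⟩)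
  refine ⟨Lt + d1x202_Lr (d1x202_BK a b) (d1x202_Cs a) (d1x202_hh a b), by positivity, ?_⟩
  intro t ht t' ht' q hq q' hq' u
  have h1 := hLt t ht t' ht' q hq.1 hq.2 u
  have h2 := (d1x202_rQ_lipOn (d1x202_KerU ha hb ht') (d1x202_K_le ha hb ht') u).dist_le_mul
    q (mem_Ici.2 hq.1) q' (mem_Ici.2 hq'.1)
  rw [Real.dist_eq, Real.dist_eq] at h2
  have h2' : |c1x150_rQ (ba230_ker (2 * t')) (ba230_ker t') q u -
      c1x150_rQ (ba230_ker (2 * t')) (ba230_ker t') q' u| ≤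
      d1x202_Lr (d1x202_BK a b) (d1x202_Cs a) (d1x202_hh a b) * |q - q'| := h2
  have h3 := abs_sub_le (c1x150_rQ (ba230_ker (2 * t)) (ba230_ker t) q u)
    (c1x150_rQ (ba230_ker (2 * t')) (ba230_ker t') q u)
    (c1x150_rQ (ba230_ker (2 * t')) (ba230_ker t') q' u)
  have d1 : 0 ≤ |t - t'| := abs_nonneg _
  have d2 : 0 ≤ |q - q'| := abs_nonneg _
  nlinarith [mul_nonneg hLt0 d2, mul_nonneg hL0 d1]

end Claimed.Agent.R292
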