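import Claimed.Agent.R292.Bethe.Ba2Amp270
import Claimed.Agent.R292.Bethe.Ba3Roots130
import Claimed.Agent.R292.Bethe.BA4Wire120

/-!
# Row 292, unit BETHE, block B3 (a): THE DICTIONARY rapidities ↔ algebraic Bethe equations      (pen helper110; prefix `bd110_`)

`c = 2 cos (λ/2)`, `2 Δ = 2 - c² = -2 cos λ`.
* `bd110_cay t = (1 + i t) / (1 - i t) = exp (2 i arctan t)`;
* `bd110_z a y = sinh (i a/2 - y) / sinh (i a/2 + y) = exp (2 π i Φ_a (y))`, `Φ_a (y) = arctan (cot (a/2) tanh y) / π`,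
  `Φ_a' = P_a = sin a / (π (cosh 2y - cos a))`;  momentum `S = Φ_λ`, scattering phase `Θ = Φ_{2λ}`;
* `s (z₁, z₂) = z_{2λ} (y₁ - y₂) s (z₂, z₁)` for the scattering factor of 270;
* **`bd110_BE`**: the logarithmic Bethe equations give the polynomial Bethe equations `ba2a270_BE`;
* `z ≠ 1`, injectivity;  **`bd110_Lam`**: `∏ L + ∏ M = 2 exp (∑ ℓ (y_j))` for a symmetric set of non-zero real roots;
* the same at `c = 2` (rational parametrisation).
-/

set_option autoImplicit false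

namespace Claimed.Agent.R292

open Finset

/-! ## 0. the Cayley map -/

/-- `(1 + i t) / (1 - i t)` -/
noncomputable def bd110_cay (t : ℝ) : ℂ := (1 + t * Complex.I) / (1 - t * Complex.I)

theorem bd110_re_im_ne {p q : ℝ} (h : p ≠ 0 ∨ q ≠ 0) : (p : ℂ) + q * Complex.I ≠ 0 := by
  intro h0
  have h1 := congrArg Complex.re h0
  have h2 := congrArg Complex.im h0
  simp at h1 h2
  rcases h with h | h
  · exact h h1
  · exact h h2

theorem bd110_den_ne (t : ℝ) : (1 - t * Complex.I : ℂ) ≠ 0 := by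
  have := bd110_re_im_ne (p := 1) (q := -t) (Or.inl one_ne_zero)
  intro h; apply this; push_cast; linear_combination h

theorem bd110_num_ne (t : ℝ) : (1 + t * Complex.I : ℂ) ≠ 0 := by
  have := bd110_re_im_ne (p := 1) (q := t) (Or.inl one_ne_zero)
  intro h; apply this; push_cast; linear_combination h

theorem bd110_cay_eq_exp (t : ℝ) :
    bd110_cay t = Complex.exp (2 * (Real.arctan t : ℝ) * Complex.I) := by
  set θ := Real.arctan t with hθ
  have hc : Real.cos θ ≠ 0 := (Real.cos_arctan_pos t).ne'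
  have ht : t = Real.sin θ / Real.cos θ := by rw [← Real.tan_eq_sin_div_cos, hθ, Real.tan_arctan]
  have hcC : (Real.cos θ : ℂ) ≠ 0 := by exact_mod_cast hc
  have e1 : Complex.exp (θ * Complex.I) = Real.cos θ + Real.sin θ * Complex.I := by
    rw [Complex.exp_mul_I]; push_cast; rfl
  have e2 : ((Real.cos θ : ℂ) + Real.sin θ * Complex.I) * ((Real.cos θ : ℂ) - Real.sin θ * Complex.I) = 1 := by
    have : (Real.cos θ : ℂ) ^ 2 + (Real.sin θ : ℂ) ^ 2 = 1 := by exact_mod_cast Real.cos_sq_add_sin_sq θ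
    linear_combination this - (Real.sin θ : ℂ) ^ 2 * Complex.I_sq
  have e3 : Complex.exp (2 * (θ : ℝ) * Complex.I) =
      ((Real.cos θ : ℂ) + Real.sin θ * Complex.I) * ((Real.cos θ : ℂ) + Real.sin θ * Complex.I) := by
    rw [show (2 * (θ : ℝ) * Complex.I : ℂ) = θ * Complex.I + θ * Complex.I by ring, Complex.exp_add, e1]
  rw [e3]
  unfold bd110_cay
  rw [div_eq_iff (bd110_den_ne t)]
  have htC : (t : ℂ) = (Real.sin θ : ℂ) / Real.cos θ := by rw [← Complex.ofReal_div, ← ht]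
  rw [htC]
  field_simp
  linear_combination (-((Real.cos θ : ℂ) + Real.sin θ * Complex.I)) * e2

theorem bd110_cay_ne_one {t : ℝ} (ht : t ≠ 0) : bd110_cay t ≠ 1 := by
  unfold bd110_cay
  rw [Ne, div_eq_one_iff_eq (bd110_den_ne t)]
  intro h
  have h2 := congrArg Complex.im h
  simp at h2
  apply ht; linarith

theorem bd110_cay_injective : Function.Injective bd110_cay := by
  intro t u h
  unfold bd110_cay at h
  rw [div_eq_div_iff (bd110_den_ne t) (bd110_den_ne u)] at h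
  have h2 := congrArg Complex.im h
  simp at h2
  linarith

/-! ## 1. the trigonometric parametrisation -/

/-- `sinh (i a/2 - y) / sinh (i a/2 + y)`;  `a = λ`: the plane wave factor `z = e^{ik}`;  `a = 2λ`: the scattering phase -/
noncomputable def bd110_z (a y : ℝ) : ℂ :=
  Complex.sinh ((a / 2 : ℝ) * Complex.I - y) / Complex.sinh ((a / 2 : ℝ) * Complex.I + y)

/-- `cot (a/2) tanh y` -/
noncomputable def bd110_t (a y : ℝ) : ℝ := Real.cos (a / 2) / Real.sin (a / 2) * Real.tanh y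

/-- `Φ_a (y) = arctan (cot (a/2) tanh y) / π`, the odd primitive of `P_a` -/
noncomputable def bd110_Phi (a y : ℝ) : ℝ := Real.arctan (bd110_t a y) / Real.pi

theorem bd110_sinh_add (b y : ℝ) :
    Complex.sinh ((b : ℝ) * Complex.I + y) =
      ((Real.cos b * Real.sinh y : ℝ) : ℂ) + ((Real.sin b * Real.cosh y : ℝ) : ℂ) * Complex.I := by
  rw [Complex.sinh_add, Complex.sinh_mul_I, Complex.cosh_mul_I]
  push_cast
  ring

theorem bd110_sinh_sub (b y : ℝ) :
    Complex.sinh ((b : ℝ) * Complex.I - y) =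
      ((-(Real.cos b * Real.sinh y) : ℝ) : ℂ) + ((Real.sin b * Real.cosh y : ℝ) : ℂ) * Complex.I := by
  rw [Complex.sinh_sub, Complex.sinh_mul_I, Complex.cosh_mul_I]
  push_cast
  ring

theorem bd110_sinh_add_ne (b y : ℝ) (hb : Real.sin b ≠ 0) : Complex.sinh ((b : ℝ) * Complex.I + y) ≠ 0 := by
  rw [bd110_sinh_add]
  exact bd110_re_im_ne (Or.inr (mul_ne_zero hb (Real.cosh_pos y).ne'))

theorem bd110_sinh_sub_ne (b y : ℝ) (hb : Real.sin b ≠ 0) : Complex.sinh ((b : ℝ) * Complex.I - y) ≠ 0 := by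
  rw [bd110_sinh_sub]
  exact bd110_re_im_ne (Or.inr (mul_ne_zero hb (Real.cosh_pos y).ne'))

theorem bd110_z_eq_cay (a y : ℝ) (ha : Real.sin (a / 2) ≠ 0) : bd110_z a y = bd110_cay (bd110_t a y) := by
  unfold bd110_z bd110_cay
  rw [div_eq_div_iff (bd110_sinh_add_ne _ y ha) (bd110_den_ne _), bd110_sinh_add, bd110_sinh_sub]
  unfold bd110_t
  rw [Real.tanh_eq_sinh_div_cosh]
  have h1 : (Real.sin (a / 2) : ℂ) ≠ 0 := by exact_mod_cast ha
  have h2 : (Real.cosh y : ℂ) ≠ 0 := by exact_mod_cast (Real.cosh_pos y).ne'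
  simp only [Complex.ofReal_mul, Complex.ofReal_div, Complex.ofReal_neg]
  field_simp
  linear_combination (-2 * (Real.cos (a / 2) : ℂ) * (Real.sinh y : ℂ) * (Real.sin (a / 2) : ℂ) *
    (Real.cosh y : ℂ)) * Complex.I_sq

theorem bd110_z_eq_exp (a y : ℝ) (ha : Real.sin (a / 2) ≠ 0) :
    bd110_z a y = Complex.exp (2 * Real.pi * Complex.I * (bd110_Phi a y : ℝ)) := by
  rw [bd110_z_eq_cay a y ha, bd110_cay_eq_exp]
  congr 1
  unfold bd110_Phi
  have : (Real.pi : ℂ) ≠ 0 := by exact_mod_cast Real.pi_ne_zero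
  push_cast
  field_simp

theorem bd110_t_zero (a : ℝ) : bd110_t a 0 = 0 := by simp [bd110_t]

theorem bd110_Phi_zero (a : ℝ) : bd110_Phi a 0 = 0 := by simp [bd110_Phi, bd110_t_zero]

theorem bd110_t_neg (a y : ℝ) : bd110_t a (-y) = - bd110_t a y := by
  simp [bd110_t, Real.tanh_neg]

theorem bd110_Phi_neg (a y : ℝ) : bd110_Phi a (-y) = - bd110_Phi a y := by
  simp [bd110_Phi, bd110_t_neg, Real.arctan_neg, neg_div]

theorem bd110_tanh_injective : Function.Injective Real.tanh := by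
  intro x y h
  rw [Real.tanh_eq_sinh_div_cosh, Real.tanh_eq_sinh_div_cosh,
    div_eq_div_iff (Real.cosh_pos x).ne' (Real.cosh_pos y).ne'] at h
  have : Real.sinh (x - y) = 0 := by rw [Real.sinh_sub]; linarith
  rw [Real.sinh_eq_zero] at this
  linarith

theorem bd110_t_injective (a : ℝ) (h1 : Real.sin (a / 2) ≠ 0) (h2 : Real.cos (a / 2) ≠ 0) :
    Function.Injective (bd110_t a) := by
  intro x y h
  unfold bd110_t at h
  exact bd110_tanh_injective (mul_left_cancel₀ (div_ne_zero h2 h1) h)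

theorem bd110_z_injective (a : ℝ) (h1 : Real.sin (a / 2) ≠ 0) (h2 : Real.cos (a / 2) ≠ 0) :
    Function.Injective (bd110_z a) := by
  intro x y h
  rw [bd110_z_eq_cay a x h1, bd110_z_eq_cay a y h1] at h
  exact bd110_t_injective a h1 h2 (bd110_cay_injective h)

theorem bd110_z_ne_one (a : ℝ) (h1 : Real.sin (a / 2) ≠ 0) (h2 : Real.cos (a / 2) ≠ 0) {y : ℝ} (hy : y ≠ 0) :
    bd110_z a y ≠ 1 := by
  rw [bd110_z_eq_cay a y h1]
  apply bd110_cay_ne_one
  intro h
  apply hy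
  apply bd110_t_injective a h1 h2
  rw [h, bd110_t_zero]

/-! ## 2. the scattering factor -/

/-- the hyperbolic identity behind the scattering factor -/
theorem bd110_hyp (a u v : ℂ) :
    Complex.sinh (a + u) * Complex.sinh (a + v) + 2 * Complex.cosh (2 * a) * (Complex.sinh (a - u) * Complex.sinh (a + v)) +
      Complex.sinh (a - u) * Complex.sinh (a - v) = Complex.sinh (2 * a) * Complex.sinh (2 * a - (u - v)) := by
  have e : ∀ x, Complex.sinh x = (Complex.exp x - (Complex.exp x)⁻¹) / 2 := fun x => by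
    rw [Complex.sinh, Complex.exp_neg]
  have e' : ∀ x, Complex.cosh x = (Complex.exp x + (Complex.exp x)⁻¹) / 2 := fun x => by
    rw [Complex.cosh, Complex.exp_neg]
  simp only [e, e', two_mul, Complex.exp_add, Complex.exp_sub]
  have hA := Complex.exp_ne_zero a
  have hU := Complex.exp_ne_zero u
  have hV := Complex.exp_ne_zero v
  generalize Complex.exp a = A at hA ⊢
  generalize Complex.exp u = U at hU ⊢
  generalize Complex.exp v = V at hV ⊢
  field_simp
  ring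

theorem bd110_d (lam : ℝ) :
    (2 - ((2 * Real.cos (lam / 2) : ℝ) : ℂ) ^ 2) = ((-2 * Real.cos lam : ℝ) : ℂ) := by
  have h : Real.cos lam = 2 * Real.cos (lam / 2) ^ 2 - 1 := by
    rw [← Real.cos_two_mul]; congr 1; ring
  rw [h]; push_cast; ring

theorem bd110_s_mul (lam y1 y2 : ℝ) (h : Real.sin (lam / 2) ≠ 0) :
    ba2a270_s (((-2 * Real.cos lam : ℝ)) : ℂ) (bd110_z lam y1) (bd110_z lam y2) *
        (Complex.sinh ((lam / 2 : ℝ) * Complex.I + y1) * Complex.sinh ((lam / 2 : ℝ) * Complex.I + y2)) =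
      Complex.sinh ((lam : ℝ) * Complex.I) * Complex.sinh ((lam : ℝ) * Complex.I - ((y1 - y2 : ℝ) : ℂ)) := by
  have H := bd110_hyp ((lam / 2 : ℝ) * Complex.I) y1 y2
  have e2a : 2 * (((lam / 2 : ℝ) : ℂ) * Complex.I) = (lam : ℂ) * Complex.I := by push_cast; ring
  rw [e2a, Complex.cosh_mul_I] at H
  have d1 := bd110_sinh_add_ne (lam / 2) y1 h
  have d2 := bd110_sinh_add_ne (lam / 2) y2 h
  rw [Complex.ofReal_sub, ← H]
  unfold ba2a270_s bd110_z
  field_simp
  push_cast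
  ring

/-- **exchange**: `s (z₁, z₂) = e^{2 π i Θ (y₁ - y₂)} s (z₂, z₁)` -/
theorem bd110_s_swap (lam y1 y2 : ℝ) (h1 : Real.sin (lam / 2) ≠ 0) (h2 : Real.sin lam ≠ 0) :
    ba2a270_s (((-2 * Real.cos lam : ℝ)) : ℂ) (bd110_z lam y1) (bd110_z lam y2) =
      bd110_z (2 * lam) (y1 - y2) *
        ba2a270_s (((-2 * Real.cos lam : ℝ)) : ℂ) (bd110_z lam y2) (bd110_z lam y1) := by
  have A := bd110_s_mul lam y1 y2 h1
  have B := bd110_s_mul lam y2 y1 h1
  have d1 := bd110_sinh_add_ne (lam / 2) y1 h1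
  have d2 := bd110_sinh_add_ne (lam / 2) y2 h1
  have e : (2 * lam) / 2 = lam := by ring
  have d3 := bd110_sinh_add_ne lam (y1 - y2) h2
  have eB : Complex.sinh ((lam : ℝ) * Complex.I - ((y2 - y1 : ℝ) : ℂ)) =
      Complex.sinh ((lam : ℝ) * Complex.I + ((y1 - y2 : ℝ) : ℂ)) := by
    congr 1; push_cast; ring
  rw [eB] at B
  have hz : bd110_z (2 * lam) (y1 - y2) * Complex.sinh ((lam : ℝ) * Complex.I + ((y1 - y2 : ℝ) : ℂ)) =
      Complex.sinh ((lam : ℝ) * Complex.I - ((y1 - y2 : ℝ) : ℂ)) := by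
    unfold bd110_z
    rw [e]
    field_simp
  have hD : Complex.sinh ((lam / 2 : ℝ) * Complex.I + y1) * Complex.sinh ((lam / 2 : ℝ) * Complex.I + y2) ≠ 0 :=
    mul_ne_zero d1 d2
  apply mul_right_cancel₀ hD
  rw [A, ← hz]
  linear_combination (-bd110_z (2 * lam) (y1 - y2)) * B

/-! ## 3. the Bethe equations -/

theorem bd110_BE_of_phase (lam : ℝ) (h1 : Real.sin (lam / 2) ≠ 0) (h2 : Real.sin lam ≠ 0) (N n : ℕ)
    (y : Fin n → ℝ)
    (hph : ∀ j, Complex.exp (2 * Real.pi * Complex.I *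
      ((N * bd110_Phi lam (y j) - ∑ k, bd110_Phi (2 * lam) (y j - y k) : ℝ) : ℂ)) = (-1) ^ (n - 1)) :
    ba2a270_BE (((-2 * Real.cos lam : ℝ)) : ℂ) N (fun j => bd110_z lam (y j)) := by
  intro j
  have e2 : Real.sin ((2 * lam) / 2) ≠ 0 := by rwa [show (2 * lam) / 2 = lam by ring]
  have s1 : ∏ l ∈ univ.erase j, ba2a270_s (((-2 * Real.cos lam : ℝ)) : ℂ) (bd110_z lam (y j)) (bd110_z lam (y l)) =
      (∏ l ∈ univ.erase j, bd110_z (2 * lam) (y j - y l)) *
        ∏ l ∈ univ.erase j, ba2a270_s (((-2 * Real.cos lam : ℝ)) : ℂ) (bd110_z lam (y l)) (bd110_z lam (y j)) := by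
    rw [← prod_mul_distrib]
    exact prod_congr rfl fun l _ => bd110_s_swap lam (y j) (y l) h1 h2
  have s2 : ∏ l ∈ univ.erase j, bd110_z (2 * lam) (y j - y l) =
      Complex.exp (2 * Real.pi * Complex.I * ((∑ k, bd110_Phi (2 * lam) (y j - y k) : ℝ) : ℂ)) := by
    have : ∑ k, bd110_Phi (2 * lam) (y j - y k) = ∑ k ∈ univ.erase j, bd110_Phi (2 * lam) (y j - y k) := by
      rw [← add_sum_erase univ _ (mem_univ j), sub_self, bd110_Phi_zero, zero_add]
    rw [this, Complex.ofReal_sum, mul_sum, Complex.exp_sum]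
    exact prod_congr rfl fun l _ => bd110_z_eq_exp (2 * lam) _ e2
  have s3 : bd110_z lam (y j) ^ N =
      Complex.exp (2 * Real.pi * Complex.I * ((N * bd110_Phi lam (y j) : ℝ) : ℂ)) := by
    rw [bd110_z_eq_exp lam _ h1, ← Complex.exp_nat_mul]
    congr 1; push_cast; ring
  have s4 : Complex.exp (2 * Real.pi * Complex.I * ((N * bd110_Phi lam (y j) : ℝ) : ℂ)) =
      (-1) ^ (n - 1) * Complex.exp (2 * Real.pi * Complex.I * ((∑ k, bd110_Phi (2 * lam) (y j - y k) : ℝ) : ℂ)) := by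
    rw [← hph j, ← Complex.exp_add]
    congr 1; push_cast; ring
  show bd110_z lam (y j) ^ N * _ = _
  rw [s1, s2, s3, s4]
  ring

theorem bd110_phase (n : ℕ) (hn : 1 ≤ n) (m : ℤ) :
    Complex.exp (2 * Real.pi * Complex.I * (((m : ℝ) - ((n : ℝ) - 1) / 2 : ℝ) : ℂ)) = (-1) ^ (n - 1) := by
  obtain ⟨k, rfl⟩ : ∃ k, n = k + 1 := ⟨n - 1, by omega⟩
  have e : (2 * Real.pi * Complex.I * (((m : ℝ) - (((k + 1 : ℕ) : ℝ) - 1) / 2 : ℝ) : ℂ)) =
      (m : ℂ) * (2 * Real.pi * Complex.I) + (k : ℂ) * (-(Real.pi * Complex.I)) := by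
    push_cast; ring
  rw [e, Complex.exp_add, Complex.exp_int_mul_two_pi_mul_I, one_mul, Complex.exp_nat_mul, Complex.exp_neg,
    Complex.exp_pi_mul_I]
  simp

/-- **THE DICTIONARY, trigonometric case.**  `c = 2 cos (λ/2)`.  Logarithmic Bethe equations with the quantum numbers
`j - (n-1)/2` (`j = 0, …, n-1`) ⇒ the polynomial Bethe equations of `Ba2Amp270`. -/
theorem bd110_BE (lam : ℝ) (h1 : Real.sin (lam / 2) ≠ 0) (h2 : Real.sin lam ≠ 0) (N n : ℕ) (y : Fin n → ℝ)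
    (hBAE : ∀ j : Fin n, N * bd110_Phi lam (y j) - ∑ k, bd110_Phi (2 * lam) (y j - y k) =
      ((j : ℕ) : ℝ) - ((n : ℝ) - 1) / 2) :
    ba2a270_BE (2 - ((2 * Real.cos (lam / 2) : ℝ) : ℂ) ^ 2) N (fun j => bd110_z lam (y j)) := by
  rw [bd110_d]
  refine bd110_BE_of_phase lam h1 h2 N n y fun j => ?_
  rw [hBAE j]
  have := bd110_phase n (by have := j.2; omega) ((j : ℕ) : ℤ)
  simpa using this

/-! ## 4. the eigenvalue -/

theorem bd110_L_hyp (a y : ℂ) (hD : Complex.sinh (a + y) ≠ 0) (hy : Complex.sinh y ≠ 0) (hc : Complex.cosh a ≠ 0) :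
    1 + (2 * Complex.cosh a) ^ 2 * (Complex.sinh (a - y) / Complex.sinh (a + y)) /
        (1 - Complex.sinh (a - y) / Complex.sinh (a + y)) = Complex.sinh (2 * a - y) / Complex.sinh y := by
  have k1 : Complex.sinh (a + y) - Complex.sinh (a - y) = 2 * Complex.cosh a * Complex.sinh y := by
    rw [Complex.sinh_add, Complex.sinh_sub]; ring
  have k2 : Complex.sinh (2 * a - y) = 2 * Complex.cosh a * Complex.sinh (a - y) + Complex.sinh y := by
    have e1 : Complex.sinh (2 * a - y) = Complex.sinh (a + (a - y)) := by congr 1; ring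
    have e2 : Complex.sinh y = Complex.sinh a * Complex.cosh (a - y) - Complex.cosh a * Complex.sinh (a - y) := by
      rw [← Complex.sinh_sub]; congr 1; ring
    rw [e1, Complex.sinh_add]
    linear_combination (-1 : ℂ) * e2
  have h1z : 1 - Complex.sinh (a - y) / Complex.sinh (a + y) =
      2 * Complex.cosh a * Complex.sinh y / Complex.sinh (a + y) := by
    field_simp; linear_combination k1
  rw [h1z, k2]
  field_simp
  ring

theorem bd110_M_hyp (a y : ℂ) (hD : Complex.sinh (a + y) ≠ 0) (hy : Complex.sinh y ≠ 0) (hc : Complex.cosh a ≠ 0) :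
    1 - (2 * Complex.cosh a) ^ 2 / (1 - Complex.sinh (a - y) / Complex.sinh (a + y)) =
      - Complex.sinh (2 * a + y) / Complex.sinh y := by
  have k1 : Complex.sinh (a + y) - Complex.sinh (a - y) = 2 * Complex.cosh a * Complex.sinh y := by
    rw [Complex.sinh_add, Complex.sinh_sub]; ring
  have k2 : Complex.sinh (2 * a + y) = 2 * Complex.cosh a * Complex.sinh (a + y) - Complex.sinh y := by
    have e1 : Complex.sinh (2 * a + y) = Complex.sinh (a + (a + y)) := by congr 1; ring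
    have e2 : Complex.sinh y = Complex.sinh (a + y) * Complex.cosh a - Complex.cosh (a + y) * Complex.sinh a := by
      rw [← Complex.sinh_sub]; congr 1; ring
    rw [e1, Complex.sinh_add]
    linear_combination e2
  have h1z : 1 - Complex.sinh (a - y) / Complex.sinh (a + y) =
      2 * Complex.cosh a * Complex.sinh y / Complex.sinh (a + y) := by
    field_simp; linear_combination k1
  rw [h1z, k2]
  field_simp
  ring

/-- `L (y) = sinh (i λ - y) / sinh y` -/
noncomputable def bd110_Lf (lam y : ℝ) : ℂ := Complex.sinh ((lam : ℝ) * Complex.I - y) / Complex.sinh (y : ℂ)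

theorem bd110_sinh_ne {y : ℝ} (hy : y ≠ 0) : Complex.sinh (y : ℂ) ≠ 0 := by
  rw [← Complex.ofReal_sinh]
  exact_mod_cast fun h => hy (Real.sinh_eq_zero.1 h)

theorem bd110_c_eq (lam : ℝ) :
    ((2 * Real.cos (lam / 2) : ℝ) : ℂ) = 2 * Complex.cosh ((lam / 2 : ℝ) * Complex.I) := by
  rw [Complex.cosh_mul_I]; push_cast; rfl

theorem bd110_L_eq (lam y : ℝ) (h1 : Real.sin (lam / 2) ≠ 0) (h1' : Real.cos (lam / 2) ≠ 0) (hy : y ≠ 0) :
    ba2a270_L ((2 * Real.cos (lam / 2) : ℝ) : ℂ) (bd110_z lam y) = bd110_Lf lam y := by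
  unfold ba2a270_L bd110_z bd110_Lf
  have hc : Complex.cosh ((lam / 2 : ℝ) * Complex.I) ≠ 0 := by
    rw [Complex.cosh_mul_I, ← Complex.ofReal_cos]; exact_mod_cast h1'
  rw [bd110_c_eq, bd110_L_hyp _ _ (bd110_sinh_add_ne _ y h1) (bd110_sinh_ne hy) hc]
  congr 2
  push_cast; ring

theorem bd110_M_eq (lam y : ℝ) (h1 : Real.sin (lam / 2) ≠ 0) (h1' : Real.cos (lam / 2) ≠ 0) (hy : y ≠ 0) :
    ba2a270_M ((2 * Real.cos (lam / 2) : ℝ) : ℂ) (bd110_z lam y) = bd110_Lf lam (-y) := by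
  unfold ba2a270_M bd110_z bd110_Lf
  have hc : Complex.cosh ((lam / 2 : ℝ) * Complex.I) ≠ 0 := by
    rw [Complex.cosh_mul_I, ← Complex.ofReal_cos]; exact_mod_cast h1'
  rw [bd110_c_eq, bd110_M_hyp _ _ (bd110_sinh_add_ne _ y h1) (bd110_sinh_ne hy) hc]
  have e : (2 * (((lam / 2 : ℝ) : ℂ) * Complex.I) + (y : ℂ)) = (lam : ℝ) * Complex.I - ((-y : ℝ) : ℂ) := by
    push_cast; ring
  rw [e, Complex.ofReal_neg y, Complex.sinh_neg, neg_div, div_neg]

theorem bd110_Lf_conj (lam y : ℝ) : (starRingEnd ℂ) (bd110_Lf lam y) = bd110_Lf lam (-y) := by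
  unfold bd110_Lf
  rw [map_div₀, ← Complex.sinh_conj, ← Complex.sinh_conj, Complex.conj_ofReal, map_sub, map_mul,
    Complex.conj_ofReal, Complex.conj_ofReal, Complex.conj_I]
  have e : ((lam : ℝ) : ℂ) * -Complex.I - (y : ℂ) = -((lam : ℝ) * Complex.I - ((-y : ℝ) : ℂ)) := by
    push_cast; ring
  rw [e, Complex.sinh_neg, Complex.ofReal_neg y, Complex.sinh_neg, neg_div, div_neg]

theorem bd110_Lf_eq (lam y : ℝ) (hy : y ≠ 0) :
    bd110_Lf lam y = ((-Real.cos lam : ℝ) : ℂ) + ((Real.sin lam * Real.cosh y / Real.sinh y : ℝ) : ℂ) * Complex.I := by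
  unfold bd110_Lf
  rw [bd110_sinh_sub]
  have := bd110_sinh_ne hy
  push_cast
  field_simp

/-- `ℓ (y) = log |L (y)|` -/
noncomputable def bd110_ell (lam y : ℝ) : ℝ :=
  1 / 2 * Real.log ((Real.cosh (2 * y) - Real.cos (2 * lam)) / (Real.cosh (2 * y) - 1))

theorem bd110_Lf_norm (lam y : ℝ) (h2 : Real.sin lam ≠ 0) (hy : y ≠ 0) :
    ‖bd110_Lf lam y‖ = Real.exp (bd110_ell lam y) := by
  have hs : Real.sinh y ≠ 0 := fun h => hy (Real.sinh_eq_zero.1 h)
  have hs2 : 0 < Real.sinh y ^ 2 := by positivity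
  have hl2 : 0 < Real.sin lam ^ 2 := by positivity
  have e1 : Real.cosh (2 * y) - 1 = 2 * Real.sinh y ^ 2 := by
    rw [Real.cosh_two_mul]; nlinarith [Real.cosh_sq y]
  have e2 : Real.cosh (2 * y) - Real.cos (2 * lam) = 2 * (Real.sinh y ^ 2 + Real.sin lam ^ 2) := by
    rw [Real.cosh_two_mul, Real.cos_two_mul]; nlinarith [Real.cosh_sq y, Real.sin_sq_add_cos_sq lam]
  have e3 : ‖bd110_Lf lam y‖ ^ 2 = (Real.sinh y ^ 2 + Real.sin lam ^ 2) / Real.sinh y ^ 2 := by
    rw [bd110_Lf_eq lam y hy, ← Complex.normSq_eq_norm_sq, Complex.normSq_add_mul_I]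
    field_simp
    nlinarith [Real.cosh_sq y, Real.sin_sq_add_cos_sq lam]
  have hpos : 0 < (Real.sinh y ^ 2 + Real.sin lam ^ 2) / Real.sinh y ^ 2 := by positivity
  have e4 : Real.exp (bd110_ell lam y) ^ 2 = (Real.sinh y ^ 2 + Real.sin lam ^ 2) / Real.sinh y ^ 2 := by
    unfold bd110_ell
    rw [e1, e2, ← Real.exp_nat_mul, mul_div_mul_left _ _ (two_ne_zero)]
    have : ((2 : ℕ) : ℝ) * (1 / 2 * Real.log ((Real.sinh y ^ 2 + Real.sin lam ^ 2) / Real.sinh y ^ 2)) =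
        Real.log ((Real.sinh y ^ 2 + Real.sin lam ^ 2) / Real.sinh y ^ 2) := by push_cast; ring
    rw [this, Real.exp_log hpos]
  have := e3.trans e4.symm
  exact (pow_left_inj₀ (norm_nonneg _) (Real.exp_pos _).le two_ne_zero).1 this

theorem bd110_Lf_arg_neg (lam y : ℝ) (h2 : Real.sin lam ≠ 0) (hy : y ≠ 0) :
    Complex.arg (bd110_Lf lam (-y)) = - Complex.arg (bd110_Lf lam y) := by
  rw [← bd110_Lf_conj, Complex.arg_conj, if_neg]
  intro h
  rw [Complex.arg_eq_pi_iff] at h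
  have him := h.2
  have him2 : ∀ p q : ℝ, ((p : ℂ) + (q : ℂ) * Complex.I).im = q := fun p q => by simp
  rw [bd110_Lf_eq lam y hy, him2] at him
  have hs : Real.sinh y ≠ 0 := fun h => hy (Real.sinh_eq_zero.1 h)
  exact div_ne_zero (mul_ne_zero h2 (Real.cosh_pos y).ne') hs him

/-- the product of the `L (y_j)` over a symmetric set of non-zero real roots is positive -/
theorem bd110_prod_Lf (lam : ℝ) (h2 : Real.sin lam ≠ 0) (n : ℕ) (y : Fin n → ℝ) (hy0 : ∀ j, y j ≠ 0)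
    (hsym : ∀ j, y (Fin.rev j) = - y j) :
    ∏ j, bd110_Lf lam (y j) = ((Real.exp (∑ j, bd110_ell lam (y j)) : ℝ) : ℂ) := by
  have hsum : ∑ j, Complex.arg (bd110_Lf lam (y j)) = 0 := by
    have e := Equiv.sum_comp Fin.revPerm (fun j => Complex.arg (bd110_Lf lam (y j)))
    simp only [Fin.revPerm_apply, hsym] at e
    rw [sum_congr rfl fun j _ => bd110_Lf_arg_neg lam (y j) h2 (hy0 j), sum_neg_distrib] at e
    linarith
  have e1 : ∀ j, bd110_Lf lam (y j) =
      ((Real.exp (bd110_ell lam (y j)) : ℝ) : ℂ) * Complex.exp (Complex.arg (bd110_Lf lam (y j)) * Complex.I) := by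
    intro j
    rw [← bd110_Lf_norm lam (y j) h2 (hy0 j), Complex.norm_mul_exp_arg_mul_I]
  rw [prod_congr rfl fun j _ => e1 j, prod_mul_distrib, ← Complex.exp_sum, ← sum_mul, ← Complex.ofReal_sum, hsum,
    ← Complex.ofReal_prod, ← Real.exp_sum]
  simp

/-- **THE EIGENVALUE.**  `∏ L (z_j) + ∏ M (z_j) = 2 exp (∑ ℓ (y_j))`. -/
theorem bd110_Lam (lam : ℝ) (h1 : Real.sin (lam / 2) ≠ 0) (h1' : Real.cos (lam / 2) ≠ 0) (h2 : Real.sin lam ≠ 0)
    (n : ℕ) (y : Fin n → ℝ) (hy0 : ∀ j, y j ≠ 0) (hsym : ∀ j, y (Fin.rev j) = - y j) :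
    (∏ j, ba2a270_L ((2 * Real.cos (lam / 2) : ℝ) : ℂ) (bd110_z lam (y j))) +
        ∏ j, ba2a270_M ((2 * Real.cos (lam / 2) : ℝ) : ℂ) (bd110_z lam (y j)) =
      ((2 * Real.exp (∑ j, bd110_ell lam (y j)) : ℝ) : ℂ) := by
  rw [prod_congr rfl fun j _ => bd110_L_eq lam (y j) h1 h1' (hy0 j),
    prod_congr rfl fun j _ => bd110_M_eq lam (y j) h1 h1' (hy0 j)]
  have e : ∏ j, bd110_Lf lam (-y j) = ∏ j, bd110_Lf lam (y j) := by
    rw [← Equiv.prod_comp Fin.revPerm (fun j => bd110_Lf lam (y j))]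
    simp only [Fin.revPerm_apply, hsym]
  rw [e, bd110_prod_Lf lam h2 n y hy0 hsym]
  push_cast; ring

/-! ## 5. adapters to the vocabulary of 130 (`ba3x130_z`) and 120 (`ba120Lam`, `ba120c`) -/

theorem bd110_z130 (lam u : ℝ) (h : Real.sin (lam / 2) ≠ 0) : ba3x130_z lam u = bd110_z lam u := by
  rw [bd110_z_eq_cay lam u h, bd110_cay_eq_exp]
  unfold ba3x130_z ba3x130_phi bd110_t
  congr 1
  push_cast
  ring

/-- **the leaf wanted by 120 (19:25Z)**: the Bethe eigenvalue of a symmetric set of non-zero real roots -/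
theorem bd110_Lam120 (lam : ℝ) (h0 : 0 < lam) (hpi : lam < Real.pi) (n : ℕ) (y : Fin n → ℝ)
    (hy0 : ∀ j, y j ≠ 0) (hsym : ∀ j, y (Fin.rev j) = - y j) :
    ba120Lam ((ba120c lam : ℝ) : ℂ) (fun j => ba3x130_z lam (y j)) =
      ((2 * Real.exp (∑ j, bd110_ell lam (y j)) : ℝ) : ℂ) := by
  have h1 : Real.sin (lam / 2) ≠ 0 := (Real.sin_pos_of_pos_of_lt_pi (by linarith) (by linarith)).ne'
  have h1' : Real.cos (lam / 2) ≠ 0 :=
    (Real.cos_pos_of_mem_Ioo ⟨by linarith [Real.pi_pos], by linarith⟩).ne'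
  have h2 : Real.sin lam ≠ 0 := (Real.sin_pos_of_pos_of_lt_pi h0 hpi).ne'
  unfold ba120Lam ba120c
  simp only [bd110_z130 lam _ h1]
  exact bd110_Lam lam h1 h1' h2 n y hy0 hsym

theorem bd110_Lam120_re (lam : ℝ) (h0 : 0 < lam) (hpi : lam < Real.pi) (n : ℕ) (y : Fin n → ℝ)
    (hy0 : ∀ j, y j ≠ 0) (hsym : ∀ j, y (Fin.rev j) = - y j) :
    (ba120Lam ((ba120c lam : ℝ) : ℂ) (fun j => ba3x130_z lam (y j))).re =
      2 * Real.exp (∑ j, bd110_ell lam (y j)) := by
  rw [bd110_Lam120 lam h0 hpi n y hy0 hsym, Complex.ofReal_re]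

/-- `log Λ_B = log 2 + ∑ ℓ (y_j)`: the input of the condensation leaf B4 -/
theorem bd110_log_Lam120 (lam : ℝ) (h0 : 0 < lam) (hpi : lam < Real.pi) (n : ℕ) (y : Fin n → ℝ)
    (hy0 : ∀ j, y j ≠ 0) (hsym : ∀ j, y (Fin.rev j) = - y j) :
    Real.log (ba120Lam ((ba120c lam : ℝ) : ℂ) (fun j => ba3x130_z lam (y j))).re =
      Real.log 2 + ∑ j, bd110_ell lam (y j) := by
  rw [bd110_Lam120_re lam h0 hpi n y hy0 hsym, Real.log_mul two_ne_zero (Real.exp_pos _).ne', Real.log_exp]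

end Claimed.Agent.R292
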