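import Claimed.Agent.R292.Bethe.BA3x80

/-!
# Row 292 (S0540), unit BETHE, block B4 DISC : (u3) + (u4-MVT) + derivative, FOLDED system      (owner helper240; prefix `disc240_`)

Parts 1-3: Mathlib only (order D-1 of helper180).    Folded log Bethe map (`n = 2 (m+1)` symmetric roots `± w_i`), abstract in the kernel family:
`G_i (l, w) = N S_l (w_i) - ∑_k [Th_l (w_i - w_k) + Th_l (w_i + w_k)] - I_i`.

* `disc240_col_scaling`        **(u3)** `A = diag d + B`, `d_k > 0`, `∑_k |B j k| / d k ≤ θ < 1` `⟹` `|d j v j| ≤ max |A v| / (1 - θ)`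
* `disc240_col_scaling_inj`, `disc240_col_scaling_det`      injective, `det ≠ 0`
* `disc240_mvt`                **(u4-MVT)** `G w - G w' = (diag d + B) (w - w')`, `d_i = N s (η_i) - ∑_k [K (ζ_ik) + K (ζ'_ik)]`, `B_ik = K (ζ_ik) - K (ζ'_ik)`
* `disc240_unique_of_scaling`  uniqueness from (u4-MVT) + (u3)
* `disc240_G_contDiffAt`       `(l, w) ↦ G` is `C^r` (any `r`, also `ω`) if `(l, x) ↦ S, Th` are
* `disc240_G_fderiv_snd`       the `w`-part of the derivative is `diag (N ρ_N (w_i)) + [K (w_i - w_k) - K (w_i + w_k)]`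
* `disc240_G_invertible`       column scaling at `(l, w)` `⟹` `(fderiv ℝ G (l, w) ∘L inr).IsInvertible`   (the shape eaten by `U5x170Reg`)

Part 4 (order D-3, L4 SYM; prefix `sym240_`; on `ba3x80_F`, `ba3x80_rho` of helper80): reflection `z j = - y (rev j)`.
* `sym240_F_refl`, `sym240_zero_refl`, `sym240_rho_refl`, `sym240_rho_refl_nonneg`, `sym240_refl_monotone`
* **`sym240_symm_pos`**, **`sym240_symm_neg`**   the uniqueness clause of `roots_pos` / `roots_neg` gives `y (rev j) = - y j`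
* `sym240_ne_zero` (even length), `sym240_first_last`, `sym240_hull`, `sym240_abs_le_last`, `sym240_sum_odd`
* `sym240_I m j = j + 1 - (n + 1) / 2`, `sym240_I_rev`, `sym240_I_succ`
-/

set_option autoImplicit false
open Set Filter Topology

namespace Claimed.Agent.R292

section column_scaling

/-- **(u3) column scaling.** -/
theorem disc240_col_scaling {n : ℕ} (d : Fin n → ℝ) (B : Fin n → Fin n → ℝ) (θ : ℝ)
    (hd : ∀ k, 0 < d k) (hθ : θ < 1) (hB : ∀ j, ∑ k, |B j k| / d k ≤ θ)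
    (v w : Fin n → ℝ) (W : ℝ) (hw : ∀ j, |w j| ≤ W)
    (h : ∀ j, d j * v j + ∑ k, B j k * v k = w j) (j : Fin n) :
    |d j * v j| ≤ W / (1 - θ) := by
  obtain ⟨m, -, hm⟩ := Finset.exists_max_image Finset.univ (fun k => |d k * v k|) ⟨j, Finset.mem_univ j⟩
  have hm' : ∀ k, |d k * v k| ≤ |d m * v m| := fun k => hm k (Finset.mem_univ k)
  have h1 : |∑ k, B m k * v k| ≤ θ * |d m * v m| := by
    calc |∑ k, B m k * v k| ≤ ∑ k, |B m k * v k| := Finset.abs_sum_le_sum_abs _ _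
      _ = ∑ k, |B m k| / d k * |d k * v k| := by
          refine Finset.sum_congr rfl fun k _ => ?_
          rw [abs_mul, abs_mul, abs_of_pos (hd k)]
          field_simp [(hd k).ne']
      _ ≤ ∑ k, |B m k| / d k * |d m * v m| := by
          refine Finset.sum_le_sum fun k _ => ?_
          exact mul_le_mul_of_nonneg_left (hm' k) (div_nonneg (abs_nonneg _) (hd k).le)
      _ = (∑ k, |B m k| / d k) * |d m * v m| := by rw [Finset.sum_mul]
      _ ≤ θ * |d m * v m| := mul_le_mul_of_nonneg_right (hB m) (abs_nonneg _)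
  have h2 : |d m * v m| ≤ W + θ * |d m * v m| := by
    have e : d m * v m = w m - ∑ k, B m k * v k := by rw [← h m]; ring
    calc |d m * v m| = |w m - ∑ k, B m k * v k| := by rw [e]
      _ ≤ |w m| + |∑ k, B m k * v k| := abs_sub _ _
      _ ≤ W + θ * |d m * v m| := add_le_add (hw m) h1
  have h3 : |d m * v m| ≤ W / (1 - θ) := by
    rw [le_div_iff₀ (by linarith)]
    nlinarith
  exact (hm' j).trans h3

/-- the scaled matrix is injective. -/
theorem disc240_col_scaling_inj {n : ℕ} (d : Fin n → ℝ) (B : Fin n → Fin n → ℝ) (θ : ℝ)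
    (hd : ∀ k, 0 < d k) (hθ : θ < 1) (hB : ∀ j, ∑ k, |B j k| / d k ≤ θ)
    (v : Fin n → ℝ) (h : ∀ j, d j * v j + ∑ k, B j k * v k = 0) : v = 0 := by
  funext j
  have := disc240_col_scaling d B θ hd hθ hB v (fun _ => 0) 0 (by simp) h j
  rw [zero_div] at this
  have h0 : d j * v j = 0 := abs_eq_zero.1 (le_antisymm this (abs_nonneg _))
  exact (mul_eq_zero.1 h0).resolve_left (hd j).ne'

/-- the scaled matrix has nonzero determinant. -/
theorem disc240_col_scaling_det {n : ℕ} (d : Fin n → ℝ) (B : Fin n → Fin n → ℝ) (θ : ℝ)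
    (hd : ∀ k, 0 < d k) (hθ : θ < 1) (hB : ∀ j, ∑ k, |B j k| / d k ≤ θ) :
    (Matrix.diagonal d + Matrix.of B).det ≠ 0 := by
  intro h0
  obtain ⟨v, hv, hv0⟩ := Matrix.exists_mulVec_eq_zero_iff.2 h0
  apply hv
  refine disc240_col_scaling_inj d B θ hd hθ hB v fun j => ?_
  have := congrFun hv0 j
  rw [Matrix.add_mulVec, Pi.add_apply, Matrix.mulVec_diagonal] at this
  simpa [Matrix.mulVec, dotProduct] using this

/-- an injective endomorphism of a finite dimensional space is a continuous linear equivalence. -/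
theorem disc240_equiv_of_injective {E : Type*} [NormedAddCommGroup E] [NormedSpace ℝ E]
    [FiniteDimensional ℝ E] (f : E →L[ℝ] E) (hinj : ∀ v, f v = 0 → v = 0) :
    ∃ e : E ≃L[ℝ] E, ∀ v, e v = f v := by
  have hi : Function.Injective (f : E →ₗ[ℝ] E) := by
    rw [← LinearMap.ker_eq_bot, LinearMap.ker_eq_bot']
    exact hinj
  exact ⟨(LinearEquiv.ofInjectiveEndo (f : E →ₗ[ℝ] E) hi).toContinuousLinearEquiv, fun v => rfl⟩

end column_scaling

section mean_value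

/-- one dimensional mean value theorem, unordered form. -/
theorem disc240_mvt1 (f f' : ℝ → ℝ) (hf : ∀ x, HasDerivAt f (f' x) x) (p q : ℝ) :
    ∃ c ∈ uIcc p q, f p - f q = f' c * (p - q) := by
  rcases lt_trichotomy p q with h | h | h
  · obtain ⟨c, hc, he⟩ := exists_hasDerivAt_eq_slope f f' h
      (fun x _ => (hf x).continuousAt.continuousWithinAt) (fun x _ => hf x)
    refine ⟨c, ?_, ?_⟩
    · rw [uIcc_of_le h.le]; exact Ioo_subset_Icc_self hc
    · rw [he]; field_simp [(sub_pos.2 h).ne']; ring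
  · subst h
    exact ⟨p, left_mem_uIcc, by simp⟩
  · obtain ⟨c, hc, he⟩ := exists_hasDerivAt_eq_slope f f' h
      (fun x _ => (hf x).continuousAt.continuousWithinAt) (fun x _ => hf x)
    refine ⟨c, ?_, ?_⟩
    · rw [uIcc_of_ge h.le]; exact Ioo_subset_Icc_self hc
    · rw [he]; field_simp [(sub_pos.2 h).ne']

/-- **(u4-MVT) mean value form of the folded log Bethe map.** -/
theorem disc240_mvt {n : ℕ} (N : ℝ) (S Th s K : ℝ → ℝ) (hS : ∀ x, HasDerivAt S (s x) x)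
    (hTh : ∀ x, HasDerivAt Th (K x) x) (w w' : Fin n → ℝ) :
    ∃ (η : Fin n → ℝ) (ζ ζ' : Fin n → Fin n → ℝ), (∀ i, η i ∈ uIcc (w i) (w' i)) ∧
      (∀ i k, ζ i k ∈ uIcc (w i - w k) (w' i - w' k)) ∧
      (∀ i k, ζ' i k ∈ uIcc (w i + w k) (w' i + w' k)) ∧
      ∀ i, (N * S (w i) - ∑ k, (Th (w i - w k) + Th (w i + w k)))
          - (N * S (w' i) - ∑ k, (Th (w' i - w' k) + Th (w' i + w' k)))
        = (N * s (η i) - ∑ k, (K (ζ i k) + K (ζ' i k))) * (w i - w' i)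
          + ∑ k, (K (ζ i k) - K (ζ' i k)) * (w k - w' k) := by
  choose η hη hηe using fun i => disc240_mvt1 S s hS (w i) (w' i)
  choose ζ hζ hζe using fun i k => disc240_mvt1 Th K hTh (w i - w k) (w' i - w' k)
  choose ζ' hζ' hζe' using fun i k => disc240_mvt1 Th K hTh (w i + w k) (w' i + w' k)
  refine ⟨η, ζ, ζ', hη, hζ, hζ', fun i => ?_⟩
  have e1 : (∑ k, (Th (w i - w k) + Th (w i + w k))) - ∑ k, (Th (w' i - w' k) + Th (w' i + w' k))
      = ∑ k, (K (ζ i k) * ((w i - w k) - (w' i - w' k))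
          + K (ζ' i k) * ((w i + w k) - (w' i + w' k))) := by
    rw [← Finset.sum_sub_distrib]
    refine Finset.sum_congr rfl fun k _ => ?_
    rw [← hζe i k, ← hζe' i k]; ring
  have e2 : ∑ k, (K (ζ i k) * ((w i - w k) - (w' i - w' k))
          + K (ζ' i k) * ((w i + w k) - (w' i + w' k)))
      = (∑ k, (K (ζ i k) + K (ζ' i k))) * (w i - w' i)
        - ∑ k, (K (ζ i k) - K (ζ' i k)) * (w k - w' k) := by
    rw [Finset.sum_mul, ← Finset.sum_sub_distrib]
    exact Finset.sum_congr rfl fun k _ => by ring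
  have e3 := hηe i
  calc (N * S (w i) - ∑ k, (Th (w i - w k) + Th (w i + w k)))
          - (N * S (w' i) - ∑ k, (Th (w' i - w' k) + Th (w' i + w' k)))
      = N * (S (w i) - S (w' i)) - ((∑ k, (Th (w i - w k) + Th (w i + w k)))
          - ∑ k, (Th (w' i - w' k) + Th (w' i + w' k))) := by ring
    _ = _ := by rw [e3, e1, e2]; ring

/-- uniqueness from the mean value form and column scaling (folded system). -/
theorem disc240_unique_of_scaling {n : ℕ} (N : ℝ) (S Th s K : ℝ → ℝ)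
    (hS : ∀ x, HasDerivAt S (s x) x) (hTh : ∀ x, HasDerivAt Th (K x) x) (w w' : Fin n → ℝ)
    (hww : ∀ i, N * S (w i) - ∑ k, (Th (w i - w k) + Th (w i + w k))
      = N * S (w' i) - ∑ k, (Th (w' i - w' k) + Th (w' i + w' k)))
    (θ : ℝ) (hθ : θ < 1)
    (hsc : ∀ (η : Fin n → ℝ) (ζ ζ' : Fin n → Fin n → ℝ), (∀ i, η i ∈ uIcc (w i) (w' i)) →
      (∀ i k, ζ i k ∈ uIcc (w i - w k) (w' i - w' k)) →
      (∀ i k, ζ' i k ∈ uIcc (w i + w k) (w' i + w' k)) →
      (∀ i, 0 < N * s (η i) - ∑ k, (K (ζ i k) + K (ζ' i k))) ∧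
        ∀ i, ∑ k, |K (ζ i k) - K (ζ' i k)| / (N * s (η k) - ∑ j, (K (ζ k j) + K (ζ' k j))) ≤ θ) :
    w = w' := by
  obtain ⟨η, ζ, ζ', hη, hζ, hζ', he⟩ := disc240_mvt N S Th s K hS hTh w w'
  obtain ⟨hd, hB⟩ := hsc η ζ ζ' hη hζ hζ'
  have := disc240_col_scaling_inj (fun i => N * s (η i) - ∑ k, (K (ζ i k) + K (ζ' i k)))
    (fun i k => K (ζ i k) - K (ζ' i k)) θ hd hθ hB
    (fun i => w i - w' i) (fun i => by rw [← he i, hww i, sub_self])
  funext i
  have hi := congrFun this i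
  simpa [sub_eq_zero] using hi

end mean_value

section bethe_map

open scoped ContDiff

/-- the folded log Bethe map of a kernel family `S l`, `Th l` (momentum and phase), quantum numbers `I`. -/
def disc240_G {n : ℕ} (N : ℝ) (I : Fin n → ℝ) (S Th : ℝ → ℝ → ℝ) (p : ℝ × (Fin n → ℝ)) : Fin n → ℝ :=
  fun i => N * S p.1 (p.2 i) - ∑ k, (Th p.1 (p.2 i - p.2 k) + Th p.1 (p.2 i + p.2 k)) - I i

theorem disc240_G_apply {n : ℕ} (N : ℝ) (I : Fin n → ℝ) (S Th : ℝ → ℝ → ℝ) (l : ℝ) (w : Fin n → ℝ)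
    (i : Fin n) :
    disc240_G N I S Th (l, w) i
      = N * S l (w i) - ∑ k, (Th l (w i - w k) + Th l (w i + w k)) - I i := rfl

/-- the discrete density `ρ_N = ξ'` of the folded system. -/
noncomputable def disc240_rho {n : ℕ} (N : ℝ) (s K : ℝ → ℝ) (w : Fin n → ℝ) (x : ℝ) : ℝ :=
  s x - (1 / N) * ∑ k, (K (x - w k) + K (x + w k))

theorem disc240_N_rho {n : ℕ} {N : ℝ} (hN : N ≠ 0) (s K : ℝ → ℝ) (w : Fin n → ℝ) (x : ℝ) :
    N * disc240_rho N s K w x = N * s x - ∑ k, (K (x - w k) + K (x + w k)) := by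
  unfold disc240_rho
  field_simp

theorem disc240_G_contDiffAt {n : ℕ} {r : ℕ∞ω} (N : ℝ) (I : Fin n → ℝ) (S Th : ℝ → ℝ → ℝ) (l : ℝ)
    (w : Fin n → ℝ)
    (hS : ∀ x, ContDiffAt ℝ r (Function.uncurry S) (l, x))
    (hTh : ∀ x, ContDiffAt ℝ r (Function.uncurry Th) (l, x)) :
    ContDiffAt ℝ r (disc240_G N I S Th) (l, w) := by
  rw [contDiffAt_pi]
  intro i
  have hp : ∀ j : Fin n, ContDiffAt ℝ r (fun p : ℝ × (Fin n → ℝ) => p.2 j) (l, w) := fun j =>
    (contDiffAt_pi.1 contDiffAt_snd) j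
  have h1 : ContDiffAt ℝ r (fun p : ℝ × (Fin n → ℝ) => S p.1 (p.2 i)) (l, w) := by
    have := (hS (w i)).comp (l, w) (f := fun p : ℝ × (Fin n → ℝ) => (p.1, p.2 i))
      (contDiffAt_fst.prodMk (hp i))
    exact this
  have h2 : ∀ k, ContDiffAt ℝ r (fun p : ℝ × (Fin n → ℝ) => Th p.1 (p.2 i - p.2 k)) (l, w) := by
    intro k
    have := (hTh (w i - w k)).comp (l, w) (f := fun p : ℝ × (Fin n → ℝ) => (p.1, p.2 i - p.2 k))
      (contDiffAt_fst.prodMk ((hp i).sub (hp k)))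
    exact this
  have h2' : ∀ k, ContDiffAt ℝ r (fun p : ℝ × (Fin n → ℝ) => Th p.1 (p.2 i + p.2 k)) (l, w) := by
    intro k
    have := (hTh (w i + w k)).comp (l, w) (f := fun p : ℝ × (Fin n → ℝ) => (p.1, p.2 i + p.2 k))
      (contDiffAt_fst.prodMk ((hp i).add (hp k)))
    exact this
  have h3 : ContDiffAt ℝ r (fun p : ℝ × (Fin n → ℝ) =>
      ∑ k, (Th p.1 (p.2 i - p.2 k) + Th p.1 (p.2 i + p.2 k))) (l, w) :=
    ContDiffAt.sum fun k _ => (h2 k).add (h2' k)
  exact ((contDiffAt_const.mul h1).sub h3).sub contDiffAt_const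

/-- the `w`-part of the derivative of the folded log Bethe map. -/
theorem disc240_G_hasFDerivAt_snd {n : ℕ} (N : ℝ) (I : Fin n → ℝ) (S Th : ℝ → ℝ → ℝ) (l : ℝ)
    (w : Fin n → ℝ) (s K : ℝ → ℝ) (hS : ∀ x, HasDerivAt (S l) (s x) x)
    (hTh : ∀ x, HasDerivAt (Th l) (K x) x)
    (G' : ℝ × (Fin n → ℝ) →L[ℝ] (Fin n → ℝ)) (hG : HasFDerivAt (disc240_G N I S Th) G' (l, w))
    (v : Fin n → ℝ) (i : Fin n) :
    G' (0, v) i = (N * s (w i) - ∑ k, (K (w i - w k) + K (w i + w k))) * v i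
      + ∑ k, (K (w i - w k) - K (w i + w k)) * v k := by
  have hγ : HasDerivAt (fun t : ℝ => ((l, w + t • v) : ℝ × (Fin n → ℝ))) ((0 : ℝ), v) 0 := by
    refine (hasDerivAt_const (0 : ℝ) l).prodMk ?_
    have : HasDerivAt (fun t : ℝ => w + t • v) ((0 : Fin n → ℝ) + (1 : ℝ) • v) 0 :=
      (hasDerivAt_const (0 : ℝ) w).add ((hasDerivAt_id (0 : ℝ)).smul_const v)
    simpa using this
  have hG0 : HasFDerivAt (disc240_G N I S Th) G' ((fun t : ℝ => ((l, w + t • v) : ℝ × (Fin n → ℝ))) 0) := by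
    simpa using hG
  have h1 := hG0.comp_hasDerivAt (0 : ℝ) hγ
  have h2 := (hasDerivAt_pi.1 h1) i
  have hq : ∀ (c u : ℝ), HasDerivAt (fun t : ℝ => c + t * u) u 0 := by
    intro c u
    have h := ((hasDerivAt_id (0 : ℝ)).mul_const u).const_add c
    simp only [one_mul] at h
    exact h
  have hcomp : ∀ (f f' : ℝ → ℝ), (∀ x, HasDerivAt f (f' x) x) → ∀ c u : ℝ,
      HasDerivAt (fun t : ℝ => f (c + t * u)) (f' c * u) 0 := by
    intro f f' hf c u
    have h := hf (c + 0 * u)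
    have h' := h.comp (0 : ℝ) (hq c u)
    simp only [zero_mul, add_zero] at h'
    exact h'
  have h3 := hcomp (S l) s hS (w i) (v i)
  have h4 := fun k => hcomp (Th l) K hTh (w i - w k) (v i - v k)
  have h4' := fun k => hcomp (Th l) K hTh (w i + w k) (v i + v k)
  have h5 : HasDerivAt (fun t : ℝ => N * S l (w i + t * v i)
      - ∑ k, (Th l ((w i - w k) + t * (v i - v k)) + Th l ((w i + w k) + t * (v i + v k))) - I i)
      (N * (s (w i) * v i)
        - ∑ k, (K (w i - w k) * (v i - v k) + K (w i + w k) * (v i + v k))) 0 :=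
    ((h3.const_mul N).sub (HasDerivAt.fun_sum fun k _ => (h4 k).add (h4' k))).sub_const (I i)
  have h6 : (fun t : ℝ => (disc240_G N I S Th ∘ fun t : ℝ => ((l, w + t • v) : ℝ × (Fin n → ℝ))) t i)
      = fun t : ℝ => N * S l (w i + t * v i)
        - ∑ k, (Th l ((w i - w k) + t * (v i - v k)) + Th l ((w i + w k) + t * (v i + v k))) - I i := by
    funext t
    simp only [Function.comp, disc240_G_apply, Pi.add_apply, Pi.smul_apply, smul_eq_mul]
    congr 2
    refine Finset.sum_congr rfl fun k _ => ?_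
    congr 2 <;> ring
  rw [h6] at h2
  rw [h2.unique h5]
  have : ∑ k, (K (w i - w k) * (v i - v k) + K (w i + w k) * (v i + v k))
      = (∑ k, (K (w i - w k) + K (w i + w k))) * v i
        - ∑ k, (K (w i - w k) - K (w i + w k)) * v k := by
    rw [Finset.sum_mul, ← Finset.sum_sub_distrib]
    exact Finset.sum_congr rfl fun k _ => by ring
  rw [this]; ring

/-- the same for `fderiv`, from `ContDiffAt`. -/
theorem disc240_G_fderiv_snd {n : ℕ} {r : ℕ∞ω} (hr : r ≠ 0) (N : ℝ) (I : Fin n → ℝ)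
    (S Th : ℝ → ℝ → ℝ) (l : ℝ) (w : Fin n → ℝ) (s K : ℝ → ℝ)
    (hSc : ∀ x, ContDiffAt ℝ r (Function.uncurry S) (l, x))
    (hTc : ∀ x, ContDiffAt ℝ r (Function.uncurry Th) (l, x))
    (hS : ∀ x, HasDerivAt (S l) (s x) x) (hTh : ∀ x, HasDerivAt (Th l) (K x) x)
    (v : Fin n → ℝ) (i : Fin n) :
    (fderiv ℝ (disc240_G N I S Th) (l, w) ∘L ContinuousLinearMap.inr ℝ ℝ (Fin n → ℝ)) v i
      = (N * s (w i) - ∑ k, (K (w i - w k) + K (w i + w k))) * v i
        + ∑ k, (K (w i - w k) - K (w i + w k)) * v k := by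
  have hd : DifferentiableAt ℝ (disc240_G N I S Th) (l, w) :=
    (disc240_G_contDiffAt N I S Th l w hSc hTc).differentiableAt hr
  have := disc240_G_hasFDerivAt_snd N I S Th l w s K hS hTh _ hd.hasFDerivAt v i
  simpa using this

/-- strict differentiability. -/
theorem disc240_G_hasStrictFDerivAt {n : ℕ} {r : ℕ∞ω} (hr : r ≠ 0) (N : ℝ) (I : Fin n → ℝ)
    (S Th : ℝ → ℝ → ℝ) (l : ℝ) (w : Fin n → ℝ)
    (hSc : ∀ x, ContDiffAt ℝ r (Function.uncurry S) (l, x))
    (hTc : ∀ x, ContDiffAt ℝ r (Function.uncurry Th) (l, x)) :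
    HasStrictFDerivAt (disc240_G N I S Th) (fderiv ℝ (disc240_G N I S Th) (l, w)) (l, w) :=
  (disc240_G_contDiffAt N I S Th l w hSc hTc).hasStrictFDerivAt hr

/-- **column scaling at `(l, w)` makes the `w`-derivative invertible** (the shape of `U5x170Reg`). -/
theorem disc240_G_invertible {n : ℕ} {r : ℕ∞ω} (hr : r ≠ 0) (N : ℝ) (I : Fin n → ℝ)
    (S Th : ℝ → ℝ → ℝ) (l : ℝ) (w : Fin n → ℝ) (s K : ℝ → ℝ)
    (hSc : ∀ x, ContDiffAt ℝ r (Function.uncurry S) (l, x))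
    (hTc : ∀ x, ContDiffAt ℝ r (Function.uncurry Th) (l, x))
    (hS : ∀ x, HasDerivAt (S l) (s x) x) (hTh : ∀ x, HasDerivAt (Th l) (K x) x)
    (θ : ℝ) (hθ : θ < 1)
    (hd : ∀ i, 0 < N * s (w i) - ∑ k, (K (w i - w k) + K (w i + w k)))
    (hB : ∀ i, ∑ k, |K (w i - w k) - K (w i + w k)|
      / (N * s (w k) - ∑ j, (K (w k - w j) + K (w k + w j))) ≤ θ) :
    (fderiv ℝ (disc240_G N I S Th) (l, w) ∘L ContinuousLinearMap.inr ℝ ℝ (Fin n → ℝ)).IsInvertible := by
  obtain ⟨e, he⟩ := disc240_equiv_of_injective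
    (fderiv ℝ (disc240_G N I S Th) (l, w) ∘L ContinuousLinearMap.inr ℝ ℝ (Fin n → ℝ)) (by
      intro v hv
      refine disc240_col_scaling_inj (fun i => N * s (w i) - ∑ k, (K (w i - w k) + K (w i + w k)))
        (fun i k => K (w i - w k) - K (w i + w k)) θ hd hθ hB v fun i => ?_
      rw [← disc240_G_fderiv_snd hr N I S Th l w s K hSc hTc hS hTh v i, hv]
      rfl)
  exact ⟨e, ContinuousLinearMap.ext he⟩

end bethe_map

section symmetry

variable {m : ℕ}

/-- the reflected root list `j ↦ - y (rev j)`. -/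
def sym240_refl (y : Fin (m + 1) → ℝ) : Fin (m + 1) → ℝ := fun j => - y (Fin.rev j)

theorem sym240_refl_apply (y : Fin (m + 1) → ℝ) (j : Fin (m + 1)) :
    sym240_refl y j = - y (Fin.rev j) := rfl

theorem sym240_refl_refl (y : Fin (m + 1) → ℝ) : sym240_refl (sym240_refl y) = y := by
  funext j; simp [sym240_refl]

theorem sym240_refl_zero (y : Fin (m + 1) → ℝ) : sym240_refl y 0 = - y (Fin.last m) := by
  simp [sym240_refl]

theorem sym240_refl_last (y : Fin (m + 1) → ℝ) : sym240_refl y (Fin.last m) = - y 0 := by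
  simp [sym240_refl]

theorem sym240_sum_rev (f : Fin (m + 1) → ℝ) : ∑ k, f (Fin.rev k) = ∑ k, f k :=
  Equiv.sum_comp Fin.revPerm f

theorem sym240_refl_monotone {y : Fin (m + 1) → ℝ} (hy : Monotone y) : Monotone (sym240_refl y) := by
  intro i j hij
  exact neg_le_neg (hy (Fin.rev_le_rev.2 hij))

theorem sym240_refl_strictMono {y : Fin (m + 1) → ℝ} (hy : StrictMono y) :
    StrictMono (sym240_refl y) := by
  intro i j hij
  exact neg_lt_neg (hy (Fin.rev_lt_rev.2 hij))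

/-- the Bethe map intertwines the reflection. -/
theorem sym240_F_refl (Lr : ℝ) (S Θ : ℝ → ℝ → ℝ) (I : Fin (m + 1) → ℝ) (μ : ℝ)
    (hS : ∀ u, S μ (-u) = - S μ u) (hΘ : ∀ u, Θ μ (-u) = - Θ μ u)
    (hI : ∀ j, I (Fin.rev j) = - I j) (y : Fin (m + 1) → ℝ) (j : Fin (m + 1)) :
    ba3x80_F Lr S Θ I (μ, sym240_refl y) j = - ba3x80_F Lr S Θ I (μ, y) (Fin.rev j) := by
  simp only [ba3x80_F, sym240_refl]
  have e1 : ∑ k, Θ μ (-y (Fin.rev j) - -y (Fin.rev k)) = - ∑ k, Θ μ (y (Fin.rev j) - y k) := by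
    rw [← sym240_sum_rev (fun k => Θ μ (y (Fin.rev j) - y k)), ← Finset.sum_neg_distrib]
    refine Finset.sum_congr rfl fun k _ => ?_
    rw [← hΘ]; congr 1; ring
  rw [e1, hS, hI j]
  ring

theorem sym240_zero_refl (Lr : ℝ) (S Θ : ℝ → ℝ → ℝ) (I : Fin (m + 1) → ℝ) (μ : ℝ)
    (hS : ∀ u, S μ (-u) = - S μ u) (hΘ : ∀ u, Θ μ (-u) = - Θ μ u)
    (hI : ∀ j, I (Fin.rev j) = - I j) {y : Fin (m + 1) → ℝ}
    (hz : ba3x80_F Lr S Θ I (μ, y) = 0) : ba3x80_F Lr S Θ I (μ, sym240_refl y) = 0 := by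
  funext j
  rw [sym240_F_refl Lr S Θ I μ hS hΘ hI y j, hz]
  simp

/-- the counting density of the reflected list. -/
theorem sym240_rho_refl (Lr : ℝ) (s K : ℝ → ℝ → ℝ) (μ : ℝ) (hs : ∀ u, s μ (-u) = s μ u)
    (hK : ∀ u, K μ (-u) = K μ u) (y : Fin (m + 1) → ℝ) (u : ℝ) :
    ba3x80_rho Lr s K μ (sym240_refl y) u = ba3x80_rho Lr s K μ y (-u) := by
  simp only [ba3x80_rho, sym240_refl]
  rw [hs, ← sym240_sum_rev (fun k => K μ (-u - y k))]
  congr 1
  refine Finset.sum_congr rfl fun k _ => ?_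
  rw [← hK]; congr 1; ring

theorem sym240_rho_refl_nonneg (Lr : ℝ) (s K : ℝ → ℝ → ℝ) (μ : ℝ) (hs : ∀ u, s μ (-u) = s μ u)
    (hK : ∀ u, K μ (-u) = K μ u) {y : Fin (m + 1) → ℝ}
    (hρ : ∀ u ∈ Icc (y 0) (y (Fin.last m)), 0 ≤ ba3x80_rho Lr s K μ y u) :
    ∀ u ∈ Icc (sym240_refl y 0) (sym240_refl y (Fin.last m)),
      0 ≤ ba3x80_rho Lr s K μ (sym240_refl y) u := by
  intro u hu
  rw [sym240_refl_zero, sym240_refl_last] at hu
  rw [sym240_rho_refl Lr s K μ hs hK]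
  exact hρ (-u) ⟨by linarith [hu.2], by linarith [hu.1]⟩

/-- **(L4, repulsive sign)** the unique monotone root list with nonnegative density on its hull is symmetric. -/
theorem sym240_symm_pos (Lr : ℝ) (S Θ s K : ℝ → ℝ → ℝ) (I : Fin (m + 1) → ℝ) (μ : ℝ)
    (hS : ∀ u, S μ (-u) = - S μ u) (hΘ : ∀ u, Θ μ (-u) = - Θ μ u)
    (hs : ∀ u, s μ (-u) = s μ u) (hK : ∀ u, K μ (-u) = K μ u)
    (hI : ∀ j, I (Fin.rev j) = - I j) {y : Fin (m + 1) → ℝ} (hy : Monotone y)
    (hρ : ∀ u ∈ Icc (y 0) (y (Fin.last m)), 0 ≤ ba3x80_rho Lr s K μ y u)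
    (hz : ba3x80_F Lr S Θ I (μ, y) = 0)
    (huniq : ∀ z : Fin (m + 1) → ℝ, Monotone z →
      (∀ u ∈ Icc (z 0) (z (Fin.last m)), 0 ≤ ba3x80_rho Lr s K μ z u) →
      ba3x80_F Lr S Θ I (μ, z) = 0 → z = y) (j : Fin (m + 1)) :
    y (Fin.rev j) = - y j := by
  have h := huniq (sym240_refl y) (sym240_refl_monotone hy)
    (sym240_rho_refl_nonneg Lr s K μ hs hK hρ) (sym240_zero_refl Lr S Θ I μ hS hΘ hI hz)
  have hj := congrFun h j
  rw [sym240_refl_apply] at hj
  linarith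

/-- **(L4, attractive sign)** the unique root list is symmetric. -/
theorem sym240_symm_neg (Lr : ℝ) (S Θ : ℝ → ℝ → ℝ) (I : Fin (m + 1) → ℝ) (μ : ℝ)
    (hS : ∀ u, S μ (-u) = - S μ u) (hΘ : ∀ u, Θ μ (-u) = - Θ μ u)
    (hI : ∀ j, I (Fin.rev j) = - I j) {y : Fin (m + 1) → ℝ}
    (hz : ba3x80_F Lr S Θ I (μ, y) = 0)
    (huniq : ∀ z : Fin (m + 1) → ℝ, ba3x80_F Lr S Θ I (μ, z) = 0 → z = y) (j : Fin (m + 1)) :
    y (Fin.rev j) = - y j := by
  have h := huniq (sym240_refl y) (sym240_zero_refl Lr S Θ I μ hS hΘ hI hz)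
  have hj := congrFun h j
  rw [sym240_refl_apply] at hj
  linarith

/-- a symmetric injective list of even length avoids `0`. -/
theorem sym240_ne_zero {y : Fin (m + 1) → ℝ} (hy : Function.Injective y)
    (hsym : ∀ j, y (Fin.rev j) = - y j) (hev : Even (m + 1)) (j : Fin (m + 1)) : y j ≠ 0 := by
  intro h0
  have h1 : y (Fin.rev j) = y j := by rw [hsym j, h0, neg_zero]
  have h2 : Fin.rev j = j := hy h1
  have h3 : (Fin.rev j : ℕ) = (j : ℕ) := congrArg Fin.val h2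
  rw [Fin.val_rev] at h3
  obtain ⟨r, hr⟩ := hev
  have := j.isLt
  omega

theorem sym240_first_last {y : Fin (m + 1) → ℝ} (hsym : ∀ j, y (Fin.rev j) = - y j) :
    y 0 = - y (Fin.last m) := by
  have := hsym (Fin.last m)
  rwa [Fin.rev_last] at this

/-- the hull of a symmetric monotone list is `[-Q, Q]`, `Q = y last ≥ 0`. -/
theorem sym240_hull {y : Fin (m + 1) → ℝ} (hy : Monotone y) (hsym : ∀ j, y (Fin.rev j) = - y j) :
    Icc (y 0) (y (Fin.last m)) = Icc (-(y (Fin.last m))) (y (Fin.last m)) ∧ 0 ≤ y (Fin.last m) := by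
  have h := sym240_first_last hsym
  refine ⟨by rw [h], ?_⟩
  have : y 0 ≤ y (Fin.last m) := hy (Fin.zero_le _)
  linarith

theorem sym240_abs_le_last {y : Fin (m + 1) → ℝ} (hy : Monotone y)
    (hsym : ∀ j, y (Fin.rev j) = - y j) (j : Fin (m + 1)) : |y j| ≤ y (Fin.last m) := by
  have h := sym240_first_last hsym
  rw [abs_le]
  exact ⟨by rw [← h]; exact hy (Fin.zero_le _), hy (Fin.le_last _)⟩

/-- sums of even observables over a symmetric list; odd observables cancel. -/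
theorem sym240_sum_odd {y : Fin (m + 1) → ℝ} (hsym : ∀ j, y (Fin.rev j) = - y j) (g : ℝ → ℝ)
    (hg : ∀ u, g (-u) = - g u) : ∑ j, g (y j) = 0 := by
  have h : ∑ j, g (y j) = - ∑ j, g (y j) := by
    conv_lhs => rw [← sym240_sum_rev (fun j => g (y j))]
    rw [← Finset.sum_neg_distrib]
    exact Finset.sum_congr rfl fun j _ => by rw [hsym j, hg]
  linarith

/-- the quantum numbers `I_j = j + 1 - (n + 1) / 2`, `n = m + 1`. -/
noncomputable def sym240_I (m : ℕ) (j : Fin (m + 1)) : ℝ := (j : ℝ) + 1 - (((m : ℝ) + 1) + 1) / 2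

theorem sym240_I_rev (j : Fin (m + 1)) : sym240_I m (Fin.rev j) = - sym240_I m j := by
  unfold sym240_I
  rw [Fin.val_rev]
  have hj : (j : ℕ) + 1 ≤ m + 1 := j.isLt
  rw [Nat.cast_sub hj]
  push_cast
  ring

theorem sym240_I_succ (k : Fin m) : sym240_I m k.succ = sym240_I m k.castSucc + 1 := by
  unfold sym240_I
  simp only [Fin.val_succ, Fin.val_castSucc]
  push_cast
  ring

end symmetry

end Claimed.Agent.R292
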