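/-
R292 / unit BETHE, block B7 FOURIER, THE POINT c = 2 (rational kernels).  Pen: 222.  Prefix `ba222_`.  0 sorry.
On the API of `Bethe/Four230.lean` (`ba230_ft`, `ba230_conv`, `ba230_conv_identity`).

Sec. 1  `ba222_cau a x = a/(pi (x^2+a^2))`, `ba222_ft_cau` : int e^{iwx} cau_a(x) dx = e^{-a|w|}  (Fourier inversion of e^{-a|t|}).
Sec. 2  s2 = cau (1/2) = 2/(pi(4x^2+1)), K2 = cau 1 = 1/(pi(x^2+1)), r2 = ba230_rho 1 = 1/(2 cosh pi x):
        `ba222_rho_solves` : r2 + K2*r2 = s2.
Sec. 3  R2 := s2 * r2 : `_R_integrable _R_continuous _R_bdd _R_even _R_nonneg _R_integral (= 1/2) _R_norm`,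
        `ba222_R_resolvent` : R2 + K2*R2 = K2,   `ba222_rho_eq_sub` : r2 + R2*s2 = s2.
Sec. 4  `ba222_param` : integrate `A_a + K*A_a = C_a` over a parameter measure (Fubini).
Sec. 5  universal family `ba222_T a x = (1/2)[xi_{pi a}(pi x) + xi_{pi(1-a)}(pi x)]`: `ba222_ft_T` : cosh(w/2) T_a^(w) = cosh((1/2-a)w),
        `_T_integrable _T_continuous _T_nonneg _T_integral (= 1) _T_prod_integrable`.
Sec. 6  `ba222_eps x = (1/2) log((cosh pi x + 1)/(cosh pi x - 1))` (= log coth(pi|x|/2)), `ba222_e0 x = (1/2) log((x^2+1)/x^2)`: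
        `ba222_T_param_integral` : int_0^{1/2} pi T_a(x) da = eps2 x,  `ba222_eps_integrable`,
        `ba222_eps_solves` : eps2 + K2*eps2 = e02 (x != 0).
Sec. 7  `ba222_eps_eq` : ba222_eps = ba230_eps 1 (so `ba230_eps_edge`, `ba230_ft_eps`, ... at lam = 1 apply);  `ba222_e0_integrable _even _measurable
        _continuousAt _nonneg`, `ba222_ft_e0`;  `ba222_eps_eq_sub` : eps2 + R2*e02 = e02 (x != 0);  primed versions in `ba230_eps 1`.
-/
import Claimed.Agent.R292.Bethe.Four230

set_option autoImplicit false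
open MeasureTheory Filter Topology Set Complex
open scoped FourierTransform Convolution

namespace Claimed.Agent.R292

/-! ## Sec. 1  the Cauchy kernel and its Fourier transform -/

/-- the Cauchy density of scale `a`. -/
noncomputable def ba222_cau (a x : ℝ) : ℝ := a / (Real.pi * (x ^ 2 + a ^ 2))

lemma ba222_cau_eq {a : ℝ} (ha : 0 < a) (x : ℝ) :
    ba222_cau a x = (Real.pi * a)⁻¹ * (1 + (a⁻¹ * x) ^ 2)⁻¹ := by
  unfold ba222_cau
  have := Real.pi_pos
  have h1 : 0 < x ^ 2 + a ^ 2 := by positivity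
  have h2 : 0 < 1 + (a⁻¹ * x) ^ 2 := by positivity
  field_simp
  ring

lemma ba222_cau_integrable {a : ℝ} (ha : 0 < a) : Integrable (ba222_cau a) := by
  have := (integrable_inv_one_add_sq.comp_mul_left' (R := a⁻¹) (inv_pos.2 ha).ne').const_mul (Real.pi * a)⁻¹
  exact this.congr (Eventually.of_forall fun x => (ba222_cau_eq ha x).symm)

lemma ba222_cau_continuous {a : ℝ} (ha : 0 < a) : Continuous (ba222_cau a) := by
  unfold ba222_cau
  refine Continuous.div continuous_const (by fun_prop) (fun x => ?_)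
  have := Real.pi_pos
  positivity

lemma ba222_cau_pos {a : ℝ} (ha : 0 < a) (x : ℝ) : 0 < ba222_cau a x := by
  unfold ba222_cau
  have := Real.pi_pos
  positivity

lemma ba222_cau_le {a : ℝ} (ha : 0 < a) (x : ℝ) : |ba222_cau a x| ≤ 1 / (Real.pi * a) := by
  rw [abs_of_pos (ba222_cau_pos ha x)]
  unfold ba222_cau
  have := Real.pi_pos
  rw [div_le_div_iff₀ (by positivity) (by positivity)]
  nlinarith [sq_nonneg x, mul_pos this ha]

lemma ba222_cau_even (a x : ℝ) : ba222_cau a (-x) = ba222_cau a x := by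
  unfold ba222_cau
  rw [neg_sq]

/-- the transform of the two-sided exponential. -/
lemma ba222_ft_expabs {a : ℝ} (ha : 0 < a) (x : ℝ) :
    ∫ t : ℝ, cexp (I * x * t) * ((Real.exp (-a * |t|) : ℝ) : ℂ) = ((2 * a / (a ^ 2 + x ^ 2) : ℝ) : ℂ) := by
  have hre1 : (I * x + a : ℂ).re = a := by simp
  have hre2 : (I * x - a : ℂ).re = -a := by simp
  have e1 : ∀ t ∈ Iic (0 : ℝ), cexp (I * x * t) * ((Real.exp (-a * |t|) : ℝ) : ℂ) = cexp ((I * x + a) * t) := by
    intro t ht
    rw [abs_of_nonpos ht, Complex.ofReal_exp, ← Complex.exp_add]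
    congr 1; push_cast; ring
  have e2 : ∀ t ∈ Ioi (0 : ℝ), cexp (I * x * t) * ((Real.exp (-a * |t|) : ℝ) : ℂ) = cexp ((I * x - a) * t) := by
    intro t ht
    rw [abs_of_pos ht, Complex.ofReal_exp, ← Complex.exp_add]
    congr 1; push_cast; ring
  have i1 : IntegrableOn (fun t : ℝ => cexp (I * x * t) * ((Real.exp (-a * |t|) : ℝ) : ℂ)) (Iic 0) :=
    (integrableOn_exp_mul_complex_Iic (a := I * x + a) (by rw [hre1]; exact ha) 0).congr_fun
      (fun t ht => (e1 t ht).symm) measurableSet_Iic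
  have i2 : IntegrableOn (fun t : ℝ => cexp (I * x * t) * ((Real.exp (-a * |t|) : ℝ) : ℂ)) (Ioi 0) :=
    (integrableOn_exp_mul_complex_Ioi (a := I * x - a) (by rw [hre2]; linarith) 0).congr_fun
      (fun t ht => (e2 t ht).symm) measurableSet_Ioi
  rw [← intervalIntegral.integral_Iic_add_Ioi i1 i2, setIntegral_congr_fun measurableSet_Iic e1,
    setIntegral_congr_fun measurableSet_Ioi e2, integral_exp_mul_complex_Iic (by rw [hre1]; exact ha),
    integral_exp_mul_complex_Ioi (by rw [hre2]; linarith)]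
  have n1 : (I * x + a : ℂ) ≠ 0 := fun h => by
    have := congrArg Complex.re h; rw [hre1] at this; simp at this; exact ha.ne' this
  have n2 : (I * x - a : ℂ) ≠ 0 := fun h => by
    have := congrArg Complex.re h; rw [hre2] at this; simp at this; exact ha.ne' this
  have n3 : ((a : ℂ) ^ 2 + (x : ℂ) ^ 2) ≠ 0 := by
    have : (0 : ℝ) < a ^ 2 + x ^ 2 := by positivity
    exact_mod_cast this.ne'
  push_cast
  simp only [mul_zero, Complex.exp_zero]
  field_simp
  ring_nf
  rw [Complex.I_sq]
  ring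

/-- **the Cauchy transform**: `∫ e^{iwx} a/(π(x²+a²)) dx = e^{-a|w|}`. -/
theorem ba222_ft_cau {a : ℝ} (ha : 0 < a) (w : ℝ) :
    ba230_ft (ba222_cau a) w = ((Real.exp (-a * |w|) : ℝ) : ℂ) := by
  set g : ℝ → ℂ := fun t => ((Real.exp (-a * |t|) : ℝ) : ℂ) with hg
  have hgi : Integrable g := (ba230_integrable_exp_abs ha).ofReal
  have hgc : Continuous g := by rw [hg]; fun_prop
  have hpi := Real.pi_pos
  have hF : 𝓕 g = fun ξ : ℝ => (((2 * Real.pi) * ba222_cau a (2 * Real.pi * ξ) : ℝ) : ℂ) := by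
    funext ξ
    rw [Real.fourier_real_eq_integral_exp_smul]
    have := ba222_ft_expabs ha (-(2 * Real.pi * ξ))
    have e : ∀ v : ℝ, cexp (((-2 * Real.pi * v * ξ : ℝ) : ℂ) * I) • g v
        = cexp (I * ((-(2 * Real.pi * ξ) : ℝ) : ℂ) * v) * ((Real.exp (-a * |v|) : ℝ) : ℂ) := by
      intro v
      rw [smul_eq_mul]
      congr 2
      push_cast; ring
    simp_rw [e]
    rw [this]
    congr 1
    unfold ba222_cau
    have h1 : 0 < a ^ 2 + (-(2 * Real.pi * ξ)) ^ 2 := by positivity
    have h2 : 0 < (2 * Real.pi * ξ) ^ 2 + a ^ 2 := by positivity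
    field_simp
    ring
  have hFi : Integrable (𝓕 g) := by
    rw [hF]
    exact (((ba222_cau_integrable ha).comp_mul_left' (R := 2 * Real.pi) (by positivity)).const_mul (2 * Real.pi)).ofReal
  have hinv := MeasureTheory.Integrable.fourierInv_fourier_eq hgi hFi (v := w) hgc.continuousAt
  rw [Real.fourierInv_eq_fourier_neg, hF] at hinv
  have h1 := ba230_ft_eq_fourier (fun ξ => (2 * Real.pi) * ba222_cau a (2 * Real.pi * ξ)) (2 * Real.pi * w)
  have e1 : -(2 * Real.pi * w / (2 * Real.pi)) = -w := by field_simp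
  rw [e1, hinv, ba230_ft_const_mul, ba230_ft_scale _ _ _ (by positivity : (0 : ℝ) < 2 * Real.pi), ← mul_assoc,
    ← Complex.ofReal_mul, mul_inv_cancel₀ (by positivity), Complex.ofReal_one, one_mul,
    mul_div_cancel_left₀ _ (by positivity)] at h1
  exact h1

theorem ba222_cau_integral {a : ℝ} (ha : 0 < a) : ∫ x, ba222_cau a x = 1 := by
  have h := ba222_ft_cau ha 0
  rw [ba230_ft_zero_eq] at h
  have : (∫ x, ba222_cau a x) = Real.exp (-a * |(0 : ℝ)|) := by exact_mod_cast h
  rw [this]; simp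

/-! ## Sec. 2  `r2 + K2 * r2 = s2` -/

/-- the three Fourier symbols of the point `c = 2`, in `E = e^{-|w|/2}`. -/
lemma ba222_symbols (w : ℝ) :
    ∃ E : ℂ, E ≠ 0 ∧ 1 + E ^ 2 ≠ 0 ∧ E = ((Real.exp (-(1 / 2) * |w|) : ℝ) : ℂ) ∧
      ba230_ft (ba222_cau (1 / 2)) w = E ∧ ba230_ft (ba222_cau 1) w = E ^ 2 ∧
      ba230_ft (ba230_rho 1) w = E / (1 + E ^ 2) := by
  set e : ℝ := Real.exp (-(1 / 2) * |w|) with he
  have hepos : 0 < e := Real.exp_pos _
  have h2 : Real.exp (-1 * |w|) = e ^ 2 := by
    rw [he, ← Real.exp_nat_mul]; congr 1; push_cast; ring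
  have hc : 2 * Real.cosh (1 * w / 2) = (1 + e ^ 2) / e := by
    rw [← Real.cosh_abs, Real.cosh_eq]
    have a1 : |1 * w / 2| = 1 / 2 * |w| := by
      rw [one_mul, abs_div, abs_of_pos (by norm_num : (0 : ℝ) < 2)]; ring
    have a2 : Real.exp (1 / 2 * |w|) = e⁻¹ := by rw [he, ← Real.exp_neg]; congr 1; ring
    have a3 : Real.exp (-(1 / 2 * |w|)) = e := by rw [he]; congr 1; ring
    rw [a1, a2, a3]
    field_simp
  have hr := ba230_ft_rho one_pos w
  have hne : (e : ℂ) ≠ 0 := by exact_mod_cast hepos.ne'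
  have hne2 : (1 + (e : ℂ) ^ 2) ≠ 0 := by
    have : (0 : ℝ) < 1 + e ^ 2 := by positivity
    exact_mod_cast this.ne'
  refine ⟨(e : ℂ), hne, hne2, rfl, ?_, ?_, ?_⟩
  · rw [ba222_ft_cau (by norm_num)]
  · rw [ba222_ft_cau one_pos, h2]; push_cast; ring
  · have hc' : (2 * ((Real.cosh (1 * w / 2) : ℝ) : ℂ)) = (1 + (e : ℂ) ^ 2) / e := by exact_mod_cast hc
    rw [hc'] at hr
    rw [eq_div_iff hne2]
    field_simp at hr
    linear_combination hr

/-- **ID1 at `c = 2`**: `r2 + K2 * r2 = s2`. -/
theorem ba222_rho_solves (x : ℝ) :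
    ba230_rho 1 x + ba230_conv (ba222_cau 1) (ba230_rho 1) x = ba222_cau (1 / 2) x := by
  refine ba230_conv_identity (ba230_rho_integrable one_pos) (ba230_rho_integrable one_pos)
    (ba222_cau_integrable (by norm_num)) (ba222_cau_integrable one_pos) (ba222_cau_continuous one_pos)
    (ba222_cau_le one_pos) (fun w _ => ?_) (ba230_rho_continuous one_pos).continuousAt
    (ba222_cau_continuous (by norm_num)).continuousAt
  obtain ⟨E, hE, hE2, -, es, eK, er⟩ := ba222_symbols w
  rw [es, eK, er]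
  field_simp

/-! ## Sec. 3  the resolvent kernel `R2 = s2 * r2` -/

/-- **the resolvent kernel at `c = 2`**: `R2 = s2 * r2`, `R2^ = K2^/(1+K2^)`. -/
noncomputable def ba222_R : ℝ → ℝ := ba230_conv (ba222_cau (1 / 2)) (ba230_rho 1)

theorem ba222_R_integrable : Integrable ba222_R :=
  ba230_conv_integrable (ba222_cau_integrable (by norm_num)) (ba230_rho_integrable one_pos)

theorem ba222_R_continuous : Continuous ba222_R :=
  ba230_conv_continuous (ba222_cau_continuous (by norm_num)) (ba222_cau_le (by norm_num)) (ba230_rho_integrable one_pos)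

theorem ba222_R_bdd : ∃ b : ℝ, ∀ u, |ba222_R u| ≤ b :=
  ⟨_, ba230_conv_abs_le (ba222_cau_le (by norm_num)) (ba230_rho_integrable one_pos)⟩

theorem ba222_R_even (u : ℝ) : ba222_R (-u) = ba222_R u :=
  ba230_conv_even (ba222_cau_even _) (ba230_rho_even 1) u

theorem ba222_R_nonneg (u : ℝ) : 0 ≤ ba222_R u :=
  ba230_conv_nonneg (fun v => (ba222_cau_pos (by norm_num) v).le) (fun v => (ba230_rho_pos one_pos v).le) u

theorem ba222_ft_R (w : ℝ) :
    ba230_ft ba222_R w = ba230_ft (ba222_cau (1 / 2)) w * ba230_ft (ba230_rho 1) w :=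
  ba230_ft_conv (ba222_cau_integrable (by norm_num)) (ba230_rho_integrable one_pos) w

theorem ba222_R_integral : ∫ u, ba222_R u = 1 / 2 := by
  unfold ba222_R
  rw [ba230_conv_integral (ba222_cau_integrable (by norm_num)) (ba230_rho_integrable one_pos),
    ba222_cau_integral (by norm_num), ba230_rho_integral one_pos, one_mul]

theorem ba222_R_norm : ∫ u, |ba222_R u| = 1 / 2 := by
  have : ∀ u, |ba222_R u| = ba222_R u := fun u => abs_of_nonneg (ba222_R_nonneg u)
  simp_rw [this]
  exact ba222_R_integral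

/-- resolvent identity `R2 + K2 * R2 = K2`. -/
theorem ba222_R_resolvent (u : ℝ) :
    ba222_R u + ba230_conv (ba222_cau 1) ba222_R u = ba222_cau 1 u := by
  refine ba230_conv_identity ba222_R_integrable ba222_R_integrable
    (ba222_cau_integrable one_pos) (ba222_cau_integrable one_pos) (ba222_cau_continuous one_pos)
    (ba222_cau_le one_pos) (fun w _ => ?_) ba222_R_continuous.continuousAt
    (ba222_cau_continuous one_pos).continuousAt
  obtain ⟨E, hE, hE2, -, es, eK, er⟩ := ba222_symbols w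
  rw [ba222_ft_R, es, eK, er]
  field_simp

/-- `r2 = s2 - R2 * s2`. -/
theorem ba222_rho_eq_sub (u : ℝ) :
    ba230_rho 1 u + ba230_conv ba222_R (ba222_cau (1 / 2)) u = ba222_cau (1 / 2) u := by
  obtain ⟨b, hb⟩ := ba222_R_bdd
  refine ba230_conv_identity (ba230_rho_integrable one_pos) (ba222_cau_integrable (by norm_num))
    (ba222_cau_integrable (by norm_num)) ba222_R_integrable ba222_R_continuous hb
    (fun w _ => ?_) (ba230_rho_continuous one_pos).continuousAt (ba222_cau_continuous (by norm_num)).continuousAt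
  obtain ⟨E, hE, hE2, -, es, eK, er⟩ := ba222_symbols w
  rw [ba222_ft_R, es, er]
  field_simp

/-! ## Sec. 4  integration of a convolution identity over a parameter -/

/-- **integration of a convolution identity over a parameter** (Fubini). -/
theorem ba222_param {μ : Measure ℝ} [SFinite μ] {A C : ℝ → ℝ → ℝ} {K : ℝ → ℝ} {b : ℝ}
    (hKc : Continuous K) (hKb : ∀ u, |K u| ≤ b)
    (hA : Integrable (Function.uncurry A) (μ.prod volume))
    {u : ℝ} (hid : ∀ᵐ a ∂μ, A a u + ba230_conv K (A a) u = C a u)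
    (hAu : Integrable (fun a => A a u) μ) :
    (∫ a, A a u ∂μ) + ba230_conv K (fun v => ∫ a, A a v ∂μ) u = ∫ a, C a u ∂μ := by
  have hKA : Integrable (Function.uncurry fun a v => K (u - v) * A a v) (μ.prod volume) := by
    refine hA.bdd_mul (c := b) ?_ (Eventually.of_forall fun p => ?_)
    · exact (hKc.comp (continuous_const.sub continuous_snd)).aestronglyMeasurable
    · rw [Real.norm_eq_abs]; exact hKb _
  have e1 : ba230_conv K (fun v => ∫ a, A a v ∂μ) u = ∫ a, ba230_conv K (A a) u ∂μ := by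
    unfold ba230_conv
    rw [integral_integral_swap hKA]
    refine integral_congr_ae (Eventually.of_forall fun v => ?_)
    simp only []
    rw [integral_const_mul]
  have hc : Integrable (fun a => ba230_conv K (A a) u) μ := hKA.integral_prod_left
  rw [e1, ← integral_add hAu hc]
  exact integral_congr_ae hid

/-! ## Sec. 5  the universal family `T_a`, `cosh(w/2) T_a^(w) = cosh((1/2-a)w)` -/

/-- the kernel of the strip of width `1`: `P α x = (π/2) ker α (π x/2) = (1/2) sin α/(cosh πx - cos α)`. -/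
noncomputable def ba222_P (α x : ℝ) : ℝ := Real.pi / 2 * ba230_ker α (Real.pi / 2 * x)

lemma ba222_P_eq (α x : ℝ) :
    ba222_P α x = 1 / 2 * (Real.sin α / (Real.cosh (Real.pi * x) - Real.cos α)) := by
  unfold ba222_P ba230_ker
  have e : 2 * (Real.pi / 2 * x) = Real.pi * x := by ring
  rw [e]
  have := Real.pi_ne_zero
  by_cases h : Real.cosh (Real.pi * x) - Real.cos α = 0
  · rw [h]; simp
  · field_simp

section
variable {α : ℝ} (h0 : 0 < α) (h1 : α < 2 * Real.pi)
include h0 h1

lemma ba222_P_integrable : Integrable (ba222_P α) :=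
  ((ba230_ker_integrable h0 h1).comp_mul_left' (by positivity)).const_mul _

lemma ba222_P_continuous : Continuous (ba222_P α) :=
  continuous_const.mul ((ba230_ker_continuous h0 h1).comp (by fun_prop))

lemma ba222_P_integral : ∫ x, ba222_P α x = 1 - α / Real.pi := by
  have hr : (0 : ℝ) < Real.pi / 2 := by positivity
  unfold ba222_P
  rw [integral_const_mul, MeasureTheory.Measure.integral_comp_mul_left (ba230_ker α),
    ba230_ker_integral h0 h1, abs_of_pos (inv_pos.2 hr), smul_eq_mul,
    ← mul_assoc, mul_inv_cancel₀ hr.ne', one_mul]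

lemma ba222_ft_P (w : ℝ) :
    ((Real.sinh w : ℝ) : ℂ) * ba230_ft (ba222_P α) w = ((Real.sinh ((1 - α / Real.pi) * w) : ℝ) : ℂ) := by
  have hr : (0 : ℝ) < Real.pi / 2 := by positivity
  have e0 : ba230_ft (ba222_P α) w = ba230_ft (ba230_ker α) (w / (Real.pi / 2)) := by
    unfold ba222_P
    rw [ba230_ft_const_mul, ba230_ft_scale _ _ _ hr, ← mul_assoc, ← Complex.ofReal_mul,
      mul_inv_cancel₀ hr.ne', Complex.ofReal_one, one_mul]
  rw [e0]
  have h := ba230_ft_ker h0 h1 (w / (Real.pi / 2))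
  have e1 : Real.pi * (w / (Real.pi / 2)) / 2 = w := by
    have := Real.pi_ne_zero
    field_simp
  have e2 : (Real.pi - α) * (w / (Real.pi / 2)) / 2 = (1 - α / Real.pi) * w := by
    have := Real.pi_ne_zero
    field_simp
  rw [e1, e2] at h
  exact h

end

lemma ba222_P_nonneg {α : ℝ} (h0 : 0 < α) (h1 : α ≤ Real.pi) (x : ℝ) : 0 ≤ ba222_P α x :=
  mul_nonneg (by positivity) (ba230_ker_nonneg h0 h1 _)

/-- the universal family. -/
noncomputable def ba222_T (a x : ℝ) : ℝ := ba222_P (Real.pi * a) x + ba222_P (Real.pi * (1 - a)) x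

lemma ba222_T_eq (a x : ℝ) :
    ba222_T a x = 1 / 2 * (Real.sin (Real.pi * a) / (Real.cosh (Real.pi * x) - Real.cos (Real.pi * a)))
      + 1 / 2 * (Real.sin (Real.pi * a) / (Real.cosh (Real.pi * x) + Real.cos (Real.pi * a))) := by
  unfold ba222_T
  rw [ba222_P_eq, ba222_P_eq]
  have e : Real.pi * (1 - a) = Real.pi - Real.pi * a := by ring
  rw [e, Real.sin_pi_sub, Real.cos_pi_sub, sub_neg_eq_add]

section
variable {a : ℝ} (h0 : 0 < a) (h1 : a < 1)
include h0 h1

lemma ba222_T_aux : 0 < Real.pi * a ∧ Real.pi * a < Real.pi ∧ 0 < Real.pi * (1 - a) ∧ Real.pi * (1 - a) < Real.pi := by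
  have := Real.pi_pos
  refine ⟨by positivity, by nlinarith, mul_pos this (by linarith), by nlinarith⟩

lemma ba222_T_integrable : Integrable (ba222_T a) := by
  obtain ⟨a1, a2, a3, a4⟩ := ba222_T_aux h0 h1
  exact (ba222_P_integrable a1 (by linarith)).add (ba222_P_integrable a3 (by linarith))

lemma ba222_T_continuous : Continuous (ba222_T a) := by
  obtain ⟨a1, a2, a3, a4⟩ := ba222_T_aux h0 h1
  exact (ba222_P_continuous a1 (by linarith)).add (ba222_P_continuous a3 (by linarith))

lemma ba222_T_nonneg (x : ℝ) : 0 ≤ ba222_T a x := by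
  obtain ⟨a1, a2, a3, a4⟩ := ba222_T_aux h0 h1
  exact add_nonneg (ba222_P_nonneg a1 a2.le x) (ba222_P_nonneg a3 a4.le x)

lemma ba222_T_integral : ∫ x, ba222_T a x = 1 := by
  obtain ⟨a1, a2, a3, a4⟩ := ba222_T_aux h0 h1
  unfold ba222_T
  rw [integral_add (ba222_P_integrable a1 (by linarith)) (ba222_P_integrable a3 (by linarith)),
    ba222_P_integral a1 (by linarith), ba222_P_integral a3 (by linarith)]
  have := Real.pi_ne_zero
  field_simp
  ring

/-- `cosh(w/2) T_a^(w) = cosh((1/2-a)w)`. -/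
lemma ba222_ft_T {w : ℝ} (hw : w ≠ 0) :
    ((Real.cosh (w / 2) : ℝ) : ℂ) * ba230_ft (ba222_T a) w = ((Real.cosh ((1 / 2 - a) * w) : ℝ) : ℂ) := by
  obtain ⟨a1, a2, a3, a4⟩ := ba222_T_aux h0 h1
  have e0 : ba230_ft (ba222_T a) w = ba230_ft (ba222_P (Real.pi * a)) w + ba230_ft (ba222_P (Real.pi * (1 - a))) w :=
    ba230_ft_add (ba222_P_integrable a1 (by linarith)) (ba222_P_integrable a3 (by linarith)) w
  have p1 := ba222_ft_P a1 (by linarith) w
  have p2 := ba222_ft_P a3 (by linarith) w
  have e1 : (1 - Real.pi * a / Real.pi) * w = w / 2 + (1 / 2 - a) * w := by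
    have := Real.pi_ne_zero
    field_simp
    ring
  have e2 : (1 - Real.pi * (1 - a) / Real.pi) * w = w / 2 - (1 / 2 - a) * w := by
    have := Real.pi_ne_zero
    field_simp
    ring
  rw [e1, Real.sinh_add] at p1
  rw [e2, Real.sinh_sub] at p2
  have e3 : Real.sinh w = 2 * Real.sinh (w / 2) * Real.cosh (w / 2) := by
    rw [← Real.sinh_two_mul]; congr 1; ring
  rw [e3] at p1 p2
  have hs : ((Real.sinh (w / 2) : ℝ) : ℂ) ≠ 0 := by
    have : Real.sinh (w / 2) ≠ 0 := by
      rw [Ne, Real.sinh_eq_zero]; intro h; apply hw; linarith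
    exact_mod_cast this
  rw [e0]
  push_cast at p1 p2 hs ⊢
  refine mul_left_cancel₀ (mul_ne_zero two_ne_zero hs) ?_
  linear_combination p1 + p2

end

lemma ba222_T_measurable : Measurable (Function.uncurry ba222_T) := by
  have : Function.uncurry ba222_T = fun p : ℝ × ℝ =>
      1 / 2 * (Real.sin (Real.pi * p.1) / (Real.cosh (Real.pi * p.2) - Real.cos (Real.pi * p.1)))
      + 1 / 2 * (Real.sin (Real.pi * p.1) / (Real.cosh (Real.pi * p.2) + Real.cos (Real.pi * p.1))) := by
    funext p
    exact ba222_T_eq p.1 p.2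
  rw [this]
  fun_prop

/-- joint integrability of `π T_a(r x)` on `a ∈ (0,1/2]`, `x ∈ ℝ`. -/
lemma ba222_T_prod_integrable {r : ℝ} (hr : 0 < r) :
    Integrable (Function.uncurry fun a x => Real.pi * ba222_T a (r * x))
      ((volume.restrict (Ioc (0 : ℝ) (1 / 2))).prod volume) := by
  have hm : Measurable (Function.uncurry fun a x => Real.pi * ba222_T a (r * x)) := by
    have : (Function.uncurry fun a x => Real.pi * ba222_T a (r * x))
        = fun p : ℝ × ℝ => Real.pi * Function.uncurry ba222_T (p.1, r * p.2) := rfl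
    rw [this]
    exact measurable_const.mul (ba222_T_measurable.comp (measurable_fst.prodMk (measurable_const.mul measurable_snd)))
  rw [integrable_prod_iff hm.aestronglyMeasurable]
  constructor
  · filter_upwards [ae_restrict_mem measurableSet_Ioc] with a ha
    exact ((ba222_T_integrable ha.1 (by linarith [ha.2])).comp_mul_left' hr.ne').const_mul _
  · have : ∀ᵐ a ∂(volume.restrict (Ioc (0 : ℝ) (1 / 2))),
        Real.pi * r⁻¹ = ∫ y, ‖Function.uncurry (fun a x => Real.pi * ba222_T a (r * x)) (a, y)‖ := by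
      filter_upwards [ae_restrict_mem measurableSet_Ioc] with a ha
      have h1 : a < 1 := by linarith [ha.2]
      have e : ∀ y, ‖Function.uncurry (fun a x => Real.pi * ba222_T a (r * x)) (a, y)‖ = Real.pi * ba222_T a (r * y) := by
        intro y
        simp only [Function.uncurry_apply_pair]
        rw [Real.norm_eq_abs, abs_of_nonneg (mul_nonneg Real.pi_pos.le (ba222_T_nonneg ha.1 h1 _))]
      simp_rw [e]
      rw [integral_const_mul, MeasureTheory.Measure.integral_comp_mul_left (ba222_T a), ba222_T_integral ha.1 h1,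
        abs_of_pos (inv_pos.2 hr), smul_eq_mul, mul_one]
    exact (integrable_const (Real.pi * r⁻¹)).congr this

/-! ## Sec. 6  the dressed energy `eps2 = log coth(π|x|/2)`;   `eps2 + K2 * eps2 = e02` -/

/-- the dressed energy at `c = 2`: `(1/2) log((cosh πx + 1)/(cosh πx - 1)) = log coth(π|x|/2)`. -/
noncomputable def ba222_eps (x : ℝ) : ℝ :=
  1 / 2 * Real.log ((Real.cosh (Real.pi * x) + 1) / (Real.cosh (Real.pi * x) - 1))

/-- the bare energy at `c = 2`. -/
noncomputable def ba222_e0 (x : ℝ) : ℝ := 1 / 2 * Real.log ((x ^ 2 + 1) / x ^ 2)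

lemma ba222_T_param_continuous {x : ℝ} (hx : x ≠ 0) : Continuous fun a => Real.pi * ba222_T a x := by
  have hX : 1 < Real.cosh (Real.pi * x) := Real.one_lt_cosh.2 (mul_ne_zero Real.pi_ne_zero hx)
  simp_rw [ba222_T_eq]
  refine continuous_const.mul (Continuous.add ?_ ?_)
  · refine continuous_const.mul (Continuous.div (by fun_prop) (by fun_prop) fun a => ?_)
    have := Real.cos_le_one (Real.pi * a)
    intro h; linarith
  · refine continuous_const.mul (Continuous.div (by fun_prop) (by fun_prop) fun a => ?_)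
    have := Real.neg_one_le_cos (Real.pi * a)
    intro h; linarith

/-- `∫_0^{1/2} π T_a(x) da = eps2(x)`. -/
lemma ba222_T_param_integral {x : ℝ} (hx : x ≠ 0) :
    ∫ a in Ioc (0 : ℝ) (1 / 2), Real.pi * ba222_T a x = ba222_eps x := by
  have hX : 1 < Real.cosh (Real.pi * x) := Real.one_lt_cosh.2 (mul_ne_zero Real.pi_ne_zero hx)
  set X := Real.cosh (Real.pi * x) with hXdef
  have hm : ∀ a, 0 < X - Real.cos (Real.pi * a) := fun a => by linarith [Real.cos_le_one (Real.pi * a)]
  have hp : ∀ a, 0 < X + Real.cos (Real.pi * a) := fun a => by linarith [Real.neg_one_le_cos (Real.pi * a)]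
  rw [← intervalIntegral.integral_of_le (by norm_num)]
  have hder : ∀ a ∈ uIcc (0 : ℝ) (1 / 2),
      HasDerivAt (fun a => 1 / 2 * (Real.log (X - Real.cos (Real.pi * a)) - Real.log (X + Real.cos (Real.pi * a))))
        (Real.pi * ba222_T a x) a := by
    intro a _
    have c0 : HasDerivAt (fun a => Real.pi * a) Real.pi a := by
      simpa using (hasDerivAt_id a).const_mul Real.pi
    have c1 : HasDerivAt (fun a => Real.cos (Real.pi * a)) (-Real.sin (Real.pi * a) * Real.pi) a := c0.cos
    have d1 := (c1.const_sub X).log (hm a).ne'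
    have d2 := (c1.const_add X).log (hp a).ne'
    have := (d1.fun_sub d2).const_mul (1 / 2)
    refine this.congr_deriv ?_
    rw [ba222_T_eq, ← hXdef]
    have h1 := (hm a).ne'
    have h2 := (hp a).ne'
    field_simp
    ring
  rw [intervalIntegral.integral_eq_sub_of_hasDerivAt hder ((ba222_T_param_continuous hx).intervalIntegrable _ _)]
  have e1 : Real.pi * (1 / 2) = Real.pi / 2 := by ring
  rw [e1, Real.cos_pi_div_two, mul_zero, Real.cos_zero, sub_zero, add_zero, sub_self, mul_zero, zero_sub]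
  unfold ba222_eps
  rw [← hXdef, Real.log_div (by linarith) (by linarith)]
  ring

/-- `∫_0^{1/2} π (cau_a + cau_{1-a})(x) da = e02(x)`. -/
lemma ba222_cau_param_integral {x : ℝ} (hx : x ≠ 0) :
    ∫ a in Ioc (0 : ℝ) (1 / 2), Real.pi * (ba222_cau a x + ba222_cau (1 - a) x) = ba222_e0 x := by
  have hx2 : 0 < x ^ 2 := by positivity
  have hm : ∀ a : ℝ, 0 < x ^ 2 + a ^ 2 := fun a => by positivity
  rw [← intervalIntegral.integral_of_le (by norm_num)]
  have hder : ∀ a ∈ uIcc (0 : ℝ) (1 / 2),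
      HasDerivAt (fun a => 1 / 2 * (Real.log (x ^ 2 + a ^ 2) - Real.log (x ^ 2 + (1 - a) ^ 2)))
        (Real.pi * (ba222_cau a x + ba222_cau (1 - a) x)) a := by
    intro a _
    have c1 : HasDerivAt (fun a : ℝ => x ^ 2 + a ^ 2) (2 * a) a := by
      have := ((hasDerivAt_id a).fun_pow 2).const_add (x ^ 2)
      simpa using this
    have c2 : HasDerivAt (fun a : ℝ => x ^ 2 + (1 - a) ^ 2) (-(2 * (1 - a))) a := by
      have := (((hasDerivAt_id a).const_sub 1).fun_pow 2).const_add (x ^ 2)
      simpa using this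
    have d1 := c1.log (hm a).ne'
    have d2 := c2.log (hm (1 - a)).ne'
    have := (d1.fun_sub d2).const_mul (1 / 2)
    refine this.congr_deriv ?_
    unfold ba222_cau
    have h1 := (hm a).ne'
    have h2 := (hm (1 - a)).ne'
    have := Real.pi_ne_zero
    field_simp
    ring
  have hcont : Continuous fun a => Real.pi * (ba222_cau a x + ba222_cau (1 - a) x) := by
    unfold ba222_cau
    refine continuous_const.mul (Continuous.add ?_ ?_)
    · refine Continuous.div (by fun_prop) (by fun_prop) fun a => ?_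
      have := hm a
      have := Real.pi_pos
      positivity
    · refine Continuous.div (by fun_prop) (by fun_prop) fun a => ?_
      have := hm (1 - a)
      have := Real.pi_pos
      positivity
  rw [intervalIntegral.integral_eq_sub_of_hasDerivAt hder (hcont.intervalIntegrable _ _)]
  unfold ba222_e0
  rw [Real.log_div (by positivity) (by positivity)]
  norm_num
  ring

lemma ba222_conv_const_mul (K f : ℝ → ℝ) (c u : ℝ) :
    ba230_conv K (fun v => c * f v) u = c * ba230_conv K f u := by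
  unfold ba230_conv
  rw [← integral_const_mul]
  refine integral_congr_ae (Eventually.of_forall fun v => ?_)
  simp only []; ring

/-- the elementary identity behind `T_a + K2 * T_a = cau_a + cau_{1-a}`. -/
lemma ba222_exp_id (a w : ℝ) :
    (1 + Real.exp (-1 * |w|)) * Real.cosh ((1 / 2 - a) * w)
      = (Real.exp (-a * |w|) + Real.exp (-(1 - a) * |w|)) * Real.cosh (w / 2) := by
  have key : ∀ y : ℝ, (1 + Real.exp (-1 * y)) * Real.cosh ((1 / 2 - a) * y)
      = (Real.exp (-a * y) + Real.exp (-(1 - a) * y)) * Real.cosh (y / 2) := by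
    intro y
    rw [Real.cosh_eq, Real.cosh_eq]
    set p := Real.exp (-a * y) with hp
    set h := Real.exp (-(y / 2)) with hh
    have hp0 : p ≠ 0 := (Real.exp_pos _).ne'
    have hh0 : h ≠ 0 := (Real.exp_pos _).ne'
    have e1 : Real.exp ((1 / 2 - a) * y) = p * h⁻¹ := by
      rw [hp, hh, ← Real.exp_neg, ← Real.exp_add]; congr 1; ring
    have e2 : Real.exp (-((1 / 2 - a) * y)) = h * p⁻¹ := by
      rw [hp, hh, ← Real.exp_neg, ← Real.exp_add]; congr 1; ring
    have e3 : Real.exp (-1 * y) = h * h := by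
      rw [hh, ← Real.exp_add]; congr 1; ring
    have e4 : Real.exp (-(1 - a) * y) = h * h * p⁻¹ := by
      rw [hp, hh, ← Real.exp_neg, ← Real.exp_add, ← Real.exp_add]; congr 1; ring
    have e5 : Real.exp (y / 2) = h⁻¹ := by
      rw [hh, ← Real.exp_neg]; congr 1; ring
    rw [e1, e2, e3, e4, e5]
    field_simp
  rcases abs_choice w with h | h
  · rw [h]; exact key w
  · have := key (-w)
    rw [h]
    have c1 : Real.cosh ((1 / 2 - a) * -w) = Real.cosh ((1 / 2 - a) * w) := by rw [mul_neg, Real.cosh_neg]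
    have c2 : Real.cosh (-w / 2) = Real.cosh (w / 2) := by rw [neg_div, Real.cosh_neg]
    rw [c1, c2] at this
    exact this

/-- `T_a + K2 * T_a = cau_a + cau_{1-a}`. -/
theorem ba222_T_solves {a : ℝ} (h0 : 0 < a) (h1 : a < 1) (x : ℝ) :
    ba222_T a x + ba230_conv (ba222_cau 1) (ba222_T a) x = ba222_cau a x + ba222_cau (1 - a) x := by
  have h1' : 0 < 1 - a := by linarith
  refine ba230_conv_identity (C := fun x => ba222_cau a x + ba222_cau (1 - a) x)
    (ba222_T_integrable h0 h1) (ba222_T_integrable h0 h1)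
    ((ba222_cau_integrable h0).add (ba222_cau_integrable h1')) (ba222_cau_integrable one_pos)
    (ba222_cau_continuous one_pos) (ba222_cau_le one_pos) (fun w hw => ?_)
    (ba222_T_continuous h0 h1).continuousAt
    ((ba222_cau_continuous h0).add (ba222_cau_continuous h1')).continuousAt
  rw [ba230_ft_add (ba222_cau_integrable h0) (ba222_cau_integrable h1'), ba222_ft_cau h0, ba222_ft_cau h1',
    ba222_ft_cau one_pos]
  have hT := ba222_ft_T h0 h1 hw
  have hc := ba230_cosh_ne (w / 2)
  have hid : (1 + ((Real.exp (-1 * |w|) : ℝ) : ℂ)) * ((Real.cosh ((1 / 2 - a) * w) : ℝ) : ℂ)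
      = (((Real.exp (-a * |w|) : ℝ) : ℂ) + ((Real.exp (-(1 - a) * |w|) : ℝ) : ℂ)) * ((Real.cosh (w / 2) : ℝ) : ℂ) := by
    exact_mod_cast ba222_exp_id a w
  refine mul_left_cancel₀ hc ?_
  linear_combination (1 + ((Real.exp (-1 * |w|) : ℝ) : ℂ)) * hT + hid

lemma ba222_eps_ae (r : ℝ) (hr : r ≠ 0) :
    (fun v => ∫ a in Ioc (0 : ℝ) (1 / 2), Real.pi * ba222_T a (r * v)) =ᵐ[volume] fun v => ba222_eps (r * v) := by
  filter_upwards [compl_mem_ae_iff.2 (measure_singleton (0 : ℝ))] with v hv
  exact ba222_T_param_integral (mul_ne_zero hr hv)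

theorem ba222_eps_scaled_integrable {r : ℝ} (hr : 0 < r) : Integrable fun v => ba222_eps (r * v) :=
  ((ba222_T_prod_integrable hr).integral_prod_right).congr (ba222_eps_ae r hr.ne')

theorem ba222_eps_integrable : Integrable ba222_eps := by
  simpa using ba222_eps_scaled_integrable one_pos

/-- **ID2 at `c = 2`**: `eps2 + K2 * eps2 = e02` off the origin. -/
theorem ba222_eps_solves {x : ℝ} (hx : x ≠ 0) :
    ba222_eps x + ba230_conv (ba222_cau 1) ba222_eps x = ba222_e0 x := by
  have hA := ba222_T_prod_integrable one_pos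
  simp only [one_mul] at hA
  have h := ba222_param (μ := volume.restrict (Ioc (0 : ℝ) (1 / 2))) (A := fun a x => Real.pi * ba222_T a x)
    (C := fun a x => Real.pi * (ba222_cau a x + ba222_cau (1 - a) x))
    (ba222_cau_continuous one_pos) (ba222_cau_le one_pos) hA (u := x)
    (by
      filter_upwards [ae_restrict_mem measurableSet_Ioc] with a ha
      rw [ba222_conv_const_mul, ← mul_add, ba222_T_solves ha.1 (by linarith [ha.2])])
    ((ba222_T_param_continuous hx).integrableOn_Icc.mono_set Ioc_subset_Icc_self)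
  rw [ba222_T_param_integral hx, ba222_cau_param_integral hx] at h
  rw [← h]
  congr 1
  unfold ba230_conv
  have hae := ba222_eps_ae 1 one_ne_zero
  simp only [one_mul] at hae
  refine integral_congr_ae ?_
  filter_upwards [hae] with v hv
  rw [hv]

/-! ## Sec. 7  bridge to `ba230_eps 1`;   `eps2 + R2 * e02 = e02` -/

/-- the dressed energy at `c = 2` is the one of `Four230` at `lam = 1` (edge limit, transform, measurability: there). -/
theorem ba222_eps_eq : ba222_eps = ba230_eps 1 := by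
  funext x
  unfold ba222_eps ba230_eps ba230_E
  have e : 2 * (Real.pi / (2 * 1) * x) = Real.pi * x := by ring
  rw [e, Real.cos_pi, sub_neg_eq_add]

lemma ba222_e0_even (x : ℝ) : ba222_e0 (-x) = ba222_e0 x := by
  unfold ba222_e0; rw [neg_sq]

lemma ba222_e0_measurable : Measurable ba222_e0 := by
  unfold ba222_e0; fun_prop

lemma ba222_e0_continuousAt {x : ℝ} (hx : x ≠ 0) : ContinuousAt ba222_e0 x := by
  unfold ba222_e0
  have hx2 : x ^ 2 ≠ 0 := pow_ne_zero 2 hx
  refine continuousAt_const.mul (ContinuousAt.log ?_ ?_)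
  · exact ContinuousAt.div (by fun_prop) (by fun_prop) hx2
  · have : 0 < (x ^ 2 + 1) / x ^ 2 := by positivity
    exact this.ne'

lemma ba222_e0_nonneg (x : ℝ) : 0 ≤ ba222_e0 x := by
  unfold ba222_e0
  rcases eq_or_ne x 0 with rfl | hx
  · simp
  · have hx2 : 0 < x ^ 2 := by positivity
    refine mul_nonneg (by norm_num) (Real.log_nonneg ?_)
    rw [le_div_iff₀ hx2]; linarith

lemma ba222_e0_ae : (fun x => ba222_eps x + ba230_conv (ba222_cau 1) ba222_eps x) =ᵐ[volume] ba222_e0 := by
  filter_upwards [compl_mem_ae_iff.2 (measure_singleton (0 : ℝ))] with v hv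
  exact ba222_eps_solves hv

theorem ba222_e0_integrable : Integrable ba222_e0 :=
  (ba222_eps_integrable.add (ba230_conv_integrable (ba222_cau_integrable one_pos) ba222_eps_integrable)).congr ba222_e0_ae

/-- `e02^ = (1 + K2^) eps2^`. -/
theorem ba222_ft_e0 (w : ℝ) :
    ba230_ft ba222_e0 w = ba230_ft ba222_eps w + ba230_ft (ba222_cau 1) w * ba230_ft ba222_eps w := by
  have hc := ba230_conv_integrable (ba222_cau_integrable one_pos) ba222_eps_integrable
  rw [← ba230_ft_conv (ba222_cau_integrable one_pos) ba222_eps_integrable, ← ba230_ft_add ba222_eps_integrable hc]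
  unfold ba230_ft
  refine integral_congr_ae ?_
  filter_upwards [ba222_e0_ae] with v hv
  rw [← hv]

lemma ba222_eps_continuousAt {x : ℝ} (hx : x ≠ 0) : ContinuousAt ba222_eps x := by
  rw [ba222_eps_eq]; exact ba230_eps_continuousAt one_pos hx

/-- `eps2 = e02 - R2 * e02` off the origin. -/
theorem ba222_eps_eq_sub {x : ℝ} (hx : x ≠ 0) :
    ba222_eps x + ba230_conv ba222_R ba222_e0 x = ba222_e0 x := by
  obtain ⟨b, hb⟩ := ba222_R_bdd
  refine ba230_conv_identity ba222_eps_integrable ba222_e0_integrable ba222_e0_integrable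
    ba222_R_integrable ba222_R_continuous hb (fun w _ => ?_) (ba222_eps_continuousAt hx) (ba222_e0_continuousAt hx)
  obtain ⟨E, hE, hE2, -, es, eK, er⟩ := ba222_symbols w
  rw [ba222_ft_e0, ba222_ft_R, es, eK, er]
  field_simp

/-- the two identities in the vocabulary of `Four230` (`lam = 1`). -/
theorem ba222_eps_solves' {x : ℝ} (hx : x ≠ 0) :
    ba230_eps 1 x + ba230_conv (ba222_cau 1) (ba230_eps 1) x = ba222_e0 x := by
  rw [← ba222_eps_eq]; exact ba222_eps_solves hx

theorem ba222_eps_eq_sub' {x : ℝ} (hx : x ≠ 0) :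
    ba230_eps 1 x + ba230_conv ba222_R ba222_e0 x = ba222_e0 x := by
  rw [← ba222_eps_eq]; exact ba222_eps_eq_sub hx

end Claimed.Agent.R292
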