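import Claimed.Agent.R292.Defs.Top

/-!
# Row 292, unit BETHE, box BA7 : ROW INSERTION      (helper260; prefix `ins260`)

Insert a new row into the `M × L` torus of `Def_0466`: its horizontal arrows are all `h` (`true` or `false`), the vertical
arrows that it cuts are doubled.  The ice rule survives, no vertex of type `c` is created, the map is injective.  Hence

* `ins260_svZN_le_empty`  : `svZN c M L n ≤ svZN c M (L + 1) n`,
* `ins260_svZN_le_full`   : `svZN c M L n ≤ svZN c M (L + 1) (n + 1)`,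
* `ins260_one_le_svZN`    : `1 ≤ svZN c M L n` for `n ≤ L`.

Consequences (abstract in `G M N n = log Z`, only the two monotonicities are used):

* `ins260_reg_of_even` : the regular-filling limit on EVEN sectors gives it on all sectors (no Bethe root at `z = 1`);
* `ins260_half`        : the balanced sector `(2 L, L)` is squeezed between regular fillings (no roots at exact half filling);
* `ins260_svStiff`     : `SvStiff c A ⇐ (R) regular-filling limit, even sectors + (C) Φ (1/2 - s/2) = Φ₀ - (A/2) s² + o (s²)`;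
* `ins260_reg_of_lam`  : `(R)` from `ℓ N n = lim_M M⁻¹ log Z` and the same estimate for `ℓ N n / N`.
-/

set_option autoImplicit false

namespace Claimed.Agent.R292

open Filter Topology
open Claims Claims.C0466

/-- the configuration with a new row (index `L`) whose horizontal arrows are all `h`. -/
def ins260Map {M L : ℕ} (h : Bool) (ω : ZMod M × ZMod L × Bool → Bool) :
    ZMod M × ZMod (L + 1) × Bool → Bool :=
  fun p => if p.2.1.val < L then ω (p.1, ((p.2.1.val : ℕ) : ZMod L), p.2.2)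
    else if p.2.2 then ω (p.1, ((L - 1 : ℕ) : ZMod L), true) else h

section basic

variable {M L : ℕ}

theorem ins260_svH_congr (ω : ZMod M × ZMod L × Bool → Bool) (a : ℤ) {b b' : ℤ}
    (h : (b : ZMod L) = (b' : ZMod L)) : svH ω a b = svH ω a b' := by
  unfold svH; rw [h]

theorem ins260_svV_congr (ω : ZMod M × ZMod L × Bool → Bool) (a : ℤ) {b b' : ℤ}
    (h : (b : ZMod L) = (b' : ZMod L)) : svV ω a b = svV ω a b' := by
  unfold svV; rw [h]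

theorem ins260_val_lt {j : ℕ} (hj : j < L + 1) : ((j : ZMod (L + 1))).val = j :=
  ZMod.val_natCast_of_lt hj

theorem ins260_H_old (h : Bool) (ω : ZMod M × ZMod L × Bool → Bool) (a : ℤ) {j : ℕ} (hj : j < L) :
    svH (ins260Map h ω) a (j : ℤ) = svH ω a (j : ℤ) := by
  unfold svH ins260Map
  simp only [Int.cast_natCast, ins260_val_lt (Nat.lt_succ_of_lt hj), hj, if_true]

theorem ins260_V_old (h : Bool) (ω : ZMod M × ZMod L × Bool → Bool) (a : ℤ) {j : ℕ} (hj : j < L) :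
    svV (ins260Map h ω) a (j : ℤ) = svV ω a (j : ℤ) := by
  unfold svV ins260Map
  simp only [Int.cast_natCast, ins260_val_lt (Nat.lt_succ_of_lt hj), hj, if_true]

theorem ins260_H_new (h : Bool) (ω : ZMod M × ZMod L × Bool → Bool) (a : ℤ) :
    svH (ins260Map h ω) a (L : ℤ) = h := by
  unfold svH ins260Map
  simp only [Int.cast_natCast, ins260_val_lt (Nat.lt_succ_self L), lt_irrefl, if_false]
  simp

theorem ins260_V_new (h : Bool) (ω : ZMod M × ZMod L × Bool → Bool) (a : ℤ) :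
    svV (ins260Map h ω) a (L : ℤ) = svV ω a ((L - 1 : ℕ) : ℤ) := by
  unfold svV ins260Map
  simp only [Int.cast_natCast, ins260_val_lt (Nat.lt_succ_self L), lt_irrefl, if_false]
  simp

theorem ins260_inCount_congr (ω : ZMod M × ZMod L × Bool → Bool) (a : ℤ) {b b' : ℤ}
    (h : (b : ZMod L) = (b' : ZMod L)) : svInCount ω a b = svInCount ω a b' := by
  have h' : ((b - 1 : ℤ) : ZMod L) = ((b' - 1 : ℤ) : ZMod L) := by push_cast; rw [h]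
  unfold svInCount
  rw [ins260_svH_congr ω (a - 1) h, ins260_svH_congr ω a h, ins260_svV_congr ω a h',
    ins260_svV_congr ω a h]

theorem ins260_cast_red (b : ℤ) :
    ∃ j : ℕ, j < L + 1 ∧ (b : ZMod (L + 1)) = ((j : ℤ) : ZMod (L + 1)) := by
  have hpos : (0 : ℤ) < ((L + 1 : ℕ) : ℤ) := by positivity
  refine ⟨(b % ((L + 1 : ℕ) : ℤ)).toNat, ?_, ?_⟩
  · have h1 := Int.emod_lt_of_pos b hpos
    have h0 := Int.emod_nonneg b hpos.ne'
    omega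
  · rw [Int.toNat_of_nonneg (Int.emod_nonneg b hpos.ne')]
    exact (ZMod.intCast_mod b (L + 1)).symm

theorem ins260_cast_neg_one_succ : ((-1 : ℤ) : ZMod (L + 1)) = ((L : ℤ) : ZMod (L + 1)) := by
  have : ((L : ℤ) : ZMod (L + 1)) + 1 = 0 := by
    have := ZMod.natCast_self (L + 1)
    push_cast at this ⊢
    exact this
  push_cast
  exact (eq_neg_of_add_eq_zero_left this).symm

theorem ins260_cast_neg_one (hL : 0 < L) : ((-1 : ℤ) : ZMod L) = (((L - 1 : ℕ) : ℤ) : ZMod L) := by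
  have : (((L - 1 : ℕ) : ℤ) : ZMod L) + 1 = 0 := by
    have h := ZMod.natCast_self L
    have e : ((L - 1 : ℕ) : ZMod L) + 1 = ((L - 1 + 1 : ℕ) : ZMod L) := by push_cast; rfl
    rw [Int.cast_natCast, e, Nat.sub_add_cancel hL, h]
  push_cast
  rw [Int.cast_natCast] at this
  exact (eq_neg_of_add_eq_zero_left this).symm

theorem ins260_ice (hL : 0 < L) (h : Bool) (ω : ZMod M × ZMod L × Bool → Bool)
    (hω : ∀ a b : ℤ, svInCount ω a b = 2) (a b : ℤ) : svInCount (ins260Map h ω) a b = 2 := by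
  obtain ⟨j, hj, hb⟩ := ins260_cast_red (L := L) b
  rw [ins260_inCount_congr _ a hb]
  rcases Nat.lt_succ_iff_lt_or_eq.1 hj with hjL | rfl
  · rcases Nat.eq_zero_or_pos j with rfl | hj0
    · have e1 : svV (ins260Map h ω) a (((0 : ℕ) : ℤ) - 1) = svV ω a (((0 : ℕ) : ℤ) - 1) := by
        have c1 : (((((0 : ℕ) : ℤ) - 1 : ℤ)) : ZMod (L + 1)) = ((L : ℤ) : ZMod (L + 1)) := by
          rw [← ins260_cast_neg_one_succ]; norm_num
        have c2 : (((((0 : ℕ) : ℤ) - 1 : ℤ)) : ZMod L) = (((L - 1 : ℕ) : ℤ) : ZMod L) := by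
          rw [← ins260_cast_neg_one hL]; norm_num
        rw [ins260_svV_congr _ a c1, ins260_V_new, ins260_svV_congr ω a c2]
      have := hω a ((0 : ℕ) : ℤ)
      unfold svInCount at this ⊢
      rw [ins260_H_old h ω (a - 1) hjL, ins260_H_old h ω a hjL, ins260_V_old h ω a hjL, e1]
      exact this
    · have e0 : ((j : ℤ) - 1) = ((j - 1 : ℕ) : ℤ) := by omega
      have := hω a (j : ℤ)
      unfold svInCount at this ⊢
      rw [e0] at this ⊢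
      rw [ins260_H_old h ω (a - 1) hjL, ins260_H_old h ω a hjL, ins260_V_old h ω a hjL,
        ins260_V_old h ω a (by omega : j - 1 < L)]
      exact this
  · have e0 : ((j : ℤ) - 1) = ((j - 1 : ℕ) : ℤ) := by omega
    unfold svInCount
    rw [e0, ins260_H_new, ins260_H_new, ins260_V_new, ins260_V_old h ω a (by omega : j - 1 < j)]
    cases h <;> cases svV ω a ((j - 1 : ℕ) : ℤ) <;> simp

theorem ins260_count (h : Bool) (ω : ZMod M × ZMod L × Bool → Bool) (i : ℤ) :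
    ((Finset.range (L + 1)).filter (fun j : ℕ => svH (ins260Map h ω) i (j : ℤ) = true)).card
      = ((Finset.range L).filter (fun j : ℕ => svH ω i (j : ℤ) = true)).card
        + (if h then 1 else 0) := by
  rw [Finset.range_add_one, Finset.filter_insert, ins260_H_new]
  have e : (Finset.range L).filter (fun j : ℕ => svH (ins260Map h ω) i (j : ℤ) = true)
      = (Finset.range L).filter (fun j : ℕ => svH ω i (j : ℤ) = true) := by
    apply Finset.filter_congr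
    intro j hj
    rw [ins260_H_old h ω i (Finset.mem_range.1 hj)]
  rw [e]
  cases h
  · simp
  · simp only [if_true]
    rw [Finset.card_insert_of_notMem]
    simp

theorem ins260_isC_old (h : Bool) (ω : ZMod M × ZMod L × Bool → Bool) (a : ℤ) {j : ℕ} (hj : j < L) :
    svIsC (ins260Map h ω) a (j : ℤ) ↔ svIsC ω a (j : ℤ) := by
  unfold svIsC
  rw [ins260_H_old h ω (a - 1) hj, ins260_H_old h ω a hj]

theorem ins260_isC_new (h : Bool) (ω : ZMod M × ZMod L × Bool → Bool) (a : ℤ) :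
    ¬ svIsC (ins260Map h ω) a (L : ℤ) := by
  unfold svIsC
  rw [ins260_H_new, ins260_H_new]
  cases h <;> simp

theorem ins260_numC (h : Bool) (ω : ZMod M × ZMod L × Bool → Bool) :
    svNumC (ins260Map h ω) = svNumC ω := by
  classical
  unfold svNumC
  congr 1
  ext v
  simp only [Finset.mem_filter, Finset.mem_product, Finset.mem_range]
  constructor
  · rintro ⟨⟨h1, h2⟩, h3⟩
    rcases Nat.lt_succ_iff_lt_or_eq.1 h2 with h4 | h4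
    · exact ⟨⟨h1, h4⟩, (ins260_isC_old h ω _ h4).1 h3⟩
    · rw [h4] at h3
      exact absurd h3 (ins260_isC_new h ω _)
  · rintro ⟨⟨h1, h2⟩, h3⟩
    exact ⟨⟨h1, Nat.lt_succ_of_lt h2⟩, (ins260_isC_old h ω _ h2).2 h3⟩

theorem ins260_injective [NeZero L] (h : Bool) :
    Function.Injective (ins260Map (M := M) (L := L) h) := by
  intro ω₁ ω₂ e
  funext ⟨a, b, t⟩
  have hb : b.val < L := ZMod.val_lt b
  have := congrFun e (a, ((b.val : ℕ) : ZMod (L + 1)), t)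
  unfold ins260Map at this
  simp only [ins260_val_lt (Nat.lt_succ_of_lt hb), hb, if_true, ZMod.natCast_zmod_val] at this
  exact this

theorem ins260_adm (hL : 0 < L) (h : Bool) {n : ℕ} {ω : ZMod M × ZMod L × Bool → Bool}
    (hω : svAdmN n ω) : svAdmN (n + (if h then 1 else 0)) (ins260Map h ω) :=
  ⟨ins260_ice hL h ω hω.1, fun i => by rw [ins260_count, hω.2 i]⟩

end basic

section sums

theorem ins260_svZN_le (c : ℝ) (hc : 0 ≤ c) {M L : ℕ} (hM : 0 < M) (hL : 0 < L) (n : ℕ) (h : Bool) :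
    svZN c M L n ≤ svZN c M (L + 1) (n + (if h then 1 else 0)) := by
  classical
  have : NeZero M := ⟨hM.ne'⟩
  have : NeZero L := ⟨hL.ne'⟩
  have hadm := fun ω (hω : svAdmN n ω) => ins260_adm (M := M) hL h hω
  generalize n + (if h then 1 else 0) = n' at hadm ⊢
  unfold svZN
  rw [tsum_fintype, tsum_fintype]
  set g : (ZMod M × ZMod (L + 1) × Bool → Bool) → ℝ :=
    fun ω' => if svAdmN n' ω' then c ^ svNumC ω' else 0 with hg
  have hg0 : ∀ ω', 0 ≤ g ω' := by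
    intro ω'
    rw [hg]
    dsimp only
    by_cases h1 : svAdmN n' ω'
    · rw [if_pos h1]; positivity
    · rw [if_neg h1]
  calc (∑ ω : ZMod M × ZMod L × Bool → Bool, if svAdmN n ω then c ^ svNumC ω else 0)
      ≤ ∑ ω : ZMod M × ZMod L × Bool → Bool, g (ins260Map h ω) := by
        apply Finset.sum_le_sum
        intro ω _
        by_cases hω : svAdmN n ω
        · rw [if_pos hω, hg]
          dsimp only
          rw [if_pos (hadm ω hω), ins260_numC]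
        · rw [if_neg hω]
          exact hg0 _
    _ = ∑ ω' ∈ Finset.univ.image (ins260Map (M := M) (L := L) h), g ω' :=
        (Finset.sum_image (f := g) (fun x _ y _ e => ins260_injective h e)).symm
    _ ≤ ∑ ω' : ZMod M × ZMod (L + 1) × Bool → Bool, g ω' :=
        Finset.sum_le_univ_sum_of_nonneg hg0

/-- insertion of a row of arrows `false`. -/
theorem ins260_svZN_le_empty (c : ℝ) (hc : 0 ≤ c) {M L : ℕ} (hM : 0 < M) (hL : 0 < L) (n : ℕ) :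
    svZN c M L n ≤ svZN c M (L + 1) n := by
  simpa using ins260_svZN_le c hc hM hL n false

/-- insertion of a row of arrows `true`. -/
theorem ins260_svZN_le_full (c : ℝ) (hc : 0 ≤ c) {M L : ℕ} (hM : 0 < M) (hL : 0 < L) (n : ℕ) :
    svZN c M L n ≤ svZN c M (L + 1) (n + 1) := by
  simpa using ins260_svZN_le c hc hM hL n true

/-- the one-row torus. -/
theorem ins260_one_le_base (c : ℝ) (hc : 0 ≤ c) {M : ℕ} (hM : 0 < M) (h : Bool) :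
    1 ≤ svZN c M 1 (if h then 1 else 0) := by
  classical
  have : NeZero M := ⟨hM.ne'⟩
  unfold svZN
  rw [tsum_fintype]
  set ω₀ : ZMod M × ZMod 1 × Bool → Bool := fun p => if p.2.2 then true else h with hω₀
  have hH : ∀ a b : ℤ, svH ω₀ a b = h := fun a b => by simp [svH, hω₀]
  have hV : ∀ a b : ℤ, svV ω₀ a b = true := fun a b => by simp [svV, hω₀]
  have hadm : svAdmN (if h then 1 else 0) ω₀ := by
    refine ⟨fun a b => ?_, fun i => ?_⟩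
    · unfold svInCount
      rw [hH, hH, hV, hV]
      cases h <;> simp
    · simp only [hH]
      cases h <;> simp
  have hnum : svNumC ω₀ = 0 := by
    unfold svNumC
    rw [Finset.card_eq_zero, Finset.filter_eq_empty_iff]
    intro v _
    unfold svIsC
    rw [hH, hH]
    cases h <;> simp
  have hterm : (1 : ℝ) = (if svAdmN (if h then 1 else 0) ω₀ then c ^ svNumC ω₀ else 0) := by
    rw [if_pos hadm, hnum, pow_zero]
  rw [hterm]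
  apply Finset.single_le_sum (f := fun ω : ZMod M × ZMod 1 × Bool → Bool =>
    if svAdmN (if h then 1 else 0) ω then c ^ svNumC ω else 0) _ (Finset.mem_univ ω₀)
  intro ω _
  by_cases h1 : svAdmN (if h then 1 else 0) ω
  · rw [if_pos h1]; positivity
  · rw [if_neg h1]

theorem ins260_one_le_svZN (c : ℝ) (hc : 0 ≤ c) {M : ℕ} (hM : 0 < M) :
    ∀ {L : ℕ}, 0 < L → ∀ n : ℕ, n ≤ L → 1 ≤ svZN c M L n := by
  intro L hL
  induction L, hL using Nat.le_induction with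
  | base =>
    intro n hn
    rcases Nat.le_one_iff_eq_zero_or_eq_one.1 hn with rfl | rfl
    · simpa using ins260_one_le_base c hc hM false
    · simpa using ins260_one_le_base c hc hM true
  | succ L hL ih =>
    intro n hn
    rcases Nat.lt_succ_iff_lt_or_eq.1 (Nat.lt_succ_of_le hn) with h1 | rfl
    · exact (ih n (Nat.lt_succ_iff.1 h1)).trans (ins260_svZN_le_empty c hc hM hL n)
    · exact (ih L le_rfl).trans (ins260_svZN_le_full c hc hM hL L)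

end sums

section abstract

/-- insertion monotonicity of `G M N n` (`= log Z` of the `M × N` torus in the sector `n`). -/
def Ins260Mono (G : ℕ → ℕ → ℕ → ℝ) : Prop :=
  ∀ M N n : ℕ, 0 < M → 0 < N → n ≤ N → G M N n ≤ G M (N + 1) n ∧ G M N n ≤ G M (N + 1) (n + 1)

/-- regular-filling limit on the sectors `n` with `P n`: locally uniform in the filling `n / N` near every `ρ ∈ (0, 1/2)`,
the limit `M → ∞` first. -/
def Ins260Reg (G : ℕ → ℕ → ℕ → ℝ) (Φ : ℝ → ℝ) (P : ℕ → Prop) : Prop :=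
  ∀ ρ : ℝ, 0 < ρ → ρ < 1 / 2 → ∀ ε : ℝ, 0 < ε → ∃ δ : ℝ, 0 < δ ∧ ∃ N₀ : ℕ, ∀ N n : ℕ, N₀ ≤ N → P n →
    |(n : ℝ) / N - ρ| ≤ δ → ∀ᶠ M : ℕ in atTop, |G M N n / ((N : ℝ) * M) - Φ ρ| ≤ ε

/-- the same for the fillings `ρ ∈ (ρ₀, 1/2)` only. -/
def Ins260RegOn (ρ₀ : ℝ) (G : ℕ → ℕ → ℕ → ℝ) (Φ : ℝ → ℝ) (P : ℕ → Prop) : Prop :=
  ∀ ρ : ℝ, ρ₀ < ρ → ρ < 1 / 2 → ∀ ε : ℝ, 0 < ε → ∃ δ : ℝ, 0 < δ ∧ ∃ N₀ : ℕ, ∀ N n : ℕ, N₀ ≤ N → P n →
    |(n : ℝ) / N - ρ| ≤ δ → ∀ᶠ M : ℕ in atTop, |G M N n / ((N : ℝ) * M) - Φ ρ| ≤ ε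

variable {G : ℕ → ℕ → ℕ → ℝ}

theorem ins260_reg_iff {Φ : ℝ → ℝ} {P : ℕ → Prop} : Ins260Reg G Φ P ↔ Ins260RegOn 0 G Φ P := Iff.rfl

theorem ins260_mono_full (hG : Ins260Mono G) {M N n : ℕ} (hM : 0 < M) (hN : 0 < N) (hn : n ≤ N) (i : ℕ) :
    G M N n ≤ G M (N + i) (n + i) := by
  induction i with
  | zero => exact le_rfl
  | succ i ih => exact ih.trans (hG M (N + i) (n + i) hM (by omega) (by omega)).2

theorem ins260_mono_empty (hG : Ins260Mono G) {M N n : ℕ} (hM : 0 < M) (hN : 0 < N) (hn : n ≤ N) (j : ℕ) :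
    G M N n ≤ G M (N + j) n := by
  induction j with
  | zero => exact le_rfl
  | succ j ih => exact ih.trans (hG M (N + j) n hM (by omega) (by omega)).1

theorem ins260_squeeze {x x₁ x₂ Φ ε θ r₁ r₂ : ℝ} (h₁ : r₁ * x₁ ≤ x) (h₂ : x ≤ r₂ * x₂)
    (hx₁ : |x₁ - Φ| ≤ ε) (hx₂ : |x₂ - Φ| ≤ ε) (hr₁ : |r₁ - 1| ≤ θ) (hr₂ : |r₂ - 1| ≤ θ) :
    |x - Φ| ≤ ε + θ * (|Φ| + ε) := by
  have hb : ∀ y : ℝ, |y - Φ| ≤ ε → |y| ≤ |Φ| + ε := by
    intro y hy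
    have : |y| ≤ |y - Φ| + |Φ| := by
      have := abs_add_le (y - Φ) Φ
      simpa using this
    linarith
  have hm : ∀ r y : ℝ, |r - 1| ≤ θ → |y - Φ| ≤ ε → |(r - 1) * y| ≤ θ * (|Φ| + ε) := by
    intro r y hr hy
    rw [abs_mul]
    exact mul_le_mul hr (hb y hy) (abs_nonneg _) ((abs_nonneg _).trans hr)
  have a1 := abs_le.1 (hm r₁ x₁ hr₁ hx₁)
  have a2 := abs_le.1 (hm r₂ x₂ hr₂ hx₂)
  have b1 := abs_le.1 hx₁
  have b2 := abs_le.1 hx₂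
  rw [abs_le]
  constructor
  · nlinarith [a1.1, b1.1]
  · nlinarith [a2.2, b2.2]

theorem ins260_cmp {M N n N₁ n₁ N₂ n₂ : ℕ} (hM : 0 < M) (hN : 0 < N) (hN₁ : 0 < N₁) (hN₂ : 0 < N₂)
    (h₁ : G M N₁ n₁ ≤ G M N n) (h₂ : G M N n ≤ G M N₂ n₂) {Φ ε θ : ℝ}
    (hx₁ : |G M N₁ n₁ / ((N₁ : ℝ) * M) - Φ| ≤ ε) (hx₂ : |G M N₂ n₂ / ((N₂ : ℝ) * M) - Φ| ≤ ε)
    (hr₁ : |(N₁ : ℝ) / N - 1| ≤ θ) (hr₂ : |(N₂ : ℝ) / N - 1| ≤ θ) :
    |G M N n / ((N : ℝ) * M) - Φ| ≤ ε + θ * (|Φ| + ε) := by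
  have hM' : (0 : ℝ) < M := by exact_mod_cast hM
  have hN' : (0 : ℝ) < N := by exact_mod_cast hN
  have hN₁' : (0 : ℝ) < N₁ := by exact_mod_cast hN₁
  have hN₂' : (0 : ℝ) < N₂ := by exact_mod_cast hN₂
  refine ins260_squeeze (r₁ := (N₁ : ℝ) / N) (r₂ := (N₂ : ℝ) / N) ?_ ?_ hx₁ hx₂ hr₁ hr₂
  · have e : (N₁ : ℝ) / N * (G M N₁ n₁ / ((N₁ : ℝ) * M)) = G M N₁ n₁ / ((N : ℝ) * M) := by
      field_simp
    rw [e]
    exact div_le_div_of_nonneg_right h₁ (by positivity)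
  · have e : (N₂ : ℝ) / N * (G M N₂ n₂ / ((N₂ : ℝ) * M)) = G M N₂ n₂ / ((N : ℝ) * M) := by
      field_simp
    rw [e]
    exact div_le_div_of_nonneg_right h₂ (by positivity)

/-- **Parity is free**: the regular-filling limit on even sectors gives it on all sectors. -/
theorem ins260_regOn_of_even (hG : Ins260Mono G) {ρ₀ : ℝ} {Φ : ℝ → ℝ} (h : Ins260RegOn ρ₀ G Φ Even) :
    Ins260RegOn ρ₀ G Φ (fun _ => True) := by
  intro ρ hρ0 hρ1 ε hε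
  obtain ⟨δ₁, hδ₁, N₁, H⟩ := h ρ hρ0 hρ1 (ε / 2) (by positivity)
  obtain ⟨K₁, hK₁⟩ := exists_nat_gt (2 / δ₁)
  obtain ⟨K₂, hK₂⟩ := exists_nat_gt ((|Φ ρ| + ε / 2) / (ε / 2))
  refine ⟨min (δ₁ / 2) (1 / 4), by positivity, N₁ + K₁ + K₂ + 2, ?_⟩
  intro N n hN _ hn
  have hnδ : |(n : ℝ) / N - ρ| ≤ δ₁ / 2 := hn.trans (min_le_left _ _)
  have hn4 : |(n : ℝ) / N - ρ| ≤ 1 / 4 := hn.trans (min_le_right _ _)
  have hNpos : 0 < N := by omega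
  have hN' : (0 : ℝ) < N := by exact_mod_cast hNpos
  have hnN : n ≤ N := by
    have h1 : (n : ℝ) / N ≤ 1 := by have := (abs_le.1 hn4).2; linarith
    have h2 : (n : ℝ) ≤ N := by rwa [div_le_one hN'] at h1
    exact_mod_cast h2
  have hnN' : (n : ℝ) ≤ N := by exact_mod_cast hnN
  -- smallness of `1 / N`
  have hK₁N : (K₁ : ℝ) ≤ N := by exact_mod_cast (by omega : K₁ ≤ N)
  have hK₂N : (K₂ : ℝ) ≤ N := by exact_mod_cast (by omega : K₂ ≤ N)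
  have hinv1 : 1 / (N : ℝ) ≤ δ₁ / 2 := by
    rw [div_le_iff₀ hN']
    have : 2 / δ₁ < N := lt_of_lt_of_le hK₁ hK₁N
    rw [div_lt_iff₀ hδ₁] at this
    linarith
  have hinv2 : 1 / (N : ℝ) * (|Φ ρ| + ε / 2) ≤ ε / 2 := by
    have : (|Φ ρ| + ε / 2) / (ε / 2) < N := lt_of_lt_of_le hK₂ hK₂N
    rw [div_lt_iff₀ (by positivity)] at this
    rw [div_mul_eq_mul_div, one_mul, div_le_iff₀ hN']
    linarith
  rcases Nat.even_or_odd n with he | ho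
  · filter_upwards [H N n (by omega) he (hnδ.trans (by linarith))] with M hM
    linarith
  · obtain ⟨n', rfl⟩ : ∃ n', n = n' + 1 := by
      obtain ⟨k, rfl⟩ := ho
      exact ⟨2 * k, rfl⟩
    obtain ⟨N', rfl⟩ : ∃ N', N = N' + 1 := ⟨N - 1, by omega⟩
    have hN'pos : 0 < N' := by omega
    have hN'' : (0 : ℝ) < N' := by exact_mod_cast hN'pos
    have hn'N' : n' ≤ N' := by omega
    have hn'N'' : (n' : ℝ) ≤ N' := by exact_mod_cast hn'N'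
    have hn'0 : (0 : ℝ) ≤ n' := Nat.cast_nonneg _
    have he1 : Even n' := by
      rcases ho with ⟨k, hk⟩
      exact ⟨k, by omega⟩
    have he2 : Even (n' + 1 + 1) := by
      rcases ho with ⟨k, hk⟩
      exact ⟨k + 1, by omega⟩
    -- the two neighbouring fillings
    have d1 : |(n' : ℝ) / N' - ((n' + 1 : ℕ) : ℝ) / ((N' + 1 : ℕ) : ℝ)| ≤ 1 / ((N' + 1 : ℕ) : ℝ) := by
      have e : (n' : ℝ) / N' - ((n' + 1 : ℕ) : ℝ) / ((N' + 1 : ℕ) : ℝ)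
          = -(((N' : ℝ) - n') / N') * (1 / ((N' + 1 : ℕ) : ℝ)) := by
        push_cast
        field_simp
        ring
      rw [e, abs_mul, abs_neg, abs_of_nonneg (by positivity : (0 : ℝ) ≤ 1 / ((N' + 1 : ℕ) : ℝ))]
      have : |((N' : ℝ) - n') / N'| ≤ 1 := by
        rw [abs_of_nonneg (div_nonneg (by linarith) hN''.le), div_le_one hN'']
        linarith
      calc _ ≤ 1 * (1 / ((N' + 1 : ℕ) : ℝ)) := mul_le_mul_of_nonneg_right this (by positivity)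
        _ = _ := one_mul _
    have d2 : |((n' + 1 + 1 : ℕ) : ℝ) / ((N' + 1 + 1 : ℕ) : ℝ) - ((n' + 1 : ℕ) : ℝ) / ((N' + 1 : ℕ) : ℝ)|
        ≤ 1 / ((N' + 1 : ℕ) : ℝ) := by
      have e : ((n' + 1 + 1 : ℕ) : ℝ) / ((N' + 1 + 1 : ℕ) : ℝ) - ((n' + 1 : ℕ) : ℝ) / ((N' + 1 : ℕ) : ℝ)
          = (((N' : ℝ) - n') / ((N' : ℝ) + 1 + 1)) * (1 / ((N' + 1 : ℕ) : ℝ)) := by
        push_cast
        field_simp
        ring
      rw [e, abs_mul, abs_of_nonneg (by positivity : (0 : ℝ) ≤ 1 / ((N' + 1 : ℕ) : ℝ))]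
      have : |((N' : ℝ) - n') / ((N' : ℝ) + 1 + 1)| ≤ 1 := by
        rw [abs_of_nonneg (div_nonneg (by linarith) (by positivity)), div_le_one (by positivity)]
        linarith
      calc _ ≤ 1 * (1 / ((N' + 1 : ℕ) : ℝ)) := mul_le_mul_of_nonneg_right this (by positivity)
        _ = _ := one_mul _
    have c1 : |(n' : ℝ) / N' - ρ| ≤ δ₁ := by
      have := abs_add_le ((n' : ℝ) / N' - ((n' + 1 : ℕ) : ℝ) / ((N' + 1 : ℕ) : ℝ))
        (((n' + 1 : ℕ) : ℝ) / ((N' + 1 : ℕ) : ℝ) - ρ)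
      rw [sub_add_sub_cancel] at this
      linarith
    have c2 : |((n' + 1 + 1 : ℕ) : ℝ) / ((N' + 1 + 1 : ℕ) : ℝ) - ρ| ≤ δ₁ := by
      have := abs_add_le (((n' + 1 + 1 : ℕ) : ℝ) / ((N' + 1 + 1 : ℕ) : ℝ)
        - ((n' + 1 : ℕ) : ℝ) / ((N' + 1 : ℕ) : ℝ)) (((n' + 1 : ℕ) : ℝ) / ((N' + 1 : ℕ) : ℝ) - ρ)
      rw [sub_add_sub_cancel] at this
      linarith
    have r1 : |(N' : ℝ) / ((N' + 1 : ℕ) : ℝ) - 1| ≤ 1 / ((N' + 1 : ℕ) : ℝ) := by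
      have e : (N' : ℝ) / ((N' + 1 : ℕ) : ℝ) - 1 = -(1 / ((N' + 1 : ℕ) : ℝ)) := by
        push_cast
        field_simp
        ring
      rw [e, abs_neg, abs_of_nonneg (by positivity)]
    have r2 : |((N' + 1 + 1 : ℕ) : ℝ) / ((N' + 1 : ℕ) : ℝ) - 1| ≤ 1 / ((N' + 1 : ℕ) : ℝ) := by
      have e : ((N' + 1 + 1 : ℕ) : ℝ) / ((N' + 1 : ℕ) : ℝ) - 1 = 1 / ((N' + 1 : ℕ) : ℝ) := by
        push_cast
        field_simp
        ring
      rw [e, abs_of_nonneg (by positivity)]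
    filter_upwards [H N' n' (by omega) he1 c1, H (N' + 1 + 1) (n' + 1 + 1) (by omega) he2 c2,
      eventually_gt_atTop 0] with M hM1 hM2 hM0
    have := ins260_cmp (G := G) hM0 hNpos hN'pos (by omega : 0 < N' + 1 + 1)
      (hG M N' n' hM0 hN'pos hn'N').2 (hG M (N' + 1) (n' + 1) hM0 hNpos hnN).2 hM1 hM2 r1 r2
    linarith

set_option maxHeartbeats 1000000 in
/-- **Half filling is free**: the balanced sector is squeezed between regular fillings. -/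
theorem ins260_halfOn (hG : Ins260Mono G) {ρ₀ : ℝ} (hρ₀ : ρ₀ < 1 / 2) {Φ : ℝ → ℝ}
    (h : Ins260RegOn ρ₀ G Φ (fun _ => True)) {Φ₀ : ℝ}
    (hΦ : ∀ ε : ℝ, 0 < ε → ∃ t₀ : ℝ, 0 < t₀ ∧ ∀ t : ℝ, 0 < t → t < t₀ → |Φ (1 / 2 - t / 2) - Φ₀| ≤ ε)
    (η : ℝ) (hη : 0 < η) :
    ∀ᶠ L : ℕ in atTop, ∀ᶠ M : ℕ in atTop, |G M (2 * L) L / (((2 * L : ℕ) : ℝ) * M) - Φ₀| ≤ η := by
  obtain ⟨t₀, ht₀, HΦ⟩ := hΦ (min (η / 4) 1) (by positivity)
  set B : ℝ := |Φ₀| + 1 + η / 4 with hB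
  have hBpos : 0 < B := by positivity
  have hρ₀' : 0 < (1 - 2 * ρ₀) / 2 := by linarith
  set t : ℝ := min (t₀ / 2) (min (1 / 4) (min (η / (8 * B)) ((1 - 2 * ρ₀) / 2))) with ht
  have htpos : 0 < t := by positivity
  have htt₀ : t < t₀ := lt_of_le_of_lt (min_le_left _ _) (by linarith)
  have ht4 : t ≤ 1 / 4 := (min_le_right _ _).trans (min_le_left _ _)
  have htB : t ≤ η / (8 * B) :=
    (min_le_right _ _).trans ((min_le_right _ _).trans (min_le_left _ _))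
  have htρ : t ≤ (1 - 2 * ρ₀) / 2 :=
    (min_le_right _ _).trans ((min_le_right _ _).trans (min_le_right _ _))
  have htB' : 2 * t * B ≤ η / 4 := by
    rw [le_div_iff₀ (by positivity)] at htB
    linarith
  set ρ : ℝ := 1 / 2 - t / 2 with hρ
  have hρ0 : 0 < ρ := by rw [hρ]; linarith
  have hρ38 : 3 / 8 ≤ ρ := by rw [hρ]; linarith
  have hρ1 : ρ < 1 / 2 := by rw [hρ]; linarith
  have hΦρ := HΦ t htpos htt₀
  rw [← hρ] at hΦρ
  have hΦρ1 : |Φ ρ - Φ₀| ≤ η / 4 := hΦρ.trans (min_le_left _ _)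
  have hΦρ2 : |Φ ρ - Φ₀| ≤ 1 := hΦρ.trans (min_le_right _ _)
  have hΦabs : |Φ ρ| ≤ |Φ₀| + 1 := by
    have := abs_add_le (Φ ρ - Φ₀) Φ₀
    rw [sub_add_cancel] at this
    linarith
  have hρρ₀ : ρ₀ < ρ := by rw [hρ]; linarith
  obtain ⟨δ, hδ, N₀, H⟩ := h ρ hρρ₀ hρ1 (η / 4) (by positivity)
  obtain ⟨K, hK⟩ := exists_nat_gt (1 / δ)
  filter_upwards [eventually_ge_atTop (N₀ + K + 1)] with L hL
  have hLpos : 0 < L := by omega
  have hL' : (0 : ℝ) < L := by exact_mod_cast hLpos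
  have hinv : 1 / (L : ℝ) ≤ δ := by
    have h1 : (K : ℝ) ≤ L := by exact_mod_cast (by omega : K ≤ L)
    have h2 : 1 / δ < L := lt_of_lt_of_le hK h1
    rw [div_lt_iff₀ hδ] at h2
    rw [div_le_iff₀ hL']
    linarith
  -- upper neighbour: `j` empty rows
  set j : ℕ := ⌊(L : ℝ) * t / ρ⌋₊ with hj
  have hj1 : (j : ℝ) ≤ (L : ℝ) * t / ρ := Nat.floor_le (by positivity)
  have hj2 : (L : ℝ) * t / ρ < j + 1 := Nat.lt_floor_add_one _
  have hj1' : (j : ℝ) * ρ ≤ L * t := by rwa [le_div_iff₀ hρ0] at hj1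
  have hj2' : (L : ℝ) * t < (j + 1) * ρ := by rwa [div_lt_iff₀ hρ0] at hj2
  have h2ρ : 2 * ρ + t = 1 := by rw [hρ]; ring
  have hN₂pos : 0 < 2 * L + j := by omega
  have hN₂' : (0 : ℝ) < ((2 * L + j : ℕ) : ℝ) := by exact_mod_cast hN₂pos
  have hN₂L : (L : ℝ) ≤ ((2 * L + j : ℕ) : ℝ) := by exact_mod_cast (by omega : L ≤ 2 * L + j)
  have c2 : |(L : ℝ) / ((2 * L + j : ℕ) : ℝ) - ρ| ≤ δ := by
    have e : (L : ℝ) / ((2 * L + j : ℕ) : ℝ) - ρ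
        = ((L : ℝ) - ρ * ((2 * L + j : ℕ) : ℝ)) / ((2 * L + j : ℕ) : ℝ) := by
      field_simp
    have e2 : (L : ℝ) - ρ * ((2 * L + j : ℕ) : ℝ) = L * t - j * ρ := by
      push_cast
      have : (L : ℝ) = L * (2 * ρ + t) := by rw [h2ρ, mul_one]
      linear_combination this
    rw [e, e2, abs_of_nonneg (div_nonneg (by linarith) hN₂'.le)]
    have hx : (L : ℝ) * t - j * ρ ≤ 1 := by linarith
    calc ((L : ℝ) * t - j * ρ) / ((2 * L + j : ℕ) : ℝ) ≤ 1 / (L : ℝ) := by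
          rw [div_le_div_iff₀ hN₂' hL']
          calc ((L : ℝ) * t - j * ρ) * L ≤ 1 * L := mul_le_mul_of_nonneg_right hx hL'.le
            _ ≤ 1 * ((2 * L + j : ℕ) : ℝ) := by linarith
      _ ≤ δ := hinv
  have r2 : |((2 * L + j : ℕ) : ℝ) / ((2 * L : ℕ) : ℝ) - 1| ≤ 2 * t := by
    have e : ((2 * L + j : ℕ) : ℝ) / ((2 * L : ℕ) : ℝ) - 1 = (j : ℝ) / (2 * L) := by
      push_cast
      field_simp
      ring
    rw [e, abs_of_nonneg (by positivity), div_le_iff₀ (by positivity)]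
    have h5 : (j : ℝ) * (3 / 8) ≤ j * ρ := mul_le_mul_of_nonneg_left hρ38 (Nat.cast_nonneg _)
    have h6 : 0 ≤ (L : ℝ) * t := by positivity
    linarith
  -- lower neighbour: remove `j'` full rows
  set j' : ℕ := ⌊(L : ℝ) * t / (1 - ρ)⌋₊ with hj'
  have h1ρ : 0 < 1 - ρ := by linarith
  have hk1 : (j' : ℝ) ≤ (L : ℝ) * t / (1 - ρ) := Nat.floor_le (by positivity)
  have hk2 : (L : ℝ) * t / (1 - ρ) < j' + 1 := Nat.lt_floor_add_one _
  have hk1' : (j' : ℝ) * (1 - ρ) ≤ L * t := by rwa [le_div_iff₀ h1ρ] at hk1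
  have hk2' : (L : ℝ) * t < (j' + 1) * (1 - ρ) := by rwa [div_lt_iff₀ h1ρ] at hk2
  have hj'L : j' < L := by
    have h5 : (j' : ℝ) * (1 / 2) ≤ j' * (1 - ρ) :=
      mul_le_mul_of_nonneg_left (by linarith) (Nat.cast_nonneg _)
    have h6 : (L : ℝ) * t ≤ L * (1 / 4) := mul_le_mul_of_nonneg_left ht4 hL'.le
    have : (j' : ℝ) < L := by linarith
    exact_mod_cast this
  obtain ⟨n₁, hn₁⟩ : ∃ n₁, L = n₁ + j' := ⟨L - j', by omega⟩
  have hn₁pos : 0 < n₁ := by omega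
  have hn₁' : (L : ℝ) = n₁ + j' := by exact_mod_cast hn₁
  have hN₁pos : 0 < L + n₁ := by omega
  have hN₁' : (0 : ℝ) < ((L + n₁ : ℕ) : ℝ) := by exact_mod_cast hN₁pos
  have c1 : |(n₁ : ℝ) / ((L + n₁ : ℕ) : ℝ) - ρ| ≤ δ := by
    have e : (n₁ : ℝ) / ((L + n₁ : ℕ) : ℝ) - ρ
        = ((n₁ : ℝ) - ρ * ((L + n₁ : ℕ) : ℝ)) / ((L + n₁ : ℕ) : ℝ) := by
      field_simp
    have e2 : (n₁ : ℝ) - ρ * ((L + n₁ : ℕ) : ℝ) = L * t - j' * (1 - ρ) := by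
      push_cast
      have h3 : (n₁ : ℝ) = L - j' := by linarith
      rw [h3]
      have : (L : ℝ) = L * (2 * ρ + t) := by rw [h2ρ, mul_one]
      linear_combination this
    rw [e, e2, abs_of_nonneg (div_nonneg (by linarith) hN₁'.le)]
    have hx : (L : ℝ) * t - j' * (1 - ρ) ≤ 1 := by linarith
    have hLN : (L : ℝ) ≤ ((L + n₁ : ℕ) : ℝ) := by exact_mod_cast (by omega : L ≤ L + n₁)
    calc ((L : ℝ) * t - j' * (1 - ρ)) / ((L + n₁ : ℕ) : ℝ) ≤ 1 / (L : ℝ) := by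
          rw [div_le_div_iff₀ hN₁' hL']
          calc ((L : ℝ) * t - j' * (1 - ρ)) * L ≤ 1 * L := mul_le_mul_of_nonneg_right hx hL'.le
            _ ≤ 1 * ((L + n₁ : ℕ) : ℝ) := by linarith
      _ ≤ δ := hinv
  have r1 : |((L + n₁ : ℕ) : ℝ) / ((2 * L : ℕ) : ℝ) - 1| ≤ 2 * t := by
    have e : ((L + n₁ : ℕ) : ℝ) / ((2 * L : ℕ) : ℝ) - 1 = -((j' : ℝ) / (2 * L)) := by
      push_cast
      have h3 : (n₁ : ℝ) = L - j' := by linarith
      rw [h3]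
      field_simp
      ring
    rw [e, abs_neg, abs_of_nonneg (by positivity), div_le_iff₀ (by positivity)]
    have h5 : (j' : ℝ) * (1 / 2) ≤ j' * (1 - ρ) :=
      mul_le_mul_of_nonneg_left (by linarith) (Nat.cast_nonneg _)
    have h6 : 0 ≤ (L : ℝ) * t := by positivity
    linarith
  filter_upwards [H (L + n₁) n₁ (by omega) trivial c1, H (2 * L + j) L (by omega) trivial c2,
    eventually_gt_atTop 0] with M hM1 hM2 hM0
  have m1 : G M (L + n₁) n₁ ≤ G M (2 * L) L := by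
    have := ins260_mono_full hG hM0 hN₁pos (by omega : n₁ ≤ L + n₁) j'
    have e1 : L + n₁ + j' = 2 * L := by omega
    rw [e1, ← hn₁] at this
    exact this
  have m2 : G M (2 * L) L ≤ G M (2 * L + j) L :=
    ins260_mono_empty hG hM0 (by omega) (by omega) j
  have key := ins260_cmp (G := G) hM0 (by omega : 0 < 2 * L) hN₁pos hN₂pos m1 m2 hM1 hM2 r1 r2
  have hlast : 2 * t * (|Φ ρ| + η / 4) ≤ η / 4 := by
    have : 2 * t * (|Φ ρ| + η / 4) ≤ 2 * t * B := by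
      apply mul_le_mul_of_nonneg_left _ (by positivity)
      rw [hB]; linarith
    linarith
  have tri := abs_add_le (G M (2 * L) L / (((2 * L : ℕ) : ℝ) * M) - Φ ρ) (Φ ρ - Φ₀)
  rw [sub_add_sub_cancel] at tri
  linarith

/-- the sector `L - ⌊s L⌋` of the torus of height `2 L` has filling `1/2 - s/2 + O(1/L)`. -/
theorem ins260_filling {s : ℝ} (hs0 : 0 < s) (hs1 : s < 1) {L : ℕ} (hL : 0 < L) :
    |((L - ⌊s * L⌋₊ : ℕ) : ℝ) / ((2 * L : ℕ) : ℝ) - (1 / 2 - s / 2)| ≤ 1 / (L : ℝ) := by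
  have hL' : (0 : ℝ) < L := by exact_mod_cast hL
  have h1 : (⌊s * L⌋₊ : ℝ) ≤ s * L := Nat.floor_le (by positivity)
  have h2 : s * L < ⌊s * L⌋₊ + 1 := Nat.lt_floor_add_one _
  have hle : ⌊s * L⌋₊ ≤ L := by
    have : (⌊s * L⌋₊ : ℝ) ≤ L := by nlinarith
    exact_mod_cast this
  rw [Nat.cast_sub hle]
  have e : ((L : ℝ) - (⌊s * L⌋₊ : ℝ)) / ((2 * L : ℕ) : ℝ) - (1 / 2 - s / 2)
      = (s * L - ⌊s * L⌋₊) / (2 * L) := by
    push_cast
    field_simp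
    ring
  rw [e, abs_of_nonneg (div_nonneg (by linarith) (by positivity)), div_le_div_iff₀ (by positivity) hL']
  nlinarith

/-- **The reduction** (abstract form). -/
theorem ins260_stiffOn_abstract (hG : Ins260Mono G) {ρ₀ : ℝ} (hρ₀ : ρ₀ < 1 / 2) {Φ : ℝ → ℝ}
    (hreg : Ins260RegOn ρ₀ G Φ Even) {Φ₀ A : ℝ}
    (hC : ∀ ε : ℝ, 0 < ε → ∃ s₀ : ℝ, 0 < s₀ ∧ ∀ s : ℝ, 0 < s → s < s₀ →
      |Φ (1 / 2 - s / 2) - Φ₀ + A / 2 * s ^ 2| ≤ ε * s ^ 2) :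
    ∀ ε : ℝ, 0 < ε → ∃ s₀ : ℝ, 0 < s₀ ∧ ∀ s : ℝ, 0 < s → s < s₀ →
      ∀ᶠ L : ℕ in atTop, ∀ᶠ M : ℕ in atTop,
        |(G M (2 * L) (L - ⌊s * L⌋₊) - G M (2 * L) L) / (2 * L * M) + A / 2 * s ^ 2| ≤ ε * s ^ 2 := by
  have hall := ins260_regOn_of_even hG hreg
  -- continuity at half filling
  have hΦ : ∀ ε : ℝ, 0 < ε → ∃ t₀ : ℝ, 0 < t₀ ∧ ∀ t : ℝ, 0 < t → t < t₀ →
      |Φ (1 / 2 - t / 2) - Φ₀| ≤ ε := by
    intro ε hε
    obtain ⟨s₀, hs₀, H⟩ := hC 1 one_pos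
    set C : ℝ := |A| / 2 + 1 with hCdef
    have hCpos : 0 < C := by positivity
    refine ⟨min s₀ (min 1 (ε / C)), by positivity, ?_⟩
    intro t ht0 ht
    have ht1 : t < s₀ := lt_of_lt_of_le ht (min_le_left _ _)
    have ht2 : t < 1 := lt_of_lt_of_le ht ((min_le_right _ _).trans (min_le_left _ _))
    have ht3 : t < ε / C := lt_of_lt_of_le ht ((min_le_right _ _).trans (min_le_right _ _))
    have h1 := H t ht0 ht1
    have h2 : |A / 2 * t ^ 2| = |A| / 2 * t ^ 2 := by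
      rw [abs_mul, abs_div, abs_of_pos (by norm_num : (0 : ℝ) < 2),
        abs_of_nonneg (by positivity : (0 : ℝ) ≤ t ^ 2)]
    have h3 := abs_sub (Φ (1 / 2 - t / 2) - Φ₀ + A / 2 * t ^ 2) (A / 2 * t ^ 2)
    rw [add_sub_cancel_right] at h3
    have h4 : t ^ 2 ≤ t := by nlinarith
    have h5 : C * t ≤ ε := by
      rw [lt_div_iff₀ hCpos] at ht3
      linarith
    have h6 : C * t ^ 2 ≤ C * t := mul_le_mul_of_nonneg_left h4 hCpos.le
    have h7 : 1 * t ^ 2 + |A| / 2 * t ^ 2 = C * t ^ 2 := by rw [hCdef]; ring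
    linarith
  intro ε hε
  obtain ⟨s₀, hs₀, H⟩ := hC (ε / 2) (by positivity)
  have hρ₀' : 0 < 1 - 2 * ρ₀ := by linarith
  refine ⟨min s₀ (min 1 (1 - 2 * ρ₀)), by positivity, ?_⟩
  intro s hs0 hs
  have hs1 : s < s₀ := lt_of_lt_of_le hs (min_le_left _ _)
  have hs2 : s < 1 := lt_of_lt_of_le hs ((min_le_right _ _).trans (min_le_left _ _))
  have hs3 : s < 1 - 2 * ρ₀ := lt_of_lt_of_le hs ((min_le_right _ _).trans (min_le_right _ _))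
  have hη : 0 < ε * s ^ 2 / 4 := by positivity
  obtain ⟨δ, hδ, N₀, HR⟩ := hall (1 / 2 - s / 2) (by linarith) (by linarith) _ hη
  obtain ⟨K, hK⟩ := exists_nat_gt (1 / δ)
  filter_upwards [ins260_halfOn hG hρ₀ hall hΦ _ hη, eventually_ge_atTop (N₀ + K + 1)] with L hL1 hL2
  have hLpos : 0 < L := by omega
  have hL' : (0 : ℝ) < L := by exact_mod_cast hLpos
  have hinv : 1 / (L : ℝ) ≤ δ := by
    have h1 : (K : ℝ) ≤ L := by exact_mod_cast (by omega : K ≤ L)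
    have h2 : 1 / δ < L := lt_of_lt_of_le hK h1
    rw [div_lt_iff₀ hδ] at h2
    rw [div_le_iff₀ hL']
    linarith
  filter_upwards [hL1, HR (2 * L) (L - ⌊s * L⌋₊) (by omega) trivial
    ((ins260_filling hs0 hs2 hLpos).trans hinv), eventually_gt_atTop 0] with M hM1 hM2 hM0
  have hM' : (0 : ℝ) < M := by exact_mod_cast hM0
  have e : (G M (2 * L) (L - ⌊s * L⌋₊) - G M (2 * L) L) / (2 * L * M) + A / 2 * s ^ 2
      = (G M (2 * L) (L - ⌊s * L⌋₊) / (((2 * L : ℕ) : ℝ) * M) - Φ (1 / 2 - s / 2))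
        - (G M (2 * L) L / (((2 * L : ℕ) : ℝ) * M) - Φ₀)
        + (Φ (1 / 2 - s / 2) - Φ₀ + A / 2 * s ^ 2) := by
    push_cast
    ring
  rw [e]
  have t1 := abs_add_le ((G M (2 * L) (L - ⌊s * L⌋₊) / (((2 * L : ℕ) : ℝ) * M) - Φ (1 / 2 - s / 2))
        - (G M (2 * L) L / (((2 * L : ℕ) : ℝ) * M) - Φ₀)) (Φ (1 / 2 - s / 2) - Φ₀ + A / 2 * s ^ 2)
  have t2 := abs_sub (G M (2 * L) (L - ⌊s * L⌋₊) / (((2 * L : ℕ) : ℝ) * M) - Φ (1 / 2 - s / 2))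
        (G M (2 * L) L / (((2 * L : ℕ) : ℝ) * M) - Φ₀)
  have t3 := H s hs0 hs1
  linarith

/-- `(R)` from the top eigenvalues: `ℓ N n = lim_M M⁻¹ G M N n` (`= log Λ (N, n)`). -/
theorem ins260_regOn_of_lam {ℓ : ℕ → ℕ → ℝ} (N₁ : ℕ)
    (hlim : ∀ N n : ℕ, N₁ ≤ N → n ≤ N → Tendsto (fun M : ℕ => G M N n / (M : ℝ)) atTop (𝓝 (ℓ N n)))
    {ρ₀ : ℝ} {Φ : ℝ → ℝ} {P : ℕ → Prop}
    (h : ∀ ρ : ℝ, ρ₀ < ρ → ρ < 1 / 2 → ∀ ε : ℝ, 0 < ε → ∃ δ : ℝ, 0 < δ ∧ ∃ N₀ : ℕ, ∀ N n : ℕ, N₀ ≤ N → P n →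
      |(n : ℝ) / N - ρ| ≤ δ → |ℓ N n / (N : ℝ) - Φ ρ| ≤ ε) :
    Ins260RegOn ρ₀ G Φ P := by
  intro ρ hρ0 hρ1 ε hε
  obtain ⟨δ, hδ, N₀, H⟩ := h ρ hρ0 hρ1 (ε / 2) (by positivity)
  refine ⟨min δ (1 / 4), by positivity, N₀ + N₁ + 1, ?_⟩
  intro N n hN hP hn
  have hNpos : 0 < N := by omega
  have hN' : (0 : ℝ) < N := by exact_mod_cast hNpos
  have hn4 : |(n : ℝ) / N - ρ| ≤ 1 / 4 := hn.trans (min_le_right _ _)
  have hnN : n ≤ N := by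
    have h1 : (n : ℝ) / N ≤ 1 := by have := (abs_le.1 hn4).2; linarith
    have h2 : (n : ℝ) ≤ N := by rwa [div_le_one hN'] at h1
    exact_mod_cast h2
  have h1 := H N n (by omega) hP (hn.trans (min_le_left _ _))
  have h2 : Tendsto (fun M : ℕ => G M N n / (M : ℝ) / (N : ℝ)) atTop (𝓝 (ℓ N n / (N : ℝ))) :=
    (hlim N n (by omega) hnN).div_const _
  have h3 := (Metric.tendsto_nhds.1 h2) (ε / 2) (by positivity)
  filter_upwards [h3] with M hM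
  rw [Real.dist_eq] at hM
  have e : G M N n / ((N : ℝ) * M) = G M N n / (M : ℝ) / (N : ℝ) := by
    rw [div_div, mul_comm]
  rw [e]
  have tri := abs_add_le (G M N n / (M : ℝ) / (N : ℝ) - ℓ N n / (N : ℝ)) (ℓ N n / (N : ℝ) - Φ ρ)
  rw [sub_add_sub_cancel] at tri
  linarith

/-- **Parity is free** (all fillings). -/
theorem ins260_reg_of_even (hG : Ins260Mono G) {Φ : ℝ → ℝ} (h : Ins260Reg G Φ Even) :
    Ins260Reg G Φ (fun _ => True) :=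
  ins260_regOn_of_even hG (ρ₀ := 0) h

/-- **Half filling is free** (all fillings). -/
theorem ins260_half (hG : Ins260Mono G) {Φ : ℝ → ℝ} (h : Ins260Reg G Φ (fun _ => True)) {Φ₀ : ℝ}
    (hΦ : ∀ ε : ℝ, 0 < ε → ∃ t₀ : ℝ, 0 < t₀ ∧ ∀ t : ℝ, 0 < t → t < t₀ → |Φ (1 / 2 - t / 2) - Φ₀| ≤ ε)
    (η : ℝ) (hη : 0 < η) :
    ∀ᶠ L : ℕ in atTop, ∀ᶠ M : ℕ in atTop, |G M (2 * L) L / (((2 * L : ℕ) : ℝ) * M) - Φ₀| ≤ η :=
  ins260_halfOn hG (ρ₀ := 0) (by norm_num) h hΦ η hη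

theorem ins260_stiff_abstract (hG : Ins260Mono G) {Φ : ℝ → ℝ} (hreg : Ins260Reg G Φ Even) {Φ₀ A : ℝ}
    (hC : ∀ ε : ℝ, 0 < ε → ∃ s₀ : ℝ, 0 < s₀ ∧ ∀ s : ℝ, 0 < s → s < s₀ →
      |Φ (1 / 2 - s / 2) - Φ₀ + A / 2 * s ^ 2| ≤ ε * s ^ 2) :
    ∀ ε : ℝ, 0 < ε → ∃ s₀ : ℝ, 0 < s₀ ∧ ∀ s : ℝ, 0 < s → s < s₀ →
      ∀ᶠ L : ℕ in atTop, ∀ᶠ M : ℕ in atTop,
        |(G M (2 * L) (L - ⌊s * L⌋₊) - G M (2 * L) L) / (2 * L * M) + A / 2 * s ^ 2| ≤ ε * s ^ 2 :=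
  ins260_stiffOn_abstract hG (ρ₀ := 0) (by norm_num) hreg hC

theorem ins260_reg_of_lam {ℓ : ℕ → ℕ → ℝ}
    (hlim : ∀ N n : ℕ, 0 < N → n ≤ N → Tendsto (fun M : ℕ => G M N n / (M : ℝ)) atTop (𝓝 (ℓ N n)))
    {Φ : ℝ → ℝ} {P : ℕ → Prop}
    (h : ∀ ρ : ℝ, 0 < ρ → ρ < 1 / 2 → ∀ ε : ℝ, 0 < ε → ∃ δ : ℝ, 0 < δ ∧ ∃ N₀ : ℕ, ∀ N n : ℕ, N₀ ≤ N → P n →
      |(n : ℝ) / N - ρ| ≤ δ → |ℓ N n / (N : ℝ) - Φ ρ| ≤ ε) :
    Ins260Reg G Φ P :=
  ins260_regOn_of_lam (ρ₀ := 0) 1 (fun N n hN hn => hlim N n hN hn) h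

end abstract

section final

theorem ins260_mono_log (c : ℝ) (hc : 0 ≤ c) : Ins260Mono (fun M N n => Real.log (svZN c M N n)) := by
  intro M N n hM hN hn
  have h1 : 0 < svZN c M N n := lt_of_lt_of_le one_pos (ins260_one_le_svZN c hc hM hN n hn)
  exact ⟨Real.log_le_log h1 (ins260_svZN_le_empty c hc hM hN n),
    Real.log_le_log h1 (ins260_svZN_le_full c hc hM hN n)⟩

/-- **REDUCTION OF THE CONTRACT `sv_bethe`.**  The torus stiffness `SvStiff c A` follows from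

* `(R)` the regular-filling limit of `(N M)⁻¹ log Z (M, N, n)` on EVEN sectors, filling `n / N` near a fixed `ρ ∈ (0, 1/2)`
  (fixed Fermi boundary `Q < ∞`: no roots at exact half filling, no root at `z = 1`);
* `(C)` the continuum expansion `Φ (1/2 - s/2) = Φ₀ - (A/2) s² + o (s²)`. -/
theorem ins260_svStiff (c : ℝ) (hc : 0 ≤ c) {Φ : ℝ → ℝ} {Φ₀ A : ℝ}
    (hR : Ins260Reg (fun M N n => Real.log (svZN c M N n)) Φ Even)
    (hC : ∀ ε : ℝ, 0 < ε → ∃ s₀ : ℝ, 0 < s₀ ∧ ∀ s : ℝ, 0 < s → s < s₀ →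
      |Φ (1 / 2 - s / 2) - Φ₀ + A / 2 * s ^ 2| ≤ ε * s ^ 2) :
    SvStiff c A :=
  ins260_stiff_abstract (ins260_mono_log c hc) hR hC

/-- the same with regular filling on `(ρ₀, 1/2)` only. -/
theorem ins260_svStiffOn (c : ℝ) (hc : 0 ≤ c) {ρ₀ : ℝ} (hρ₀ : ρ₀ < 1 / 2) {Φ : ℝ → ℝ} {Φ₀ A : ℝ}
    (hR : Ins260RegOn ρ₀ (fun M N n => Real.log (svZN c M N n)) Φ Even)
    (hC : ∀ ε : ℝ, 0 < ε → ∃ s₀ : ℝ, 0 < s₀ ∧ ∀ s : ℝ, 0 < s → s < s₀ →
      |Φ (1 / 2 - s / 2) - Φ₀ + A / 2 * s ^ 2| ≤ ε * s ^ 2) :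
    SvStiff c A :=
  ins260_stiffOn_abstract (ins260_mono_log c hc) hρ₀ hR hC

/-- **H4 of `R292/Bethe/Hub.lean`** (real analysis only): the exit of unit BETHE from `ba_lim` (`F = baF c`, `N₁ = 2`) and
`ba_thermo` (thermodynamics at regular filling, parametrised by the Fermi point `Q`). -/
theorem ins260_hub (c : ℝ) (hc : 0 ≤ c) {A : ℝ} (F : ℕ → ℕ → ℝ) (N₁ : ℕ)
    (hlim : ∀ N n : ℕ, N₁ ≤ N → n ≤ N →
      Tendsto (fun M : ℕ => Real.log (svZN c M N n) / M) atTop (𝓝 (F N n)))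
    (hth : ∃ (Dq Eq : ℝ → ℝ) (Einf : ℝ),
      ContinuousOn Dq (Set.Ioi 0) ∧ ContinuousOn Eq (Set.Ioi 0) ∧ StrictMonoOn Dq (Set.Ioi 0) ∧
      (∀ Q, 0 < Q → 0 < Dq Q ∧ Dq Q < 1 / 2) ∧ Tendsto Dq atTop (𝓝 (1 / 2)) ∧
      (∀ Q₁ Q₂ : ℝ, 0 < Q₁ → Q₁ ≤ Q₂ → ∀ ε : ℝ, 0 < ε → ∃ N₀ : ℕ, ∀ N n : ℕ, N₀ ≤ N → Even n →
        ∀ Q ∈ Set.Icc Q₁ Q₂, (n : ℝ) = N * Dq Q → |F N n / N - Eq Q| ≤ ε) ∧
      Tendsto (fun Q => (Einf - Eq Q) / (1 / 2 - Dq Q) ^ 2) atTop (𝓝 (2 * A))) :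
    SvStiff c A := by
  classical
  obtain ⟨Dq, Eq, Einf, hDc, hEc, hDm, hDr, hDlim, hcond, hratio⟩ := hth
  have hρ₀ : Dq 1 < 1 / 2 := (hDr 1 one_pos).2
  -- intermediate values of `Dq`
  have ivt : ∀ a b : ℝ, 0 < a → a ≤ b → ∀ y ∈ Set.Icc (Dq a) (Dq b), ∃ Q ∈ Set.Icc a b, Dq Q = y := by
    intro a b ha hab y hy
    have hc' : ContinuousOn Dq (Set.Icc a b) :=
      hDc.mono (fun x hx => lt_of_lt_of_le ha hx.1)
    obtain ⟨Q, hQ, e⟩ := intermediate_value_Icc hab hc' hy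
    exact ⟨Q, hQ, e⟩
  have ex : ∀ ρ : ℝ, Dq 1 < ρ → ρ < 1 / 2 → ∃ Q : ℝ, 1 < Q ∧ Dq Q = ρ := by
    intro ρ h1 h2
    obtain ⟨Q₂, hQ₂, hQ₂'⟩ := ((hDlim.eventually (lt_mem_nhds h2)).and (eventually_gt_atTop 1)).exists
    obtain ⟨Q, hQ, e⟩ := ivt 1 Q₂ one_pos hQ₂'.le ρ ⟨h1.le, hQ₂.le⟩
    refine ⟨Q, lt_of_le_of_ne hQ.1 ?_, e⟩
    rintro rfl
    exact absurd e h1.ne
  set Qi : ℝ → ℝ := fun ρ => if h : Dq 1 < ρ ∧ ρ < 1 / 2 then Classical.choose (ex ρ h.1 h.2) else 1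
    with hQi
  have hQi1 : ∀ ρ : ℝ, Dq 1 < ρ → ρ < 1 / 2 → 1 < Qi ρ ∧ Dq (Qi ρ) = ρ := by
    intro ρ h1 h2
    have : Qi ρ = Classical.choose (ex ρ h1 h2) := by
      rw [hQi]; exact dif_pos ⟨h1, h2⟩
    rw [this]
    exact Classical.choose_spec (ex ρ h1 h2)
  refine ins260_svStiffOn c hc hρ₀ (Φ := fun ρ => Eq (Qi ρ)) (Φ₀ := Einf) ?_ ?_
  · -- (R)
    refine ins260_regOn_of_lam N₁ hlim ?_
    intro ρ h1 h2 ε hε
    obtain ⟨hQ1, hQe⟩ := hQi1 ρ h1 h2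
    set Qs := Qi ρ with hQs
    have hQs0 : 0 < Qs := by linarith
    have hcont : ContinuousAt Eq Qs := hEc.continuousAt (Ioi_mem_nhds hQs0)
    obtain ⟨η, hη, Hη⟩ := Metric.continuousAt_iff.1 hcont (ε / 2) (by positivity)
    set η' : ℝ := min (η / 2) (Qs / 2) with hη'
    have hη'pos : 0 < η' := by positivity
    have hη'1 : η' < η := lt_of_le_of_lt (min_le_left _ _) (by linarith)
    have hη'2 : η' ≤ Qs / 2 := min_le_right _ _
    have ha : 0 < Qs - η' := by linarith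
    have hab : Qs - η' ≤ Qs + η' := by linarith
    have hDa : Dq (Qs - η') < ρ := by
      rw [← hQe]; exact hDm ha hQs0 (by linarith)
    have hDb : ρ < Dq (Qs + η') := by
      rw [← hQe]; exact hDm hQs0 (by show (0 : ℝ) < Qs + η'; linarith) (by linarith)
    obtain ⟨N₀, HN⟩ := hcond (Qs - η') (Qs + η') ha hab (ε / 2) (by positivity)
    refine ⟨min (ρ - Dq (Qs - η')) (Dq (Qs + η') - ρ), lt_min (by linarith) (by linarith), N₀ + 1, ?_⟩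
    intro N n hN he hn
    have hNpos : (0 : ℝ) < N := by exact_mod_cast (by omega : 0 < N)
    have hn1 := (abs_le.1 (hn.trans (min_le_left _ _))).1
    have hn2 := (abs_le.1 (hn.trans (min_le_right _ _))).2
    obtain ⟨Q, hQ, e⟩ := ivt _ _ ha hab ((n : ℝ) / N) ⟨by linarith, by linarith⟩
    have hnN : (n : ℝ) = N * Dq Q := by rw [e]; field_simp
    have b1 := HN N n (by omega) he Q hQ hnN
    have hd : dist Q Qs < η := by
      rw [Real.dist_eq, abs_lt]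
      constructor
      · linarith [hQ.1]
      · linarith [hQ.2]
    have b2 := Hη hd
    rw [Real.dist_eq] at b2
    have tri := abs_add_le (F N n / N - Eq Q) (Eq Q - Eq Qs)
    rw [sub_add_sub_cancel] at tri
    show |F N n / (N : ℝ) - Eq Qs| ≤ ε
    linarith
  · -- (C)
    intro ε hε
    have hev := (Metric.tendsto_nhds.1 hratio) (4 * ε) (by positivity)
    obtain ⟨Q₀, HQ₀⟩ := eventually_atTop.1 hev
    set Q₁ : ℝ := max Q₀ 1 with hQ₁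
    have hQ₁1 : 1 ≤ Q₁ := le_max_right _ _
    have hQ₁0 : 0 < Q₁ := by linarith
    have hD1 : Dq Q₁ < 1 / 2 := (hDr Q₁ hQ₁0).2
    have hD2 : Dq 1 ≤ Dq Q₁ := hDm.monotoneOn (by show (0 : ℝ) < 1; norm_num) hQ₁0 hQ₁1
    refine ⟨1 - 2 * Dq Q₁, by linarith, ?_⟩
    intro s hs0 hs
    have h1 : Dq Q₁ < 1 / 2 - s / 2 := by linarith
    obtain ⟨hq1, hq2⟩ := hQi1 (1 / 2 - s / 2) (by linarith) (by linarith)
    set Q := Qi (1 / 2 - s / 2) with hQ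
    have hQ0 : 0 < Q := by linarith
    have hQQ₁ : Q₁ < Q := by
      by_contra hcon
      have := hDm.monotoneOn hQ0 hQ₁0 (not_lt.1 hcon)
      linarith
    have hb := HQ₀ Q ((le_max_left _ _).trans hQQ₁.le)
    rw [Real.dist_eq, hq2] at hb
    have e1 : (1 : ℝ) / 2 - (1 / 2 - s / 2) = s / 2 := by ring
    rw [e1] at hb
    have hs2 : 0 < s ^ 2 := by positivity
    have e2 : Eq Q - Einf + A / 2 * s ^ 2 = -(((Einf - Eq Q) / (s / 2) ^ 2 - 2 * A) * (s ^ 2 / 4)) := by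
      field_simp
      ring
    show |Eq Q - Einf + A / 2 * s ^ 2| ≤ ε * s ^ 2
    rw [e2, abs_neg, abs_mul, abs_of_pos (by positivity : 0 < s ^ 2 / 4)]
    nlinarith [abs_nonneg ((Einf - Eq Q) / (s / 2) ^ 2 - 2 * A)]

end final

section thermo

/-- **(Z1), general form.**  From the thermodynamics parametrised by the Fermi point `Q` (continuity of `Dq`, `Eq`, strict monotonicity of `Dq`,
condensation on compacts of `Q`, even sectors) ONE function `Φ` of the filling with `Φ (Dq Q) = Eq Q` for ALL `Q > 0`, which is the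
regular-filling limit on every interval `(ρ₀, 1/2)` of fillings covered by the range of `Dq`. -/
theorem ins260_regOn_of_thermo {G : ℕ → ℕ → ℕ → ℝ} (F : ℕ → ℕ → ℝ) (N₁ : ℕ)
    (hlim : ∀ N n : ℕ, N₁ ≤ N → n ≤ N → Tendsto (fun M : ℕ => G M N n / (M : ℝ)) atTop (𝓝 (F N n)))
    (Dq Eq : ℝ → ℝ) (hDc : ContinuousOn Dq (Set.Ioi 0)) (hEc : ContinuousOn Eq (Set.Ioi 0))
    (hDm : StrictMonoOn Dq (Set.Ioi 0))
    (hcond : ∀ Q₁ Q₂ : ℝ, 0 < Q₁ → Q₁ ≤ Q₂ → ∀ ε : ℝ, 0 < ε → ∃ N₀ : ℕ, ∀ N n : ℕ, N₀ ≤ N → Even n →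
      ∀ Q ∈ Set.Icc Q₁ Q₂, (n : ℝ) = N * Dq Q → |F N n / N - Eq Q| ≤ ε) :
    ∃ Φ : ℝ → ℝ, (∀ Q, 0 < Q → Φ (Dq Q) = Eq Q) ∧
      ∀ ρ₀ : ℝ, (∀ ρ, ρ₀ < ρ → ρ < 1 / 2 → ∃ Q, 0 < Q ∧ Dq Q = ρ) → Ins260RegOn ρ₀ G Φ Even := by
  classical
  have ivt : ∀ a b : ℝ, 0 < a → a ≤ b → ∀ y ∈ Set.Icc (Dq a) (Dq b), ∃ Q ∈ Set.Icc a b, Dq Q = y := by
    intro a b ha hab y hy
    have hc' : ContinuousOn Dq (Set.Icc a b) :=
      hDc.mono (fun x hx => lt_of_lt_of_le ha hx.1)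
    obtain ⟨Q, hQ, e⟩ := intermediate_value_Icc hab hc' hy
    exact ⟨Q, hQ, e⟩
  set Qi : ℝ → ℝ := fun ρ => if h : ∃ Q, 0 < Q ∧ Dq Q = ρ then Classical.choose h else 1 with hQi
  have hQi1 : ∀ ρ : ℝ, (∃ Q, 0 < Q ∧ Dq Q = ρ) → 0 < Qi ρ ∧ Dq (Qi ρ) = ρ := by
    intro ρ h
    have : Qi ρ = Classical.choose h := by
      rw [hQi]; exact dif_pos h
    rw [this]
    exact Classical.choose_spec h
  have hQi2 : ∀ Q, 0 < Q → Qi (Dq Q) = Q := by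
    intro Q hQ
    obtain ⟨h1, h2⟩ := hQi1 (Dq Q) ⟨Q, hQ, rfl⟩
    exact hDm.injOn h1 hQ h2
  refine ⟨fun ρ => Eq (Qi ρ), fun Q hQ => by show Eq (Qi (Dq Q)) = Eq Q; rw [hQi2 Q hQ], ?_⟩
  intro ρ₀ hsurj
  refine ins260_regOn_of_lam N₁ hlim ?_
  intro ρ h1 h2 ε hε
  obtain ⟨hQs0, hQe⟩ := hQi1 ρ (hsurj ρ h1 h2)
  set Qs := Qi ρ with hQs
  have hcont : ContinuousAt Eq Qs := hEc.continuousAt (Ioi_mem_nhds hQs0)
  obtain ⟨η, hη, Hη⟩ := Metric.continuousAt_iff.1 hcont (ε / 2) (by positivity)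
  set η' : ℝ := min (η / 2) (Qs / 2) with hη'
  have hη'pos : 0 < η' := by positivity
  have hη'1 : η' < η := lt_of_le_of_lt (min_le_left _ _) (by linarith)
  have hη'2 : η' ≤ Qs / 2 := min_le_right _ _
  have ha : 0 < Qs - η' := by linarith
  have hab : Qs - η' ≤ Qs + η' := by linarith
  have hDa : Dq (Qs - η') < ρ := by
    rw [← hQe]; exact hDm ha hQs0 (by linarith)
  have hDb : ρ < Dq (Qs + η') := by
    rw [← hQe]; exact hDm hQs0 (by show (0 : ℝ) < Qs + η'; linarith) (by linarith)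
  obtain ⟨N₀, HN⟩ := hcond (Qs - η') (Qs + η') ha hab (ε / 2) (by positivity)
  refine ⟨min (ρ - Dq (Qs - η')) (Dq (Qs + η') - ρ), lt_min (by linarith) (by linarith), N₀ + 1, ?_⟩
  intro N n hN he hn
  have hNpos : (0 : ℝ) < N := by exact_mod_cast (by omega : 0 < N)
  have hn1 := (abs_le.1 (hn.trans (min_le_left _ _))).1
  have hn2 := (abs_le.1 (hn.trans (min_le_right _ _))).2
  obtain ⟨Q, hQ, e⟩ := ivt _ _ ha hab ((n : ℝ) / N) ⟨by linarith, by linarith⟩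
  have hnN : (n : ℝ) = N * Dq Q := by rw [e]; field_simp
  have b1 := HN N n (by omega) he Q hQ hnN
  have hd : dist Q Qs < η := by
    rw [Real.dist_eq, abs_lt]
    constructor
    · linarith [hQ.1]
    · linarith [hQ.2]
  have b2 := Hη hd
  rw [Real.dist_eq] at b2
  have tri := abs_add_le (F N n / N - Eq Q) (Eq Q - Eq Qs)
  rw [sub_add_sub_cancel] at tri
  show |F N n / (N : ℝ) - Eq Qs| ≤ ε
  linarith

/-- the range of `Dq` covers `(Dq Q₀, 1/2)`. -/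
theorem ins260_range_above {Dq : ℝ → ℝ} (hDc : ContinuousOn Dq (Set.Ioi 0)) (hDlim : Tendsto Dq atTop (𝓝 (1 / 2)))
    {Q₀ : ℝ} (hQ₀ : 0 < Q₀) : ∀ ρ, Dq Q₀ < ρ → ρ < 1 / 2 → ∃ Q, 0 < Q ∧ Dq Q = ρ := by
  intro ρ h1 h2
  obtain ⟨Q₂, hQ₂, hQ₂'⟩ := ((hDlim.eventually (lt_mem_nhds h2)).and (eventually_gt_atTop Q₀)).exists
  have hc' : ContinuousOn Dq (Set.Icc Q₀ Q₂) := hDc.mono (fun x hx => lt_of_lt_of_le hQ₀ hx.1)
  obtain ⟨Q, hQ, e⟩ := intermediate_value_Icc hQ₂'.le hc' ⟨h1.le, hQ₂.le⟩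
  exact ⟨Q, lt_of_lt_of_le hQ₀ hQ.1, e⟩

/-- the range of `Dq` covers `(0, 1/2)` when `Dq` is continuous on `[0, ∞)` and `Dq 0 = 0`. -/
theorem ins260_range_all {Dq : ℝ → ℝ} (hDc : ContinuousOn Dq (Set.Ici 0)) (hD0 : Dq 0 = 0)
    (hDlim : Tendsto Dq atTop (𝓝 (1 / 2))) : ∀ ρ, 0 < ρ → ρ < 1 / 2 → ∃ Q, 0 < Q ∧ Dq Q = ρ := by
  intro ρ h1 h2
  obtain ⟨Q₂, hQ₂, hQ₂'⟩ := ((hDlim.eventually (lt_mem_nhds h2)).and (eventually_gt_atTop 0)).exists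
  have hc' : ContinuousOn Dq (Set.Icc 0 Q₂) := hDc.mono (fun x hx => hx.1)
  obtain ⟨Q, hQ, e⟩ := intermediate_value_Icc hQ₂'.le hc' ⟨by rw [hD0]; exact h1.le, hQ₂.le⟩
  refine ⟨Q, lt_of_le_of_ne hQ.1 ?_, e⟩
  rintro rfl
  rw [hD0] at e
  exact absurd e h1.ne

/-- **(Z1) of 116's ORDER B-4**: `T1 + T3 ⟹ ∃ Φ, Ins260Reg (log svZN c) Φ Even ∧ ∀ Q > 0, Φ (Dq Q) = Eq Q`
(`F = baF c`, `N₁ = 2`, `hlim = b1w160_lim`, `Dq = baDq lam`, `Eq = baEq lam`). -/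
theorem ins260_reg_of_thermo (c : ℝ) (F : ℕ → ℕ → ℝ) (N₁ : ℕ)
    (hlim : ∀ N n : ℕ, N₁ ≤ N → n ≤ N →
      Tendsto (fun M : ℕ => Real.log (svZN c M N n) / M) atTop (𝓝 (F N n)))
    (Dq Eq : ℝ → ℝ) (hDc : ContinuousOn Dq (Set.Ici 0)) (hD0 : Dq 0 = 0) (hEc : ContinuousOn Eq (Set.Ioi 0))
    (hDm : StrictMonoOn Dq (Set.Ici 0)) (hDlim : Tendsto Dq atTop (𝓝 (1 / 2)))
    (hcond : ∀ Q₁ Q₂ : ℝ, 0 < Q₁ → Q₁ ≤ Q₂ → ∀ ε : ℝ, 0 < ε → ∃ N₀ : ℕ, ∀ N n : ℕ, N₀ ≤ N → Even n →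
      ∀ Q ∈ Set.Icc Q₁ Q₂, (n : ℝ) = N * Dq Q → |F N n / N - Eq Q| ≤ ε) :
    ∃ Φ : ℝ → ℝ, Ins260Reg (fun M N n => Real.log (svZN c M N n)) Φ Even ∧ ∀ Q, 0 < Q → Φ (Dq Q) = Eq Q := by
  obtain ⟨Φ, h1, h2⟩ := ins260_regOn_of_thermo (G := fun M N n => Real.log (svZN c M N n)) F N₁ hlim Dq Eq
    (hDc.mono Set.Ioi_subset_Ici_self) hEc (hDm.mono Set.Ioi_subset_Ici_self) hcond
  exact ⟨Φ, h2 0 (ins260_range_all hDc hD0 hDlim), h1⟩

/-- the same without any information at `Q = 0`: regular filling on `(Dq Q₀, 1/2)` for every `Q₀ > 0`, with ONE `Φ`. -/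
theorem ins260_regOn_of_thermo' (c : ℝ) (F : ℕ → ℕ → ℝ) (N₁ : ℕ)
    (hlim : ∀ N n : ℕ, N₁ ≤ N → n ≤ N →
      Tendsto (fun M : ℕ => Real.log (svZN c M N n) / M) atTop (𝓝 (F N n)))
    (Dq Eq : ℝ → ℝ) (hDc : ContinuousOn Dq (Set.Ioi 0)) (hEc : ContinuousOn Eq (Set.Ioi 0))
    (hDm : StrictMonoOn Dq (Set.Ioi 0)) (hDlim : Tendsto Dq atTop (𝓝 (1 / 2)))
    (hcond : ∀ Q₁ Q₂ : ℝ, 0 < Q₁ → Q₁ ≤ Q₂ → ∀ ε : ℝ, 0 < ε → ∃ N₀ : ℕ, ∀ N n : ℕ, N₀ ≤ N → Even n →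
      ∀ Q ∈ Set.Icc Q₁ Q₂, (n : ℝ) = N * Dq Q → |F N n / N - Eq Q| ≤ ε) :
    ∃ Φ : ℝ → ℝ, (∀ Q, 0 < Q → Φ (Dq Q) = Eq Q) ∧
      ∀ Q₀, 0 < Q₀ → Ins260RegOn (Dq Q₀) (fun M N n => Real.log (svZN c M N n)) Φ Even := by
  obtain ⟨Φ, h1, h2⟩ := ins260_regOn_of_thermo (G := fun M N n => Real.log (svZN c M N n)) F N₁ hlim Dq Eq
    hDc hEc hDm hcond
  exact ⟨Φ, h1, fun Q₀ hQ₀ => h2 _ (ins260_range_above hDc hDlim hQ₀)⟩

end thermo

end Claimed.Agent.R292
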