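import Claimed.Agent.R292.Bridge.SectTM289

/-!
# Row 292, unit BETHE: inserting a row      (helper290, prefix `ins290`)

Inserting an empty row, or a full row, into the torus is injective and preserves the weight:
`ins290_Z_empty : svZN c (m+1) L n ≤ svZN c (m+1) (L+1) n`,  `ins290_Z_full : svZN c (m+1) L n ≤ svZN c (m+1) (L+1) (n+1)`
(and the iterated forms).  Use (notes/R292/BETHE_TEXT_290.md, Sec 0): only even `n` and only densities `< 1/2` need the Bethe ansatz.
0 sorry.
-/

set_option autoImplicit false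

namespace Claimed.Agent.R292

open Claims Claims.C0466 Claimed.Agent.R290
open Matrix Finset

/-! ## abstract part -/

theorem ins290_sum_le {α β : Type*} [Fintype α] [Fintype β] [DecidableEq β] (ι : α → β)
    (hι : Function.Injective ι) (f : α → ℝ) (g : β → ℝ) (hg : ∀ b, 0 ≤ g b) (h : ∀ a, f a ≤ g (ι a)) :
    ∑ a, f a ≤ ∑ b, g b :=
  calc ∑ a, f a ≤ ∑ a, g (ι a) := Finset.sum_le_sum fun a _ => h a
    _ = ∑ b ∈ Finset.univ.image ι, g b := (Finset.sum_image (fun _ _ _ _ e => hι e)).symm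
    _ ≤ ∑ b, g b := Finset.sum_le_sum_of_subset_of_nonneg (Finset.subset_univ _) (fun b _ _ => hg b)

theorem ins290_pow_nonneg {β : Type*} [Fintype β] [DecidableEq β] {B : Matrix β β ℝ} (hB : ∀ i j, 0 ≤ B i j) (k : ℕ) :
    ∀ i j, 0 ≤ (B ^ k) i j := by
  induction k with
  | zero =>
    intro i j
    rw [pow_zero, Matrix.one_apply]
    split_ifs <;> norm_num
  | succ k ih =>
    intro i j
    rw [pow_succ, Matrix.mul_apply]
    exact Finset.sum_nonneg fun l _ => mul_nonneg (ih i l) (hB l j)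

theorem ins290_pow_le {α β : Type*} [Fintype α] [Fintype β] [DecidableEq α] [DecidableEq β]
    {A : Matrix α α ℝ} {B : Matrix β β ℝ} (ι : α → β) (hι : Function.Injective ι)
    (hA : ∀ i j, 0 ≤ A i j) (hB : ∀ i j, 0 ≤ B i j) (h : ∀ i j, A i j ≤ B (ι i) (ι j)) (k : ℕ) :
    ∀ i j, (A ^ k) i j ≤ (B ^ k) (ι i) (ι j) := by
  induction k with
  | zero =>
    intro i j
    rw [pow_zero, pow_zero, Matrix.one_apply, Matrix.one_apply]
    by_cases e : i = j
    · simp [e]
    · have : ι i ≠ ι j := fun e' => e (hι e')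
      simp [e, this]
  | succ k ih =>
    intro i j
    rw [pow_succ, pow_succ, Matrix.mul_apply, Matrix.mul_apply]
    refine ins290_sum_le ι hι _ _ (fun b => mul_nonneg (ins290_pow_nonneg hB k _ _) (hB _ _)) (fun a => ?_)
    exact mul_le_mul (ih i a) (h a j) (hA a j) (ins290_pow_nonneg hB k _ _)

theorem ins290_trace_le {α β : Type*} [Fintype α] [Fintype β] [DecidableEq α] [DecidableEq β]
    {A : Matrix α α ℝ} {B : Matrix β β ℝ} (ι : α → β) (hι : Function.Injective ι)
    (hA : ∀ i j, 0 ≤ A i j) (hB : ∀ i j, 0 ≤ B i j) (h : ∀ i j, A i j ≤ B (ι i) (ι j)) (k : ℕ) :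
    trace (A ^ k) ≤ trace (B ^ k) := by
  unfold Matrix.trace
  exact ins290_sum_le ι hι _ _ (fun b => ins290_pow_nonneg hB k _ _) (fun a => ins290_pow_le ι hι hA hB h k a a)

/-! ## the extension of a column by one site -/

/-- a column on `L + 1` sites from a column on `L` sites and the value `e` at the new site `L`. -/
def ins290Ext (L : ℕ) (f : ZMod L → Bool) (e : Bool) : ZMod (L + 1) → Bool :=
  fun b => if b.val < L then f ((b.val : ℕ) : ZMod L) else e

theorem ins290_val_cast {L j : ℕ} (hj : j < L + 1) : ((j : ℕ) : ZMod (L + 1)).val = j :=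
  ZMod.val_natCast_of_lt hj

theorem ins290_ext_cast (L : ℕ) (f : ZMod L → Bool) (e : Bool) {j : ℕ} (hj : j < L) :
    ins290Ext L f e ((j : ℕ) : ZMod (L + 1)) = f ((j : ℕ) : ZMod L) := by
  unfold ins290Ext
  rw [ins290_val_cast (by omega), if_pos hj]

theorem ins290_ext_top (L : ℕ) (f : ZMod L → Bool) (e : Bool) :
    ins290Ext L f e ((L : ℕ) : ZMod (L + 1)) = e := by
  unfold ins290Ext
  rw [ins290_val_cast (by omega), if_neg (lt_irrefl L)]

theorem ins290_ext_injective (L : ℕ) [NeZero L] (e e' : Bool) {f g : ZMod L → Bool}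
    (h : ins290Ext L f e = ins290Ext L g e') : f = g := by
  funext a
  have h1 := congrFun h ((a.val : ℕ) : ZMod (L + 1))
  rw [ins290_ext_cast L f e (ZMod.val_lt a), ins290_ext_cast L g e' (ZMod.val_lt a), ZMod.natCast_zmod_val] at h1
  exact h1

/-- counting on `ZMod (L+1)` against counting on `ZMod L`. -/
theorem ins290_card (L : ℕ) [NeZero L] (P : ZMod (L + 1) → Prop) [DecidablePred P] (Q : ZMod L → Prop) [DecidablePred Q]
    (h : ∀ j : ℕ, j < L → (P ((j : ℕ) : ZMod (L + 1)) ↔ Q ((j : ℕ) : ZMod L))) :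
    (Finset.univ.filter P).card = (Finset.univ.filter Q).card + (if P ((L : ℕ) : ZMod (L + 1)) then 1 else 0) := by
  rw [← svt_card_range P (fun j : ℕ => P ((j : ℕ) : ZMod (L + 1))) (fun j => Iff.rfl),
    ← svt_card_range Q (fun j : ℕ => Q ((j : ℕ) : ZMod L)) (fun j => Iff.rfl)]
  rw [Finset.range_add_one, Finset.filter_insert]
  have e : (Finset.range L).filter (fun j : ℕ => P ((j : ℕ) : ZMod (L + 1)))
      = (Finset.range L).filter (fun j : ℕ => Q ((j : ℕ) : ZMod L)) :=
    Finset.filter_congr fun j hj => h j (Finset.mem_range.1 hj)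
  rw [e]
  split_ifs with hP
  · rw [Finset.card_insert_of_notMem]
    intro hmem
    exact absurd (Finset.mem_range.1 (Finset.mem_filter.1 hmem).1) (lt_irrefl L)
  · rfl

theorem ins290_sec (L n : ℕ) [NeZero L] (σ : ZMod L → Bool) (e : Bool) (h : brg289Sec n σ) :
    brg289Sec (n + (if e then 1 else 0)) (ins290Ext L σ e) := by
  unfold brg289Sec at h ⊢
  rw [ins290_card L (fun b => ins290Ext L σ e b = true) (fun b => σ b = true)
    (fun j hj => by rw [ins290_ext_cast L σ e hj]), h, ins290_ext_top]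

theorem ins290_D (L : ℕ) [NeZero L] (σ σ' : ZMod L → Bool) (e : Bool) :
    svtD (ins290Ext L σ e) (ins290Ext L σ' e) = svtD σ σ' := by
  unfold svtD
  rw [ins290_card L (fun b => ins290Ext L σ e b ≠ ins290Ext L σ' e b) (fun b => σ b ≠ σ' b)
    (fun j hj => by rw [ins290_ext_cast L σ e hj, ins290_ext_cast L σ' e hj]), ins290_ext_top, ins290_ext_top]
  simp

/-- the vertical edge below the site `b`, `b.val < L`. -/
theorem ins290_ext_pred (L : ℕ) [NeZero L] (v : ZMod L → Bool) (b : ZMod (L + 1)) (hb : b.val < L) :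
    ins290Ext L v (v (-1)) (b - 1) = v (((b.val : ℕ) : ZMod L) - 1) := by
  rcases Nat.eq_zero_or_pos b.val with h0 | hpos
  · have hb0 : b = 0 := (ZMod.val_eq_zero b).1 h0
    rw [h0, hb0, zero_sub, Nat.cast_zero, zero_sub]
    unfold ins290Ext
    rw [ZMod.val_neg_one, if_neg (lt_irrefl L)]
  · obtain ⟨k, hk⟩ : ∃ k, b.val = k + 1 := ⟨b.val - 1, by omega⟩
    have hb1 : b = ((k + 1 : ℕ) : ZMod (L + 1)) := by rw [← hk, ZMod.natCast_zmod_val]
    have hb2 : b - 1 = ((k : ℕ) : ZMod (L + 1)) := by rw [hb1]; push_cast; ring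
    rw [hb2, ins290_ext_cast L v _ (by omega), hk]
    congr 1
    push_cast; ring

theorem ins290_ext_pred_top (L : ℕ) [NeZero L] (v : ZMod L → Bool) (b : ZMod (L + 1)) (hb : ¬ b.val < L) :
    ins290Ext L v (v (-1)) (b - 1) = v (-1) := by
  have hL : 0 < L := Nat.pos_of_ne_zero (NeZero.ne L)
  have hbL : b.val = L := by have := ZMod.val_lt b; omega
  obtain ⟨k, hk⟩ : ∃ k, L = k + 1 := ⟨L - 1, by omega⟩
  have hb1 : b = ((k + 1 : ℕ) : ZMod (L + 1)) :=
    (ZMod.natCast_zmod_val b).symm.trans (congrArg (fun t : ℕ => (t : ZMod (L + 1))) (hbL.trans hk))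
  have hb2 : b - 1 = ((k : ℕ) : ZMod (L + 1)) := by rw [hb1]; push_cast; ring
  rw [hb2, ins290_ext_cast L v _ (by omega)]
  congr 1
  have h1 : ((k + 1 : ℕ) : ZMod L) = 0 :=
    (congrArg (fun t : ℕ => (t : ZMod L)) hk).symm.trans (ZMod.natCast_self L)
  have h2 : ((k : ℕ) : ZMod L) + 1 = 0 := by rw [← h1]; push_cast; rfl
  exact eq_neg_of_add_eq_zero_left h2

theorem ins290_ice (L : ℕ) [NeZero L] (σ σ' v : ZMod L → Bool) (e : Bool) (h : svtIce σ (svtMk σ' v)) :
    svtIce (ins290Ext L σ e) (svtMk (ins290Ext L σ' e) (ins290Ext L v (v (-1)))) := by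
  intro b
  simp only [svtMk]
  by_cases hb : b.val < L
  · have h1 := h ((b.val : ℕ) : ZMod L)
    simp only [svtMk] at h1
    rw [ins290_ext_pred L v b hb]
    simp only [ins290Ext, hb, if_true]
    simpa using h1
  · rw [ins290_ext_pred_top L v b hb]
    simp only [ins290Ext, hb, if_false]
    cases e <;> cases v (-1) <;> simp

/-! ## the transfer matrices and the partition functions -/

/-- the embedding of the sector `(L, n)` into the sector `(L + 1, n + [e])`. -/
def ins290Map (L n : ℕ) [NeZero L] (e : Bool) (σ : Brg289Sec L n) : Brg289Sec (L + 1) (n + (if e then 1 else 0)) :=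
  ⟨ins290Ext L σ.1 e, ins290_sec L n σ.1 e σ.2⟩

theorem ins290_map_injective (L n : ℕ) [NeZero L] (e : Bool) : Function.Injective (ins290Map L n e) := by
  intro σ τ h
  exact Subtype.ext (ins290_ext_injective L e e (congrArg Subtype.val h))

theorem ins290_T_le {c : ℝ} (hc : 0 ≤ c) (L n : ℕ) [NeZero L] (e : Bool) (σ σ' : Brg289Sec L n) :
    brg289T c L n σ σ' ≤ brg289T c (L + 1) (n + (if e then 1 else 0)) (ins290Map L n e σ) (ins290Map L n e σ') := by
  rw [brg289_T_apply', brg289_T_apply']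
  have hnn : ∀ v' : ZMod (L + 1) → Bool, (0 : ℝ) ≤
      if svtIce (ins290Map L n e σ).1 (svtMk (ins290Map L n e σ').1 v') then
        c ^ svtD (ins290Map L n e σ).1 (ins290Map L n e σ').1 else 0 := by
    intro v'
    by_cases h : svtIce (ins290Map L n e σ).1 (svtMk (ins290Map L n e σ').1 v')
    · rw [if_pos h]; positivity
    · rw [if_neg h]
  refine ins290_sum_le (fun v : ZMod L → Bool => ins290Ext L v (v (-1)))
    (fun v v' h => ins290_ext_injective L _ _ h) _ _ hnn (fun v => ?_)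
  by_cases hv : svtIce σ.1 (svtMk σ'.1 v)
  · have h2 : svtIce (ins290Map L n e σ).1 (svtMk (ins290Map L n e σ').1 (ins290Ext L v (v (-1)))) :=
      ins290_ice L σ.1 σ'.1 v e hv
    rw [if_pos hv, if_pos h2]
    exact le_of_eq (congrArg (fun t => c ^ t) (ins290_D L σ.1 σ'.1 e).symm)
  · rw [if_neg hv]
    exact hnn _

theorem ins290_Z {c : ℝ} (hc : 0 ≤ c) (m L n : ℕ) [NeZero L] (e : Bool) :
    svZN c (m + 1) L n ≤ svZN c (m + 1) (L + 1) (n + (if e then 1 else 0)) := by
  rw [brg289_Z, brg289_Z]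
  exact ins290_trace_le (ins290Map L n e) (ins290_map_injective L n e) (brg289_T_nonneg hc L n)
    (brg289_T_nonneg hc (L + 1) _) (ins290_T_le hc L n e) (m + 1)

/-- **inserting an empty row.** -/
theorem ins290_Z_empty {c : ℝ} (hc : 0 ≤ c) (m L n : ℕ) [NeZero L] :
    svZN c (m + 1) L n ≤ svZN c (m + 1) (L + 1) n := by
  simpa using ins290_Z hc m L n false

/-- **inserting a full row.** -/
theorem ins290_Z_full {c : ℝ} (hc : 0 ≤ c) (m L n : ℕ) [NeZero L] :
    svZN c (m + 1) L n ≤ svZN c (m + 1) (L + 1) (n + 1) := by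
  simpa using ins290_Z hc m L n true

/-- `k` empty rows. -/
theorem ins290_Z_empty_add {c : ℝ} (hc : 0 ≤ c) (m L n : ℕ) (hL : 0 < L) (k : ℕ) :
    svZN c (m + 1) L n ≤ svZN c (m + 1) (L + k) n := by
  induction k with
  | zero => exact le_rfl
  | succ k ih =>
    have : NeZero (L + k) := ⟨by omega⟩
    exact ih.trans (ins290_Z_empty hc m (L + k) n)

/-- `k` full rows. -/
theorem ins290_Z_full_add {c : ℝ} (hc : 0 ≤ c) (m L n : ℕ) (hL : 0 < L) (k : ℕ) :
    svZN c (m + 1) L n ≤ svZN c (m + 1) (L + k) (n + k) := by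
  induction k with
  | zero => exact le_rfl
  | succ k ih =>
    have : NeZero (L + k) := ⟨by omega⟩
    exact ih.trans (ins290_Z_full hc m (L + k) (n + k))

end Claimed.Agent.R292
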