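import Claimed.Agent.R292.Bethe.BA1x140

/-!
# Rows 292 + 290, unit BETHE, block BA-HALF: ROW INSERTION; NO BETHE ROOTS AT EXACT HALF FILLING      (helper61; prefix `ba61`)

SORRY-FREE.  Over `Bethe/BA1x140` (`ba1T0`, `ba1_Z_eq_trace`, `ba1_main`).

Since `a = b = 1`, inserting into the torus one new row of vertices whose horizontal arrows are all equal to `x` (the vertical arrows go straight
through the new row) is an injective map of configurations which preserves the ice rule and the weight.  Hence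
* **`ba61_Z_le`**    `baZ c M (k+1) n ≤ baZ c M (k+2) (n + if x then 1 else 0)`   (every `M ≥ 1`, `c ≥ 0`);
* `ba61F c L n`      `= lim_M log baZ / M` (`ba61_F_tendsto`; `ba61_F_eq_of_pos`: `= log μ` for the eigenvalue `μ` of a positive eigenvector; `ba61_log_le_F`);
* **`ba61_F_mono`**  `F(L, n) ≤ F(L + a + b, n + b)`;
* `ba61_upper`, `ba61_lower`   `F(2l'', l'' - ⌊s l''⌋) ≤ F(2l, l) ≤ F(2l', l' - ⌊s l'⌋)` as soon as `(1+s) l'' ≤ l ≤ (1-s) l'`;
* **`ba61_half_tendsto`**   if `F(2l, l - ⌊s l⌋)/(2l) → f(s)` for every `s ∈ (0, s1)` and `f(s) → f*` (`s ↓ 0`) then `F(2l, l)/(2l) → f*`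
                            (`f(s)/(1+s) ≤ liminf ≤ limsup ≤ f(s)/(1-s)`);
* **`ba61_stiffness_of_regular`**   (H1) regular fillings + (H2) `f(s) = f* - A s²/2 + o(s²)`   ⟹   the statement of `ba_stiffness` (Exit/BETHE).
So existence of the roots, Perron identification and condensation are needed ONLY at regular filling `n/L → (1-s)/2 < 1/2` (bounded Fermi point `Q`).
-/

set_option autoImplicit false

namespace Claimed.Agent.R292

open Claims.C0466 Claimed.Agent.R290 Filter Topology Matrix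

/-! ## 1. cyclic arithmetic -/

theorem ba61_castSucc_sub_one {k : ℕ} (j : Fin (k + 1)) (hj : j ≠ 0) :
    (Fin.castSucc j - 1 : Fin (k + 2)) = Fin.castSucc (j - 1) := by
  have hj' : j.val ≠ 0 := fun h => hj (Fin.ext h)
  have hk : 1 < k + 1 := by have := j.isLt; omega
  apply Fin.ext
  rw [Fin.val_castSucc, Fin.sub_def, Fin.sub_def]
  simp only [Fin.val_castSucc, Fin.val_one]
  have h1 : ((1 : Fin (k + 1)) : ℕ) = 1 := by
    rw [Fin.val_one']; exact Nat.mod_eq_of_lt hk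
  rw [h1]
  have := j.isLt
  rw [show k + 2 - 1 + j.val = (j.val - 1) + (k + 2) by omega, Nat.add_mod_right,
    Nat.mod_eq_of_lt (by omega), show k + 1 - 1 + j.val = (j.val - 1) + (k + 1) by omega, Nat.add_mod_right,
    Nat.mod_eq_of_lt (by omega)]

theorem ba61_zero_sub_one (k : ℕ) : (0 - 1 : Fin (k + 1)) = Fin.last k := by
  apply Fin.ext
  rw [Fin.sub_def]
  simp only [Fin.val_zero, Fin.val_last, add_zero]
  rcases k with _ | k
  · simp
  · have h1 : ((1 : Fin (k + 1 + 1)) : ℕ) = 1 := rfl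
    rw [h1]
    exact Nat.mod_eq_of_lt (by omega)

theorem ba61_last_sub_one (k : ℕ) : (Fin.last (k + 1) - 1 : Fin (k + 2)) = Fin.castSucc (Fin.last k) := by
  apply Fin.ext
  rw [Fin.sub_def]
  simp only [Fin.val_last, Fin.val_one, Fin.val_castSucc]
  rw [show k + 2 - 1 + (k + 1) = k + (k + 2) by omega, Nat.add_mod_right]
  exact Nat.mod_eq_of_lt (by omega)

theorem ba61_ice_fin {k : ℕ} (x : Bool) (h v h' : Fin (k + 1) → Bool)
    (H : ∀ b : Fin (k + 1), ba1Ice (h b) (h' b) (v (b - 1)) (v b)) (b : Fin (k + 2)) :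
    ba1Ice ((Fin.snoc (α := fun _ => Bool) h x : Fin (k + 2) → Bool) b)
      ((Fin.snoc (α := fun _ => Bool) h' x : Fin (k + 2) → Bool) b)
      ((Fin.snoc (α := fun _ => Bool) v (v (Fin.last k)) : Fin (k + 2) → Bool) (b - 1))
      ((Fin.snoc (α := fun _ => Bool) v (v (Fin.last k)) : Fin (k + 2) → Bool) b) := by
  induction b using Fin.lastCases with
  | last =>
    rw [ba61_last_sub_one k]
    simp only [Fin.snoc_last, Fin.snoc_castSucc]
    unfold ba1Ice
    cases x <;> cases v (Fin.last k) <;> simp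
  | cast j =>
    by_cases hj : j = 0
    · subst hj
      have e : (Fin.castSucc (0 : Fin (k + 1)) - 1 : Fin (k + 2)) = Fin.last (k + 1) := by
        rw [Fin.castSucc_zero]; exact ba61_zero_sub_one (k + 1)
      rw [e]
      simp only [Fin.snoc_last, Fin.snoc_castSucc]
      have := H 0
      rwa [ba61_zero_sub_one k] at this
    · rw [ba61_castSucc_sub_one j hj]
      simp only [Fin.snoc_castSucc]
      exact H j

/-- extension of a state by the value `x` at the new site -/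
def ba61Ext {k : ℕ} (x : Bool) (h : ZMod (k + 1) → Bool) : ZMod (k + 2) → Bool :=
  (Fin.snoc (α := fun _ => Bool) (n := k + 1) h x : Fin (k + 2) → Bool)

/-- extension of the vertical arrows: the arrow which enters the site `0` is split in two -/
def ba61ExtV {k : ℕ} (v : ZMod (k + 1) → Bool) : ZMod (k + 2) → Bool :=
  (Fin.snoc (α := fun _ => Bool) (n := k + 1) v (v (Fin.last k : Fin (k + 1))) : Fin (k + 2) → Bool)

theorem ba61_ice_ext {k : ℕ} (x : Bool) (h v h' : ZMod (k + 1) → Bool)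
    (H : ∀ b : ZMod (k + 1), ba1Ice (h b) (h' b) (v (b - 1)) (v b)) (b : ZMod (k + 2)) :
    ba1Ice (ba61Ext x h b) (ba61Ext x h' b) (ba61ExtV v (b - 1)) (ba61ExtV v b) :=
  ba61_ice_fin x h v h' H b

/-! ## 2. cardinalities -/

theorem ba61_card_fin {k : ℕ} (g : Fin (k + 2) → Prop) [DecidablePred g] :
    (Finset.univ.filter g).card =
      (Finset.univ.filter (fun j : Fin (k + 1) => g j.castSucc)).card + if g (Fin.last (k + 1)) then 1 else 0 := by
  rw [Finset.card_filter, Finset.card_filter, Fin.sum_univ_castSucc]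

theorem ba61_card_ne_fin {k : ℕ} (x : Bool) (h h' : Fin (k + 1) → Bool) :
    (Finset.univ.filter (fun b : Fin (k + 2) => (Fin.snoc (α := fun _ => Bool) h x : Fin (k + 2) → Bool) b ≠
      (Fin.snoc (α := fun _ => Bool) h' x : Fin (k + 2) → Bool) b)).card =
      (Finset.univ.filter (fun b : Fin (k + 1) => h b ≠ h' b)).card := by
  rw [ba61_card_fin]
  simp only [Fin.snoc_castSucc, Fin.snoc_last, ne_eq, not_true_eq_false, if_false, add_zero]

theorem ba61_card_ne {k : ℕ} (x : Bool) (h h' : ZMod (k + 1) → Bool) :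
    (Finset.univ.filter (fun b : ZMod (k + 2) => ba61Ext x h b ≠ ba61Ext x h' b)).card =
      (Finset.univ.filter (fun b : ZMod (k + 1) => h b ≠ h' b)).card :=
  ba61_card_ne_fin x h h'

theorem ba61_card_true_fin {k : ℕ} (x : Bool) (h : Fin (k + 1) → Bool) :
    (Finset.univ.filter (fun b : Fin (k + 2) => (Fin.snoc (α := fun _ => Bool) h x : Fin (k + 2) → Bool) b = true)).card =
      (Finset.univ.filter (fun b : Fin (k + 1) => h b = true)).card + if x = true then 1 else 0 := by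
  rw [ba61_card_fin]
  simp only [Fin.snoc_castSucc, Fin.snoc_last]

theorem ba61_card_true {k : ℕ} (x : Bool) (h : ZMod (k + 1) → Bool) :
    (Finset.univ.filter (fun b : ZMod (k + 2) => ba61Ext x h b = true)).card =
      (Finset.univ.filter (fun b : ZMod (k + 1) => h b = true)).card + if x = true then 1 else 0 :=
  ba61_card_true_fin x h

theorem ba61_snoc_inj_fin {k : ℕ} (X : (Fin (k + 1) → Bool) → Bool) :
    Function.Injective (fun h : Fin (k + 1) → Bool => (Fin.snoc (α := fun _ => Bool) h (X h) : Fin (k + 2) → Bool)) := by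
  intro h h' e
  funext j
  have := congrFun e (Fin.castSucc j)
  simpa only [Fin.snoc_castSucc] using this

theorem ba61_ext_inj {k : ℕ} (x : Bool) : Function.Injective (ba61Ext (k := k) x) :=
  ba61_snoc_inj_fin (fun _ => x)

theorem ba61_extV_inj {k : ℕ} : Function.Injective (ba61ExtV (k := k)) :=
  ba61_snoc_inj_fin (fun v => v (Fin.last k))

/-! ## 3. the transfer matrix -/

theorem ba61_w_le {c : ℝ} (hc : 0 ≤ c) {k : ℕ} (x : Bool) (h v h' : ZMod (k + 1) → Bool) :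
    ba1w c h v h' ≤ ba1w c (ba61Ext x h) (ba61ExtV v) (ba61Ext x h') := by
  by_cases H : ∀ b : ZMod (k + 1), ba1Ice (h b) (h' b) (v (b - 1)) (v b)
  · unfold ba1w
    rw [if_pos H, if_pos (ba61_ice_ext x h v h' H), ba61_card_ne]
  · have : ba1w c h v h' = 0 := by unfold ba1w; rw [if_neg H]
    rw [this]
    exact ba1w_nonneg hc _ _ _

theorem ba61_T0_le {c : ℝ} (hc : 0 ≤ c) {k : ℕ} (x : Bool) (h h' : ZMod (k + 1) → Bool) :
    ba1T0 c (k + 1) h h' ≤ ba1T0 c (k + 2) (ba61Ext x h) (ba61Ext x h') := by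
  unfold ba1T0
  calc ∑ v : ZMod (k + 1) → Bool, ba1w c h v h'
      ≤ ∑ v : ZMod (k + 1) → Bool, ba1w c (ba61Ext x h) (ba61ExtV v) (ba61Ext x h') :=
        Finset.sum_le_sum fun v _ => ba61_w_le hc x h v h'
    _ = ∑ v' ∈ Finset.univ.map ⟨ba61ExtV (k := k), ba61_extV_inj⟩, ba1w c (ba61Ext x h) v' (ba61Ext x h') := by
        rw [Finset.sum_map]; rfl
    _ ≤ ∑ v' : ZMod (k + 2) → Bool, ba1w c (ba61Ext x h) v' (ba61Ext x h') :=
        Finset.sum_le_univ_sum_of_nonneg fun _ => ba1w_nonneg hc _ _ _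

/-- powers of entrywise dominated nonnegative matrices -/
theorem ba61_pow_le {α β : Type*} [Fintype α] [Fintype β] [DecidableEq α] [DecidableEq β]
    (A : Matrix α α ℝ) (B : Matrix β β ℝ) (ι : α → β) (hι : Function.Injective ι)
    (hA : ∀ a a', 0 ≤ A a a') (hB : ∀ b b', 0 ≤ B b b') (hAB : ∀ a a', A a a' ≤ B (ι a) (ι a')) (M : ℕ) :
    (∀ a a', 0 ≤ (A ^ M) a a') ∧ (∀ b b', 0 ≤ (B ^ M) b b') ∧ ∀ a a', (A ^ M) a a' ≤ (B ^ M) (ι a) (ι a') := by
  induction M with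
  | zero =>
    refine ⟨fun a a' => ?_, fun b b' => ?_, fun a a' => ?_⟩
    · rw [pow_zero, Matrix.one_apply]; split_ifs <;> norm_num
    · rw [pow_zero, Matrix.one_apply]; split_ifs <;> norm_num
    · rw [pow_zero, pow_zero, Matrix.one_apply, Matrix.one_apply]
      by_cases e : a = a'
      · rw [if_pos e, if_pos (congrArg ι e)]
      · rw [if_neg e, if_neg (fun e' => e (hι e'))]
  | succ M ih =>
    obtain ⟨h1, h2, h3⟩ := ih
    refine ⟨fun a a' => ?_, fun b b' => ?_, fun a a' => ?_⟩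
    · rw [pow_succ, Matrix.mul_apply]
      exact Finset.sum_nonneg fun x _ => mul_nonneg (h1 _ _) (hA _ _)
    · rw [pow_succ, Matrix.mul_apply]
      exact Finset.sum_nonneg fun x _ => mul_nonneg (h2 _ _) (hB _ _)
    · rw [pow_succ, pow_succ, Matrix.mul_apply, Matrix.mul_apply]
      calc ∑ x, (A ^ M) a x * A x a' ≤ ∑ x, (B ^ M) (ι a) (ι x) * B (ι x) (ι a') :=
            Finset.sum_le_sum fun x _ => mul_le_mul (h3 _ _) (hAB _ _) (hA _ _) (h2 _ _)
        _ = ∑ y ∈ Finset.univ.map ⟨ι, hι⟩, (B ^ M) (ι a) y * B y (ι a') := by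
            rw [Finset.sum_map]; rfl
        _ ≤ ∑ y, (B ^ M) (ι a) y * B y (ι a') :=
            Finset.sum_le_univ_sum_of_nonneg fun y => mul_nonneg (h2 _ _) (hB _ _)

theorem ba61_trace_le {α β : Type*} [Fintype α] [Fintype β] [DecidableEq α] [DecidableEq β]
    (A : Matrix α α ℝ) (B : Matrix β β ℝ) (ι : α → β) (hι : Function.Injective ι)
    (hA : ∀ a a', 0 ≤ A a a') (hB : ∀ b b', 0 ≤ B b b') (hAB : ∀ a a', A a a' ≤ B (ι a) (ι a')) (M : ℕ) :
    (A ^ M).trace ≤ (B ^ M).trace := by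
  obtain ⟨-, h2, h3⟩ := ba61_pow_le A B ι hι hA hB hAB M
  unfold Matrix.trace
  simp only [Matrix.diag_apply]
  calc ∑ a, (A ^ M) a a ≤ ∑ a, (B ^ M) (ι a) (ι a) := Finset.sum_le_sum fun a _ => h3 a a
    _ = ∑ y ∈ Finset.univ.map ⟨ι, hι⟩, (B ^ M) y y := by rw [Finset.sum_map]; rfl
    _ ≤ ∑ y, (B ^ M) y y := Finset.sum_le_univ_sum_of_nonneg fun y => h2 y y

/-- the embedding of the sectors -/
def ba61Sec {k : ℕ} (x : Bool) (n : ℕ) (h : ba1Sec (k + 1) n) : ba1Sec (k + 2) (n + if x = true then 1 else 0) :=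
  ⟨ba61Ext x h.1, by
    have := h.2
    unfold ba1P at this ⊢
    rw [ba61_card_true, this]⟩

theorem ba61_sec_inj {k : ℕ} (x : Bool) (n : ℕ) : Function.Injective (ba61Sec (k := k) x n) := by
  intro h h' e
  apply Subtype.ext
  exact ba61_ext_inj x (congrArg Subtype.val e)

/-- **ROW INSERTION.** -/
theorem ba61_Z_le {c : ℝ} (hc : 0 ≤ c) (x : Bool) (M k n : ℕ) [NeZero M] :
    baZ c M (k + 1) n ≤ baZ c M (k + 2) (n + if x = true then 1 else 0) := by
  rw [ba1_Z_eq_trace, ba1_Z_eq_trace]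
  exact ba61_trace_le _ _ (ba61Sec x n) (ba61_sec_inj x n) (fun h h' => ba1T0_nonneg hc _ h.1 h'.1)
    (fun h h' => ba1T0_nonneg hc _ h.1 h'.1) (fun h h' => ba61_T0_le hc x h.1 h'.1) M

/-! ## 4. the growth rates -/

/-- `F(L,n) = lim_M log Z(M,L,n) / M` (`= log` of the top eigenvalue of the sector, `ba1_main`) -/
noncomputable def ba61F (c : ℝ) (L n : ℕ) : ℝ :=
  limUnder atTop (fun M : ℕ => Real.log (baZ c M L n) / M)

theorem ba61_F_tendsto {c : ℝ} (hc : 0 < c) (L n : ℕ) (hL : 1 ≤ L) (hn : n ≤ L) :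
    Tendsto (fun M : ℕ => Real.log (baZ c M L n) / M) atTop (𝓝 (ba61F c L n)) := by
  have : NeZero L := ⟨by omega⟩
  obtain ⟨Λ, -, h, -⟩ := ba1_main c hc L n hn
  unfold ba61F
  rw [h.limUnder_eq]
  exact h

/-- Perron criterion in terms of `F`. -/
theorem ba61_F_eq_of_pos {c : ℝ} (hc : 0 < c) (L n : ℕ) [NeZero L] (hn : n ≤ L) (v : ba1Sec L n → ℝ) (μ : ℝ)
    (hv : ∀ i, 0 < v i) (h : ba1T c L n *ᵥ v = μ • v) : ba61F c L n = Real.log μ := by
  obtain ⟨Λ, -, h1, -, -, h5⟩ := ba1_main c hc L n hn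
  rw [h5 v μ hv h]
  exact h1.limUnder_eq

/-- every positive eigenvalue is a lower bound. -/
theorem ba61_log_le_F {c : ℝ} (hc : 0 < c) (L n : ℕ) [NeZero L] (hn : n ≤ L) (v : ba1Sec L n → ℝ) (μ : ℝ)
    (hv : v ≠ 0) (hμ : 0 < μ) (h : ba1T c L n *ᵥ v = μ • v) : Real.log μ ≤ ba61F c L n := by
  obtain ⟨Λ, -, h1, -, h4, -⟩ := ba1_main c hc L n hn
  have : ba61F c L n = Real.log Λ := h1.limUnder_eq
  rw [this]
  exact Real.log_le_log hμ (h4 v μ hv h).2

theorem ba61_F_step {c : ℝ} (hc : 0 < c) (x : Bool) (L n : ℕ) (hL : 1 ≤ L) (hn : n ≤ L) :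
    ba61F c L n ≤ ba61F c (L + 1) (n + if x = true then 1 else 0) := by
  obtain ⟨k, rfl⟩ : ∃ k, L = k + 1 := ⟨L - 1, by omega⟩
  refine le_of_tendsto_of_tendsto (ba61_F_tendsto hc (k + 1) n hL hn)
    (ba61_F_tendsto hc (k + 1 + 1) _ (by omega) (by split_ifs <;> omega)) ?_
  filter_upwards [eventually_ge_atTop 1] with M hM
  have : NeZero M := ⟨by omega⟩
  have hpos := ba1_Z_pos c hc M (k + 1) n hn
  have hle := ba61_Z_le hc.le x M k n
  exact div_le_div_of_nonneg_right (Real.log_le_log hpos hle) (Nat.cast_nonneg M)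

theorem ba61_F_mono {c : ℝ} (hc : 0 < c) (L n : ℕ) (hL : 1 ≤ L) (hn : n ≤ L) (a b : ℕ) :
    ba61F c L n ≤ ba61F c (L + a + b) (n + b) := by
  have h1 : ∀ a : ℕ, ba61F c L n ≤ ba61F c (L + a) n := by
    intro a
    induction a with
    | zero => exact le_rfl
    | succ a ih =>
      have := ba61_F_step hc false (L + a) n (by omega) (by omega)
      simp only [Bool.false_eq_true, if_false, add_zero] at this
      exact ih.trans this
  induction b with
  | zero => exact h1 a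
  | succ b ih =>
    have := ba61_F_step hc true (L + a + b) (n + b) (by omega) (by omega)
    simp only [if_true] at this
    exact ih.trans this

theorem ba61_upper {c : ℝ} (hc : 0 < c) {s : ℝ} (hs0 : 0 ≤ s) (l l' : ℕ) (hl : 1 ≤ l)
    (h : (l : ℝ) ≤ (1 - s) * l') : ba61F c (2 * l) l ≤ ba61F c (2 * l') (l' - ⌊s * l'⌋₊) := by
  set m := ⌊s * l'⌋₊ with hm
  have h1 : (m : ℝ) ≤ s * l' := Nat.floor_le (by positivity)
  have h2 : l + m ≤ l' := by
    have : ((l + m : ℕ) : ℝ) ≤ l' := by push_cast; linarith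
    exact_mod_cast this
  have := ba61_F_mono hc (2 * l) l (by omega) (by omega) (2 * l' - 2 * l - (l' - m - l)) (l' - m - l)
  rwa [show 2 * l + (2 * l' - 2 * l - (l' - m - l)) + (l' - m - l) = 2 * l' by omega,
    show l + (l' - m - l) = l' - m by omega] at this

theorem ba61_lower {c : ℝ} (hc : 0 < c) {s : ℝ} (hs0 : 0 ≤ s) (hs1 : s ≤ 1) (l l' : ℕ) (hl : 1 ≤ l')
    (h : (1 + s) * l' ≤ (l : ℝ)) : ba61F c (2 * l') (l' - ⌊s * l'⌋₊) ≤ ba61F c (2 * l) l := by
  set m := ⌊s * l'⌋₊ with hm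
  have h1 : (m : ℝ) ≤ s * l' := Nat.floor_le (by positivity)
  have h2 : l' + m ≤ l := by
    have : ((l' + m : ℕ) : ℝ) ≤ l := by push_cast; linarith
    exact_mod_cast this
  have h3 : m ≤ l' := by
    have : (m : ℝ) ≤ l' := h1.trans (by nlinarith [(Nat.cast_nonneg l' : (0 : ℝ) ≤ l')])
    exact_mod_cast this
  have := ba61_F_mono hc (2 * l') (l' - m) (by omega) (by omega) (l - l' - m) (l - l' + m)
  rwa [show 2 * l' + (l - l' - m) + (l - l' + m) = 2 * l by omega,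
    show l' - m + (l - l' + m) = l by omega] at this

/-! ## 5. the balanced reference sector from the regular fillings -/

/-- **the balanced sector has the free energy `lim_{s → 0} f(s)`**: no information at exact half filling is used. -/
theorem ba61_half_tendsto {c : ℝ} (hc : 0 < c) {f : ℝ → ℝ} {fs s1 : ℝ} (hs1 : 0 < s1)
    (H1 : ∀ s, 0 < s → s < s1 →
      Tendsto (fun l : ℕ => ba61F c (2 * l) (l - ⌊s * l⌋₊) / (2 * l)) atTop (𝓝 (f s)))
    (H0 : Tendsto f (𝓝[>] 0) (𝓝 fs)) :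
    Tendsto (fun l : ℕ => ba61F c (2 * l) l / (2 * l)) atTop (𝓝 fs) := by
  have hid : Tendsto (fun s : ℝ => s) (𝓝[>] 0) (𝓝 0) := tendsto_nhdsWithin_of_tendsto_nhds tendsto_id
  have hsm : ∀ᶠ s : ℝ in 𝓝[>] 0, s ∈ Set.Ioo 0 (min s1 1) := Ioo_mem_nhdsGT (lt_min hs1 one_pos)
  refine tendsto_order.2 ⟨fun a ha => ?_, fun a ha => ?_⟩
  · -- lower bound
    have hV : Tendsto (fun s : ℝ => f s * (1 + s)⁻¹) (𝓝[>] 0) (𝓝 (fs * (1 + 0)⁻¹)) :=
      H0.mul ((tendsto_const_nhds.add hid).inv₀ (by norm_num))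
    rw [add_zero, inv_one, mul_one] at hV
    obtain ⟨s, hs, ⟨hs0, hs2⟩⟩ := ((hV.eventually (lt_mem_nhds ha)).and hsm).exists
    have hs1' : s < s1 := hs2.trans_le (min_le_left _ _)
    have hs1'' : s < 1 := hs2.trans_le (min_le_right _ _)
    have hpos : 0 < (1 + s)⁻¹ := by positivity
    set φ : ℕ → ℕ := fun l => ⌊(1 + s)⁻¹ * (l : ℝ)⌋₊ with hφ
    have hφ1 : Tendsto φ atTop atTop :=
      tendsto_nat_floor_atTop.comp (Tendsto.const_mul_atTop hpos tendsto_natCast_atTop_atTop)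
    have hφ2 : Tendsto (fun l : ℕ => (φ l : ℝ) / l) atTop (𝓝 (1 + s)⁻¹) :=
      (tendsto_nat_floor_mul_div_atTop hpos.le).comp tendsto_natCast_atTop_atTop
    have hlim := ((H1 s hs0 hs1').comp hφ1).mul hφ2
    filter_upwards [hlim.eventually (lt_mem_nhds hs), hφ1.eventually (eventually_ge_atTop 1),
      eventually_ge_atTop 1] with l h1 h2 h3
    refine lt_of_lt_of_le h1 ?_
    have hl : (0 : ℝ) < l := by exact_mod_cast h3
    have hl' : (0 : ℝ) < φ l := by exact_mod_cast h2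
    have hfl : ((φ l : ℕ) : ℝ) ≤ (1 + s)⁻¹ * l := Nat.floor_le (by positivity)
    have hle := ba61_lower hc hs0.le hs1''.le l (φ l) h2 (by
      rw [← le_div_iff₀' (by positivity : (0 : ℝ) < 1 + s)]
      calc ((φ l : ℕ) : ℝ) ≤ (1 + s)⁻¹ * l := hfl
        _ = l / (1 + s) := by rw [div_eq_mul_inv, mul_comm])
    simp only [Function.comp]
    calc ba61F c (2 * φ l) (φ l - ⌊s * (φ l : ℝ)⌋₊) / (2 * (φ l : ℝ)) * ((φ l : ℝ) / l)
        = ba61F c (2 * φ l) (φ l - ⌊s * (φ l : ℝ)⌋₊) / (2 * l) := by field_simp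
      _ ≤ ba61F c (2 * l) l / (2 * l) := div_le_div_of_nonneg_right hle (by positivity)
  · -- upper bound
    have hU : Tendsto (fun s : ℝ => f s * (1 - s)⁻¹) (𝓝[>] 0) (𝓝 (fs * (1 - 0)⁻¹)) :=
      H0.mul ((tendsto_const_nhds.sub hid).inv₀ (by norm_num))
    rw [sub_zero, inv_one, mul_one] at hU
    obtain ⟨s, hs, ⟨hs0, hs2⟩⟩ := ((hU.eventually (gt_mem_nhds ha)).and hsm).exists
    have hs1' : s < s1 := hs2.trans_le (min_le_left _ _)
    have hs1'' : s < 1 := hs2.trans_le (min_le_right _ _)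
    have hpos1 : 0 < 1 - s := by linarith
    have hpos : 0 < (1 - s)⁻¹ := by positivity
    set φ : ℕ → ℕ := fun l => ⌈(1 - s)⁻¹ * (l : ℝ)⌉₊ with hφ
    have hφ1 : Tendsto φ atTop atTop :=
      tendsto_nat_ceil_atTop.comp (Tendsto.const_mul_atTop hpos tendsto_natCast_atTop_atTop)
    have hφ2 : Tendsto (fun l : ℕ => (φ l : ℝ) / l) atTop (𝓝 (1 - s)⁻¹) :=
      (tendsto_nat_ceil_mul_div_atTop hpos.le).comp tendsto_natCast_atTop_atTop
    have hlim := ((H1 s hs0 hs1').comp hφ1).mul hφ2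
    filter_upwards [hlim.eventually (gt_mem_nhds hs), hφ1.eventually (eventually_ge_atTop 1),
      eventually_ge_atTop 1] with l h1 h2 h3
    refine lt_of_le_of_lt ?_ h1
    have hl : (0 : ℝ) < l := by exact_mod_cast h3
    have hl' : (0 : ℝ) < φ l := by exact_mod_cast h2
    have hcl : (1 - s)⁻¹ * l ≤ ((φ l : ℕ) : ℝ) := Nat.le_ceil _
    have hle := ba61_upper hc hs0.le l (φ l) h3 (by
      calc (l : ℝ) = (1 - s) * ((1 - s)⁻¹ * l) := by field_simp
        _ ≤ (1 - s) * (φ l : ℝ) := mul_le_mul_of_nonneg_left hcl hpos1.le)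
    simp only [Function.comp]
    calc ba61F c (2 * l) l / (2 * l)
        ≤ ba61F c (2 * φ l) (φ l - ⌊s * (φ l : ℝ)⌋₊) / (2 * l) := div_le_div_of_nonneg_right hle (by positivity)
      _ = ba61F c (2 * φ l) (φ l - ⌊s * (φ l : ℝ)⌋₊) / (2 * (φ l : ℝ)) * ((φ l : ℝ) / l) := by field_simp

/-! ## 6. the stiffness from the regular fillings -/

theorem ba61_tendsto_of_expansion {f : ℝ → ℝ} {fs A : ℝ}
    (H2 : ∀ ε : ℝ, 0 < ε → ∃ s0 : ℝ, 0 < s0 ∧ ∀ s, 0 < s → s < s0 → |f s - fs + A * s ^ 2 / 2| ≤ ε * s ^ 2) :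
    Tendsto f (𝓝[>] 0) (𝓝 fs) := by
  obtain ⟨s0, hs0, H⟩ := H2 1 one_pos
  have hid : Tendsto (fun s : ℝ => s) (𝓝[>] 0) (𝓝 0) := tendsto_nhdsWithin_of_tendsto_nhds tendsto_id
  have hb : Tendsto (fun s : ℝ => (1 + |A| / 2) * s ^ 2) (𝓝[>] 0) (𝓝 ((1 + |A| / 2) * 0 ^ 2)) :=
    (hid.pow 2).const_mul _
  rw [show (1 + |A| / 2) * (0 : ℝ) ^ 2 = 0 by ring] at hb
  have h0 : Tendsto (fun s => f s - fs) (𝓝[>] 0) (𝓝 0) := by
    refine squeeze_zero_norm' ?_ hb
    filter_upwards [Ioo_mem_nhdsGT hs0] with s hs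
    have h1 := H s hs.1 hs.2
    rw [Real.norm_eq_abs]
    have h2 : |A * s ^ 2 / 2| = |A| / 2 * s ^ 2 := by
      rw [abs_div, abs_mul, abs_of_nonneg (sq_nonneg s), abs_of_pos (by norm_num : (0 : ℝ) < 2)]; ring
    calc |f s - fs| = |(f s - fs + A * s ^ 2 / 2) - A * s ^ 2 / 2| := by ring_nf
      _ ≤ |f s - fs + A * s ^ 2 / 2| + |A * s ^ 2 / 2| := abs_sub _ _
      _ ≤ 1 * s ^ 2 + |A| / 2 * s ^ 2 := by rw [h2]; linarith
      _ = (1 + |A| / 2) * s ^ 2 := by ring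
  have := h0.add_const fs
  simpa using this

/-- **REDUCTION OF THE EXIT OF UNIT BETHE TO REGULAR FILLINGS.**
(H1) for every fixed slope `s ∈ (0, s1)`: `F(2l, l - ⌊s l⌋) / (2l) → f(s)`;   (H2) `f(s) = f* - A s²/2 + o(s²)`.
Conclusion: the statement of `ba_stiffness` (Exit/BETHE) with the constant `A`. -/
theorem ba61_stiffness_of_regular {c A : ℝ} (hc : 0 < c) {f : ℝ → ℝ} {fs s1 : ℝ} (hs1 : 0 < s1)
    (H1 : ∀ s, 0 < s → s < s1 →
      Tendsto (fun l : ℕ => ba61F c (2 * l) (l - ⌊s * l⌋₊) / (2 * l)) atTop (𝓝 (f s)))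
    (H2 : ∀ ε : ℝ, 0 < ε → ∃ s0 : ℝ, 0 < s0 ∧ ∀ s, 0 < s → s < s0 → |f s - fs + A * s ^ 2 / 2| ≤ ε * s ^ 2) :
    ∀ ε : ℝ, 0 < ε → ∃ s₀ : ℝ, 0 < s₀ ∧ ∀ s : ℝ, 0 < s → s < s₀ →
      ∃ l₀ : ℕ, ∀ l : ℕ, l₀ ≤ l → ∃ M₀ : ℕ, ∀ M : ℕ, M₀ ≤ M →
        |(Real.log (baZ c M (2 * l) (l - ⌊s * l⌋₊)) - Real.log (baZ c M (2 * l) l)) /
              (2 * (l : ℝ) * (M : ℝ)) + A * s ^ 2 / 2| ≤ ε * s ^ 2 := by
  intro ε hε
  have hG := ba61_half_tendsto hc hs1 H1 (ba61_tendsto_of_expansion H2)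
  obtain ⟨s0, hs0, H⟩ := H2 (ε / 2) (by positivity)
  refine ⟨min s0 s1, lt_min hs0 hs1, fun s hs hss => ?_⟩
  have hsa : s < s0 := hss.trans_le (min_le_left _ _)
  have hsb : s < s1 := hss.trans_le (min_le_right _ _)
  set d : ℝ := ε * s ^ 2 / 8 with hd
  have hdpos : 0 < d := by positivity
  have e1 := (Metric.tendsto_nhds.1 (H1 s hs hsb)) d hdpos
  have e2 := (Metric.tendsto_nhds.1 hG) d hdpos
  obtain ⟨l₀, hl₀⟩ := eventually_atTop.1 (e1.and (e2.and (eventually_ge_atTop 1)))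
  refine ⟨l₀, fun l hl => ?_⟩
  obtain ⟨h1, h2, h3⟩ := hl₀ l hl
  have hlpos : (0 : ℝ) < l := by exact_mod_cast h3
  have hd2 : 0 < d * (2 * l) := by positivity
  have t1 := (Metric.tendsto_nhds.1 (ba61_F_tendsto hc (2 * l) (l - ⌊s * l⌋₊) (by omega) (by omega))) _ hd2
  have t2 := (Metric.tendsto_nhds.1 (ba61_F_tendsto hc (2 * l) l (by omega) (by omega))) _ hd2
  obtain ⟨M₀, hM₀⟩ := eventually_atTop.1 (t1.and (t2.and (eventually_ge_atTop 1)))
  refine ⟨M₀, fun M hM => ?_⟩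
  obtain ⟨g1, g2, g3⟩ := hM₀ M hM
  have hMpos : (0 : ℝ) < M := by exact_mod_cast g3
  rw [Real.dist_eq] at h1 h2 g1 g2
  set Z1 := Real.log (baZ c M (2 * l) (l - ⌊s * l⌋₊)) with hZ1
  set Z0 := Real.log (baZ c M (2 * l) l) with hZ0
  set F1 := ba61F c (2 * l) (l - ⌊s * l⌋₊) with hF1
  set F0 := ba61F c (2 * l) l with hF0
  have k1 : |Z1 / M / (2 * l) - F1 / (2 * l)| < d := by
    rw [← sub_div, abs_div, abs_of_pos (by positivity : (0 : ℝ) < 2 * l), div_lt_iff₀ (by positivity)]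
    exact g1
  have k0 : |Z0 / M / (2 * l) - F0 / (2 * l)| < d := by
    rw [← sub_div, abs_div, abs_of_pos (by positivity : (0 : ℝ) < 2 * l), div_lt_iff₀ (by positivity)]
    exact g2
  have k2 := H s hs hsa
  have split : (Z1 - Z0) / (2 * (l : ℝ) * (M : ℝ)) + A * s ^ 2 / 2 =
      (Z1 / M / (2 * l) - F1 / (2 * l)) - (Z0 / M / (2 * l) - F0 / (2 * l)) + (F1 / (2 * l) - f s)
        - (F0 / (2 * l) - fs) + (f s - fs + A * s ^ 2 / 2) := by
    field_simp
    ring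
  rw [split]
  have hsum : ε * s ^ 2 = d + d + d + d + ε / 2 * s ^ 2 := by rw [hd]; ring
  rw [hsum]
  have a1 := abs_lt.1 k1
  have a0 := abs_lt.1 k0
  have b1 := abs_lt.1 h1
  have b2 := abs_lt.1 h2
  have b3 := abs_le.1 k2
  rw [abs_le]
  constructor <;> linarith [a1.1, a1.2, a0.1, a0.2, b1.1, b1.2, b2.1, b2.2, b3.1, b3.2]

end Claimed.Agent.R292
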