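import Claimed.Agent.R292.Bethe.HubB271
import Claimed.Agent.R292.Bethe.B2a287
import Claimed.Agent.R292.Bethe.Ba3Roots130
import Claimed.Agent.R292.Bethe.BA4Jac120
import Claimed.Agent.R292.Bethe.T1x150

/-!
# Row 292, unit BETHE, road (b) of leaf B2: the CONCRETE instance of `B2a287Hyp`      (helper282; prefix `in282_`)

* Part 1: the kernels `ba230_ker a`, uniformly for `a` in a compact subinterval of `(0, 2π)`: lower bound of the denominator,
  sup bound, Lipschitz bound in `u`, Lipschitz bound in `a`; derivatives of `bh271_S`, `bh271_Th`.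
* Part 2: `in282_hyp` : a density of block C (`Bh271Dens`) with bounds gives `B2a287Hyp` with constants uniform on the path.
* Part 3: quantiles (existence, uniqueness, symmetry), continuity of the root of a strictly monotone family.
* Part 4: closed graph + uniqueness in the moving ball gives a continuous branch; dictionary with `ba120F` of 120.
* Part 5: `in282_B2 : In282Main → In282PathEx → Bh271B2` (the assembly of road (b)).
* Part 6: `in282_pathEx_of_C : In282PathC → In282PathEx`, `in282_pathC_of_PC : In282PC → In282PathC`.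
-/

set_option autoImplicit false

namespace Claimed.Agent.R292

open MeasureTheory Filter Topology Set

/-! ## Part 1: kernels -/

theorem in282_S_eq (t u : ℝ) : bh271_S t u = ba3x130_phi t u / (2 * Real.pi) := by
  unfold bh271_S ba3x130_phi
  have := Real.pi_ne_zero
  field_simp

theorem in282_Th_eq (t u : ℝ) : bh271_Th t u = ba3x130_phi (2 * t) u / (2 * Real.pi) := by
  unfold bh271_Th ba3x130_phi
  have := Real.pi_ne_zero
  have e : 2 * t / 2 = t := by ring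
  rw [e]
  field_simp

theorem in282_S_hasDerivAt {t : ℝ} (h0 : 0 < t) (h1 : t < 2 * Real.pi) (u : ℝ) :
    HasDerivAt (bh271_S t) (ba230_ker t u) u := by
  have h := (ba3x130_phi_hasDerivAt h0 h1 u).div_const (2 * Real.pi)
  have e : bh271_S t = fun u => ba3x130_phi t u / (2 * Real.pi) := funext (in282_S_eq t)
  rw [e]
  have e2 : 2 * Real.pi * ba230_ker t u / (2 * Real.pi) = ba230_ker t u := by
    have := Real.pi_ne_zero
    field_simp
  rw [e2] at h
  exact h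

theorem in282_Th_hasDerivAt {t : ℝ} (h0 : 0 < t) (h1 : t < Real.pi) (u : ℝ) :
    HasDerivAt (bh271_Th t) (ba230_ker (2 * t) u) u := by
  have h := (ba3x130_phi_hasDerivAt (a := 2 * t) (by linarith) (by linarith) u).div_const (2 * Real.pi)
  have e : bh271_Th t = fun u => ba3x130_phi (2 * t) u / (2 * Real.pi) := funext (in282_Th_eq t)
  rw [e]
  have e2 : 2 * Real.pi * ba230_ker (2 * t) u / (2 * Real.pi) = ba230_ker (2 * t) u := by
    have := Real.pi_ne_zero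
    field_simp
  rw [e2] at h
  exact h

theorem in282_S_neg (t u : ℝ) : bh271_S t (-u) = - bh271_S t u := by
  rw [in282_S_eq, in282_S_eq, ba3x130_phi_neg]; ring

theorem in282_Th_neg (t u : ℝ) : bh271_Th t (-u) = - bh271_Th t u := by
  rw [in282_Th_eq, in282_Th_eq, ba3x130_phi_neg]; ring

theorem in282_Th_abs_le (t u : ℝ) : |bh271_Th t u| ≤ 1 / 2 := by
  unfold bh271_Th
  have hpi := Real.pi_pos
  rw [abs_div, abs_of_pos hpi, div_le_iff₀ hpi]
  have h1 := Real.arctan_lt_pi_div_two (Real.cos t / Real.sin t * Real.tanh u)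
  have h2 := Real.neg_pi_div_two_lt_arctan (Real.cos t / Real.sin t * Real.tanh u)
  rw [abs_le]
  constructor <;> linarith

/-- uniform lower bound of the denominator. -/
theorem in282_eta {a1 a2 : ℝ} (h0 : 0 < a1) (h2 : a2 < 2 * Real.pi) :
    ∃ η : ℝ, 0 < η ∧ η ≤ 1 ∧ ∀ a ∈ Icc a1 a2, ∀ x : ℝ, η * Real.cosh x ≤ Real.cosh x - Real.cos a := by
  rcases (Icc a1 a2).eq_empty_or_nonempty with he | hne
  · exact ⟨1, one_pos, le_rfl, fun a ha => by rw [he] at ha; exact absurd ha (notMem_empty a)⟩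
  obtain ⟨a0, ha0, hmin⟩ := isCompact_Icc.exists_isMinOn hne
    (f := fun a : ℝ => 1 - Real.cos a) (by fun_prop)
  have hpos : 0 < 1 - Real.cos a0 := by
    have := ba230_cos_lt_one (y := -a0) (by linarith [ha0.2]) (by linarith [ha0.1])
    rw [Real.cos_neg] at this
    linarith
  refine ⟨min (1 - Real.cos a0) 1, lt_min hpos one_pos, min_le_right _ _, fun a ha x => ?_⟩
  have h3 : 1 - Real.cos a0 ≤ 1 - Real.cos a := hmin ha
  have h4 := Real.one_le_cosh x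
  have h5 : min (1 - Real.cos a0) 1 ≤ 1 - Real.cos a0 := min_le_left _ _
  have h6 : min (1 - Real.cos a0) 1 ≤ 1 := min_le_right _ _
  nlinarith

theorem in282_abs_sinh_le (x : ℝ) : |Real.sinh x| ≤ Real.cosh x := by
  rw [Real.abs_sinh, ← Real.cosh_abs x]
  exact (Real.sinh_lt_cosh _).le

/-- sup bound, uniform in `a`. -/
theorem in282_ker_abs_le {η a : ℝ} (hη : 0 < η)
    (h : ∀ x : ℝ, η * Real.cosh x ≤ Real.cosh x - Real.cos a) (u : ℝ) :
    |ba230_ker a u| ≤ 1 / (Real.pi * η) := by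
  have hpi := Real.pi_pos
  have h1 := h (2 * u)
  have h2 := Real.one_le_cosh (2 * u)
  have h3 : η ≤ Real.cosh (2 * u) - Real.cos a := by nlinarith
  unfold ba230_ker
  rw [abs_div, abs_of_pos (mul_pos hpi (hη.trans_le h3))]
  exact div_le_div₀ zero_le_one (Real.abs_sin_le_one a) (mul_pos hpi hη)
    (mul_le_mul_of_nonneg_left h3 hpi.le)

theorem in282_ker_hasDerivAt {a : ℝ} (h0 : 0 < a) (h1 : a < 2 * Real.pi) (u : ℝ) :
    HasDerivAt (ba230_ker a) (Real.pi⁻¹ * (ba230_xi' a (2 * u) * 2)) u := by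
  have e : ba230_ker a = fun u => Real.pi⁻¹ * ba230_xi a (2 * u) := funext (ba230_ker_eq a)
  rw [e]
  have h2 : HasDerivAt (fun u : ℝ => 2 * u) 2 u := by simpa using (hasDerivAt_id u).const_mul 2
  exact ((ba230_xi_hasDerivAt h0 h1 (2 * u)).comp u h2).const_mul _

theorem in282_xi'_abs_le {η a : ℝ} (hη : 0 < η)
    (h : ∀ x : ℝ, η * Real.cosh x ≤ Real.cosh x - Real.cos a) (x : ℝ) :
    |ba230_xi' a x| ≤ 1 / η ^ 2 := by
  have h1 := h x
  have h2 := Real.one_le_cosh x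
  have h3 : η ≤ Real.cosh x - Real.cos a := by nlinarith
  have h4 := in282_abs_sinh_le x
  have hd : 0 < Real.cosh x - Real.cos a := hη.trans_le h3
  unfold ba230_xi'
  rw [abs_div, abs_neg, abs_mul, abs_of_pos (pow_pos hd 2), div_le_div_iff₀ (pow_pos hd 2) (pow_pos hη 2)]
  have h5 : |Real.sin a| * |Real.sinh x| ≤ 1 * Real.cosh x :=
    mul_le_mul (Real.abs_sin_le_one a) h4 (abs_nonneg _) zero_le_one
  have h6 : η * (η * Real.cosh x) ≤ (Real.cosh x - Real.cos a) * (Real.cosh x - Real.cos a) :=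
    mul_le_mul h3 h1 (by positivity) hd.le
  nlinarith

/-- Lipschitz bound in `u`, uniform in `a`. -/
theorem in282_ker_lip {η a : ℝ} (hη : 0 < η) (h0 : 0 < a) (h1 : a < 2 * Real.pi)
    (h : ∀ x : ℝ, η * Real.cosh x ≤ Real.cosh x - Real.cos a) (x y : ℝ) :
    |ba230_ker a x - ba230_ker a y| ≤ 2 / (Real.pi * η ^ 2) * |x - y| := by
  have hpi := Real.pi_pos
  have hb : ∀ u ∈ (univ : Set ℝ), ‖Real.pi⁻¹ * (ba230_xi' a (2 * u) * 2)‖ ≤ 2 / (Real.pi * η ^ 2) := by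
    intro u _
    rw [Real.norm_eq_abs, abs_mul, abs_mul, abs_of_pos (inv_pos.2 hpi), abs_of_pos (two_pos : (0:ℝ) < 2)]
    have := in282_xi'_abs_le hη h (2 * u)
    calc Real.pi⁻¹ * (|ba230_xi' a (2 * u)| * 2) ≤ Real.pi⁻¹ * (1 / η ^ 2 * 2) := by gcongr
      _ = 2 / (Real.pi * η ^ 2) := by field_simp
  have := Convex.norm_image_sub_le_of_norm_hasDerivWithin_le
    (fun u _ => (in282_ker_hasDerivAt h0 h1 u).hasDerivWithinAt) hb convex_univ (mem_univ y) (mem_univ x)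
  simpa [Real.norm_eq_abs] using this

/-! ## Part 2: the instance of `B2a287Hyp` -/

theorem in282_Th_continuous {t : ℝ} (h0 : 0 < t) (h1 : t < Real.pi) : Continuous (bh271_Th t) :=
  continuous_iff_continuousAt.2 fun u => (in282_Th_hasDerivAt h0 h1 u).continuousAt

theorem in282_S_zero (t : ℝ) : bh271_S t 0 = 0 := by
  rw [in282_S_eq, ba3x130_phi_zero, zero_div]

/-- derivative of the interaction term. -/
theorem in282_int_hasDerivAt {t Q : ℝ} {r : ℝ → ℝ} (h0 : 0 < t) (h1 : t < Real.pi) (hr : Continuous r)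
    (x : ℝ) :
    HasDerivAt (fun x => ∫ y in (-Q)..Q, bh271_Th t (x - y) * r y)
      (∫ y in (-Q)..Q, ba230_ker (2 * t) (x - y) * r y) x := by
  obtain ⟨B, hB⟩ := ba230_ker_bdd (a := 2 * t) (by linarith) (by linarith)
  have hTc := in282_Th_continuous h0 h1
  have hKc := ba230_ker_continuous (a := 2 * t) (by linarith) (by linarith)
  refine (intervalIntegral.hasDerivAt_integral_of_dominated_loc_of_deriv_le
    (F := fun x y => bh271_Th t (x - y) * r y) (F' := fun x y => ba230_ker (2 * t) (x - y) * r y)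
    (bound := fun y => B * |r y|) (s := univ) univ_mem ?_ ?_ ?_ ?_ ?_ ?_).2
  · refine Eventually.of_forall fun x => ?_
    exact ((hTc.comp (continuous_const.sub continuous_id)).mul hr).aestronglyMeasurable
  · exact ((hTc.comp (continuous_const.sub continuous_id)).mul hr).intervalIntegrable _ _
  · exact ((hKc.comp (continuous_const.sub continuous_id)).mul hr).aestronglyMeasurable
  · refine Eventually.of_forall fun y _ x _ => ?_
    rw [Real.norm_eq_abs, abs_mul]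
    exact mul_le_mul_of_nonneg_right (hB _) (abs_nonneg _)
  · exact (continuous_const.mul hr.abs).intervalIntegrable _ _
  · refine Eventually.of_forall fun y _ x _ => ?_
    have h2 : HasDerivAt (fun x : ℝ => x - y) 1 x := (hasDerivAt_id x).sub_const y
    have h3 := (in282_Th_hasDerivAt h0 h1 (x - y)).comp x h2
    simpa using h3.mul_const (r y)

/-- the integrated equation (`hcount` of `B2a287Hyp`), on the whole line. -/
theorem in282_count {t Q : ℝ} {r : ℝ → ℝ} (h0 : 0 < t) (h1 : t < Real.pi) (hr : Bh271Dens t Q r) (x : ℝ) :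
    bh271_S t x - ∫ y in (-Q)..Q, bh271_Th t (x - y) * r y = ∫ y in (0 : ℝ)..x, r y := by
  set Φ : ℝ → ℝ := fun x => bh271_S t x - (∫ y in (-Q)..Q, bh271_Th t (x - y) * r y) - ∫ y in (0 : ℝ)..x, r y
    with hΦ
  have hd : ∀ x, HasDerivAt Φ 0 x := by
    intro x
    have a1 := in282_S_hasDerivAt h0 (by linarith [Real.pi_pos]) x
    have a2 := in282_int_hasDerivAt (Q := Q) h0 h1 hr.cont x
    have a3 : HasDerivAt (fun x => ∫ y in (0 : ℝ)..x, r y) (r x) x :=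
      intervalIntegral.integral_hasDerivAt_right (hr.cont.intervalIntegrable _ _)
        (hr.cont.stronglyMeasurableAtFilter _ _) hr.cont.continuousAt
    have a4 := (a1.sub a2).sub a3
    have e : ba230_ker t x - (∫ y in (-Q)..Q, ba230_ker (2 * t) (x - y) * r y) - r x = 0 := by
      linarith [hr.eq x]
    rw [e] at a4
    exact a4
  have hc : Φ x = Φ 0 :=
    is_const_of_deriv_eq_zero (fun x => (hd x).differentiableAt) (fun x => (hd x).deriv) x 0
  have h00 : Φ 0 = 0 := by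
    have hodd : ∫ y in (-Q)..Q, bh271_Th t (0 - y) * r y = 0 := by
      have h := intervalIntegral.integral_comp_neg (a := -Q) (b := Q) (fun y => bh271_Th t (0 - y) * r y)
      rw [neg_neg] at h
      have e : ∀ y, bh271_Th t (0 - -y) * r (-y) = -(bh271_Th t (0 - y) * r y) := by
        intro y
        rw [hr.even, zero_sub, zero_sub, in282_Th_neg t (-y), neg_mul]
      simp_rw [e] at h
      rw [intervalIntegral.integral_neg] at h
      linarith
    simp only [hΦ]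
    rw [hodd, in282_S_zero, intervalIntegral.integral_same]
    ring
  have := hc.trans h00
  simp only [hΦ] at this
  linarith

theorem in282_kappa {t Q : ℝ} (h0 : 0 < t) (h1 : t < Real.pi) (hQ : 0 ≤ Q) (x : ℝ) :
    ∫ y in (-Q)..Q, |ba230_ker (2 * t) (x - y)| ≤ |1 - 2 * t / Real.pi| := by
  have hK := ba230_ker_integrable (a := 2 * t) (by linarith) (by linarith)
  rw [intervalIntegral.integral_of_le (by linarith)]
  refine (setIntegral_le_integral (hK.comp_sub_left x).abs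
    (Eventually.of_forall fun y => abs_nonneg _)).trans ?_
  rw [integral_sub_left_eq_self (fun w => |ba230_ker (2 * t) w|) volume x,
    ba230_ker_abs_integral (by linarith) (by linarith)]

/-- **(R1) INST.**  The constants are uniform for `t` in a compact subinterval of `(0, π)`. -/
theorem in282_hyp {t1 t2 : ℝ} (h0 : 0 < t1) (h12 : t1 ≤ t2) (h2 : t2 < Real.pi) :
    ∃ κ B0 Lk LK : ℝ, 0 ≤ κ ∧ κ < 1 ∧ 0 ≤ B0 ∧ 0 ≤ Lk ∧ 0 ≤ LK ∧
      ∀ t ∈ Icc t1 t2, ∀ (Q ρmin ρmax : ℝ) (r : ℝ → ℝ), 0 < Q → Bh271Dens t Q r →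
        (∀ x ∈ Icc (-Q) Q, ρmin ≤ r x) → (∀ x ∈ Icc (-Q) Q, r x ≤ ρmax) →
        B2a287Hyp Q ρmin ρmax κ B0 (1 / 2) Lk LK (bh271_S t) (ba230_ker t) (bh271_Th t)
          (ba230_ker (2 * t)) r := by
  have hpi := Real.pi_pos
  obtain ⟨η1, hη1, -, hd1⟩ := in282_eta (a1 := t1) (a2 := t2) h0 (by linarith)
  obtain ⟨η2, hη2, -, hd2⟩ := in282_eta (a1 := 2 * t1) (a2 := 2 * t2) (by linarith) (by linarith)
  refine ⟨max |1 - 2 * t2 / Real.pi| |1 - 2 * t1 / Real.pi|, 1 / (Real.pi * η2), 2 / (Real.pi * η1 ^ 2),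
    2 / (Real.pi * η2 ^ 2), le_max_of_le_left (abs_nonneg _), ?_, by positivity, by positivity,
    by positivity, ?_⟩
  · have b1 : 0 < 2 * t1 / Real.pi := by positivity
    have b2 : 2 * t1 / Real.pi < 2 := by rw [div_lt_iff₀ hpi]; linarith
    have b3 : 0 < 2 * t2 / Real.pi := by have : 0 < t2 := by linarith
                                         positivity
    have b4 : 2 * t2 / Real.pi < 2 := by rw [div_lt_iff₀ hpi]; linarith
    refine max_lt ?_ ?_ <;> rw [abs_lt] <;> constructor <;> linarith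
  intro t ht Q ρmin ρmax r hQ hr hmin hmax
  have ht0 : 0 < t := by linarith [ht.1]
  have ht1 : t < Real.pi := by linarith [ht.2]
  have ht2 : 2 * t ∈ Icc (2 * t1) (2 * t2) := ⟨by linarith [ht.1], by linarith [ht.2]⟩
  refine ⟨in282_S_hasDerivAt ht0 (by linarith), in282_Th_hasDerivAt ht0 ht1,
    in282_ker_lip hη1 ht0 (by linarith) (hd1 t ht), in282_ker_lip hη2 (by linarith) (by linarith) (hd2 _ ht2),
    in282_ker_abs_le hη2 (hd2 _ ht2), in282_Th_abs_le t, hr.cont.continuousOn, hr.even, hmin, hmax,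
    fun x _ => by linarith [hr.eq x], fun x _ => in282_count ht0 ht1 hr x, fun x _ => ?_⟩
  refine (in282_kappa ht0 ht1 hQ.le x).trans ?_
  refine abs_le_max_abs_abs ?_ ?_
  · have : 2 * t / Real.pi ≤ 2 * t2 / Real.pi := by gcongr; exact ht.2
    linarith
  · have : 2 * t1 / Real.pi ≤ 2 * t / Real.pi := by gcongr; exact ht.1
    linarith

/-! ## Part 3: quantiles -/

theorem in282_prim_strictMono {ρ : ℝ → ℝ} (hc : Continuous ρ) (hpos : ∀ u, 0 < ρ u) :
    StrictMono fun x => ∫ u in (0 : ℝ)..x, ρ u := by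
  intro x y hxy
  have h1 : (∫ u in (0 : ℝ)..y, ρ u) - ∫ u in (0 : ℝ)..x, ρ u = ∫ u in x..y, ρ u :=
    intervalIntegral.integral_interval_sub_left (hc.intervalIntegrable _ _) (hc.intervalIntegrable _ _)
  have h2 : 0 < ∫ u in x..y, ρ u :=
    intervalIntegral.intervalIntegral_pos_of_pos (hc.intervalIntegrable _ _) hpos hxy
  show (∫ u in (0 : ℝ)..x, ρ u) < ∫ u in (0 : ℝ)..y, ρ u
  linarith

theorem in282_prim_neg {ρ : ℝ → ℝ} (hev : ∀ u, ρ (-u) = ρ u) (x : ℝ) :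
    ∫ u in (0 : ℝ)..(-x), ρ u = - ∫ u in (0 : ℝ)..x, ρ u := by
  have h := intervalIntegral.integral_comp_neg (a := 0) (b := x) ρ
  simp_rw [hev] at h
  rw [neg_zero] at h
  rw [h, intervalIntegral.integral_symm]

theorem in282_D_eq {ρ : ℝ → ℝ} (hc : Continuous ρ) (hev : ∀ u, ρ (-u) = ρ u) (Q : ℝ) :
    ∫ u in (-Q)..Q, ρ u = 2 * ∫ u in (0 : ℝ)..Q, ρ u := by
  have h1 : (∫ u in (-Q)..(0 : ℝ), ρ u) + ∫ u in (0 : ℝ)..Q, ρ u = ∫ u in (-Q)..Q, ρ u :=
    intervalIntegral.integral_add_adjacent_intervals (hc.intervalIntegrable _ _) (hc.intervalIntegrable _ _)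
  have h2 : ∫ u in (-Q)..(0 : ℝ), ρ u = ∫ u in (0 : ℝ)..Q, ρ u := by
    rw [intervalIntegral.integral_symm, in282_prim_neg hev, neg_neg]
  linarith

theorem in282_I_abs_le (n : ℕ) (j : Fin n) : |b2a287I n j| ≤ (n : ℝ) / 2 := by
  unfold b2a287I
  have h1 : ((j : ℕ) : ℝ) + 1 ≤ n := by exact_mod_cast j.2
  have h2 : (0 : ℝ) ≤ ((j : ℕ) : ℝ) := Nat.cast_nonneg _
  rw [abs_le]
  constructor <;> linarith

theorem in282_I_rev (n : ℕ) (j : Fin n) : b2a287I n (Fin.rev j) = - b2a287I n j := by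
  unfold b2a287I
  rw [Fin.val_rev]
  have h1 : (j : ℕ) + 1 ≤ n := j.2
  rw [Nat.cast_sub h1]
  push_cast
  ring

theorem in282_quant_exists {Q : ℝ} (hQ : 0 < Q) {ρ : ℝ → ℝ} (hc : Continuous ρ) (hpos : ∀ u, 0 < ρ u)
    (hev : ∀ u, ρ (-u) = ρ u) (n : ℕ) : ∃ y0 : Fin n → ℝ, B2a287Quant Q ρ n y0 := by
  have hcF : Continuous fun x => ∫ u in (0 : ℝ)..x, ρ u :=
    intervalIntegral.continuous_primitive (fun a b => hc.intervalIntegrable a b) 0
  have hD := in282_D_eq hc hev Q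
  have hP : 0 < ∫ u in (0 : ℝ)..Q, ρ u :=
    intervalIntegral.intervalIntegral_pos_of_pos (hc.intervalIntegrable _ _) hpos hQ
  have key : ∀ j : Fin n, ∃ y ∈ Icc (-Q) Q, ∫ x in (0 : ℝ)..y, ρ x = (∫ x in (-Q)..Q, ρ x) * b2a287I n j / n := by
    intro j
    have hn : (0 : ℝ) < n := by
      have : 0 < n := lt_of_le_of_lt (Nat.zero_le _) j.2
      exact_mod_cast this
    have hI := abs_le.1 (in282_I_abs_le n j)
    have hmem : (∫ x in (-Q)..Q, ρ x) * b2a287I n j / n ∈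
        Icc (∫ u in (0 : ℝ)..(-Q), ρ u) (∫ u in (0 : ℝ)..Q, ρ u) := by
      rw [in282_prim_neg hev, hD]
      constructor
      · rw [le_div_iff₀ hn]; nlinarith [hI.1]
      · rw [div_le_iff₀ hn]; nlinarith [hI.2]
    obtain ⟨y, hy, hy2⟩ := intermediate_value_Icc (by linarith : -Q ≤ Q) hcF.continuousOn hmem
    exact ⟨y, hy, hy2⟩
  choose y hy using key
  exact ⟨y, fun j => ⟨(hy j).1, (hy j).2⟩⟩

theorem in282_quant_unique {Q : ℝ} {ρ : ℝ → ℝ} (hc : Continuous ρ) (hpos : ∀ u, 0 < ρ u) {n : ℕ}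
    {y0 y1 : Fin n → ℝ} (h0 : B2a287Quant Q ρ n y0) (h1 : B2a287Quant Q ρ n y1) : y0 = y1 := by
  funext j
  exact (in282_prim_strictMono hc hpos).injective ((h0 j).2.trans (h1 j).2.symm)

theorem in282_quant_symm {Q : ℝ} {ρ : ℝ → ℝ} (hc : Continuous ρ) (hpos : ∀ u, 0 < ρ u)
    (hev : ∀ u, ρ (-u) = ρ u) {n : ℕ} {y0 : Fin n → ℝ} (h0 : B2a287Quant Q ρ n y0) (j : Fin n) :
    y0 (Fin.rev j) = - y0 j := by
  have h1 : B2a287Quant Q ρ n (fun j => - y0 (Fin.rev j)) := by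
    intro j
    refine ⟨⟨by linarith [(h0 (Fin.rev j)).1.2], by linarith [(h0 (Fin.rev j)).1.1]⟩, ?_⟩
    rw [in282_prim_neg hev, (h0 (Fin.rev j)).2, in282_I_rev]
    ring
  have := congrFun (in282_quant_unique hc hpos h0 h1) j
  linarith

/-- continuity of the root of a strictly monotone family. -/
theorem in282_root_continuousOn {S : Set ℝ} {Φ : ℝ → ℝ → ℝ} {a : ℝ} {y : ℝ → ℝ}
    (hmono : ∀ t ∈ S, StrictMono (Φ t)) (hcont : ∀ x, ContinuousOn (fun t => Φ t x) S)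
    (hy : ∀ t ∈ S, Φ t (y t) = a) : ContinuousOn y S := by
  intro t0 ht0
  rw [ContinuousWithinAt, Metric.tendsto_nhds]
  intro ε hε
  have h1 : Φ t0 (y t0 - ε) < a := by rw [← hy t0 ht0]; exact hmono t0 ht0 (by linarith)
  have h2 : a < Φ t0 (y t0 + ε) := by rw [← hy t0 ht0]; exact hmono t0 ht0 (by linarith)
  have e1 : ∀ᶠ t in 𝓝[S] t0, Φ t (y t0 - ε) < a := (hcont _ t0 ht0).eventually_lt_const h1
  have e2 : ∀ᶠ t in 𝓝[S] t0, a < Φ t (y t0 + ε) := (hcont _ t0 ht0).eventually_const_lt h2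
  filter_upwards [e1, e2, self_mem_nhdsWithin] with t a1 a2 ht
  rw [Real.dist_eq, abs_lt]
  rw [← hy t ht] at a1 a2
  have b1 := (hmono t ht).lt_iff_lt.1 a1
  have b2 := (hmono t ht).lt_iff_lt.1 a2
  constructor <;> linarith

/-! ## Part 4: the branch -/

/-- closed graph + uniqueness in the moving ball: the branch is continuous. -/
theorem in282_branch_continuousAt {n : ℕ} {G : ℝ × (Fin n → ℝ) → (Fin n → ℝ)} {y y0 : ℝ → Fin n → ℝ}
    {t0 r0 : ℝ} (hG : ∀ a, ContinuousAt G (t0, a)) (hy0 : ContinuousAt y0 t0) (hr0 : 0 < r0)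
    (hz : ∀ᶠ t in 𝓝 t0, G (t, y t) = 0) (hb : ∀ᶠ t in 𝓝 t0, ‖y t - y0 t‖ ≤ r0 / 2)
    (huniq : ∀ a, G (t0, a) = 0 → ‖a - y0 t0‖ ≤ r0 → a = y t0) : ContinuousAt y t0 := by
  refine tendsto_of_subseq_tendsto fun ns hns => ?_
  have h1 : ∀ᶠ t in 𝓝 t0, y t ∈ Metric.closedBall (y0 t0) r0 := by
    have h2 : ∀ᶠ t in 𝓝 t0, ‖y0 t - y0 t0‖ < r0 / 2 := by
      have h3 : ContinuousAt (fun t => ‖y0 t - y0 t0‖) t0 := (hy0.sub continuousAt_const).norm
      apply h3.eventually_lt continuousAt_const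
      simp only [sub_self, norm_zero]
      linarith
    filter_upwards [hb, h2] with t a1 a2
    rw [mem_closedBall_iff_norm]
    have e : y t - y0 t0 = (y t - y0 t) + (y0 t - y0 t0) := by abel
    rw [e]
    exact (norm_add_le _ _).trans (by linarith)
  have h3 : ∀ᶠ k in atTop, y (ns k) ∈ Metric.closedBall (y0 t0) r0 := hns.eventually h1
  obtain ⟨a, ha, φ, hφ, hlim⟩ := (isCompact_closedBall (y0 t0) r0).tendsto_subseq' h3.frequently
  refine ⟨φ, ?_⟩
  have hnφ : Tendsto (fun k => ns (φ k)) atTop (𝓝 t0) := hns.comp hφ.tendsto_atTop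
  have h4 : G (t0, a) = 0 := by
    have h5 : Tendsto (fun k => G (ns (φ k), y (ns (φ k)))) atTop (𝓝 (G (t0, a))) :=
      (hG a).tendsto.comp (hnφ.prodMk_nhds hlim)
    have h6 : ∀ᶠ k in atTop, G (ns (φ k), y (ns (φ k))) = 0 := hnφ.eventually hz
    exact tendsto_nhds_unique (h5.congr' h6) tendsto_const_nhds
  rw [← huniq a h4 (mem_closedBall_iff_norm.1 ha)]
  exact hlim

/-- the momentum and the phase as functions of the pair (parameter, rapidity). -/
noncomputable def in282_k (p : ℝ × ℝ) : ℝ := bh271_S p.1 p.2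
noncomputable def in282_th (p : ℝ × ℝ) : ℝ := bh271_Th p.1 p.2

theorem in282_k_analyticAt {t : ℝ} (h0 : 0 < t) (h1 : t < 2 * Real.pi) (u : ℝ) :
    AnalyticAt ℝ in282_k (t, u) := by
  have e : in282_k = fun p : ℝ × ℝ => ba3x130_phi p.1 p.2 * (2 * Real.pi)⁻¹ := by
    funext p
    rw [in282_k, in282_S_eq, div_eq_mul_inv]
  rw [e]
  exact (ba3x130_phi_analyticAt h0 h1 u).mul analyticAt_const

theorem in282_th_analyticAt {t : ℝ} (h0 : 0 < t) (h1 : t < Real.pi) (u : ℝ) :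
    AnalyticAt ℝ in282_th (t, u) := by
  have e : in282_th = fun p : ℝ × ℝ => ba3x130_phi (2 * p.1) p.2 * (2 * Real.pi)⁻¹ := by
    funext p
    rw [in282_th, in282_Th_eq, div_eq_mul_inv]
  rw [e]
  have h2 : AnalyticAt ℝ (fun p : ℝ × ℝ => ((2 * p.1, p.2) : ℝ × ℝ)) (t, u) :=
    AnalyticAt.prod (analyticAt_const.mul analyticAt_fst) analyticAt_snd
  have h3 : AnalyticAt ℝ (fun p : ℝ × ℝ => ba3x130_phi (2 * p.1) p.2) (t, u) :=
    AnalyticAt.comp (g := fun q : ℝ × ℝ => ba3x130_phi q.1 q.2) (f := fun p : ℝ × ℝ => ((2 * p.1, p.2) : ℝ × ℝ))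
      (ba3x130_phi_analyticAt (a := 2 * t) (by linarith) (by linarith) u) h2
  exact h3.mul analyticAt_const

theorem in282_D2_k {t : ℝ} (h0 : 0 < t) (h1 : t < 2 * Real.pi) (u : ℝ) :
    ba120D2 in282_k t u = ba230_ker t u := (in282_S_hasDerivAt h0 h1 u).deriv

theorem in282_D2_th {t : ℝ} (h0 : 0 < t) (h1 : t < Real.pi) (u : ℝ) :
    ba120D2 in282_th t u = ba230_ker (2 * t) u := (in282_Th_hasDerivAt h0 h1 u).deriv

/-- the two normalisations of the equations. -/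
theorem in282_eq_iff {N : ℕ} (hN : 0 < N) {n : ℕ} (t : ℝ) (y : Fin n → ℝ) (j : Fin n) :
    bh271_S t (y j) - (N : ℝ)⁻¹ * ∑ l, bh271_Th t (y j - y l) = b2a287I n j / N ↔
      (N : ℝ) * bh271_S t (y j) - ∑ l, bh271_Th t (y j - y l) = b2a287I n j := by
  have hN' : (0 : ℝ) < N := by exact_mod_cast hN
  constructor
  · intro h
    have e : (N : ℝ) * bh271_S t (y j) - ∑ l, bh271_Th t (y j - y l)
        = N * (bh271_S t (y j) - (N : ℝ)⁻¹ * ∑ l, bh271_Th t (y j - y l)) := by field_simp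
    rw [e, h]; field_simp
  · intro h
    have e : bh271_S t (y j) - (N : ℝ)⁻¹ * ∑ l, bh271_Th t (y j - y l)
        = ((N : ℝ) * bh271_S t (y j) - ∑ l, bh271_Th t (y j - y l)) / N := by field_simp
    rw [e, h]

/-- a solution close to the quantiles, unique in the ball, is a good configuration. -/
theorem in282_good {t Q r0 : ℝ} {ρ : ℝ → ℝ} {N n : ℕ} (hN : 0 < N) (hr0 : 0 < r0) (hd : Bh271Dens t Q ρ)
    {y0 y : Fin n → ℝ} (hq : B2a287Quant Q ρ n y0)
    (h1 : ∀ j, bh271_S t (y j) - (N : ℝ)⁻¹ * ∑ l, bh271_Th t (y j - y l) = b2a287I n j / N)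
    (h3 : ∀ j, |y j - y0 j| ≤ r0 / 2)
    (h4 : ∀ y' : Fin n → ℝ, (∀ j, bh271_S t (y' j) - (N : ℝ)⁻¹ * ∑ l, bh271_Th t (y' j - y' l) = b2a287I n j / N) →
      (∀ j, |y' j - y0 j| ≤ r0) → y' = y)
    (h5 : StrictMono y) : Bh271Good t N n y := by
  refine ⟨fun j => (in282_eq_iff hN t y j).1 (h1 j), fun j => ?_, h5⟩
  have hy' : (fun j => - y (Fin.rev j)) = y := by
    refine h4 _ (fun j => ?_) (fun j => ?_)
    · have e1 : ∑ l, bh271_Th t (- y (Fin.rev j) - - y (Fin.rev l)) = - ∑ l, bh271_Th t (y (Fin.rev j) - y l) := by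
        rw [← Equiv.sum_comp Fin.revPerm (fun l => bh271_Th t (y (Fin.rev j) - y l)), ← Finset.sum_neg_distrib]
        refine Finset.sum_congr rfl fun l _ => ?_
        rw [← in282_Th_neg]
        congr 1
        simp only [Fin.revPerm_apply]
        ring
      rw [e1, in282_S_neg]
      have := h1 (Fin.rev j)
      rw [in282_I_rev, neg_div] at this
      rw [mul_neg]
      linarith
    · rw [← neg_neg (y0 j), ← in282_quant_symm hd.cont hd.pos hd.even hq j]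
      have := h3 (Fin.rev j)
      have e : - y (Fin.rev j) - - y0 (Fin.rev j) = -(y (Fin.rev j) - y0 (Fin.rev j)) := by ring
      rw [e, abs_neg]
      linarith
  have := congrFun hy' j
  linarith

/-! ## Part 5: the contracts of road (b) and the assembly -/

/-- the FIXED form of `b2a287_main` (287): a lower bound `Qmin` in the prefix, `Q` after the thresholds. -/
def In282Main : Prop :=
  ∀ (Qmin ρmin ρmax κ B0 Θ0 Lk LK : ℝ), 0 < Qmin → 0 < ρmin → ρmin ≤ ρmax → 0 ≤ κ → κ < 1 → 0 ≤ B0 → 0 ≤ Θ0 →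
    0 ≤ Lk → 0 ≤ LK →
    ∃ (n0 : ℕ) (δ0 r0 C : ℝ), 0 < δ0 ∧ 0 < r0 ∧ 0 < C ∧
      ∀ Q : ℝ, Qmin ≤ Q → ∀ k kd θ Kd ρ : ℝ → ℝ, B2a287Hyp Q ρmin ρmax κ B0 Θ0 Lk LK k kd θ Kd ρ →
      ∀ N n : ℕ, n0 ≤ n → n ≤ N → |(∫ x in (-Q)..Q, ρ x) - (n : ℝ) / N| ≤ δ0 →
      ∀ y0 : Fin n → ℝ, B2a287Quant Q ρ n y0 →
      ∃ y : Fin n → ℝ,
        (∀ j, k (y j) - (N : ℝ)⁻¹ * ∑ l, θ (y j - y l) = b2a287I n j / N) ∧
        (∀ j, |y j - y0 j| ≤ C * (1 / n + |(∫ x in (-Q)..Q, ρ x) - (n : ℝ) / N|)) ∧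
        (∀ j, |y j - y0 j| ≤ r0 / 2) ∧
        (∀ y' : Fin n → ℝ, (∀ j, k (y' j) - (N : ℝ)⁻¹ * ∑ l, θ (y' j - y' l) = b2a287I n j / N) →
          (∀ j, |y' j - y0 j| ≤ r0) → y' = y) ∧
        StrictMono y ∧
        (∀ y' : Fin n → ℝ, (∀ j, |y' j - y0 j| ≤ r0) →
          ∀ v : Fin n → ℝ, (∀ j, b2a287J kd Kd N y' v j = 0) → v = 0)

/-- a path of densities of constant filling `D0`, with uniform bounds. -/
structure In282Path (t1 t2 D0 Qmin ρmin ρmax : ℝ) (Qp : ℝ → ℝ) (rp : ℝ → ℝ → ℝ) : Prop where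
  dens : ∀ t ∈ Icc t1 t2, Bh271Dens t (Qp t) (rp t)
  fill : ∀ t ∈ Icc t1 t2, bh271_D (Qp t) (rp t) = D0
  Qlow : ∀ t ∈ Icc t1 t2, Qmin ≤ Qp t
  low : ∀ t ∈ Icc t1 t2, ∀ x ∈ Icc (-(Qp t)) (Qp t), ρmin ≤ rp t x
  up : ∀ t ∈ Icc t1 t2, ∀ x ∈ Icc (-(Qp t)) (Qp t), rp t x ≤ ρmax
  cint : ∀ x : ℝ, ContinuousOn (fun t => ∫ u in (0 : ℝ)..x, rp t u) (Icc t1 t2)

/-- **CONTRACT (R2)**: the path of densities exists (block B5 + stability in the parameter). -/
def In282PathEx : Prop :=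
  ∀ (c Q : ℝ) (r : ℝ → ℝ), 1 < c → c < 2 → 0 < Q → Bh271Dens (bh271_lam c) Q r →
    bh271_D Q r < 1 / 2 ∧ ∃ (t1 t2 Qmin ρmin ρmax : ℝ) (Qp : ℝ → ℝ) (rp : ℝ → ℝ → ℝ),
      0 < t1 ∧ t2 < Real.pi ∧ t1 < bh271_lam c ∧ t1 < Real.pi / 2 ∧ bh271_lam c < t2 ∧ Real.pi / 2 < t2 ∧
      0 < Qmin ∧ 0 < ρmin ∧ ρmin ≤ ρmax ∧ In282Path t1 t2 (bh271_D Q r) Qmin ρmin ρmax Qp rp ∧
      Qp (bh271_lam c) = Q ∧ rp (bh271_lam c) = r

/-- the choice of the even number of particles. -/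
theorem in282_choose_n {D0 δ0 : ℝ} (hD0 : 0 < D0) (hD2 : D0 < 1 / 2) (hδ0 : 0 < δ0) (n0 : ℕ) :
    ∃ N₀ : ℕ, ∀ N : ℕ, N₀ ≤ N → 0 < N ∧ ∃ n : ℕ, Even n ∧ 0 < n ∧ 2 * n ≤ N ∧ |(n : ℝ) - D0 * N| ≤ 2 ∧ n0 ≤ n ∧
      |D0 - (n : ℝ) / N| ≤ δ0 ∧ |D0 - (n : ℝ) / N| ≤ 2 / N ∧ (1 : ℝ) / n ≤ 2 / D0 / N := by
  obtain ⟨N₀, hN₀⟩ := exists_nat_ge (max ((n0 + 4) / D0) (2 / δ0))
  refine ⟨N₀, fun N hN => ?_⟩
  have hNr : (N₀ : ℝ) ≤ N := by exact_mod_cast hN
  have a1 : ((n0 : ℝ) + 4) / D0 ≤ N := (le_max_left _ _).trans (hN₀.trans hNr)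
  have a2 : 2 / δ0 ≤ N := (le_max_right _ _).trans (hN₀.trans hNr)
  rw [div_le_iff₀ hD0] at a1
  rw [div_le_iff₀ hδ0] at a2
  have hn0 : (0 : ℝ) ≤ n0 := Nat.cast_nonneg _
  have hNpos : (0 : ℝ) < N := by
    by_contra hcon
    rw [not_lt] at hcon
    nlinarith
  have hx : 0 ≤ D0 * N / 2 := by positivity
  set m := ⌊D0 * N / 2⌋₊ with hm
  have b1 : (m : ℝ) ≤ D0 * N / 2 := Nat.floor_le hx
  have b2 : D0 * N / 2 < m + 1 := Nat.lt_floor_add_one _
  have hc : ((2 * m : ℕ) : ℝ) = 2 * m := by push_cast; ring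
  have hnpos : (0 : ℝ) < ((2 * m : ℕ) : ℝ) := by rw [hc]; nlinarith
  refine ⟨by exact_mod_cast hNpos, 2 * m, even_two_mul m, by exact_mod_cast hnpos, ?_, ?_, ?_, ?_, ?_, ?_⟩
  · have : ((2 * (2 * m) : ℕ) : ℝ) ≤ N := by push_cast; nlinarith
    exact_mod_cast this
  · rw [hc, abs_le]; constructor <;> linarith
  · have : (n0 : ℝ) ≤ ((2 * m : ℕ) : ℝ) := by rw [hc]; nlinarith
    exact_mod_cast this
  · rw [hc, abs_le]
    constructor
    · rw [neg_le_sub_iff_le_add, div_le_iff₀ hNpos]; nlinarith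
    · rw [sub_le_iff_le_add, ← sub_le_iff_le_add', le_div_iff₀ hNpos]; nlinarith
  · rw [hc, abs_le]
    constructor
    · have : (2 * (m : ℝ)) / N ≤ D0 := by rw [div_le_iff₀ hNpos]; linarith
      have h2 : (0 : ℝ) ≤ 2 / N := by positivity
      linarith
    · have h3 : D0 ≤ (2 * (m : ℝ) + 2) / N := by rw [le_div_iff₀ hNpos]; linarith
      rw [add_div] at h3
      linarith
  · rw [hc]
    rw [div_div, div_le_div_iff₀ (by nlinarith) (by positivity)]
    nlinarith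

/-- **(R3) ASSEMBLY of road (b)**: contract B2 of the hub from the Newton leaf (287) and the path of densities. -/
theorem in282_B2 (hmain : In282Main) (hpath : In282PathEx) : Bh271B2 := by
  intro c Q r hc1 hc2 hQ hr
  obtain ⟨hD2, t1, t2, Qmin, ρmin, ρmax, Qp, rp, ht1, ht2, hl1, hp1, hl2, hp2, hQmin, hρmin, hρmm, hP, hQl, hrl⟩ :=
    hpath c Q r hc1 hc2 hQ hr
  have hD0 : 0 < bh271_D Q r :=
    intervalIntegral.intervalIntegral_pos_of_pos (hr.cont.intervalIntegrable _ _) hr.pos (by linarith)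
  obtain ⟨κ, B0, Lk, LK, hκ0, hκ1, hB0, hLk, hLK, hyp⟩ := in282_hyp ht1 (by linarith) ht2
  obtain ⟨n0, δ0, r0, C, hδ0, hr0, hC, main⟩ :=
    hmain Qmin ρmin ρmax κ B0 (1 / 2) Lk LK hQmin hρmin hρmm hκ0 hκ1 hB0 (by norm_num) hLk hLK
  obtain ⟨M, hM⟩ := (isCompact_Icc (a := -(Q + r0)) (b := Q + r0)).exists_bound_of_continuousOn
    hr.cont.continuousOn
  obtain ⟨N₀, hN₀⟩ := in282_choose_n hD0 hD2 hδ0 n0
  refine ⟨M * (C * (2 / bh271_D Q r + 2)) + 1, N₀, fun N hN => ?_⟩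
  obtain ⟨hNpos, n, hev, hnpos, h2n, hnD, hn0, hδ, hδ2, hinv⟩ := hN₀ N hN
  refine ⟨n, hev, hnpos, h2n, hnD, ?_⟩
  have hnN : n ≤ N := by omega
  have ex : ∀ t ∈ Icc t1 t2, ∃ y0 y : Fin n → ℝ, B2a287Quant (Qp t) (rp t) n y0 ∧
      (∀ j, bh271_S t (y j) - (N : ℝ)⁻¹ * ∑ l, bh271_Th t (y j - y l) = b2a287I n j / N) ∧
      (∀ j, |y j - y0 j| ≤ C * (1 / n + |bh271_D Q r - (n : ℝ) / N|)) ∧
      (∀ j, |y j - y0 j| ≤ r0 / 2) ∧
      (∀ y' : Fin n → ℝ, (∀ j, bh271_S t (y' j) - (N : ℝ)⁻¹ * ∑ l, bh271_Th t (y' j - y' l) = b2a287I n j / N) →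
        (∀ j, |y' j - y0 j| ≤ r0) → y' = y) ∧
      StrictMono y ∧
      (∀ y' : Fin n → ℝ, (∀ j, |y' j - y0 j| ≤ r0) →
        ∀ v : Fin n → ℝ, (∀ j, b2a287J (ba230_ker t) (ba230_ker (2 * t)) N y' v j = 0) → v = 0) := by
    intro t ht
    have hd := hP.dens t ht
    have hQt : 0 < Qp t := hQmin.trans_le (hP.Qlow t ht)
    obtain ⟨y0, hy0⟩ := in282_quant_exists hQt hd.cont hd.pos hd.even n
    have hfill : ∫ x in (-(Qp t))..(Qp t), rp t x = bh271_D Q r := hP.fill t ht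
    have := main (Qp t) (hP.Qlow t ht) _ _ _ _ _
      (hyp t ht (Qp t) ρmin ρmax (rp t) hQt hd (hP.low t ht) (hP.up t ht))
      N n hn0 hnN (by rw [hfill]; exact hδ) y0 hy0
    rw [hfill] at this
    obtain ⟨y, hy⟩ := this
    exact ⟨y0, y, hy0, hy⟩
  choose! y0 y hq h1 h2 h3 h4 h5 h6 using ex
  have hsub : Set.uIcc (bh271_lam c) (Real.pi / 2) ⊆ Ioo t1 t2 := by
    intro t ht
    rw [Set.mem_uIcc] at ht
    rcases ht with ⟨a, b⟩ | ⟨a, b⟩ <;> constructor <;> linarith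
  have hgood : ∀ t ∈ Icc t1 t2, Bh271Good t N n (y t) := fun t ht =>
    in282_good hNpos hr0 (hP.dens t ht) (hq t ht) (h1 t ht) (h3 t ht) (h4 t ht) (h5 t ht)
  have hy0c : ∀ t ∈ Ioo t1 t2, ContinuousAt y0 t := by
    intro t ht
    rw [continuousAt_pi]
    intro j
    have hc : ContinuousOn (fun t => y0 t j) (Icc t1 t2) :=
      in282_root_continuousOn (Φ := fun t x => ∫ u in (0 : ℝ)..x, rp t u)
        (a := bh271_D Q r * b2a287I n j / n)
        (fun t ht => in282_prim_strictMono (hP.dens t ht).cont (hP.dens t ht).pos) hP.cint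
        (fun t ht => by
          have := (hq t ht j).2
          have hfill : ∫ x in (-(Qp t))..(Qp t), rp t x = bh271_D Q r := hP.fill t ht
          rw [hfill] at this
          exact this)
    exact hc.continuousAt (Icc_mem_nhds ht.1 ht.2)
  have hN' : (N : ℝ) ≠ 0 := by exact_mod_cast hNpos.ne'
  have hana : ∀ t ∈ Ioo t1 t2, AnalyticAt ℝ y t := by
    intro t ht
    have htI : t ∈ Icc t1 t2 := Ioo_subset_Icc_self ht
    have ht0 : 0 < t := by linarith [ht.1]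
    have htp : t < Real.pi := by linarith [ht.2]
    have hnb : ∀ᶠ s in 𝓝 t, s ∈ Icc t1 t2 := Icc_mem_nhds ht.1 ht.2
    have hBE : ∀ᶠ s in 𝓝 t, ∀ j, (N : ℝ) * in282_k (s, y s j) - ∑ l, in282_th (s, y s j - y s l)
        = b2a287I n j := by
      filter_upwards [hnb] with s hs j
      exact (in282_eq_iff hNpos s (y s) j).1 (h1 s hs j)
    have hkA : ∀ u, AnalyticAt ℝ in282_k (t, u) := in282_k_analyticAt ht0 (by linarith)
    have hthA : ∀ u, AnalyticAt ℝ in282_th (t, u) := in282_th_analyticAt ht0 htp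
    refine ba120_roots_analyticAt N (b2a287I n) (fun j => hkA _) (fun j l => hthA _) ?_ hBE ?_
    · refine in282_branch_continuousAt (G := ba120F N in282_k in282_th (b2a287I n)) (y0 := y0) (r0 := r0)
        (fun a => (ba120_F_analyticAt N _ (fun j => hkA _) (fun j l => hthA _)).continuousAt)
        (hy0c t ht) hr0 ?_ ?_ ?_
      · filter_upwards [hBE] with s hs
        funext j
        simp only [ba120F, Pi.zero_apply]
        rw [hs j, sub_self]
      · filter_upwards [hnb] with s hs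
        rw [pi_norm_le_iff_of_nonneg (by linarith)]
        intro j
        rw [Pi.sub_apply, Real.norm_eq_abs]
        exact h3 s hs j
      · intro a ha hb
        refine h4 t htI a (fun j => ?_) (fun j => ?_)
        · rw [in282_eq_iff hNpos]
          have := congrFun ha j
          simp only [ba120F, Pi.zero_apply] at this
          exact sub_eq_zero.1 this
        · have := (pi_norm_le_iff_of_nonneg hr0.le).1 hb j
          rwa [Pi.sub_apply, Real.norm_eq_abs] at this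
    · intro v hv
      refine h6 t htI (y t) (fun j => (h3 t htI j).trans (by linarith)) v (fun j => ?_)
      have := hv j
      rw [in282_D2_k ht0 (by linarith)] at this
      simp_rw [in282_D2_th ht0 htp] at this
      unfold b2a287J b2a287X
      have e : (ba230_ker t (y t j) - (N : ℝ)⁻¹ * ∑ l, ba230_ker (2 * t) (y t j - y t l)) * v j
          + (N : ℝ)⁻¹ * ∑ l, ba230_ker (2 * t) (y t j - y t l) * v l
          = (N : ℝ)⁻¹ * ((N : ℝ) * ba230_ker t (y t j) * v j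
              - ∑ l, ba230_ker (2 * t) (y t j - y t l) * (v j - v l)) := by
        simp_rw [mul_sub]
        rw [Finset.sum_sub_distrib, ← Finset.sum_mul]
        field_simp
        ring
      rw [e, this, mul_zero]
  refine ⟨y, fun t ht => hgood t (Ioo_subset_Icc_self (hsub ht)),
    fun j t ht => (analyticAt_pi_iff.mp (hana t (hsub ht))) j, fun j => ?_⟩
  have hlI : bh271_lam c ∈ Icc t1 t2 := ⟨hl1.le, hl2.le⟩
  have q := hq _ hlI j
  rw [hQl, hrl] at q
  have b2 := h2 _ hlI j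
  have b3 := h3 _ hlI j
  set a := y0 (bh271_lam c) j with ha
  set b := y (bh271_lam c) j with hb
  have hM0 : 0 ≤ M := (norm_nonneg _).trans (hM 0 ⟨by linarith, by linarith⟩)
  have e1 : ∫ u in (0 : ℝ)..b, r u = (∫ u in (0 : ℝ)..a, r u) + ∫ u in a..b, r u :=
    (intervalIntegral.integral_add_adjacent_intervals (hr.cont.intervalIntegrable _ _)
      (hr.cont.intervalIntegrable _ _)).symm
  have e2 : |∫ u in a..b, r u| ≤ M * |b - a| := by
    have := intervalIntegral.norm_integral_le_of_norm_le_const (f := r) (a := a) (b := b) (C := M)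
      (fun x hx => hM x (by
        rw [abs_le] at b3
        rw [Set.mem_uIoc] at hx
        have q1 := q.1.1
        have q2 := q.1.2
        rcases hx with ⟨x1, x2⟩ | ⟨x1, x2⟩ <;> constructor <;> linarith [b3.1, b3.2]))
    simpa using this
  have hnr : (0 : ℝ) < n := by exact_mod_cast hnpos
  have hNr : (0 : ℝ) < N := by exact_mod_cast hNpos
  have e3 : (∫ x in (-Q)..Q, r x) = bh271_D Q r := rfl
  have e4 : bh271_D Q r * b2a287I n j / n - b2a287I n j / N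
      = b2a287I n j / n * (bh271_D Q r - (n : ℝ) / N) := by field_simp
  have e5 : |b2a287I n j / n| ≤ 1 / 2 := by
    rw [abs_div, abs_of_pos hnr, div_le_iff₀ hnr]
    have := in282_I_abs_le n j
    linarith
  have e6 : |b - a| ≤ C * (2 / bh271_D Q r + 2) / N := by
    refine b2.trans ?_
    have : 1 / (n : ℝ) + |bh271_D Q r - (n : ℝ) / N| ≤ (2 / bh271_D Q r + 2) / N := by
      rw [add_div]
      exact add_le_add hinv hδ2
    calc C * (1 / (n : ℝ) + |bh271_D Q r - (n : ℝ) / N|) ≤ C * ((2 / bh271_D Q r + 2) / N) :=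
          mul_le_mul_of_nonneg_left this hC.le
      _ = C * (2 / bh271_D Q r + 2) / N := by ring
  show |(∫ u in (0 : ℝ)..b, r u) - b2a287I n j / N| ≤ _
  rw [e1, q.2, e3]
  have e7 : bh271_D Q r * b2a287I n j / n + (∫ u in a..b, r u) - b2a287I n j / N
      = b2a287I n j / n * (bh271_D Q r - (n : ℝ) / N) + ∫ u in a..b, r u := by rw [← e4]; ring
  rw [e7]
  refine (abs_add_le _ _).trans ?_
  rw [abs_mul]
  have f1 : |b2a287I n j / n| * |bh271_D Q r - (n : ℝ) / N| ≤ 1 / 2 * (2 / N) :=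
    mul_le_mul e5 hδ2 (abs_nonneg _) (by norm_num)
  have f2 : M * |b - a| ≤ M * (C * (2 / bh271_D Q r + 2) / N) := mul_le_mul_of_nonneg_left e6 hM0
  have f3 : (M * (C * (2 / bh271_D Q r + 2)) + 1) / N
      = 1 / 2 * (2 / N) + M * (C * (2 / bh271_D Q r + 2) / N) := by field_simp; ring
  rw [f3]
  linarith

/-! ## Part 6: the exits of (R2) -/

/-- the canonical density and filling at the parameter `t`, Fermi point `q` (vocabulary of 150). -/
noncomputable def in282_r (t q : ℝ) : ℝ → ℝ := c1x150_rQ (ba230_ker (2 * t)) (ba230_ker t) q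
noncomputable def in282_D (t q : ℝ) : ℝ := c1x150_Dq (ba230_ker (2 * t)) (ba230_ker t) q

/-- (R2) in the vocabulary of block C (the statement announced by 202, with `t2 < 2π/3`). -/
def In282PathC : Prop :=
  ∀ lam Q : ℝ, 0 < lam → lam < 2 * Real.pi / 3 → 0 < Q →
    in282_D lam Q < 1 / 2 ∧ ∃ (t1 t2 Qmin ρmin ρmax : ℝ) (Qp : ℝ → ℝ),
      0 < t1 ∧ t2 < 2 * Real.pi / 3 ∧ t1 < lam ∧ t1 < Real.pi / 2 ∧ lam < t2 ∧ Real.pi / 2 < t2 ∧
      0 < Qmin ∧ 0 < ρmin ∧ ρmin ≤ ρmax ∧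
      (∀ t ∈ Icc t1 t2, Qmin ≤ Qp t ∧ in282_D t (Qp t) = in282_D lam Q ∧
        ∀ x ∈ Icc (-(Qp t)) (Qp t), ρmin ≤ in282_r t (Qp t) x ∧ in282_r t (Qp t) x ≤ ρmax) ∧
      (∀ x : ℝ, ContinuousOn (fun t => ∫ u in (0 : ℝ)..x, in282_r t (Qp t) u) (Icc t1 t2)) ∧
      Qp lam = Q

theorem in282_lam_lt {c : ℝ} (hc1 : 1 < c) (hc2 : c < 2) : bh271_lam c < 2 * Real.pi / 3 := by
  have hpi := Real.pi_pos
  have h1 : Real.arccos (c / 2) < Real.arccos (1 / 2) :=
    Real.strictAntiOn_arccos ⟨by norm_num, by norm_num⟩ ⟨by linarith, by linarith⟩ (by linarith)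
  have h2 : Real.arccos (1 / 2) = Real.pi / 3 := by
    rw [← Real.cos_pi_div_three, Real.arccos_cos (by positivity) (by linarith)]
  unfold bh271_lam
  rw [h2] at h1
  linarith

/-- **(X1)** the adapter. -/
theorem in282_pathEx_of_C (h : In282PathC) : In282PathEx := by
  intro c Q r hc1 hc2 hQ hr
  obtain ⟨hl0, -, -⟩ := bh271_lam_spec hc1 hc2
  have hl1 := in282_lam_lt hc1 hc2
  obtain ⟨hD, t1, t2, Qmin, ρmin, ρmax, Qp, a1, a2, a3, a4, a5, a6, a7, a8, a9, hall, hcint, hQl⟩ :=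
    h (bh271_lam c) Q hl0 hl1 hQ
  have hrr : r = in282_r (bh271_lam c) Q :=
    funext fun u => ba230_dens_unique hl0 hl1 hQ.le hr.cont hr.eq u
  have hDD : bh271_D Q r = in282_D (bh271_lam c) Q := by
    rw [hrr]; exact ba230_D_interval hQ.le
  refine ⟨by rw [hDD]; exact hD, t1, t2, Qmin, ρmin, ρmax, Qp, fun t => in282_r t (Qp t), a1,
    by linarith [Real.pi_pos], a3, a4, a5, a6, a7, a8, a9, ?_, hQl, by simp only; rw [hQl, hrr]⟩
  refine ⟨fun t ht => ?_, fun t ht => ?_, fun t ht => (hall t ht).1,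
    fun t ht x hx => ((hall t ht).2.2 x hx).1, fun t ht x hx => ((hall t ht).2.2 x hx).2, hcint⟩
  · have ht0 : 0 < t := by linarith [ht.1]
    have ht1 : t < 2 * Real.pi / 3 := by linarith [ht.2]
    have hq : 0 ≤ Qp t := (a7.trans_le (hall t ht).1).le
    obtain ⟨d1, d2, d3, d4⟩ := ba230_dens ht0 ht1 hq
    exact ⟨d1, d2, d3, d4⟩
  · have ht0 : 0 < t := by linarith [ht.1]
    have ht1 : t < 2 * Real.pi / 3 := by linarith [ht.2]
    have hq : 0 ≤ Qp t := (a7.trans_le (hall t ht).1).le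
    rw [hDD, ← (hall t ht).2.1]
    exact ba230_D_interval hq

/-- uniform closeness in the parameter gives joint continuity. -/
theorem in282_joint {S : Set ℝ} {Ψ : ℝ → ℝ → ℝ} {E : ℝ → ℝ → ℝ}
    (hc : ∀ t ∈ S, Continuous (Ψ t))
    (hE : ∀ t ∈ S, ∀ t0 ∈ S, ∀ u, |Ψ t u - Ψ t0 u| ≤ E t t0)
    (hE0 : ∀ t0 ∈ S, Tendsto (fun t => E t t0) (𝓝[S] t0) (𝓝 0)) :
    ContinuousOn (fun p : ℝ × ℝ => Ψ p.1 p.2) (S ×ˢ (univ : Set ℝ)) := by
  rintro ⟨t0, x0⟩ ⟨ht0, -⟩
  rw [ContinuousWithinAt, nhdsWithin_prod_eq, Metric.tendsto_nhds]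
  intro ε hε
  have h1 : ∀ᶠ t in 𝓝[S] t0, E t t0 < ε / 2 := (hE0 t0 ht0).eventually (gt_mem_nhds (by linarith))
  have h2 : ∀ᶠ x in 𝓝[univ] x0, |Ψ t0 x - Ψ t0 x0| < ε / 2 := by
    rw [nhdsWithin_univ]
    have := (hc t0 ht0).continuousAt (x := x0)
    rw [ContinuousAt, Metric.tendsto_nhds] at this
    simpa [Real.dist_eq] using this (ε / 2) (by linarith)
  have h3 : ∀ᶠ t in 𝓝[S] t0, t ∈ S := self_mem_nhdsWithin
  filter_upwards [(h1.and h3).prod_mk h2] with p hp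
  obtain ⟨⟨b1, b3⟩, b2⟩ := hp
  rw [Real.dist_eq]
  have e : Ψ p.1 p.2 - Ψ t0 x0 = (Ψ p.1 p.2 - Ψ t0 p.2) + (Ψ t0 p.2 - Ψ t0 x0) := by ring
  rw [e]
  refine (abs_add_le _ _).trans_lt ?_
  have := hE p.1 b3 t0 ht0 p.2
  linarith

/-- uniform closeness in the parameter gives continuity of the primitives. -/
theorem in282_cint {S : Set ℝ} {Ψ : ℝ → ℝ → ℝ} {E : ℝ → ℝ → ℝ}
    (hc : ∀ t ∈ S, Continuous (Ψ t))
    (hE : ∀ t ∈ S, ∀ t0 ∈ S, ∀ u, |Ψ t u - Ψ t0 u| ≤ E t t0)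
    (hE0 : ∀ t0 ∈ S, Tendsto (fun t => E t t0) (𝓝[S] t0) (𝓝 0)) (a b : ℝ) :
    ContinuousOn (fun t => ∫ u in a..b, Ψ t u) S := by
  intro t0 ht0
  rw [ContinuousWithinAt, Metric.tendsto_nhds]
  intro ε hε
  have hx : 0 < |b - a| + 1 := by positivity
  have h1 : ∀ᶠ t in 𝓝[S] t0, E t t0 < ε / (|b - a| + 1) :=
    (hE0 t0 ht0).eventually (gt_mem_nhds (by positivity))
  filter_upwards [h1, self_mem_nhdsWithin] with t b1 b3
  rw [Real.dist_eq, ← intervalIntegral.integral_sub ((hc t b3).intervalIntegrable _ _)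
    ((hc t0 ht0).intervalIntegrable _ _)]
  have h2 := intervalIntegral.norm_integral_le_of_norm_le_const (f := fun u => Ψ t u - Ψ t0 u) (a := a)
    (b := b) (C := E t t0) (fun u _ => by rw [Real.norm_eq_abs]; exact hE t b3 t0 ht0 u)
  rw [Real.norm_eq_abs] at h2
  refine h2.trans_lt ?_
  have hE1 : 0 ≤ E t t0 := (abs_nonneg _).trans (hE t b3 t0 ht0 0)
  rw [lt_div_iff₀ hx] at b1
  nlinarith [abs_nonneg (b - a)]

/-- **(PC)**: the canonical density is Lipschitz in (parameter, Fermi point), uniformly in the rapidity. -/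
def In282PC : Prop :=
  ∀ t1 t2 Qb : ℝ, 0 < t1 → t1 ≤ t2 → t2 < 2 * Real.pi / 3 → 0 ≤ Qb →
    ∃ A : ℝ, ∀ t ∈ Icc t1 t2, ∀ t' ∈ Icc t1 t2, ∀ q ∈ Icc (0 : ℝ) Qb, ∀ q' ∈ Icc (0 : ℝ) Qb, ∀ u : ℝ,
      |in282_r t q u - in282_r t' q' u| ≤ A * (|t - t'| + |q - q'|)

theorem in282_r_continuous {t : ℝ} (h0 : 0 < t) (h1 : t < 2 * Real.pi / 3) (q : ℝ) :
    Continuous (in282_r t q) := by
  obtain ⟨C, H⟩ := ba230_Ker h0 h1
  exact c1x150_rQ_continuous H q

/-- the filling is continuous in the parameter at a fixed Fermi point. -/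
theorem in282_D_continuousOn (hPC : In282PC) {t1 t2 : ℝ} (h0 : 0 < t1) (h12 : t1 ≤ t2)
    (h2 : t2 < 2 * Real.pi / 3) {q : ℝ} (hq : 0 ≤ q) :
    ContinuousOn (fun t => in282_D t q) (Icc t1 t2) := by
  obtain ⟨A, hA⟩ := hPC t1 t2 q h0 h12 h2 hq
  have e : ∀ t, in282_D t q = ∫ u in (-q)..q, in282_r t q u := fun t => (ba230_D_interval hq).symm
  simp_rw [e]
  refine in282_cint (Ψ := fun t => in282_r t q) (E := fun t t0 => A * (|t - t0| + |q - q|))
    (fun t ht => in282_r_continuous (by linarith [ht.1]) (by linarith [ht.2]) q)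
    (fun t ht t0 ht0 u => hA t ht t0 ht0 q ⟨hq, le_rfl⟩ q ⟨hq, le_rfl⟩ u) (fun t0 _ => ?_) _ _
  have : ContinuousWithinAt (fun t => A * (|t - t0| + |q - q|)) (Icc t1 t2) t0 := by fun_prop
  have h3 := this.tendsto
  simpa using h3

/-- T1 of 150 in the present vocabulary. -/
theorem in282_T1 {t : ℝ} (h0 : 0 < t) (h1 : t < 2 * Real.pi / 3) :
    ContinuousOn (in282_D t) (Ici 0) ∧ in282_D t 0 = 0 ∧ StrictMonoOn (in282_D t) (Ici 0) ∧
      (∀ Q, 0 < Q → in282_D t Q < 1 / 2) ∧ Tendsto (in282_D t) atTop (𝓝 (1 / 2)) := by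
  obtain ⟨c1, c2, -, c4, c5, c6⟩ := t1x150_main h0 h1
  exact ⟨c1, c2, c4, c5, c6⟩

theorem in282_r_pos {t : ℝ} (h0 : 0 < t) (h1 : t < 2 * Real.pi / 3) (q u : ℝ) : 0 < in282_r t q u :=
  t1x150_rQ_pos h0 h1 q u

/-- **(X2)**: (PC) alone gives (R2) in the vocabulary of block C. -/
theorem in282_pathC_of_PC (hPC : In282PC) : In282PathC := by
  intro lam Q hl0 hl1 hQ
  have hpi := Real.pi_pos
  obtain ⟨-, T0, Tm, Tlt, -⟩ := in282_T1 hl0 hl1
  have hD2 : in282_D lam Q < 1 / 2 := Tlt Q hQ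
  have hD0 : 0 < in282_D lam Q := by
    have := Tm (mem_Ici.2 le_rfl) (mem_Ici.2 hQ.le) hQ
    rw [T0] at this
    exact this
  refine ⟨hD2, ?_⟩
  have hmin0 : 0 < min lam (Real.pi / 2) := lt_min hl0 (by positivity)
  have hmax0 : max lam (Real.pi / 2) < 2 * Real.pi / 3 := max_lt hl1 (by linarith)
  obtain ⟨t1, ht1⟩ : ∃ t1, t1 = min lam (Real.pi / 2) / 2 := ⟨_, rfl⟩
  obtain ⟨t2, ht2⟩ : ∃ t2, t2 = (max lam (Real.pi / 2) + 2 * Real.pi / 3) / 2 := ⟨_, rfl⟩
  have a1 : 0 < t1 := by rw [ht1]; positivity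
  have a3 : t1 < lam := by have := min_le_left lam (Real.pi / 2); linarith
  have a4 : t1 < Real.pi / 2 := by have := min_le_right lam (Real.pi / 2); linarith
  have a2 : t2 < 2 * Real.pi / 3 := by linarith
  have a5 : lam < t2 := by have := le_max_left lam (Real.pi / 2); linarith
  have a6 : Real.pi / 2 < t2 := by have := le_max_right lam (Real.pi / 2); linarith
  have h12 : t1 ≤ t2 := by linarith
  have hT : ∀ t ∈ Icc t1 t2, 0 < t ∧ t < 2 * Real.pi / 3 := fun t ht =>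
    ⟨by linarith [ht.1], by linarith [ht.2]⟩
  have ex : ∀ t ∈ Icc t1 t2, ∃ q, 0 < q ∧ in282_D t q = in282_D lam Q := by
    intro t ht
    obtain ⟨c1, c2, -, -, c6⟩ := in282_T1 (hT t ht).1 (hT t ht).2
    exact c1x150_surj c1 c2 c6 hD0 hD2
  choose! Qp hQp0 hQpD using ex
  have hlI : lam ∈ Icc t1 t2 := ⟨a3.le, a5.le⟩
  have hQl : Qp lam = Q :=
    Tm.injOn (mem_Ici.2 (hQp0 lam hlI).le) (mem_Ici.2 hQ.le) (hQpD lam hlI)
  have hQc : ContinuousOn Qp (Icc t1 t2) := by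
    refine in282_root_continuousOn (Φ := fun t q => in282_D t (max q 0) + min q 0)
      (a := in282_D lam Q) ?_ ?_ ?_
    · intro t ht x y hxy
      obtain ⟨-, -, c4, -, -⟩ := in282_T1 (hT t ht).1 (hT t ht).2
      have m1 : in282_D t (max x 0) ≤ in282_D t (max y 0) :=
        c4.monotoneOn (mem_Ici.2 (le_max_right _ _)) (mem_Ici.2 (le_max_right _ _))
          (max_le_max_right 0 hxy.le)
      show in282_D t (max x 0) + min x 0 < in282_D t (max y 0) + min y 0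
      rcases le_or_gt y 0 with hy | hy
      · rw [min_eq_left hy, min_eq_left (by linarith : x ≤ 0)]
        linarith
      · have m2 : min x 0 ≤ min y 0 := min_le_min_right 0 hxy.le
        have m3 : in282_D t (max x 0) < in282_D t (max y 0) :=
          c4 (mem_Ici.2 (le_max_right _ _)) (mem_Ici.2 (le_max_right _ _))
            (by rw [max_eq_left hy.le]; exact max_lt hxy hy)
        linarith
    · intro q
      exact (in282_D_continuousOn hPC a1 h12 a2 (le_max_right q 0)).add continuousOn_const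
    · intro t ht
      show in282_D t (max (Qp t) 0) + min (Qp t) 0 = in282_D lam Q
      rw [max_eq_left (hQp0 t ht).le, min_eq_right (hQp0 t ht).le, add_zero]
      exact hQpD t ht
  have hne : (Icc t1 t2).Nonempty := nonempty_Icc.2 h12
  obtain ⟨tm, htm, hmin⟩ := isCompact_Icc.exists_isMinOn hne hQc
  obtain ⟨tM, htM, hmax⟩ := isCompact_Icc.exists_isMaxOn hne hQc
  obtain ⟨A, hA⟩ := hPC t1 t2 (Qp tM) a1 h12 a2 (hQp0 tM htM).le
  have hmem : ∀ t ∈ Icc t1 t2, Qp t ∈ Icc (0 : ℝ) (Qp tM) := fun t ht => ⟨(hQp0 t ht).le, hmax ht⟩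
  have hc : ∀ t ∈ Icc t1 t2, Continuous (in282_r t (Qp t)) := fun t ht =>
    in282_r_continuous (hT t ht).1 (hT t ht).2 _
  have hE : ∀ t ∈ Icc t1 t2, ∀ t0 ∈ Icc t1 t2, ∀ u,
      |in282_r t (Qp t) u - in282_r t0 (Qp t0) u| ≤ A * (|t - t0| + |Qp t - Qp t0|) :=
    fun t ht t0 ht0 u => hA t ht t0 ht0 _ (hmem t ht) _ (hmem t0 ht0) u
  have hE0 : ∀ t0 ∈ Icc t1 t2,
      Tendsto (fun t => A * (|t - t0| + |Qp t - Qp t0|)) (𝓝[Icc t1 t2] t0) (𝓝 0) := by
    intro t0 ht0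
    have c1 : ContinuousWithinAt (fun t => A * (|t - t0| + |Qp t - Qp t0|)) (Icc t1 t2) t0 :=
      continuousWithinAt_const.mul (((continuousWithinAt_id.sub continuousWithinAt_const).abs).add
        (((hQc t0 ht0).sub continuousWithinAt_const).abs))
    have := c1.tendsto
    simpa using this
  have hj := in282_joint (Ψ := fun t => in282_r t (Qp t)) hc hE hE0
  have hK : IsCompact (Icc t1 t2 ×ˢ Icc (-(Qp tM)) (Qp tM)) := isCompact_Icc.prod isCompact_Icc
  have hKne : (Icc t1 t2 ×ˢ Icc (-(Qp tM)) (Qp tM)).Nonempty :=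
    hne.prod (nonempty_Icc.2 (by linarith [hQp0 tM htM]))
  have hjK : ContinuousOn (fun p : ℝ × ℝ => in282_r p.1 (Qp p.1) p.2)
      (Icc t1 t2 ×ˢ Icc (-(Qp tM)) (Qp tM)) := hj.mono (prod_mono le_rfl (subset_univ _))
  obtain ⟨pm, hpm, hpmin⟩ := hK.exists_isMinOn hKne hjK
  obtain ⟨pM, hpM, hpmax⟩ := hK.exists_isMaxOn hKne hjK
  have hmn : ∀ p ∈ Icc t1 t2 ×ˢ Icc (-(Qp tM)) (Qp tM),
      in282_r pm.1 (Qp pm.1) pm.2 ≤ in282_r p.1 (Qp p.1) p.2 := fun p hp => hpmin hp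
  have hmx : ∀ p ∈ Icc t1 t2 ×ˢ Icc (-(Qp tM)) (Qp tM),
      in282_r p.1 (Qp p.1) p.2 ≤ in282_r pM.1 (Qp pM.1) pM.2 := fun p hp => hpmax hp
  have hci : ∀ x : ℝ, ContinuousOn (fun t => ∫ u in (0 : ℝ)..x, in282_r t (Qp t) u) (Icc t1 t2) :=
    fun x => in282_cint (Ψ := fun t => in282_r t (Qp t)) hc hE hE0 0 x
  have hpos : 0 < in282_r pm.1 (Qp pm.1) pm.2 := in282_r_pos (hT _ hpm.1).1 (hT _ hpm.1).2 _ _
  have hall : ∀ t ∈ Icc t1 t2, Qp tm ≤ Qp t ∧ in282_D t (Qp t) = in282_D lam Q ∧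
      ∀ x ∈ Icc (-(Qp t)) (Qp t), in282_r pm.1 (Qp pm.1) pm.2 ≤ in282_r t (Qp t) x ∧
        in282_r t (Qp t) x ≤ in282_r pM.1 (Qp pM.1) pM.2 := by
    intro t ht
    refine ⟨hmin ht, hQpD t ht, fun x hx => ?_⟩
    have hx' : ((t, x) : ℝ × ℝ) ∈ Icc t1 t2 ×ˢ Icc (-(Qp tM)) (Qp tM) :=
      ⟨ht, ⟨by linarith [hx.1, (hmem t ht).2], by linarith [hx.2, (hmem t ht).2]⟩⟩
    exact ⟨hmn (t, x) hx', hmx (t, x) hx'⟩
  exact ⟨t1, t2, Qp tm, in282_r pm.1 (Qp pm.1) pm.2, in282_r pM.1 (Qp pM.1) pM.2, Qp, a1, a2, a3, a4,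
    a5, a6, hQp0 tm htm, hpos, hmn pM hpM, hall, hci, hQl⟩

/-! ## Part 7: road (b) closed -/

/-- (R2) in the vocabulary of block C: the theorem of 202. -/
theorem in282_pathC : In282PathC := fun _ _ h0 h1 hQ => d1x202_pathEx h0 h1 hQ

/-- **(R2)**. -/
theorem in282_pathEx : In282PathEx := in282_pathEx_of_C in282_pathC

/-- **CONTRACT B2 OF THE HUB, PROVED** (Newton rope: 287 + 202 + 150 + 230 + 120 + 130 + 282). -/
theorem in282_B2_closed : Bh271B2 := in282_B2 b2a287_main in282_pathEx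

end Claimed.Agent.R292
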