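import Claimed.Agent.R292.Bethe.T3x259
import Claimed.Agent.R292.Bethe.InstNeg130
import Claimed.Agent.R292.Bethe.CondB77
import Claimed.Agent.R292.Bethe.Neg170

/-!
# Row 292, unit BETHE, contract T3 (`ba_t3` of `Bethe/Thermo.lean`): the last wiring      (helper190; prefix `intb190_`)

On 259's skeleton `T3x259.lean` (`T3x259A`, `T3x259B`, `t3x259_of_AB`, `t3x259_A_pos`).
* `intb190_B`      : `T3x259B lam`  (`= condb77_B80` of 77);
* `intb190_A_neg`  : `T3x259A lam` for `π/2 < lam < 2π/3` from `in130_inst_neg` (130), `ba120_final` (120) and the `N`-uniform bound of the hull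
                     (`IntB190Hull lam` = the statement of 170's `neg170_hull_inst`);
* `intb190_t3`     : the statement of `ba_t3` for all `0 < lam < 2π/3` from `IntB190Hull` on `(π/2, 2π/3)`;
* `intb190_hull`   : `IntB190Hull lam` for `π/2 ≤ lam < 2π/3` (instance of 170's `neg170_hull` at `ρ = r_Q`, `ρmin = smin = min s` on `[-Q₂-1, Q₂+1]`);
* **`intb190_t3_closed`** : the statement of `ba_t3`, NO hypothesis left.
-/

set_option autoImplicit false

namespace Claimed.Agent.R292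

open Set Filter Topology MeasureTheory
open scoped ContDiff

/-- the `N`-uniform bound of the hull (`K ≤ 0`): the statement of `neg170_hull_inst`. -/
def IntB190Hull (lam : ℝ) : Prop :=
  ∀ Q₁ Q₂ : ℝ, 0 < Q₁ → Q₁ ≤ Q₂ → ∃ N0 : ℕ, ∀ N m : ℕ, N0 ≤ N → ∀ Q ∈ Icc Q₁ Q₂,
    ((m + 1 : ℕ) : ℝ) = N * c1x150_Dq (ba230_ker (2 * lam)) (ba230_ker lam) Q →
    ∀ y : Fin (m + 1) → ℝ, ba3x80_F (N : ℝ) ba3x80_S ba3x80_Th (ba3x80_I (m + 1)) (lam, y) = 0 →
      ∀ j, |y j| ≤ Q₂ + 1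

/-- **(B)** (77). -/
theorem intb190_B {lam : ℝ} (h0 : 0 < lam) (h1 : lam < 2 * Real.pi / 3) : T3x259B lam := by
  intro Qm ε hε
  obtain ⟨N₀, H⟩ := condb77_B80 h0 h1 Qm ε hε
  exact ⟨N₀, fun N m y hN hmN hev hc hbox => H N m y hN hmN hev hc.1 hc.2.1 hc.2.2.1 hc.2.2.2 hbox⟩

/-- **(A) for `K ≤ 0`.** -/
theorem intb190_A_neg {lam : ℝ} (h2 : Real.pi / 2 < lam) (h1 : lam < 2 * Real.pi / 3)
    (hull : IntB190Hull lam) : T3x259A lam := by
  intro Q₁ Q₂ hQ₁ hQ₁₂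
  have hpi := Real.pi_pos
  have h0 : 0 < lam := by linarith
  obtain ⟨-, -, -, -, hDlt, -⟩ := t1x150_main h0 h1
  obtain ⟨N0, H⟩ := hull Q₁ Q₂ hQ₁ hQ₁₂
  refine ⟨Q₂ + 1, N0, fun N m hN hev hQ => ?_⟩
  obtain ⟨Q, hQm, hmQ⟩ := hQ
  have hQ0 : 0 < Q := lt_of_lt_of_le hQ₁ hQm.1
  have hNpos : 0 < N := by
    rcases Nat.eq_zero_or_pos N with h | h
    · subst h
      simp at hmQ
      exact absurd hmQ (by positivity)
    · exact h
  have hNr : (0 : ℝ) < N := by exact_mod_cast hNpos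
  have hm1 : ((m : ℝ) + 1) = N * t3x259_Dq lam Q := by
    have := hmQ
    push_cast at this
    exact this
  have h2N : 2 * (m + 1) ≤ N := by
    have h3 : (N : ℝ) * t3x259_Dq lam Q < N * (1 / 2) := mul_lt_mul_of_pos_left (hDlt Q hQ0) hNr
    have h4 : (2 : ℝ) * ((m : ℝ) + 1) ≤ N := by linarith
    exact_mod_cast h4
  obtain ⟨y, hy, hyc, hya⟩ := in130_inst_neg (N := N) (m := m) (b := lam) h2.le (by linarith) (by omega)
    (S := ba3x80_S) (Th := ba3x80_Th) (I := ba3x80_I (m + 1)) (fun _ _ => rfl) (fun _ _ => rfl)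
    (fun _ => rfl)
  have : NeZero N := ⟨hNpos.ne'⟩
  have hmem : lam ∈ Icc (Real.pi / 2) lam := ⟨h2.le, le_rfl⟩
  have hfin := ba120_final (N := N) (m := m) h2N hev (a := Real.pi / 2) (b := lam) h2
    ⟨le_rfl, h2.le⟩ (by positivity) (by linarith)
    (S := ba3x80_S) (Θ := ba3x80_Th) (I := ba3x80_I (m + 1))
    (fun _ _ => rfl) (fun _ _ => rfl) (fun _ => rfl) hyc
    (fun t ht => hya t ⟨ht.1, ht.2.le⟩)
    (fun t ht => (hy t ht).1) (fun t ht => (hy t ht).2.1)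
    (fun t ht => (hy t ht).2.2.2.2.2.1) lam hmem
  obtain ⟨z1, z2, -, z4, -, z6, -⟩ := hy lam hmem
  exact ⟨y lam, ⟨z1, z2, z6, fun u _ => (z4 u).le⟩, H N m hN Q hQm hmQ (y lam) z1, hfin⟩

/-- **T3** (the statement of `ba_t3` on the unfolded names) from the bound of the hull for `K < 0`. -/
theorem intb190_t3 {lam : ℝ} (h0 : 0 < lam) (h1 : lam < 2 * Real.pi / 3)
    (hull : Real.pi / 2 < lam → IntB190Hull lam) :
    ∀ Q₁ Q₂ : ℝ, 0 < Q₁ → Q₁ ≤ Q₂ → ∀ ε : ℝ, 0 < ε → ∃ N₀ : ℕ, ∀ N n : ℕ, N₀ ≤ N → Even n →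
      ∀ Q ∈ Set.Icc Q₁ Q₂, (n : ℝ) = N * c1x150_Dq (ba230_ker (2 * lam)) (ba230_ker lam) Q →
        |baF (ba120c lam) N n / N
          - c1x150_Eq (ba230_ker (2 * lam)) (ba230_ker lam) (ba230_e0 lam) Q| ≤ ε := by
  rcases le_or_gt lam (Real.pi / 2) with h2 | h2
  · exact t3x259_of_AB h0 h1 (t3x259_A_pos h0 h2) (intb190_B h0 h1)
  · exact t3x259_of_AB h0 h1 (intb190_A_neg h2 h1 (hull h2)) (intb190_B h0 h1)

/-- **the `N`-uniform bound of the hull for `K ≤ 0`** (instance of 170's `neg170_hull`). -/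
theorem intb190_hull {lam : ℝ} (h2 : Real.pi / 2 ≤ lam) (h1 : lam < 2 * Real.pi / 3) : IntB190Hull lam := by
  intro Q₁ Q₂ hQ₁ hQ₁₂
  have hpi := Real.pi_pos
  have h0 : 0 < lam := by linarith
  obtain ⟨C, H⟩ := ba230_Ker h0 h1
  obtain ⟨-, -, -, -, hDlt, -⟩ := t1x150_main h0 h1
  obtain ⟨Kmax, hKmax⟩ := ba230_ker_bdd (a := 2 * lam) (by linarith) (by linarith)
  have hKmax0 : 0 ≤ Kmax := (abs_nonneg _).trans (hKmax 0)
  have hspos : ∀ u, 0 < ba230_ker lam u := fun u => by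
    unfold ba230_ker
    exact div_pos (Real.sin_pos_of_pos_of_lt_pi h0 (by linarith)) (ba230_ker_den_pos h0 (by linarith) u)
  have hsc : Continuous (ba230_ker lam) := ba230_ker_continuous h0 (by linarith)
  have hKc : Continuous (ba230_ker (2 * lam)) := ba230_ker_continuous (by linarith) (by linarith)
  have hKneg : ∀ u, ba230_ker (2 * lam) u ≤ 0 := ba230_ker_nonpos (by linarith) (by linarith)
  have hQ₂ : 0 < Q₂ := lt_of_lt_of_le hQ₁ hQ₁₂
  obtain ⟨um, -, hmin⟩ := (isCompact_Icc (a := -(Q₂ + 1)) (b := Q₂ + 1)).exists_isMinOn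
    (nonempty_Icc.2 (by linarith)) hsc.continuousOn
  set smin := ba230_ker lam um with hsmin
  have hsmin0 : 0 < smin := hspos um
  have hlow : ∀ u, |u| ≤ Q₂ + 1 → smin ≤ ba230_ker lam u := fun u hu =>
    hmin (⟨(abs_le.1 hu).1, (abs_le.1 hu).2⟩ : u ∈ Icc (-(Q₂ + 1)) (Q₂ + 1))
  obtain ⟨N0, hN0⟩ := exists_nat_gt (Kmax / smin / smin)
  refine ⟨N0 + 1, fun N m hN Q hQ hmQ y hy j => ?_⟩
  have hQ0 : 0 < Q := lt_of_lt_of_le hQ₁ hQ.1
  have hNr : (0 : ℝ) < N := by exact_mod_cast (by omega : 0 < N)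
  have hNbig : Kmax / smin / smin < N := hN0.trans (by exact_mod_cast (by omega : N0 < N))
  set ρ := c1x150_rQ (ba230_ker (2 * lam)) (ba230_ker lam) Q with hρ
  have hρc : Continuous ρ := c1x150_rQ_continuous H Q
  have hfill : ((m + 1 : ℕ) : ℝ) / N = c1x150_Dq (ba230_ker (2 * lam)) (ba230_ker lam) Q := by
    rw [hmQ]; field_simp
  have hfill1 : ((m + 1 : ℕ) : ℝ) / N ≤ 1 := by
    rw [hfill]; have := hDlt Q hQ0; linarith
  have hfill0 : 0 ≤ ((m + 1 : ℕ) : ℝ) / N := by positivity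
  have key := neg170_hull (n := m + 1) (N := (N : ℝ)) (Q := Q) (ρmin := smin) (Kmax := Kmax) (smin := smin)
    ba3x80_S ba3x80_Th ba230_ker (fun t => ba230_ker (2 * t)) lam ρ (ba3x80_I (m + 1))
    (fun j => by rw [ba3x80_I_eqns_cite]; ring)
    (hρc.intervalIntegrable _ _) hQ0.le hsmin0
    (fun x hx => (hlow x (abs_le.2 ⟨by linarith [hx.1, hQ.2], by linarith [hx.2, hQ.2]⟩)).trans
      (c1x150_rQ_ge_source H hKneg (fun u => (hspos u).le) Q x))
    (fun x _ => c1x150_rQ_even H Q x) hNr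
    (by
      unfold d2x259_P
      rw [hfill, c1x150_Dq, condb77_Icc _ (by linarith)])
    (ba3x80_S_hasDerivAt h0 (by linarith)) hsc
    (by have := ba3x80_S_neg lam 0; simp only [neg_zero] at this; linarith)
    (ba3x80_Th_hasDerivAt h0 (by linarith)) hKc hKmax (ba3x80_Th_neg lam)
    (fun x _ => by
      have := c1x150_rQ_eq H Q x
      unfold c1x150_op at this
      rw [condb77_Icc _ (by linarith)] at this
      exact this)
    (fun u => (hspos u).le) hKneg hsmin0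
    (fun u hu => hlow u (by linarith [hQ.2]))
    (by
      have h3 : Kmax / smin * (((m + 1 : ℕ) : ℝ) / N) ≤ Kmax / smin :=
        mul_le_of_le_one_right (by positivity) hfill1
      have h4 : Kmax / smin < N * smin := by rwa [div_lt_iff₀ hsmin0] at hNbig
      linarith)
    y hy j
  linarith [key.2, hQ.2]

/-- **T3, CLOSED**: the statement of `ba_t3` of `Bethe/Thermo.lean` on the unfolded names (`baDq lam`, `baEq lam` unfold to these). -/
theorem intb190_t3_closed {lam : ℝ} (h0 : 0 < lam) (h1 : lam < 2 * Real.pi / 3) :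
    ∀ Q₁ Q₂ : ℝ, 0 < Q₁ → Q₁ ≤ Q₂ → ∀ ε : ℝ, 0 < ε → ∃ N₀ : ℕ, ∀ N n : ℕ, N₀ ≤ N → Even n →
      ∀ Q ∈ Set.Icc Q₁ Q₂, (n : ℝ) = N * c1x150_Dq (ba230_ker (2 * lam)) (ba230_ker lam) Q →
        |baF (ba120c lam) N n / N
          - c1x150_Eq (ba230_ker (2 * lam)) (ba230_ker lam) (ba230_e0 lam) Q| ≤ ε :=
  intb190_t3 h0 h1 (fun h => intb190_hull h.le h1)

end Claimed.Agent.R292
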