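/-
Row 292 (S0540), unit BETHE, block B4 DISC (chief 180, ORDER D-2), leaf L1f SEED, pen helper60, prefix `l1f60_`.
complete, 0 sorry.

THE SEED OF THE CONTINUITY METHOD OF 80 (`ba3x80_roots_neg`, `ba3x80_roots_pos`) AT THE FREE FERMION POINT `μ = π/2`.

Abstract part (any `S Θ s K` with `Θ c = 0`, `K c = 0`, `S c` strictly increasing, `s c ≥ 0`, the levels `I j / L` in the range of `S c`):
* `l1f60_exists`        `∃ y, ba3x80_F L S Θ I (c, y) = 0`                                   (= `hseed` of `ba3x80_roots_neg`)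
* `l1f60_existsUnique`  `∃! y, Monotone y ∧ (ρ ≥ 0 on the hull) ∧ ba3x80_F L S Θ I (c, y) = 0`   (= `hseed` of `ba3x80_roots_pos`)
* `l1f60_rho_of_zero`   `ρ = L s` at the seed;  `l1f60_zero_unique`, `l1f60_zero_monotone`, `l1f60_zero_strictMono`.

Concrete part: `S μ u = ba3x130_phi μ u / (2π)`, `Θ μ u = ba3x130_phi (2μ) u / (2π)`, `s μ = ba230_ker μ`, `K μ = ba230_ker (2μ)`,
`L = N`, `I j = j + 1 - (n+1)/2`, `c = π/2`, `2 n ≤ N`:
* `l1f60_Th_zero`, `l1f60_K_zero`, `l1f60_S_strictMono`, `l1f60_s_pos`, `l1f60_solve` (`|t| < 1/4 → ∃ u, S (π/2) u = t`), `l1f60_level`;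
* **`l1f60_seed_neg`**, **`l1f60_seed_pos`**: the two hypotheses `hseed`, verbatim for these data.
Sections 3, 4 (prefix `bar60_`): UNIFORM BARRIERS AND THE UNIFORM HULL FOR `K ≤ 0`, AND THE CLOSURE OF `ba_t3`.
* `bar60_super`     abstract: the equally spaced points `A + j δ` are a supersolution as soon as
                    `(n-1)/2 (1 - 2τ) + τ G/δ ≤ L S(A)`   (`S` monotone, `Θ` antitone, `Θ 0 = 0`, `Θ G ≤ -τ`, `Θ ≤ T`, `τ + T ≤ 1`);
* `bar60_barriers`  for the six-vertex data: `A`, `L` depend only on `D2 < 1/2`, `b < π`; `hsup`, `hsub` of `ba3x80_roots_neg` for all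
                    `μ ∈ [π/2, b]`, all `N`, all `0 < n ≤ D2 N`;
* **`bar60_hull`**  EVERY zero of the logarithmic Bethe map at `μ ∈ [π/2, b]`, `n ≤ D2 N`, lies in `[-Qm, Qm]^n`, `Qm = A + L`;
* **`bar60_A_neg`** `T3x259A lam` for `π/2 < lam < 2π/3`;   **`bar60_t3`** the statement of `ba_t3` for all `0 < lam < 2π/3`.
-/
import Claimed.Agent.R292.Bethe.BA3x80
import Claimed.Agent.R292.Bethe.Ba3Roots130
import Claimed.Agent.R292.Bethe.Box100
import Claimed.Agent.R292.Bethe.InstNeg130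
import Claimed.Agent.R292.Bethe.IntB190

set_option autoImplicit false

namespace Claimed.Agent.R292

open Set Filter Topology

/-! ## 1. abstract part -/

section abs

variable {n : ℕ}

theorem l1f60_F_of_zero (Lr : ℝ) (S Θ : ℝ → ℝ → ℝ) (I : Fin n → ℝ) (c : ℝ) (hΘ0 : ∀ u, Θ c u = 0)
    (y : Fin n → ℝ) (j : Fin n) : ba3x80_F Lr S Θ I (c, y) j = Lr * S c (y j) - I j := by
  simp [ba3x80_F, hΘ0]

/-- at the seed the counting derivative is `L s`. -/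
theorem l1f60_rho_of_zero (Lr : ℝ) (s K : ℝ → ℝ → ℝ) (c : ℝ) (hK0 : ∀ u, K c u = 0)
    (y : Fin n → ℝ) (u : ℝ) : ba3x80_rho Lr s K c y u = Lr * s c u := by
  simp [ba3x80_rho, hK0]

theorem l1f60_zero_iff (Lr : ℝ) (S Θ : ℝ → ℝ → ℝ) (I : Fin n → ℝ) (c : ℝ) (hΘ0 : ∀ u, Θ c u = 0)
    (y : Fin n → ℝ) : ba3x80_F Lr S Θ I (c, y) = 0 ↔ ∀ j, Lr * S c (y j) = I j := by
  constructor
  · intro h j
    have := congrFun h j
    rw [l1f60_F_of_zero Lr S Θ I c hΘ0] at this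
    exact sub_eq_zero.1 this
  · intro h
    funext j
    rw [l1f60_F_of_zero Lr S Θ I c hΘ0, h j]
    simp

/-- **`hseed` of `ba3x80_roots_neg`.** -/
theorem l1f60_exists (Lr : ℝ) (S Θ : ℝ → ℝ → ℝ) (I : Fin n → ℝ) (c : ℝ) (hΘ0 : ∀ u, Θ c u = 0)
    (hsol : ∀ j, ∃ u, Lr * S c u = I j) : ∃ y, ba3x80_F Lr S Θ I (c, y) = 0 := by
  choose y hy using hsol
  exact ⟨y, (l1f60_zero_iff Lr S Θ I c hΘ0 y).2 hy⟩

theorem l1f60_zero_unique (Lr : ℝ) (hL : 0 < Lr) (S Θ : ℝ → ℝ → ℝ) (I : Fin n → ℝ) (c : ℝ)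
    (hΘ0 : ∀ u, Θ c u = 0) (hSm : StrictMono (S c)) {y z : Fin n → ℝ}
    (hy : ba3x80_F Lr S Θ I (c, y) = 0) (hz : ba3x80_F Lr S Θ I (c, z) = 0) : y = z := by
  rw [l1f60_zero_iff Lr S Θ I c hΘ0] at hy hz
  funext j
  exact hSm.injective (mul_left_cancel₀ hL.ne' ((hy j).trans (hz j).symm))

theorem l1f60_zero_monotone (Lr : ℝ) (hL : 0 < Lr) (S Θ : ℝ → ℝ → ℝ) (I : Fin n → ℝ) (c : ℝ)
    (hΘ0 : ∀ u, Θ c u = 0) (hSm : StrictMono (S c)) (hI : Monotone I) {y : Fin n → ℝ}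
    (hy : ba3x80_F Lr S Θ I (c, y) = 0) : Monotone y := by
  rw [l1f60_zero_iff Lr S Θ I c hΘ0] at hy
  intro j k hjk
  have h1 : Lr * S c (y j) ≤ Lr * S c (y k) := by rw [hy j, hy k]; exact hI hjk
  exact hSm.le_iff_le.1 (le_of_mul_le_mul_left h1 hL)

theorem l1f60_zero_strictMono (Lr : ℝ) (hL : 0 < Lr) (S Θ : ℝ → ℝ → ℝ) (I : Fin n → ℝ) (c : ℝ)
    (hΘ0 : ∀ u, Θ c u = 0) (hSm : StrictMono (S c)) (hI : StrictMono I) {y : Fin n → ℝ}
    (hy : ba3x80_F Lr S Θ I (c, y) = 0) : StrictMono y := by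
  rw [l1f60_zero_iff Lr S Θ I c hΘ0] at hy
  intro j k hjk
  have h1 : Lr * S c (y j) < Lr * S c (y k) := by rw [hy j, hy k]; exact hI hjk
  exact hSm.lt_iff_lt.1 (lt_of_mul_lt_mul_left h1 hL.le)

theorem l1f60_levels_strictMono {m : ℕ} {I : Fin (m + 1) → ℝ}
    (hI : ∀ k : Fin m, I k.succ = I k.castSucc + 1) : StrictMono I := by
  rw [Fin.strictMono_iff_lt_succ]
  intro k
  rw [hI k]
  linarith

/-- **`hseed` of `ba3x80_roots_pos`.** -/
theorem l1f60_existsUnique {m : ℕ} (Lr : ℝ) (hL : 0 < Lr) (S Θ s K : ℝ → ℝ → ℝ)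
    (I : Fin (m + 1) → ℝ) (c : ℝ) (hI : ∀ k : Fin m, I k.succ = I k.castSucc + 1)
    (hΘ0 : ∀ u, Θ c u = 0) (hK0 : ∀ u, K c u = 0) (hSm : StrictMono (S c))
    (hs0 : ∀ u, 0 ≤ s c u) (hsol : ∀ j, ∃ u, Lr * S c u = I j) :
    ∃! y : Fin (m + 1) → ℝ, Monotone y ∧
      (∀ u ∈ Icc (y 0) (y (Fin.last m)), 0 ≤ ba3x80_rho Lr s K c y u) ∧
      ba3x80_F Lr S Θ I (c, y) = 0 := by
  obtain ⟨y, hy⟩ := l1f60_exists Lr S Θ I c hΘ0 hsol
  refine ⟨y, ⟨l1f60_zero_monotone Lr hL S Θ I c hΘ0 hSm (l1f60_levels_strictMono hI).monotone hy,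
    fun u _ => ?_, hy⟩, ?_⟩
  · rw [l1f60_rho_of_zero Lr s K c hK0]
    exact mul_nonneg hL.le (hs0 u)
  · rintro z ⟨-, -, hz⟩
    exact l1f60_zero_unique Lr hL S Θ I c hΘ0 hSm hz hy

end abs

/-! ## 2. the concrete kernels at `μ = π/2` -/

theorem l1f60_phi_pi (u : ℝ) : ba3x130_phi (2 * (Real.pi / 2)) u = 0 := by
  unfold ba3x130_phi
  have : 2 * (Real.pi / 2) / 2 = Real.pi / 2 := by ring
  rw [this, Real.cos_pi_div_two]
  simp

theorem l1f60_Th_zero (u : ℝ) : ba3x130_phi (2 * (Real.pi / 2)) u / (2 * Real.pi) = 0 := by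
  rw [l1f60_phi_pi, zero_div]

theorem l1f60_K_zero (u : ℝ) : ba230_ker (2 * (Real.pi / 2)) u = 0 := by
  unfold ba230_ker
  have : 2 * (Real.pi / 2) = Real.pi := by ring
  rw [this, Real.sin_pi, zero_div]

theorem l1f60_s_pos (u : ℝ) : 0 < ba230_ker (Real.pi / 2) u := by
  unfold ba230_ker
  rw [Real.sin_pi_div_two, Real.cos_pi_div_two, sub_zero]
  have := Real.cosh_pos (2 * u)
  have := Real.pi_pos
  positivity

/-- `phi (π/2) u = 2 arctan (tanh u)`. -/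
theorem l1f60_phi_half (u : ℝ) : ba3x130_phi (Real.pi / 2) u = 2 * Real.arctan (Real.tanh u) := by
  unfold ba3x130_phi
  have e : Real.pi / 2 / 2 = Real.pi / 4 := by ring
  rw [e, Real.cos_pi_div_four, Real.sin_pi_div_four]
  have h2 : (√2 / 2 : ℝ) ≠ 0 := by positivity
  rw [div_self h2, one_mul]

theorem l1f60_S_hasDerivAt (u : ℝ) :
    HasDerivAt (fun u => ba3x130_phi (Real.pi / 2) u / (2 * Real.pi)) (ba230_ker (Real.pi / 2) u) u := by
  have hpi := Real.pi_pos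
  have h := (ba3x130_phi_hasDerivAt (a := Real.pi / 2) (by positivity) (by linarith) u).div_const
    (2 * Real.pi)
  have e : 2 * Real.pi * ba230_ker (Real.pi / 2) u / (2 * Real.pi) = ba230_ker (Real.pi / 2) u := by
    field_simp
  rwa [e] at h

theorem l1f60_S_strictMono : StrictMono (fun u => ba3x130_phi (Real.pi / 2) u / (2 * Real.pi)) := by
  apply strictMono_of_deriv_pos
  intro u
  rw [(l1f60_S_hasDerivAt u).deriv]
  exact l1f60_s_pos u

/-- the range of `S (π/2)` contains `(-1/4, 1/4)`. -/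
theorem l1f60_solve {t : ℝ} (ht : |t| < 1 / 4) :
    ∃ u, ba3x130_phi (Real.pi / 2) u / (2 * Real.pi) = t := by
  have hpi := Real.pi_pos
  obtain ⟨h1, h2⟩ := abs_lt.1 ht
  have a1 : -(Real.pi / 4) < Real.pi * t := by nlinarith
  have a2 : Real.pi * t < Real.pi / 4 := by nlinarith
  have b1 : -(Real.pi / 2) < Real.pi * t := by linarith
  have b2 : Real.pi * t < Real.pi / 2 := by linarith
  have hm : Real.tan (Real.pi * t) ∈ Ioo (-1 : ℝ) 1 := by
    constructor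
    · have := Real.tan_lt_tan_of_lt_of_lt_pi_div_two (x := -(Real.pi / 4)) (y := Real.pi * t)
        (by linarith) b2 a1
      rwa [Real.tan_neg, Real.tan_pi_div_four] at this
    · have := Real.tan_lt_tan_of_lt_of_lt_pi_div_two (x := Real.pi * t) (y := Real.pi / 4)
        b1 (by linarith) a2
      rwa [Real.tan_pi_div_four] at this
  refine ⟨Real.artanh (Real.tan (Real.pi * t)), ?_⟩
  rw [l1f60_phi_half, Real.tanh_artanh hm, Real.arctan_tan b1 b2]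
  field_simp

/-- the quantum numbers `I j = j + 1 - (n+1)/2`. -/
noncomputable def l1f60_I (n : ℕ) (j : Fin n) : ℝ := ((j : ℕ) : ℝ) + 1 - ((n : ℝ) + 1) / 2

theorem l1f60_I_succ (m : ℕ) (k : Fin m) :
    l1f60_I (m + 1) k.succ = l1f60_I (m + 1) k.castSucc + 1 := by
  unfold l1f60_I
  simp only [Fin.val_succ, Fin.val_castSucc]
  push_cast
  ring

theorem l1f60_I_rev (n : ℕ) (j : Fin n) : l1f60_I n (Fin.rev j) = - l1f60_I n j := by
  unfold l1f60_I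
  have h : ((Fin.rev j : Fin n) : ℕ) + ((j : ℕ) + 1) = n := by
    rw [Fin.val_rev]; omega
  have h' : (((Fin.rev j : Fin n) : ℕ) : ℝ) + (((j : ℕ) : ℝ) + 1) = n := by exact_mod_cast h
  linarith

/-- the levels lie in the range: `|I j| / N < 1/4` for `2 n ≤ N`. -/
theorem l1f60_level {N n : ℕ} (hnN : 2 * n ≤ N) (j : Fin n) : |l1f60_I n j / (N : ℝ)| < 1 / 4 := by
  have hj : (j : ℕ) + 1 ≤ n := j.2
  have hj' : ((j : ℕ) : ℝ) + 1 ≤ n := by exact_mod_cast hj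
  have hj0 : (0 : ℝ) ≤ ((j : ℕ) : ℝ) := Nat.cast_nonneg _
  have hN : (2 : ℝ) * n ≤ N := by exact_mod_cast hnN
  have hNpos : (0 : ℝ) < N := by
    have : (1 : ℝ) ≤ n := by linarith
    linarith
  unfold l1f60_I
  rw [abs_div, abs_of_pos hNpos, div_lt_iff₀ hNpos, abs_lt]
  constructor <;> linarith

theorem l1f60_sol {N n : ℕ} (hnN : 2 * n ≤ N) (j : Fin n) :
    ∃ u, (N : ℝ) * (ba3x130_phi (Real.pi / 2) u / (2 * Real.pi)) = l1f60_I n j := by
  obtain ⟨u, hu⟩ := l1f60_solve (l1f60_level hnN j)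
  have hNpos : (0 : ℝ) < N := by
    have h1 : 0 < n := lt_of_le_of_lt (Nat.zero_le _) j.2
    have : 0 < N := by omega
    exact_mod_cast this
  refine ⟨u, ?_⟩
  rw [hu]
  field_simp

/-- **`hseed` of `ba3x80_roots_neg`** for the six-vertex data. -/
theorem l1f60_seed_neg {N n : ℕ} (hnN : 2 * n ≤ N) :
    ∃ y, ba3x80_F (N : ℝ) (fun μ u => ba3x130_phi μ u / (2 * Real.pi))
      (fun μ u => ba3x130_phi (2 * μ) u / (2 * Real.pi)) (l1f60_I n) (Real.pi / 2, y) = 0 :=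
  l1f60_exists (N : ℝ) _ _ (l1f60_I n) (Real.pi / 2) l1f60_Th_zero (l1f60_sol hnN)

/-- **`hseed` of `ba3x80_roots_pos`** for the six-vertex data. -/
theorem l1f60_seed_pos {N m : ℕ} (hnN : 2 * (m + 1) ≤ N) :
    ∃! y : Fin (m + 1) → ℝ, Monotone y ∧
      (∀ u ∈ Icc (y 0) (y (Fin.last m)), 0 ≤ ba3x80_rho (N : ℝ) (fun μ u => ba230_ker μ u)
        (fun μ u => ba230_ker (2 * μ) u) (Real.pi / 2) y u) ∧
      ba3x80_F (N : ℝ) (fun μ u => ba3x130_phi μ u / (2 * Real.pi))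
        (fun μ u => ba3x130_phi (2 * μ) u / (2 * Real.pi)) (l1f60_I (m + 1)) (Real.pi / 2, y) = 0 :=
  l1f60_existsUnique (N : ℝ) (by
      have : 0 < N := by omega
      exact_mod_cast this) _ _ _ _ (l1f60_I (m + 1)) (Real.pi / 2) (l1f60_I_succ m)
    l1f60_Th_zero l1f60_K_zero l1f60_S_strictMono (fun u => (l1f60_s_pos u).le) (l1f60_sol hnN)

/-! ## 3. UNIFORM barriers for the attractive sign (`K ≤ 0`, `π/2 ≤ μ < π`): equally spaced points in `[A, A + L]` -/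

section bar

variable {n : ℕ}

/-- at most `G/δ + 1` indices `k ≤ j` are at distance `< G` from `j` on the lattice of mesh `δ`. -/
theorem bar60_count (j : Fin n) {δ G : ℝ} (hδ : 0 < δ) (hG : 0 ≤ G) :
    (((Finset.univ.filter (fun k : Fin n => k ≤ j ∧ δ * (((j : ℕ) : ℝ) - ((k : ℕ) : ℝ)) < G)).card : ℕ) : ℝ)
      ≤ G / δ + 1 := by
  have h1 : (Finset.univ.filter (fun k : Fin n => k ≤ j ∧ δ * (((j : ℕ) : ℝ) - ((k : ℕ) : ℝ)) < G)).card
      ≤ (Finset.range ⌈G / δ⌉₊).card := by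
    apply Finset.card_le_card_of_injOn (fun k : Fin n => (j : ℕ) - (k : ℕ))
    · intro k hk
      have hk' := (Finset.mem_filter.1 (Finset.mem_coe.1 hk)).2
      obtain ⟨hkj, hlt⟩ := hk'
      have hkj' : (k : ℕ) ≤ (j : ℕ) := hkj
      refine Finset.mem_coe.2 (Finset.mem_range.2 ?_)
      rw [Nat.lt_ceil, Nat.cast_sub hkj', lt_div_iff₀ hδ]
      linarith
    · intro k hk k' hk' h
      have a := (Finset.mem_filter.1 (Finset.mem_coe.1 hk)).2.1
      have a' := (Finset.mem_filter.1 (Finset.mem_coe.1 hk')).2.1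
      have b : (k : ℕ) ≤ (j : ℕ) := a
      have b' : (k' : ℕ) ≤ (j : ℕ) := a'
      have h' : (j : ℕ) - (k : ℕ) = (j : ℕ) - (k' : ℕ) := h
      exact Fin.ext (by omega)
  rw [Finset.card_range] at h1
  calc _ ≤ ((⌈G / δ⌉₊ : ℕ) : ℝ) := by exact_mod_cast h1
    _ ≤ G / δ + 1 := (Nat.ceil_lt_add_one (by positivity)).le

theorem bar60_sum (j : Fin n) (T τ : ℝ) (P : Fin n → Prop) [DecidablePred P] :
    ∑ k : Fin n, ((if j < k then T else 0) + (if k ≤ j then -τ else 0) + (if P k then τ else 0))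
      = ((n : ℝ) - 1 - ((j : ℕ) : ℝ)) * T - (((j : ℕ) : ℝ) + 1) * τ
        + (((Finset.univ.filter P).card : ℕ) : ℝ) * τ := by
  rw [Finset.sum_add_distrib, Finset.sum_add_distrib, ← Finset.sum_filter, ← Finset.sum_filter,
    ← Finset.sum_filter, Finset.sum_const, Finset.sum_const, Finset.sum_const,
    Finset.filter_lt_eq_Ioi, Finset.filter_ge_eq_Iic, Fin.card_Ioi, Fin.card_Iic]
  have h : (j : ℕ) + 1 ≤ n := j.isLt
  have e : ((n - 1 - (j : ℕ) : ℕ) : ℝ) = (n : ℝ) - 1 - ((j : ℕ) : ℝ) := by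
    rw [Nat.sub_sub, Nat.cast_sub (by omega)]
    push_cast
    ring
  simp only [nsmul_eq_mul, e]
  push_cast
  ring

/-- **the abstract equally spaced supersolution.** -/
theorem bar60_super (Lr : ℝ) (S Θ : ℝ → ℝ) (T τ A δ G : ℝ) (hδ : 0 < δ) (hG : 0 ≤ G) (hL : 0 ≤ Lr)
    (hSm : Monotone S) (hΘa : Antitone Θ) (hΘ0 : Θ 0 = 0) (hΘG : Θ G ≤ -τ) (hΘup : ∀ x, Θ x ≤ T)
    (hτ0 : 0 ≤ τ) (hτT : τ + T ≤ 1)
    (hmain : ((n : ℝ) - 1) / 2 * (1 - 2 * τ) + τ * (G / δ) ≤ Lr * S A) (j : Fin n) :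
    0 ≤ Lr * S (A + ((j : ℕ) : ℝ) * δ) - ∑ k : Fin n, Θ ((A + ((j : ℕ) : ℝ) * δ) - (A + ((k : ℕ) : ℝ) * δ))
      - (((j : ℕ) : ℝ) - ((n : ℝ) - 1) / 2) := by
  classical
  have hj1 : ((j : ℕ) : ℝ) + 1 ≤ n := by exact_mod_cast j.isLt
  have hj0 : (0 : ℝ) ≤ ((j : ℕ) : ℝ) := Nat.cast_nonneg _
  have hterm : ∀ k : Fin n, Θ ((A + ((j : ℕ) : ℝ) * δ) - (A + ((k : ℕ) : ℝ) * δ)) ≤
      (if j < k then T else 0) + (if k ≤ j then -τ else 0)
        + (if k ≤ j ∧ δ * (((j : ℕ) : ℝ) - ((k : ℕ) : ℝ)) < G then τ else 0) := by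
    intro k
    have e : (A + ((j : ℕ) : ℝ) * δ) - (A + ((k : ℕ) : ℝ) * δ) = δ * (((j : ℕ) : ℝ) - ((k : ℕ) : ℝ)) := by
      ring
    rw [e]
    rcases lt_or_ge j k with h | h
    · rw [if_pos h, if_neg (not_le.2 h), if_neg (fun hh => not_le.2 h hh.1), add_zero, add_zero]
      exact hΘup _
    · rw [if_neg (not_lt.2 h), if_pos h, zero_add]
      by_cases hg : δ * (((j : ℕ) : ℝ) - ((k : ℕ) : ℝ)) < G
      · rw [if_pos ⟨h, hg⟩, neg_add_cancel]
        have hk : ((k : ℕ) : ℝ) ≤ ((j : ℕ) : ℝ) := by exact_mod_cast h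
        have := hΘa (mul_nonneg hδ.le (sub_nonneg.2 hk))
        rwa [hΘ0] at this
      · rw [if_neg (fun hh => hg hh.2), add_zero]
        exact (hΘa (not_lt.1 hg)).trans hΘG
  have hsum := (Finset.sum_le_sum fun k (_ : k ∈ Finset.univ) => hterm k).trans_eq
    (bar60_sum j T τ (fun k : Fin n => k ≤ j ∧ δ * (((j : ℕ) : ℝ) - ((k : ℕ) : ℝ)) < G))
  have hcount := bar60_count j hδ hG
  have hc2 := mul_le_mul_of_nonneg_right hcount hτ0
  have hS : S A ≤ S (A + ((j : ℕ) : ℝ) * δ) := hSm (by nlinarith)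
  have hS' : Lr * S A ≤ Lr * S (A + ((j : ℕ) : ℝ) * δ) := mul_le_mul_of_nonneg_left hS hL
  -- linear in `I = j - (n-1)/2`, worst at `I = (n-1)/2`
  have h1 : (((j : ℕ) : ℝ) - ((n : ℝ) - 1) / 2) * (1 - T - τ) ≤ (((n : ℝ) - 1) / 2) * (1 - T - τ) :=
    mul_le_mul_of_nonneg_right (by linarith) (by linarith)
  nlinarith


theorem bar60_I_rev (I : Fin n → ℝ) (hI : ∀ j : Fin n, I j = ((j : ℕ) : ℝ) - ((n : ℝ) - 1) / 2) (j : Fin n) :
    I (Fin.rev j) = -I j := by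
  rw [hI, hI, Fin.val_rev]
  have h : (j : ℕ) + 1 ≤ n := j.isLt
  rw [Nat.cast_sub h]
  push_cast
  ring

/-- `phi (2μ) G ≤ - tanh G (2μ - π)` (concavity of `arctan`). -/
theorem bar60_theta_le {μ G : ℝ} (h0 : Real.pi / 2 ≤ μ) (h1 : μ < Real.pi) (hG : 0 ≤ G) :
    ba3x130_phi (2 * μ) G ≤ -(Real.tanh G * (2 * μ - Real.pi)) := by
  have hπ := Real.pi_pos
  have hcot := ba3x130_arctan_cot (a := 2 * μ) (by linarith) (by linarith)
  have e : 2 * μ / 2 = μ := by ring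
  rw [e] at hcot
  have hC : Real.cos μ / Real.sin μ ≤ 0 :=
    div_nonpos_of_nonpos_of_nonneg (Real.cos_nonpos_of_pi_div_two_le_of_le h0 (by linarith))
      (Real.sin_pos_of_pos_of_lt_pi (by linarith) h1).le
  have ht0 : 0 ≤ Real.tanh G := by
    have := bx100_tanh_mono hG
    rwa [Real.tanh_zero] at this
  have h2 := bx100_arctan_concave ht0 (Real.tanh_lt_one G).le (neg_nonneg.2 hC)
  rw [Real.arctan_neg, mul_neg, mul_neg, Real.arctan_neg, hcot] at h2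
  unfold ba3x130_phi
  rw [e, mul_comm (Real.cos μ / Real.sin μ)]
  nlinarith

/-- **UNIFORM BARRIERS** (`hsup`, `hsub` of `ba3x80_roots_neg`): the equally spaced points `A + j L / n` of `[A, A + L]` are a
supersolution and their reflection is a subsolution, for ALL `μ ∈ [π/2, b]`, all `N` and all `0 < n ≤ D2 N`; `A`, `L` depend
only on `D2 < 1/2` and `b < π`. -/
theorem bar60_barriers {D2 b : ℝ} (hD0 : 0 < D2) (hD : D2 < 1 / 2) (hb : b < Real.pi) :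
    ∃ A L : ℝ, 0 ≤ A ∧ 0 < L ∧ ∀ (N n : ℕ), 0 < n → (n : ℝ) ≤ D2 * N →
      ∀ (S Θ : ℝ → ℝ → ℝ) (I : Fin n → ℝ),
      (∀ μ ∈ Icc (Real.pi / 2) b, ∀ u, S μ u = ba3x130_phi μ u / (2 * Real.pi)) →
      (∀ μ ∈ Icc (Real.pi / 2) b, ∀ u, Θ μ u = ba3x130_phi (2 * μ) u / (2 * Real.pi)) →
      (∀ j : Fin n, I j = ((j : ℕ) : ℝ) - ((n : ℝ) - 1) / 2) →
      (∀ μ ∈ Icc (Real.pi / 2) b, ∀ j,
        0 ≤ ba3x80_F (N : ℝ) S Θ I (μ, fun i : Fin n => A + ((i : ℕ) : ℝ) * (L / n)) j) ∧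
      (∀ μ ∈ Icc (Real.pi / 2) b, ∀ j,
        ba3x80_F (N : ℝ) S Θ I (μ, fun i : Fin n => -(A + ((Fin.rev i : Fin n) : ℕ) * (L / n))) j ≤ 0) := by
  have hπ := Real.pi_pos
  set κ1 : ℝ := (1 + 2 * D2) / 2 with hκ1
  have hκ1m : κ1 ∈ Ioo (-1 : ℝ) 1 := ⟨by rw [hκ1]; linarith, by rw [hκ1]; linarith⟩
  set A : ℝ := Real.artanh κ1 with hA
  have hA0 : 0 ≤ A := Real.artanh_nonneg (by rw [hκ1]; linarith)
  have hAt : Real.tanh A = κ1 := Real.tanh_artanh hκ1m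
  set η0 : ℝ := (Real.pi - b) * (1 - 2 * D2) / (2 * Real.pi * D2) with hη0
  have hη0pos : 0 < η0 := by
    rw [hη0]
    exact div_pos (mul_pos (by linarith) (by linarith)) (by positivity)
  set κ2 : ℝ := max 0 (1 - η0 / 2) with hκ2
  have hκ2m : κ2 ∈ Ioo (-1 : ℝ) 1 :=
    ⟨lt_of_lt_of_le (by norm_num) (le_max_left _ _), max_lt (by norm_num) (by linarith)⟩
  set G : ℝ := Real.artanh κ2 with hG
  have hG0 : 0 ≤ G := Real.artanh_nonneg (le_max_left _ _)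
  have hGt : Real.tanh G = κ2 := Real.tanh_artanh hκ2m
  have hGt0 : 0 ≤ Real.tanh G := by rw [hGt]; exact le_max_left _ _
  have hGt1 : 1 - η0 / 2 ≤ Real.tanh G := by rw [hGt]; exact le_max_right _ _
  set L : ℝ := max 1 (2 * G / η0) with hL
  have hL0 : 0 < L := lt_of_lt_of_le one_pos (le_max_left _ _)
  have hGL : G ≤ η0 / 2 * L := by
    have h1 : 2 * G / η0 ≤ L := le_max_right _ _
    rw [div_le_iff₀ hη0pos] at h1
    linarith
  refine ⟨A, L, hA0, hL0, ?_⟩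
  intro N n hn hnN S Θ I hS hΘ hI
  have hn0 : (0 : ℝ) < n := by exact_mod_cast hn
  have hN0 : (0 : ℝ) ≤ N := Nat.cast_nonneg _
  have hδ : 0 < L / n := div_pos hL0 hn0
  have hsup : ∀ μ ∈ Icc (Real.pi / 2) b, ∀ j : Fin n,
      0 ≤ ba3x80_F (N : ℝ) S Θ I (μ, fun i : Fin n => A + ((i : ℕ) : ℝ) * (L / n)) j := by
    intro μ hμ j
    have hμ0 : 0 < μ := by linarith [hμ.1]
    have hμπ : μ < Real.pi := lt_of_le_of_lt hμ.2 hb
    set T : ℝ := (2 * μ - Real.pi) / (2 * Real.pi) with hT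
    have hT0 : 0 ≤ T := div_nonneg (by linarith [hμ.1]) (by positivity)
    have hT1 : 2 * T ≤ 1 := by
      rw [hT, mul_div_assoc', div_le_one (by positivity)]
      linarith
    have hT2 : (1 - 2 * T) / 2 = (Real.pi - μ) / Real.pi := by
      rw [hT]; field_simp; ring
    simp only [ba3x80_F]
    rw [hI j]
    refine bar60_super (N : ℝ) (S μ) (Θ μ) T (Real.tanh G * T) A (L / n) G hδ hG0 hN0 ?_ ?_ ?_ ?_ ?_ ?_ ?_ ?_ j
    · intro x y hxy
      rw [hS μ hμ, hS μ hμ]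
      exact div_le_div_of_nonneg_right ((ba3x130_phi_strictMono hμ0 hμπ).monotone hxy) (by positivity)
    · intro x y hxy
      rw [hΘ μ hμ, hΘ μ hμ]
      exact div_le_div_of_nonneg_right (in130_theta_antitone hμ.1 hμπ hxy) (by positivity)
    · rw [hΘ μ hμ, ba3x130_phi_zero, zero_div]
    · rw [hΘ μ hμ, div_le_iff₀ (by positivity)]
      have h1 := bar60_theta_le hμ.1 hμπ hG0
      have e : -(Real.tanh G * T) * (2 * Real.pi) = -(Real.tanh G * (2 * μ - Real.pi)) := by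
        rw [hT]; field_simp
      rw [e]
      exact h1
    · intro x
      rw [hΘ μ hμ]
      have h1 := ba3x130_abs_phi_le (a := 2 * μ) (by linarith) (by linarith) x
      rw [abs_of_nonpos (by linarith [hμ.1] : Real.pi - 2 * μ ≤ 0)] at h1
      exact div_le_div_of_nonneg_right (by linarith [le_abs_self (ba3x130_phi (2 * μ) x)]) (by positivity)
    · exact mul_nonneg hGt0 hT0
    · have : Real.tanh G * T ≤ 1 * T := mul_le_mul_of_nonneg_right (Real.tanh_lt_one G).le hT0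
      linarith
    · -- the main inequality
      rw [hS μ hμ]
      have h1 := bx100_phi_ge hμ0 hμπ hA0
      rw [hAt] at h1
      have hτle : Real.tanh G * T ≤ T := by
        have : Real.tanh G * T ≤ 1 * T := mul_le_mul_of_nonneg_right (Real.tanh_lt_one G).le hT0
        linarith
      have hτge : T - η0 / 2 * T ≤ Real.tanh G * T := by
        have := mul_le_mul_of_nonneg_right hGt1 hT0
        linarith
      have hGδ : G / (L / n) ≤ n * (η0 / 2) := by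
        rw [div_le_iff₀ hδ]
        have e : (n : ℝ) * (η0 / 2) * (L / n) = η0 / 2 * L := by field_simp
        rw [e]
        exact hGL
      have hGδ0 : 0 ≤ G / (L / n) := div_nonneg hG0 hδ.le
      -- first term
      have a1 : ((n : ℝ) - 1) / 2 * (1 - 2 * (Real.tanh G * T)) ≤ (n : ℝ) / 2 * (1 - 2 * T + η0 * T) := by
        have b1 : 0 ≤ 1 - 2 * (Real.tanh G * T) := by linarith
        have b2 : 1 - 2 * (Real.tanh G * T) ≤ 1 - 2 * T + η0 * T := by linarith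
        calc ((n : ℝ) - 1) / 2 * (1 - 2 * (Real.tanh G * T))
            ≤ (n : ℝ) / 2 * (1 - 2 * (Real.tanh G * T)) :=
              mul_le_mul_of_nonneg_right (by linarith) b1
          _ ≤ (n : ℝ) / 2 * (1 - 2 * T + η0 * T) := mul_le_mul_of_nonneg_left b2 (by positivity)
      -- second term
      have a2 : Real.tanh G * T * (G / (L / n)) ≤ T * (n * (η0 / 2)) :=
        mul_le_mul hτle hGδ hGδ0 hT0
      have a3 : (n : ℝ) / 2 * (1 - 2 * T + η0 * T) + T * (n * (η0 / 2))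
          = n * ((1 - 2 * T) / 2 + η0 * T) := by ring
      have a4 : (1 - 2 * T) / 2 + η0 * T ≤ (Real.pi - μ) / Real.pi + η0 / 2 := by
        rw [hT2]
        nlinarith
      have a5 : 0 ≤ (Real.pi - μ) / Real.pi + η0 / 2 := by
        have : 0 ≤ (Real.pi - μ) / Real.pi := div_nonneg (by linarith) hπ.le
        linarith
      have a6 : D2 * (η0 / 2) ≤ (Real.pi - μ) * (1 - 2 * D2) / (4 * Real.pi) := by
        have e2 : D2 * (η0 / 2) = (Real.pi - b) * (1 - 2 * D2) / (4 * Real.pi) := by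
          rw [hη0]
          field_simp
          ring
        rw [e2]
        apply div_le_div_of_nonneg_right _ (by positivity)
        exact mul_le_mul_of_nonneg_right (by linarith [hμ.2]) (by linarith)
      have a7 : D2 * ((Real.pi - μ) / Real.pi + η0 / 2) ≤ κ1 * (Real.pi - μ) / (2 * Real.pi) := by
        have e3 : κ1 * (Real.pi - μ) / (2 * Real.pi) = D2 * ((Real.pi - μ) / Real.pi)
            + (Real.pi - μ) * (1 - 2 * D2) / (4 * Real.pi) := by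
          rw [hκ1]
          field_simp
          ring
        rw [e3, mul_add]
        linarith
      have a8 : κ1 * (Real.pi - μ) / (2 * Real.pi) ≤ ba3x130_phi μ A / (2 * Real.pi) :=
        div_le_div_of_nonneg_right h1 (by positivity)
      calc ((n : ℝ) - 1) / 2 * (1 - 2 * (Real.tanh G * T)) + Real.tanh G * T * (G / (L / n))
          ≤ n * ((1 - 2 * T) / 2 + η0 * T) := by rw [← a3]; exact add_le_add a1 a2
        _ ≤ n * ((Real.pi - μ) / Real.pi + η0 / 2) := mul_le_mul_of_nonneg_left a4 hn0.le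
        _ ≤ D2 * N * ((Real.pi - μ) / Real.pi + η0 / 2) := mul_le_mul_of_nonneg_right hnN a5
        _ = N * (D2 * ((Real.pi - μ) / Real.pi + η0 / 2)) := by ring
        _ ≤ N * (ba3x130_phi μ A / (2 * Real.pi)) := mul_le_mul_of_nonneg_left (a7.trans a8) hN0
  refine ⟨hsup, ?_⟩
  intro μ hμ j
  have h1 := bx100_reflect (N : ℝ) S Θ I μ
    (fun u => by rw [hS μ hμ, hS μ hμ, ba3x130_phi_neg, neg_div])
    (fun u => by rw [hΘ μ hμ, hΘ μ hμ, ba3x130_phi_neg, neg_div])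
    (bar60_I_rev I hI) (fun i : Fin n => A + ((i : ℕ) : ℝ) * (L / n)) j
  rw [h1]
  linarith [hsup μ hμ (Fin.rev j)]

/-- **UNIFORM HULL for `K ≤ 0`**: every zero of the logarithmic Bethe map at a parameter `μ ∈ [π/2, b]`, `b < π`, and a filling
`n ≤ D2 N`, `D2 < 1/2`, lies in the box `[-Qm, Qm]^n`; `Qm` depends only on `D2` and `b`. -/
theorem bar60_hull {D2 b : ℝ} (hD0 : 0 < D2) (hD : D2 < 1 / 2) (hb : b < Real.pi) :
    ∃ Qm : ℝ, 0 < Qm ∧ ∀ (N n : ℕ), (n : ℝ) ≤ D2 * N → ∀ (S Θ : ℝ → ℝ → ℝ) (I : Fin n → ℝ),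
      (∀ μ ∈ Icc (Real.pi / 2) b, ∀ u, S μ u = ba3x130_phi μ u / (2 * Real.pi)) →
      (∀ μ ∈ Icc (Real.pi / 2) b, ∀ u, Θ μ u = ba3x130_phi (2 * μ) u / (2 * Real.pi)) →
      (∀ j : Fin n, I j = ((j : ℕ) : ℝ) - ((n : ℝ) - 1) / 2) →
      ∀ μ ∈ Icc (Real.pi / 2) b, ∀ y : Fin n → ℝ, ba3x80_F (N : ℝ) S Θ I (μ, y) = 0 → ∀ j, |y j| ≤ Qm := by
  have hπ := Real.pi_pos
  obtain ⟨A, L, hA0, hL0, H⟩ := bar60_barriers hD0 hD hb
  refine ⟨A + L, by linarith, ?_⟩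
  intro N n hnN S Θ I hS hΘ hI μ hμ y hy j
  have hn : 0 < n := lt_of_le_of_lt (Nat.zero_le _) j.2
  have hn0 : (0 : ℝ) < n := by exact_mod_cast hn
  have hNpos : (0 : ℝ) < N := by
    by_contra hcon
    have h0 : (N : ℝ) ≤ 0 := not_lt.1 hcon
    have : D2 * (N : ℝ) ≤ 0 := mul_nonpos_of_nonneg_of_nonpos hD0.le h0
    linarith
  obtain ⟨hsup, hsub⟩ := H N n hn hnN S Θ I hS hΘ hI
  have hμ0 : 0 < μ := by linarith [hμ.1]
  have hμπ : μ < Real.pi := lt_of_le_of_lt hμ.2 hb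
  have hSm : StrictMono (S μ) := by
    intro x z hxz
    rw [hS μ hμ, hS μ hμ]
    exact div_lt_div_of_pos_right (ba3x130_phi_strictMono hμ0 hμπ hxz) (by positivity)
  have hΘa : Antitone (Θ μ) := by
    intro x z hxz
    rw [hΘ μ hμ, hΘ μ hμ]
    exact div_le_div_of_nonneg_right (in130_theta_antitone hμ.1 hμπ hxz) (by positivity)
  have hup := ba3x80_comparison (N : ℝ) hNpos S Θ I μ hSm hΘa y
    (fun i : Fin n => A + ((i : ℕ) : ℝ) * (L / n)) (fun i => by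
      rw [hy]; exact hsup μ hμ i) j
  have hlo := ba3x80_comparison (N : ℝ) hNpos S Θ I μ hSm hΘa
    (fun i : Fin n => -(A + ((Fin.rev i : Fin n) : ℕ) * (L / n))) y (fun i => by
      rw [hy]; exact hsub μ hμ i) j
  have hfrac : ∀ i : Fin n, ((i : ℕ) : ℝ) * (L / n) ≤ L := by
    intro i
    have hi : ((i : ℕ) : ℝ) ≤ n := by exact_mod_cast i.2.le
    have e : ((i : ℕ) : ℝ) * (L / n) = ((i : ℕ) : ℝ) / n * L := by ring
    rw [e]
    have : ((i : ℕ) : ℝ) / n ≤ 1 := (div_le_one hn0).2 hi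
    nlinarith
  rw [abs_le]
  constructor
  · have := hfrac (Fin.rev j)
    simp only at hlo
    linarith
  · have := hfrac j
    simp only at hup
    linarith

end bar

/-! ## 4. the last wiring of `ba_t3` (rope II: skeleton 259, wiring 190, roots 130 / 120 / 80, condensation 259 / 180 / 77) -/

/-- **(A) of `ba_t3` for `K ≤ 0`, CLOSED** (`in130_inst_neg` of 130, `ba120_final` of 120, wiring of 190, hull = `bar60_hull`). -/
theorem bar60_A_neg {lam : ℝ} (h2 : Real.pi / 2 < lam) (h1 : lam < 2 * Real.pi / 3) : T3x259A lam := by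
  intro Q₁ Q₂ hQ₁ hQ₁₂
  have hpi := Real.pi_pos
  have h0 : 0 < lam := by linarith
  obtain ⟨-, hD0, -, hDm, hDlt, -⟩ := t1x150_main h0 h1
  have hQ2 : 0 < Q₂ := lt_of_lt_of_le hQ₁ hQ₁₂
  have hD2pos : 0 < t3x259_Dq lam Q₂ := by
    have := hDm (mem_Ici.2 le_rfl) (mem_Ici.2 hQ2.le) hQ2
    rwa [hD0] at this
  obtain ⟨Qm, -, H⟩ := bar60_hull (D2 := t3x259_Dq lam Q₂) (b := lam) hD2pos (hDlt Q₂ hQ2) (by linarith)
  refine ⟨Qm, 0, fun N m _ hev hQ => ?_⟩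
  obtain ⟨Q, hQm, hmQ⟩ := hQ
  have hQ0 : 0 < Q := lt_of_lt_of_le hQ₁ hQm.1
  have hNpos : 0 < N := by
    rcases Nat.eq_zero_or_pos N with h | h
    · subst h
      simp at hmQ
      exact absurd hmQ (by positivity)
    · exact h
  have hNr : (0 : ℝ) < N := by exact_mod_cast hNpos
  have hm1 : ((m : ℝ) + 1) = N * t3x259_Dq lam Q := by
    have := hmQ
    push_cast at this
    exact this
  have h2N : 2 * (m + 1) ≤ N := by
    have h3 : (N : ℝ) * t3x259_Dq lam Q < N * (1 / 2) := mul_lt_mul_of_pos_left (hDlt Q hQ0) hNr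
    have h4 : (2 : ℝ) * ((m : ℝ) + 1) ≤ N := by linarith
    exact_mod_cast h4
  have hle : ((m + 1 : ℕ) : ℝ) ≤ t3x259_Dq lam Q₂ * N := by
    rw [hmQ, mul_comm]
    refine mul_le_mul_of_nonneg_right ?_ (Nat.cast_nonneg N)
    exact hDm.monotoneOn (mem_Ici.2 hQ0.le) (mem_Ici.2 hQ2.le) hQm.2
  obtain ⟨y, hy, hyc, hya⟩ := in130_inst_neg (N := N) (m := m) (b := lam) h2.le (by linarith) (by omega)
    (S := ba3x80_S) (Th := ba3x80_Th) (I := ba3x80_I (m + 1)) (fun _ _ => rfl) (fun _ _ => rfl)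
    (fun _ => rfl)
  have : NeZero N := ⟨hNpos.ne'⟩
  have hmem : lam ∈ Icc (Real.pi / 2) lam := ⟨h2.le, le_rfl⟩
  have hfin := ba120_final (N := N) (m := m) h2N hev (a := Real.pi / 2) (b := lam) h2
    ⟨le_rfl, h2.le⟩ (by positivity) (by linarith)
    (S := ba3x80_S) (Θ := ba3x80_Th) (I := ba3x80_I (m + 1))
    (fun _ _ => rfl) (fun _ _ => rfl) (fun _ => rfl) hyc
    (fun t ht => hya t ⟨ht.1, ht.2.le⟩)
    (fun t ht => (hy t ht).1) (fun t ht => (hy t ht).2.1)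
    (fun t ht => (hy t ht).2.2.2.2.2.1) lam hmem
  obtain ⟨z1, z2, -, z4, -, z6, -⟩ := hy lam hmem
  exact ⟨y lam, ⟨z1, z2, z6, fun u _ => (z4 u).le⟩,
    H N (m + 1) hle ba3x80_S ba3x80_Th (ba3x80_I (m + 1)) (fun _ _ _ => rfl) (fun _ _ _ => rfl)
      (fun _ => rfl) lam hmem (y lam) z1, hfin⟩

/-- **T3 = the statement of `ba_t3` (`Bethe/Thermo.lean`) on the unfolded names, for all `0 < lam < 2π/3`: CLOSED.** -/
theorem bar60_t3 {lam : ℝ} (h0 : 0 < lam) (h1 : lam < 2 * Real.pi / 3) :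
    ∀ Q₁ Q₂ : ℝ, 0 < Q₁ → Q₁ ≤ Q₂ → ∀ ε : ℝ, 0 < ε → ∃ N₀ : ℕ, ∀ N n : ℕ, N₀ ≤ N → Even n →
      ∀ Q ∈ Set.Icc Q₁ Q₂, (n : ℝ) = N * c1x150_Dq (ba230_ker (2 * lam)) (ba230_ker lam) Q →
        |baF (ba120c lam) N n / N
          - c1x150_Eq (ba230_ker (2 * lam)) (ba230_ker lam) (ba230_e0 lam) Q| ≤ ε := by
  rcases le_or_gt lam (Real.pi / 2) with h2 | h2
  · exact t3x259_t3_pos h0 h2
  · exact t3x259_of_A h0 h1 (bar60_A_neg h2 h1)

end Claimed.Agent.R292
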