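/-
Row 292 (S0540), unit BETHE, leaf A2, pen helper60, prefix `lip60_`.     complete, 0 sorry

LIPSCHITZ DEPENDENCE ON `c` OF THE SECTOR PARTITION FUNCTIONS AND FREE ENERGIES.
The number of `c`-vertices of a configuration on the `M × L` torus is at most `M L`, hence for `0 < c ≤ c'`
    `svZN c M L n ≤ svZN c' M L n ≤ (c'/c)^(M L) svZN c M L n`,
and so
* `lip60_log_svZN`   `|log svZN c' M L n - log svZN c M L n| ≤ M L |log c' - log c|`   (any order of `c, c' > 0`),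
* `lip60_brgF`       `|brgF c' L n - brgF c L n| ≤ L |log c' - log c|`                 (free energy of Bridge/Lam189),
* `lip60_logLam`     `|log Λ(c', L, n) - log Λ(c, L, n)| ≤ L |log c' - log c|`         (top eigenvalue of Bethe/BA1x70),
* `lip60_brgDF`      `|brgDF c' L m - brgDF c L m| ≤ 2 |log c' - log c|`               (free-energy difference per site),
* `lip60_svDF`       the same for finite `M`;
* leaf A4 (soft half), in the form (R) = `Ins260Reg` consumed by `ins260_svStiff` (A3 on main): `lip60_reg_of_approx`,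
  `lip60_reg_left`, **`lip60_reg_two`**: (R) on `1 < c < 2` + pointwise convergence `Φ c ρ → Φ₂ ρ` as `c ↑ 2` give (R) at `c = 2`;
  **`lip60_svStiff_two`**: with the continuum expansion (C) of `Φ₂` this is `SvStiff 2 A`.
-/
import Claimed.Agent.R292.Bridge.Sect149
import Claimed.Agent.R292.Bridge.Lam189
import Claimed.Agent.R292.Bethe.BA1x70
import Claimed.Agent.R292.Bethe.Ins260

set_option autoImplicit false

namespace Claimed.Agent.R292

open Claims Claims.C0466 Filter Topology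

/-- at most `M L` vertices are of type `c`. -/
theorem lip60_numC_le {M L : ℕ} (ω : ZMod M × ZMod L × Bool → Bool) : svNumC ω ≤ M * L := by
  classical
  unfold svNumC
  refine (Finset.card_filter_le _ _).trans ?_
  rw [Finset.card_product, Finset.card_range, Finset.card_range]

/-- monotonicity in `c`. -/
theorem lip60_svZN_mono {c c' : ℝ} (hc : 0 ≤ c) (hcc : c ≤ c') (M L n : ℕ) [NeZero M] [NeZero L] :
    svZN c M L n ≤ svZN c' M L n := by
  classical
  rw [br149_svZN_eq_sum, br149_svZN_eq_sum]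
  refine Finset.sum_le_sum fun ω _ => ?_
  split_ifs
  · exact pow_le_pow_left₀ hc hcc _
  · exact le_rfl

/-- the reverse inequality, with the factor `(c'/c)^(M L)`. -/
theorem lip60_svZN_le {c c' : ℝ} (hc : 0 < c) (hcc : c ≤ c') (M L n : ℕ) [NeZero M] [NeZero L] :
    svZN c' M L n ≤ (c' / c) ^ (M * L) * svZN c M L n := by
  classical
  rw [br149_svZN_eq_sum, br149_svZN_eq_sum, Finset.mul_sum]
  refine Finset.sum_le_sum fun ω _ => ?_
  have h1 : 1 ≤ c' / c := (one_le_div hc).2 hcc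
  split_ifs
  · have e : c' ^ svNumC ω = (c' / c) ^ svNumC ω * c ^ svNumC ω := by
      rw [← mul_pow, div_mul_cancel₀ _ hc.ne']
    rw [e]
    exact mul_le_mul_of_nonneg_right (pow_le_pow_right₀ h1 (lip60_numC_le ω)) (pow_nonneg hc.le _)
  · rw [mul_zero]

/-- ordered form of the Lipschitz bound. -/
theorem lip60_log_svZN_of_le {c c' : ℝ} (hc : 0 < c) (hcc : c ≤ c') (M L : ℕ) [NeZero M] [NeZero L]
    {n : ℕ} (hn : n ≤ L) :
    0 ≤ Real.log (svZN c' M L n) - Real.log (svZN c M L n) ∧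
      Real.log (svZN c' M L n) - Real.log (svZN c M L n) ≤
        (M : ℝ) * L * (Real.log c' - Real.log c) := by
  have hc' : 0 < c' := lt_of_lt_of_le hc hcc
  have p := br149_svZN_pos hc.le M L hn
  have p' := br149_svZN_pos hc'.le M L hn
  constructor
  · exact sub_nonneg.2 (Real.log_le_log p (lip60_svZN_mono hc.le hcc M L n))
  · have h := Real.log_le_log p' (lip60_svZN_le hc hcc M L n)
    have hq : 0 < c' / c := div_pos hc' hc
    rw [Real.log_mul (pow_pos hq _).ne' p.ne', Real.log_pow, Real.log_div hc'.ne' hc.ne'] at h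
    push_cast at h
    linarith

/-- **Lipschitz bound for the partition functions.** -/
theorem lip60_log_svZN {c c' : ℝ} (hc : 0 < c) (hc' : 0 < c') (M L : ℕ) [NeZero M] [NeZero L]
    {n : ℕ} (hn : n ≤ L) :
    |Real.log (svZN c' M L n) - Real.log (svZN c M L n)| ≤
      (M : ℝ) * L * |Real.log c' - Real.log c| := by
  rcases le_total c c' with h | h
  · obtain ⟨h0, h1⟩ := lip60_log_svZN_of_le hc h M L hn
    rw [abs_of_nonneg h0, abs_of_nonneg (sub_nonneg.2 (Real.log_le_log hc h))]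
    exact h1
  · obtain ⟨h0, h1⟩ := lip60_log_svZN_of_le hc' h M L hn
    rw [abs_sub_comm, abs_of_nonneg h0, abs_sub_comm,
      abs_of_nonneg (sub_nonneg.2 (Real.log_le_log hc' h))]
    exact h1

/-- abstract passage to the limit `M → ∞`. -/
theorem lip60_limit {c c' : ℝ} (hc : 0 < c) (hc' : 0 < c') {L n : ℕ} (hL : 1 ≤ L) (hn : n ≤ L)
    {F F' : ℝ}
    (h : Tendsto (fun M : ℕ => Real.log (svZN c M L n) / M) atTop (𝓝 F))
    (h' : Tendsto (fun M : ℕ => Real.log (svZN c' M L n) / M) atTop (𝓝 F')) :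
    |F' - F| ≤ (L : ℝ) * |Real.log c' - Real.log c| := by
  have : NeZero L := ⟨by omega⟩
  refine le_of_tendsto (h'.sub h).abs ?_
  filter_upwards [eventually_ge_atTop 1] with M hM
  have : NeZero M := ⟨by omega⟩
  have hM0 : (0 : ℝ) < M := by exact_mod_cast hM
  have hb := lip60_log_svZN hc hc' M L hn
  rw [← sub_div, abs_div, abs_of_pos hM0, div_le_iff₀ hM0]
  calc _ ≤ (M : ℝ) * L * |Real.log c' - Real.log c| := hb
    _ = (L : ℝ) * |Real.log c' - Real.log c| * M := by ring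

/-- **Lipschitz bound for the free energy `brgF` of a sector.** -/
theorem lip60_brgF {c c' : ℝ} (hc : 0 < c) (hc' : 0 < c') {L n : ℕ} (hL : 1 ≤ L) (hn : n ≤ L) :
    |brgF c' L n - brgF c L n| ≤ (L : ℝ) * |Real.log c' - Real.log c| :=
  lip60_limit hc hc' hL hn (brg189_tendsto_F hc.le hL hn) (brg189_tendsto_F hc'.le hL hn)

/-- **Lipschitz bound for the logarithm of the top eigenvalue.** -/
theorem lip60_logLam {c c' : ℝ} (hc : 0 < c) (hc' : 0 < c') (L n : ℕ) [NeZero L] (hn : n ≤ L) :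
    |Real.log (ba70Lam c' L n) - Real.log (ba70Lam c L n)| ≤
      (L : ℝ) * |Real.log c' - Real.log c| :=
  lip60_limit hc hc' (Nat.one_le_iff_ne_zero.2 (NeZero.ne L)) hn
    (ba70_log_svZN_tendsto hc.le L n hn) (ba70_log_svZN_tendsto hc'.le L n hn)

/-- the two limits agree. -/
theorem lip60_brgF_eq_logLam {c : ℝ} (hc : 0 ≤ c) (L n : ℕ) [NeZero L] (hn : n ≤ L) :
    brgF c L n = Real.log (ba70Lam c L n) :=
  tendsto_nhds_unique (brg189_tendsto_F hc (Nat.one_le_iff_ne_zero.2 (NeZero.ne L)) hn)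
    (ba70_log_svZN_tendsto hc L n hn)

/-- **Lipschitz bound for the free-energy difference per site**, uniform in `L` and `m`. -/
theorem lip60_brgDF {c c' : ℝ} (hc : 0 < c) (hc' : 0 < c') {L : ℕ} (hL : 1 ≤ L) (m : ℕ) :
    |brgDF c' L m - brgDF c L m| ≤ 2 * |Real.log c' - Real.log c| := by
  have h1 := lip60_brgF hc hc' (L := 2 * L) (n := L - m) (by omega) (by omega)
  have h2 := lip60_brgF hc hc' (L := 2 * L) (n := L) (by omega) (by omega)
  have hL0 : (0 : ℝ) < 2 * (L : ℝ) := by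
    have : (0 : ℝ) < L := by exact_mod_cast hL
    linarith
  unfold brgDF
  rw [← sub_div, abs_div, abs_of_pos hL0, div_le_iff₀ hL0]
  push_cast at h1 h2
  have e : brgF c' (2 * L) (L - m) - brgF c' (2 * L) L - (brgF c (2 * L) (L - m) - brgF c (2 * L) L)
      = (brgF c' (2 * L) (L - m) - brgF c (2 * L) (L - m)) - (brgF c' (2 * L) L - brgF c (2 * L) L) := by
    ring
  rw [e]
  refine (abs_sub _ _).trans ?_
  linarith

/-- the same for finite `M`. -/
theorem lip60_svDF {c c' : ℝ} (hc : 0 < c) (hc' : 0 < c') {M L : ℕ} (hM : 1 ≤ M) (hL : 1 ≤ L) (m : ℕ) :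
    |svDF c' M L m - svDF c M L m| ≤ 2 * |Real.log c' - Real.log c| := by
  have : NeZero M := ⟨by omega⟩
  have : NeZero (2 * L) := ⟨by omega⟩
  have h1 := lip60_log_svZN hc hc' M (2 * L) (n := L - m) (by omega)
  have h2 := lip60_log_svZN hc hc' M (2 * L) (n := L) (by omega)
  have hL0 : (0 : ℝ) < L := by exact_mod_cast hL
  have hM0 : (0 : ℝ) < M := by exact_mod_cast hM
  have hD : (0 : ℝ) < 2 * (L : ℝ) * M := by positivity
  unfold svDF
  rw [← sub_div, abs_div, abs_of_pos hD, div_le_iff₀ hD]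
  push_cast at h1 h2
  have e : Real.log (svZN c' M (2 * L) (L - m)) - Real.log (svZN c' M (2 * L) L) -
      (Real.log (svZN c M (2 * L) (L - m)) - Real.log (svZN c M (2 * L) L))
      = (Real.log (svZN c' M (2 * L) (L - m)) - Real.log (svZN c M (2 * L) (L - m))) -
        (Real.log (svZN c' M (2 * L) L) - Real.log (svZN c M (2 * L) L)) := by
    ring
  rw [e]
  refine (abs_sub _ _).trans ?_
  nlinarith [abs_nonneg (Real.log c' - Real.log c)]

/-! ## Leaf A4, soft half: the hypothesis (R) of the reduction A3 (`ins260_svStiff`) passes to limits in `c` -/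

/-- per site form of the Lipschitz bound. -/
theorem lip60_perSite {c c' : ℝ} (hc : 0 < c) (hc' : 0 < c') {M L n : ℕ} (hM : 1 ≤ M) (hL : 1 ≤ L)
    (hn : n ≤ L) :
    |Real.log (svZN c' M L n) / ((L : ℝ) * M) - Real.log (svZN c M L n) / ((L : ℝ) * M)| ≤
      |Real.log c' - Real.log c| := by
  have : NeZero M := ⟨by omega⟩
  have : NeZero L := ⟨by omega⟩
  have h1 := lip60_log_svZN hc hc' M L hn
  have hL0 : (0 : ℝ) < L := by exact_mod_cast hL
  have hM0 : (0 : ℝ) < M := by exact_mod_cast hM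
  have hD : (0 : ℝ) < (L : ℝ) * M := by positivity
  rw [← sub_div, abs_div, abs_of_pos hD, div_le_iff₀ hD]
  calc _ ≤ (M : ℝ) * L * |Real.log c' - Real.log c| := h1
    _ = |Real.log c' - Real.log c| * ((L : ℝ) * M) := by ring

/-- (R) at `c₀` from (R) at weights `c` arbitrarily close to `c₀` whose limit functions are close at `ρ`. -/
theorem lip60_reg_of_approx {c₀ : ℝ} (hc₀ : 0 < c₀) (Φ₀ : ℝ → ℝ) (P : ℕ → Prop)
    (h : ∀ ρ : ℝ, 0 < ρ → ρ < 1 / 2 → ∀ ε : ℝ, 0 < ε → ∃ (c : ℝ) (Φ : ℝ → ℝ), 0 < c ∧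
      |Real.log c₀ - Real.log c| ≤ ε ∧ |Φ ρ - Φ₀ ρ| ≤ ε ∧
        Ins260Reg (fun M N n => Real.log (svZN c M N n)) Φ P) :
    Ins260Reg (fun M N n => Real.log (svZN c₀ M N n)) Φ₀ P := by
  intro ρ hρ0 hρ ε hε
  obtain ⟨c, Φ, hc, hlog, hΦ, H⟩ := h ρ hρ0 hρ (ε / 3) (by positivity)
  obtain ⟨δ, hδ, N₀, HN⟩ := H ρ hρ0 hρ (ε / 3) (by positivity)
  refine ⟨min δ (1 / 2), lt_min hδ (by norm_num), N₀ + 1, ?_⟩
  intro N n hN hP hn
  have hN1 : 1 ≤ N := by omega
  have hN0 : (0 : ℝ) < N := by exact_mod_cast hN1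
  have hnN : n ≤ N := by
    have h1 : (n : ℝ) / N - ρ ≤ 1 / 2 := (le_abs_self _).trans (hn.trans (min_le_right _ _))
    have h2 : (n : ℝ) / N ≤ 1 := by linarith
    rw [div_le_one hN0] at h2
    exact_mod_cast h2
  filter_upwards [HN N n (by omega) hP (hn.trans (min_le_left _ _)), eventually_ge_atTop 1]
    with M hM hM1
  have hl := lip60_perSite hc hc₀ hM1 hN1 hnN
  have e : Real.log (svZN c₀ M N n) / ((N : ℝ) * M) - Φ₀ ρ =
      (Real.log (svZN c₀ M N n) / ((N : ℝ) * M) - Real.log (svZN c M N n) / ((N : ℝ) * M)) +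
        (Real.log (svZN c M N n) / ((N : ℝ) * M) - Φ ρ) + (Φ ρ - Φ₀ ρ) := by ring
  show |Real.log (svZN c₀ M N n) / ((N : ℝ) * M) - Φ₀ ρ| ≤ ε
  rw [e]
  refine (abs_add_three _ _ _).trans ?_
  have hM' : |Real.log (svZN c M N n) / ((N : ℝ) * M) - Φ ρ| ≤ ε / 3 := hM
  linarith

/-- (R) for all `c` in a punctured left neighbourhood of `c₀` and pointwise convergence of the continuum functionals
give (R) at `c₀`. -/
theorem lip60_reg_left {c₁ c₀ : ℝ} (hc₁ : 0 < c₁) (h10 : c₁ < c₀) (Φ : ℝ → ℝ → ℝ) (Φ₀ : ℝ → ℝ)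
    (P : ℕ → Prop)
    (h1 : ∀ c : ℝ, c₁ < c → c < c₀ → Ins260Reg (fun M N n => Real.log (svZN c M N n)) (Φ c) P)
    (hlim : ∀ ρ : ℝ, 0 < ρ → ρ < 1 / 2 → Tendsto (fun c => Φ c ρ) (𝓝[<] c₀) (𝓝 (Φ₀ ρ))) :
    Ins260Reg (fun M N n => Real.log (svZN c₀ M N n)) Φ₀ P := by
  have hc₀ : 0 < c₀ := hc₁.trans h10
  refine lip60_reg_of_approx hc₀ Φ₀ P fun ρ hρ0 hρ ε hε => ?_
  have a1 : ∀ᶠ c in 𝓝[<] c₀, |Φ c ρ - Φ₀ ρ| ≤ ε := by
    have := (hlim ρ hρ0 hρ).sub_const (Φ₀ ρ)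
    rw [sub_self] at this
    have h2 := this.abs
    rw [abs_zero] at h2
    exact h2.eventually_le_const hε
  have a2 : ∀ᶠ c in 𝓝[<] c₀, |Real.log c₀ - Real.log c| ≤ ε := by
    have hcont : Tendsto Real.log (𝓝[<] c₀) (𝓝 (Real.log c₀)) :=
      ((Real.continuousAt_log hc₀.ne').tendsto).mono_left nhdsWithin_le_nhds
    have := hcont.const_sub (Real.log c₀)
    rw [sub_self] at this
    have h2 := this.abs
    rw [abs_zero] at h2
    exact h2.eventually_le_const hε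
  have a3 : ∀ᶠ c in 𝓝[<] c₀, c ∈ Set.Ioo c₁ c₀ := Ioo_mem_nhdsLT h10
  obtain ⟨c, b1, b2, b3⟩ := (a1.and (a2.and a3)).exists
  exact ⟨c, Φ c, hc₁.trans b3.1, b2, b1, h1 c b3.1 b3.2⟩

/-- **Leaf A4, soft half**: (R) for all `c ∈ (1, 2)` and pointwise convergence of the continuum functionals as
`c ↑ 2` give (R) at `c = 2`: no Bethe ansatz at `c = 2`. -/
theorem lip60_reg_two (Φ : ℝ → ℝ → ℝ) (Φ₂ : ℝ → ℝ) (P : ℕ → Prop)
    (h1 : ∀ c : ℝ, 1 < c → c < 2 → Ins260Reg (fun M N n => Real.log (svZN c M N n)) (Φ c) P)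
    (hlim : ∀ ρ : ℝ, 0 < ρ → ρ < 1 / 2 → Tendsto (fun c => Φ c ρ) (𝓝[<] 2) (𝓝 (Φ₂ ρ))) :
    Ins260Reg (fun M N n => Real.log (svZN 2 M N n)) Φ₂ P :=
  lip60_reg_left one_pos one_lt_two Φ Φ₂ P h1 hlim

/-- **`SvStiff 2 A` without Bethe ansatz at `c = 2`**: (R) on `(1, 2)`, even sectors; convergence of the continuum
functionals; the continuum expansion (C) of the limit functional. -/
theorem lip60_svStiff_two (Φ : ℝ → ℝ → ℝ) (Φ₂ : ℝ → ℝ) {Φ₀ A : ℝ}
    (h1 : ∀ c : ℝ, 1 < c → c < 2 → Ins260Reg (fun M N n => Real.log (svZN c M N n)) (Φ c) Even)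
    (hlim : ∀ ρ : ℝ, 0 < ρ → ρ < 1 / 2 → Tendsto (fun c => Φ c ρ) (𝓝[<] 2) (𝓝 (Φ₂ ρ)))
    (hC : ∀ ε : ℝ, 0 < ε → ∃ s₀ : ℝ, 0 < s₀ ∧ ∀ s : ℝ, 0 < s → s < s₀ →
      |Φ₂ (1 / 2 - s / 2) - Φ₀ + A / 2 * s ^ 2| ≤ ε * s ^ 2) :
    SvStiff 2 A :=
  ins260_svStiff 2 (by norm_num) (lip60_reg_two Φ Φ₂ Even h1 hlim) hC

end Claimed.Agent.R292
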