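import Mathlib

/-!
# Row 292, unit BETHE, block N (helper70, prefix `nw70`): Bethe roots by a quantitative inverse
function theorem around the continuum quantiles

Abstract form (no model): see the blueprint of helper176, block N.
-/

set_option autoImplicit false
set_option linter.unusedSectionVars false

namespace Claimed.Agent.R292

open Filter Topology Metric Set MeasureTheory
open scoped NNReal

/-! ## 1. A quantitative inverse function theorem in finite dimension -/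

section Layer1

variable {E : Type*} [NormedAddCommGroup E] [NormedSpace ℝ E] [FiniteDimensional ℝ E]

/-- If `A` is bounded below by `c₀`, `G` is approximated by `A` on the ball of radius `r` around `x₀`
with the constant `c < c₀` and `‖G x₀‖ ≤ (c₀ - c) r`, then `G` has exactly one zero in that ball, and
it lies within `‖G x₀‖ / (c₀ - c)` of `x₀`. -/
theorem nw70_newton (G : E → E) (A : E →ₗ[ℝ] E) (x₀ : E) (c₀ c r : ℝ) (hc : 0 ≤ c) (hcc : c < c₀)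
    (hA : ∀ v, c₀ * ‖v‖ ≤ ‖A v‖)
    (happ : ∀ x ∈ closedBall x₀ r, ∀ y ∈ closedBall x₀ r, ‖G x - G y - A (x - y)‖ ≤ c * ‖x - y‖)
    (h0 : ‖G x₀‖ ≤ (c₀ - c) * r) :
    (∃ x ∈ closedBall x₀ r, G x = 0 ∧ ‖x - x₀‖ ≤ ‖G x₀‖ / (c₀ - c)) ∧
      ∀ x ∈ closedBall x₀ r, ∀ y ∈ closedBall x₀ r, G x = 0 → G y = 0 → x = y := by
  have hc0 : 0 < c₀ := lt_of_le_of_lt hc hcc
  have hd : 0 < c₀ - c := sub_pos.2 hcc
  constructor
  · have hinj : Function.Injective A := by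
      rw [injective_iff_map_eq_zero]
      intro v hv
      have h1 := hA v
      rw [hv, norm_zero] at h1
      have h2 : ‖v‖ ≤ 0 := by
        by_contra h3
        rw [not_le] at h3
        have := mul_pos hc0 h3
        linarith
      exact norm_le_zero_iff.1 h2
    have hsurj : Function.Surjective A := LinearMap.injective_iff_surjective.1 hinj
    let A' : E →L[ℝ] E := LinearMap.toContinuousLinearMap A
    have hA' : ∀ v, A' v = A v := fun v => rfl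
    let inv : A'.NonlinearRightInverse :=
      { toFun := Function.surjInv hsurj
        nnnorm := ⟨c₀⁻¹, inv_nonneg.2 hc0.le⟩
        bound' := by
          intro y
          have h1 := hA (Function.surjInv hsurj y)
          rw [Function.surjInv_eq hsurj y] at h1
          change ‖Function.surjInv hsurj y‖ ≤ c₀⁻¹ * ‖y‖
          rw [inv_mul_eq_div, le_div_iff₀ hc0, mul_comm]
          exact h1
        right_inv' := fun y => Function.surjInv_eq hsurj y }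
    have happ' : ApproximatesLinearOn G A' (closedBall x₀ r) ⟨c, hc⟩ := by
      intro x hx y hy
      exact happ x hx y hy
    set ε := ‖G x₀‖ / (c₀ - c) with hε
    have hε0 : 0 ≤ ε := div_nonneg (norm_nonneg _) hd.le
    have hεr : ε ≤ r := by
      rw [hε, div_le_iff₀ hd, mul_comm]
      exact h0
    have hs := happ'.surjOn_closedBall_of_nonlinearRightInverse inv hε0
      (closedBall_subset_closedBall hεr)
    have hmem : (0 : E) ∈ closedBall (G x₀) ((((inv.nnnorm : ℝ))⁻¹ - ((⟨c, hc⟩ : ℝ≥0) : ℝ)) * ε) := by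
      rw [mem_closedBall, dist_zero_left]
      have h1 : ((inv.nnnorm : ℝ))⁻¹ = c₀ := by
        change (c₀⁻¹)⁻¹ = c₀
        rw [inv_inv]
      rw [h1]
      change ‖G x₀‖ ≤ (c₀ - c) * ε
      rw [hε, mul_div_cancel₀ _ hd.ne']
    obtain ⟨x, hx, hGx⟩ := hs hmem
    refine ⟨x, closedBall_subset_closedBall hεr hx, hGx, ?_⟩
    rw [← dist_eq_norm]
    exact mem_closedBall.1 hx
  · intro x hx y hy hGx hGy
    have h1 := happ x hx y hy
    rw [hGx, hGy, sub_zero, zero_sub, norm_neg] at h1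
    have h2 := hA (x - y)
    have h3 : (c₀ - c) * ‖x - y‖ ≤ 0 := by linarith
    have h4 : ‖x - y‖ ≤ 0 := by
      by_contra h5
      rw [not_le] at h5
      have := mul_pos hd h5
      linarith
    exact sub_eq_zero.1 (norm_le_zero_iff.1 h4)

end Layer1

/-! ## 2. The Bethe map and its linearisation -/

section Layer2

/-- First-order Taylor estimate around a third point, for a function with Lipschitz derivative. -/
theorem nw70_taylor (f f' : ℝ → ℝ) (B : ℝ) (hf : ∀ x, HasDerivAt f (f' x) x)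
    (hB : ∀ x y, |f' x - f' y| ≤ B * |x - y|) (p a b ρ : ℝ) (ha : |a - p| ≤ ρ) (hb : |b - p| ≤ ρ) :
    |f a - f b - f' p * (a - b)| ≤ B * ρ * |a - b| := by
  have hB0 : 0 ≤ B := by
    have := hB 0 1
    have h2 : |(0 : ℝ) - 1| = 1 := by norm_num
    rw [h2, mul_one] at this
    exact (abs_nonneg _).trans this
  have hconv : Convex ℝ (closedBall p ρ) := convex_closedBall p ρ
  have hder : ∀ t ∈ closedBall p ρ,
      HasDerivWithinAt (fun t => f t - f' p * t) (f' t - f' p) (closedBall p ρ) t := by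
    intro t _
    have h1 : HasDerivAt (fun t => f t - f' p * t) (f' t - f' p * 1) t :=
      (hf t).sub ((hasDerivAt_id t).const_mul (f' p))
    rw [mul_one] at h1
    exact h1.hasDerivWithinAt
  have hbound : ∀ t ∈ closedBall p ρ, ‖f' t - f' p‖ ≤ B * ρ := by
    intro t ht
    rw [Real.norm_eq_abs]
    refine (hB t p).trans (mul_le_mul_of_nonneg_left ?_ hB0)
    rw [← Real.dist_eq]
    exact mem_closedBall.1 ht
  have ha' : a ∈ closedBall p ρ := by rw [mem_closedBall, Real.dist_eq]; exact ha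
  have hb' : b ∈ closedBall p ρ := by rw [mem_closedBall, Real.dist_eq]; exact hb
  have h := hconv.norm_image_sub_le_of_norm_hasDerivWithin_le hder hbound hb' ha'
  rw [Real.norm_eq_abs, Real.norm_eq_abs] at h
  have heq : f a - f' p * a - (f b - f' p * b) = f a - f b - f' p * (a - b) := by ring
  rw [heq] at h
  exact h

variable {n : ℕ}

/-- The Bethe map `G_j (x) = k (x_j) - N⁻¹ ∑_l θ (x_j - x_l) - a_j`. -/
noncomputable def nw70G (k θ : ℝ → ℝ) (N : ℝ) (a : Fin n → ℝ) (x : Fin n → ℝ) : Fin n → ℝ :=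
  fun j => k (x j) - N⁻¹ * ∑ l, θ (x j - x l) - a j

/-- The linearisation of the Bethe map at `x₀`. -/
noncomputable def nw70A (ξ K : ℝ → ℝ) (N : ℝ) (x₀ : Fin n → ℝ) :
    (Fin n → ℝ) →ₗ[ℝ] (Fin n → ℝ) where
  toFun v := fun j => ξ (x₀ j) * v j - N⁻¹ * ∑ l, K (x₀ j - x₀ l) * (v j - v l)
  map_add' u v := by
    funext j
    simp only [Pi.add_apply]
    have : ∀ l, K (x₀ j - x₀ l) * (u j + v j - (u l + v l)) =
        K (x₀ j - x₀ l) * (u j - u l) + K (x₀ j - x₀ l) * (v j - v l) := fun l => by ring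
    simp only [this, Finset.sum_add_distrib]
    ring
  map_smul' t v := by
    funext j
    simp only [Pi.smul_apply, smul_eq_mul, RingHom.id_apply]
    have : ∀ l, K (x₀ j - x₀ l) * (t * v j - t * v l) = t * (K (x₀ j - x₀ l) * (v j - v l)) :=
      fun l => by ring
    simp only [this, ← Finset.mul_sum]
    ring

theorem nw70A_apply (ξ K : ℝ → ℝ) (N : ℝ) (x₀ v : Fin n → ℝ) (j : Fin n) :
    nw70A ξ K N x₀ v j = ξ (x₀ j) * v j - N⁻¹ * ∑ l, K (x₀ j - x₀ l) * (v j - v l) := rfl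

theorem nw70_coord_le (x y : Fin n → ℝ) (r : ℝ) (h : x ∈ closedBall y r) (j : Fin n) :
    |x j - y j| ≤ r := by
  rw [mem_closedBall, dist_eq_norm] at h
  have := norm_le_pi_norm (x - y) j
  rw [Real.norm_eq_abs, Pi.sub_apply] at this
  exact this.trans h

/-- The Bethe map is approximated by its linearisation on balls. -/
theorem nw70_approx (k θ ξ K : ℝ → ℝ) (B₁ B₂ : ℝ) (hk : ∀ x, HasDerivAt k (ξ x) x)
    (hθ : ∀ x, HasDerivAt θ (K x) x) (hξ : ∀ x y, |ξ x - ξ y| ≤ B₂ * |x - y|)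
    (hK : ∀ x y, |K x - K y| ≤ B₁ * |x - y|) (hB₁ : 0 ≤ B₁) (N : ℝ) (hN : 0 < N)
    (hnN : (n : ℝ) ≤ N) (a x₀ : Fin n → ℝ) (r : ℝ) (hr : 0 ≤ r) :
    ∀ x ∈ closedBall x₀ r, ∀ y ∈ closedBall x₀ r,
      ‖nw70G k θ N a x - nw70G k θ N a y - nw70A ξ K N x₀ (x - y)‖ ≤
        ((B₂ + 4 * B₁) * r) * ‖x - y‖ := by
  intro x hx y hy
  have hB₂ : 0 ≤ B₂ := by
    have := hξ 0 1
    have h2 : |(0 : ℝ) - 1| = 1 := by norm_num
    rw [h2, mul_one] at this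
    exact (abs_nonneg _).trans this
  rw [pi_norm_le_iff_of_nonneg (by positivity)]
  intro j
  have hxy : ∀ l, |x l - y l| ≤ ‖x - y‖ := by
    intro l
    have := norm_le_pi_norm (x - y) l
    rwa [Real.norm_eq_abs, Pi.sub_apply] at this
  have e1 : (nw70G k θ N a x - nw70G k θ N a y - nw70A ξ K N x₀ (x - y)) j =
      (k (x j) - k (y j) - ξ (x₀ j) * (x j - y j)) -
        N⁻¹ * ∑ l, (θ (x j - x l) - θ (y j - y l) -
          K (x₀ j - x₀ l) * ((x j - x l) - (y j - y l))) := by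
    simp only [Pi.sub_apply, nw70G, nw70A_apply]
    have : ∀ l, θ (x j - x l) - θ (y j - y l) - K (x₀ j - x₀ l) * ((x j - x l) - (y j - y l)) =
        θ (x j - x l) - θ (y j - y l) - K (x₀ j - x₀ l) * (x j - y j - (x l - y l)) :=
      fun l => by ring
    simp only [this, Finset.sum_sub_distrib]
    ring
  rw [e1, Real.norm_eq_abs]
  have t1 : |k (x j) - k (y j) - ξ (x₀ j) * (x j - y j)| ≤ B₂ * r * ‖x - y‖ :=
    (nw70_taylor k ξ B₂ hk hξ (x₀ j) (x j) (y j) r (nw70_coord_le x x₀ r hx j)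
      (nw70_coord_le y x₀ r hy j)).trans
      (mul_le_mul_of_nonneg_left (hxy j) (by positivity))
  have t2 : ∀ l, |θ (x j - x l) - θ (y j - y l) -
      K (x₀ j - x₀ l) * ((x j - x l) - (y j - y l))| ≤ B₁ * (2 * r) * (2 * ‖x - y‖) := by
    intro l
    have ha : |x j - x l - (x₀ j - x₀ l)| ≤ 2 * r := by
      have h1 := nw70_coord_le x x₀ r hx j
      have h2 := nw70_coord_le x x₀ r hx l
      have : x j - x l - (x₀ j - x₀ l) = (x j - x₀ j) - (x l - x₀ l) := by ring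
      rw [this]
      exact (abs_sub _ _).trans (by linarith)
    have hb : |y j - y l - (x₀ j - x₀ l)| ≤ 2 * r := by
      have h1 := nw70_coord_le y x₀ r hy j
      have h2 := nw70_coord_le y x₀ r hy l
      have : y j - y l - (x₀ j - x₀ l) = (y j - x₀ j) - (y l - x₀ l) := by ring
      rw [this]
      exact (abs_sub _ _).trans (by linarith)
    have hab : |x j - x l - (y j - y l)| ≤ 2 * ‖x - y‖ := by
      have : x j - x l - (y j - y l) = (x j - y j) - (x l - y l) := by ring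
      rw [this]
      exact (abs_sub _ _).trans (by linarith [hxy j, hxy l])
    exact (nw70_taylor θ K B₁ hθ hK _ _ _ (2 * r) ha hb).trans
      (mul_le_mul_of_nonneg_left hab (by positivity))
  have t3 : |N⁻¹ * ∑ l, (θ (x j - x l) - θ (y j - y l) -
      K (x₀ j - x₀ l) * ((x j - x l) - (y j - y l)))| ≤ 4 * B₁ * r * ‖x - y‖ := by
    rw [abs_mul, abs_of_pos (inv_pos.2 hN)]
    have h1 : |∑ l, (θ (x j - x l) - θ (y j - y l) -
        K (x₀ j - x₀ l) * ((x j - x l) - (y j - y l)))| ≤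
        (n : ℝ) * (B₁ * (2 * r) * (2 * ‖x - y‖)) := by
      refine (Finset.abs_sum_le_sum_abs _ _).trans ?_
      refine (Finset.sum_le_sum fun l _ => t2 l).trans ?_
      rw [Finset.sum_const, Finset.card_univ, Fintype.card_fin, nsmul_eq_mul]
    have h2 : N⁻¹ * ((n : ℝ) * (B₁ * (2 * r) * (2 * ‖x - y‖))) ≤
        1 * (B₁ * (2 * r) * (2 * ‖x - y‖)) := by
      rw [← mul_assoc]
      refine mul_le_mul_of_nonneg_right ?_ (by positivity)
      rw [inv_mul_le_iff₀ hN, mul_one]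
      exact hnN
    calc N⁻¹ * |∑ l, (θ (x j - x l) - θ (y j - y l) -
          K (x₀ j - x₀ l) * ((x j - x l) - (y j - y l)))|
        ≤ N⁻¹ * ((n : ℝ) * (B₁ * (2 * r) * (2 * ‖x - y‖))) :=
          mul_le_mul_of_nonneg_left h1 (inv_pos.2 hN).le
      _ ≤ 1 * (B₁ * (2 * r) * (2 * ‖x - y‖)) := h2
      _ = 4 * B₁ * r * ‖x - y‖ := by ring
  calc |(k (x j) - k (y j) - ξ (x₀ j) * (x j - y j)) - N⁻¹ * ∑ l, (θ (x j - x l) - θ (y j - y l) -
          K (x₀ j - x₀ l) * ((x j - x l) - (y j - y l)))|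
      ≤ B₂ * r * ‖x - y‖ + 4 * B₁ * r * ‖x - y‖ := (abs_sub _ _).trans (add_le_add t1 t3)
    _ = ((B₂ + 4 * B₁) * r) * ‖x - y‖ := by ring

/-- The diagonal of the linearisation written as `D + N⁻¹ K`. -/
noncomputable def nw70D (ξ K : ℝ → ℝ) (N : ℝ) (x₀ : Fin n → ℝ) (j : Fin n) : ℝ :=
  ξ (x₀ j) - N⁻¹ * ∑ l, K (x₀ j - x₀ l)

theorem nw70A_apply' (ξ K : ℝ → ℝ) (N : ℝ) (x₀ v : Fin n → ℝ) (j : Fin n) :
    nw70A ξ K N x₀ v j = nw70D ξ K N x₀ j * v j + N⁻¹ * ∑ l, K (x₀ j - x₀ l) * v l := by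
  rw [nw70A_apply, nw70D]
  have : ∀ l, K (x₀ j - x₀ l) * (v j - v l) = K (x₀ j - x₀ l) * v j - K (x₀ j - x₀ l) * v l :=
    fun l => by ring
  simp only [this, Finset.sum_sub_distrib, ← Finset.sum_mul]
  ring

/-- Weighted diagonal dominance: a lower bound for the linearisation in the sup norm. -/
theorem nw70_lower (ξ K : ℝ → ℝ) (N : ℝ) (hN : 0 < N) (x₀ : Fin n → ℝ) (Dmin κ' : ℝ)
    (hD : 0 < Dmin) (hDj : ∀ j, Dmin ≤ nw70D ξ K N x₀ j)
    (hrow : ∀ j, N⁻¹ * ∑ l, |K (x₀ j - x₀ l)| / nw70D ξ K N x₀ l ≤ κ') (hκ0 : 0 ≤ κ') :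
    ∀ v, (1 - κ') * Dmin * ‖v‖ ≤ ‖nw70A ξ K N x₀ v‖ := by
  intro v
  set w : Fin n → ℝ := fun j => nw70D ξ K N x₀ j * v j with hw
  have hDpos : ∀ j, 0 < nw70D ξ K N x₀ j := fun j => hD.trans_le (hDj j)
  have hwl : ∀ l, |w l| ≤ ‖w‖ := by
    intro l
    have := norm_le_pi_norm w l
    rwa [Real.norm_eq_abs] at this
  -- step 1 : `‖w‖ ≤ ‖A v‖ + κ' ‖w‖`
  have h1 : ‖w‖ ≤ ‖nw70A ξ K N x₀ v‖ + κ' * ‖w‖ := by
    rw [pi_norm_le_iff_of_nonneg (by positivity)]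
    intro j
    rw [Real.norm_eq_abs]
    have hAj : |nw70A ξ K N x₀ v j| ≤ ‖nw70A ξ K N x₀ v‖ := by
      have := norm_le_pi_norm (nw70A ξ K N x₀ v) j
      rwa [Real.norm_eq_abs] at this
    have e : w j = nw70A ξ K N x₀ v j - N⁻¹ * ∑ l, K (x₀ j - x₀ l) * v l := by
      rw [nw70A_apply']
      ring
    have hs : |N⁻¹ * ∑ l, K (x₀ j - x₀ l) * v l| ≤ κ' * ‖w‖ := by
      rw [abs_mul, abs_of_pos (inv_pos.2 hN)]
      have h2 : |∑ l, K (x₀ j - x₀ l) * v l| ≤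
          (∑ l, |K (x₀ j - x₀ l)| / nw70D ξ K N x₀ l) * ‖w‖ := by
        refine (Finset.abs_sum_le_sum_abs _ _).trans ?_
        rw [Finset.sum_mul]
        refine Finset.sum_le_sum fun l _ => ?_
        have h3 : |K (x₀ j - x₀ l) * v l| = |K (x₀ j - x₀ l)| / nw70D ξ K N x₀ l * |w l| := by
          rw [hw]
          simp only
          rw [abs_mul, abs_mul, abs_of_pos (hDpos l)]
          field_simp [(hDpos l).ne']
        rw [h3]
        exact mul_le_mul_of_nonneg_left (hwl l) (div_nonneg (abs_nonneg _) (hDpos l).le)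
      calc N⁻¹ * |∑ l, K (x₀ j - x₀ l) * v l|
          ≤ N⁻¹ * ((∑ l, |K (x₀ j - x₀ l)| / nw70D ξ K N x₀ l) * ‖w‖) :=
            mul_le_mul_of_nonneg_left h2 (inv_pos.2 hN).le
        _ = (N⁻¹ * ∑ l, |K (x₀ j - x₀ l)| / nw70D ξ K N x₀ l) * ‖w‖ := by ring
        _ ≤ κ' * ‖w‖ := mul_le_mul_of_nonneg_right (hrow j) (norm_nonneg _)
    rw [e]
    exact (abs_sub _ _).trans (add_le_add hAj hs)
  -- step 2 : `Dmin ‖v‖ ≤ ‖w‖`
  have h2 : ‖v‖ ≤ ‖w‖ / Dmin := by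
    rw [pi_norm_le_iff_of_nonneg (by positivity)]
    intro j
    rw [Real.norm_eq_abs, le_div_iff₀ hD]
    have h3 : |w j| = nw70D ξ K N x₀ j * |v j| := by
      rw [hw]
      simp only
      rw [abs_mul, abs_of_pos (hDpos j)]
    calc |v j| * Dmin ≤ |v j| * nw70D ξ K N x₀ j :=
          mul_le_mul_of_nonneg_left (hDj j) (abs_nonneg _)
      _ = |w j| := by rw [h3]; ring
      _ ≤ ‖w‖ := hwl j
  rw [le_div_iff₀ hD] at h2
  by_cases hk1 : κ' ≤ 1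
  · calc (1 - κ') * Dmin * ‖v‖ = (1 - κ') * (‖v‖ * Dmin) := by ring
      _ ≤ (1 - κ') * ‖w‖ := mul_le_mul_of_nonneg_left h2 (by linarith)
      _ ≤ ‖nw70A ξ K N x₀ v‖ := by linarith
  · rw [not_le] at hk1
    have : (1 - κ') * Dmin * ‖v‖ ≤ 0 := by
      have h5 : (1 - κ') * Dmin ≤ 0 := mul_nonpos_of_nonpos_of_nonneg (by linarith) hD.le
      exact mul_nonpos_of_nonpos_of_nonneg h5 (norm_nonneg _)
    exact this.trans (norm_nonneg _)

/-- The linearisations at two points of a ball differ by a small operator. -/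
theorem nw70A_diff (ξ K : ℝ → ℝ) (B₁ B₂ : ℝ) (hξ : ∀ x y, |ξ x - ξ y| ≤ B₂ * |x - y|)
    (hK : ∀ x y, |K x - K y| ≤ B₁ * |x - y|) (hB₁ : 0 ≤ B₁) (N : ℝ) (hN : 0 < N)
    (hnN : (n : ℝ) ≤ N) (x₀ y : Fin n → ℝ) (r : ℝ) (hr : 0 ≤ r) (hy : y ∈ closedBall x₀ r)
    (v : Fin n → ℝ) :
    ‖nw70A ξ K N y v - nw70A ξ K N x₀ v‖ ≤ ((B₂ + 4 * B₁) * r) * ‖v‖ := by
  have hB₂ : 0 ≤ B₂ := by
    have := hξ 0 1
    have h2 : |(0 : ℝ) - 1| = 1 := by norm_num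
    rw [h2, mul_one] at this
    exact (abs_nonneg _).trans this
  rw [pi_norm_le_iff_of_nonneg (by positivity)]
  intro j
  have hv : ∀ l, |v l| ≤ ‖v‖ := by
    intro l
    have := norm_le_pi_norm v l
    rwa [Real.norm_eq_abs] at this
  have e1 : (nw70A ξ K N y v - nw70A ξ K N x₀ v) j =
      (ξ (y j) - ξ (x₀ j)) * v j -
        N⁻¹ * ∑ l, (K (y j - y l) - K (x₀ j - x₀ l)) * (v j - v l) := by
    simp only [Pi.sub_apply, nw70A_apply]
    have : ∀ l, (K (y j - y l) - K (x₀ j - x₀ l)) * (v j - v l) =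
        K (y j - y l) * (v j - v l) - K (x₀ j - x₀ l) * (v j - v l) := fun l => by ring
    simp only [this, Finset.sum_sub_distrib]
    ring
  rw [e1, Real.norm_eq_abs]
  have t1 : |(ξ (y j) - ξ (x₀ j)) * v j| ≤ B₂ * r * ‖v‖ := by
    rw [abs_mul]
    exact mul_le_mul ((hξ _ _).trans (mul_le_mul_of_nonneg_left (nw70_coord_le y x₀ r hy j) hB₂))
      (hv j) (abs_nonneg _) (by positivity)
  have t2 : ∀ l, |(K (y j - y l) - K (x₀ j - x₀ l)) * (v j - v l)| ≤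
      B₁ * (2 * r) * (2 * ‖v‖) := by
    intro l
    rw [abs_mul]
    have ha : |y j - y l - (x₀ j - x₀ l)| ≤ 2 * r := by
      have h1 := nw70_coord_le y x₀ r hy j
      have h2 := nw70_coord_le y x₀ r hy l
      have : y j - y l - (x₀ j - x₀ l) = (y j - x₀ j) - (y l - x₀ l) := by ring
      rw [this]
      exact (abs_sub _ _).trans (by linarith)
    have hb : |v j - v l| ≤ 2 * ‖v‖ := (abs_sub _ _).trans (by linarith [hv j, hv l])
    exact mul_le_mul ((hK _ _).trans (mul_le_mul_of_nonneg_left ha hB₁)) hb (abs_nonneg _)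
      (by positivity)
  have t3 : |N⁻¹ * ∑ l, (K (y j - y l) - K (x₀ j - x₀ l)) * (v j - v l)| ≤
      4 * B₁ * r * ‖v‖ := by
    rw [abs_mul, abs_of_pos (inv_pos.2 hN)]
    have h1 : |∑ l, (K (y j - y l) - K (x₀ j - x₀ l)) * (v j - v l)| ≤
        (n : ℝ) * (B₁ * (2 * r) * (2 * ‖v‖)) := by
      refine (Finset.abs_sum_le_sum_abs _ _).trans ?_
      refine (Finset.sum_le_sum fun l _ => t2 l).trans ?_
      rw [Finset.sum_const, Finset.card_univ, Fintype.card_fin, nsmul_eq_mul]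
    have h2 : N⁻¹ * ((n : ℝ) * (B₁ * (2 * r) * (2 * ‖v‖))) ≤ 1 * (B₁ * (2 * r) * (2 * ‖v‖)) := by
      rw [← mul_assoc]
      refine mul_le_mul_of_nonneg_right ?_ (by positivity)
      rw [inv_mul_le_iff₀ hN, mul_one]
      exact hnN
    calc N⁻¹ * |∑ l, (K (y j - y l) - K (x₀ j - x₀ l)) * (v j - v l)|
        ≤ N⁻¹ * ((n : ℝ) * (B₁ * (2 * r) * (2 * ‖v‖))) :=
          mul_le_mul_of_nonneg_left h1 (inv_pos.2 hN).le
      _ ≤ 1 * (B₁ * (2 * r) * (2 * ‖v‖)) := h2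
      _ = 4 * B₁ * r * ‖v‖ := by ring
  calc |(ξ (y j) - ξ (x₀ j)) * v j - N⁻¹ * ∑ l, (K (y j - y l) - K (x₀ j - x₀ l)) * (v j - v l)|
      ≤ B₂ * r * ‖v‖ + 4 * B₁ * r * ‖v‖ := (abs_sub _ _).trans (add_le_add t1 t3)
    _ = ((B₂ + 4 * B₁) * r) * ‖v‖ := by ring

end Layer2

/-! ## 3. Quantiles of a continuum density and first-order quadrature -/

section Layer3

/-- A continuous density on `[α, β]`, bounded below by `ρmin > 0`, of total mass `n / N`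
(`N` is any positive real). -/
structure Nw70Dens (ρ : ℝ → ℝ) (α β ρmin N : ℝ) (n : ℕ) : Prop where
  cont : ContinuousOn ρ (Icc α β)
  pos : 0 < ρmin
  low : ∀ x ∈ Icc α β, ρmin ≤ ρ x
  le : α ≤ β
  Npos : 0 < N
  mass : ∫ y in α..β, ρ y = n / N

/-- The quantile function of `ρ` on `[α, β]`. -/
noncomputable def nw70q (ρ : ℝ → ℝ) (α β t : ℝ) : ℝ :=
  open Classical in
  if h : ∃ x ∈ Icc α β, ∫ y in α..x, ρ y = t then h.choose else α

variable {ρ : ℝ → ℝ} {α β ρmin N : ℝ} {n : ℕ}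

theorem Nw70Dens.ii (H : Nw70Dens ρ α β ρmin N n) {s t : ℝ} (hs : s ∈ Icc α β) (ht : t ∈ Icc α β) :
    IntervalIntegrable ρ volume s t :=
  (H.cont.mono (uIcc_subset_Icc hs ht)).intervalIntegrable

theorem Nw70Dens.memα (H : Nw70Dens ρ α β ρmin N n) : α ∈ Icc α β := ⟨le_rfl, H.le⟩

theorem Nw70Dens.memβ (H : Nw70Dens ρ α β ρmin N n) : β ∈ Icc α β := ⟨H.le, le_rfl⟩

theorem Nw70Dens.mass_lower (H : Nw70Dens ρ α β ρmin N n) {s t : ℝ} (hs : α ≤ s) (hst : s ≤ t)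
    (ht : t ≤ β) : ρmin * (t - s) ≤ ∫ y in s..t, ρ y := by
  have h := intervalIntegral.integral_mono_on (μ := volume) (f := fun _ => ρmin) (g := ρ) hst
    intervalIntegrable_const (H.ii ⟨hs, hst.trans ht⟩ ⟨hs.trans hst, ht⟩)
    (fun x hx => H.low x ⟨hs.trans hx.1, hx.2.trans ht⟩)
  rw [intervalIntegral.integral_const, smul_eq_mul, mul_comm] at h
  exact h

theorem Nw70Dens.int_sub (H : Nw70Dens ρ α β ρmin N n) {s t : ℝ} (hs : s ∈ Icc α β)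
    (ht : t ∈ Icc α β) : ∫ y in s..t, ρ y = (∫ y in α..t, ρ y) - ∫ y in α..s, ρ y :=
  (intervalIntegral.integral_interval_sub_left (H.ii H.memα ht) (H.ii H.memα hs)).symm

/-- The primitive of `ρ` is strictly increasing, quantitatively. -/
theorem Nw70Dens.le_of_int_le (H : Nw70Dens ρ α β ρmin N n) {s t : ℝ} (hs : s ∈ Icc α β)
    (ht : t ∈ Icc α β) (h : ∫ y in α..s, ρ y ≤ ∫ y in α..t, ρ y) : s ≤ t := by
  by_contra hlt
  rw [not_le] at hlt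
  have h1 := H.mass_lower ht.1 hlt.le hs.2
  rw [H.int_sub ht hs] at h1
  have h2 : 0 < ρmin * (s - t) := mul_pos H.pos (sub_pos.2 hlt)
  linarith

theorem Nw70Dens.eq_of_int_eq (H : Nw70Dens ρ α β ρmin N n) {s t : ℝ} (hs : s ∈ Icc α β)
    (ht : t ∈ Icc α β) (h : ∫ y in α..s, ρ y = ∫ y in α..t, ρ y) : s = t :=
  le_antisymm (H.le_of_int_le hs ht h.le) (H.le_of_int_le ht hs h.ge)

theorem Nw70Dens.q_exists (H : Nw70Dens ρ α β ρmin N n) {t : ℝ} (ht0 : 0 ≤ t) (ht1 : t ≤ n / N) :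
    ∃ x ∈ Icc α β, ∫ y in α..x, ρ y = t := by
  have hcont : ContinuousOn (fun x => ∫ y in α..x, ρ y) (Icc α β) := by
    have h := intervalIntegral.continuousOn_primitive_interval (μ := volume) (f := ρ) (a := α)
      (b := β) (by
        rw [uIcc_of_le H.le]
        exact H.cont.integrableOn_Icc)
    rwa [uIcc_of_le H.le] at h
  have h := intermediate_value_Icc H.le hcont
  have hmem : t ∈ Icc (∫ y in α..α, ρ y) (∫ y in α..β, ρ y) := by
    rw [intervalIntegral.integral_same, H.mass]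
    exact ⟨ht0, ht1⟩
  obtain ⟨x, hx, hxt⟩ := h hmem
  exact ⟨x, hx, hxt⟩

theorem Nw70Dens.q_mem (H : Nw70Dens ρ α β ρmin N n) {t : ℝ} (ht0 : 0 ≤ t) (ht1 : t ≤ n / N) :
    nw70q ρ α β t ∈ Icc α β := by
  have h := H.q_exists ht0 ht1
  rw [nw70q, dif_pos h]
  exact h.choose_spec.1

theorem Nw70Dens.q_int (H : Nw70Dens ρ α β ρmin N n) {t : ℝ} (ht0 : 0 ≤ t) (ht1 : t ≤ n / N) :
    ∫ y in α..nw70q ρ α β t, ρ y = t := by
  have h := H.q_exists ht0 ht1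
  rw [nw70q, dif_pos h]
  exact h.choose_spec.2

theorem Nw70Dens.q_int_sub (H : Nw70Dens ρ α β ρmin N n) {s t : ℝ} (hs0 : 0 ≤ s) (hs1 : s ≤ n / N)
    (ht0 : 0 ≤ t) (ht1 : t ≤ n / N) :
    ∫ y in nw70q ρ α β s..nw70q ρ α β t, ρ y = t - s := by
  rw [H.int_sub (H.q_mem hs0 hs1) (H.q_mem ht0 ht1), H.q_int ht0 ht1, H.q_int hs0 hs1]

theorem Nw70Dens.q_mono (H : Nw70Dens ρ α β ρmin N n) {s t : ℝ} (hs0 : 0 ≤ s) (hst : s ≤ t)
    (ht1 : t ≤ n / N) : nw70q ρ α β s ≤ nw70q ρ α β t := by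
  have hs1 := hst.trans ht1
  have ht0 := hs0.trans hst
  refine H.le_of_int_le (H.q_mem hs0 hs1) (H.q_mem ht0 ht1) ?_
  rw [H.q_int ht0 ht1, H.q_int hs0 hs1]
  exact hst

theorem Nw70Dens.q_lip (H : Nw70Dens ρ α β ρmin N n) {s t : ℝ} (hs0 : 0 ≤ s) (hst : s ≤ t)
    (ht1 : t ≤ n / N) : ρmin * (nw70q ρ α β t - nw70q ρ α β s) ≤ t - s := by
  have hs1 := hst.trans ht1
  have ht0 := hs0.trans hst
  have h1 := H.mass_lower (H.q_mem hs0 hs1).1 (H.q_mono hs0 hst ht1) (H.q_mem ht0 ht1).2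
  rwa [H.q_int_sub hs0 hs1 ht0 ht1] at h1

theorem Nw70Dens.nN_nonneg (H : Nw70Dens ρ α β ρmin N n) : (0 : ℝ) ≤ n / N :=
  div_nonneg (Nat.cast_nonneg _) H.Npos.le

theorem Nw70Dens.q_zero (H : Nw70Dens ρ α β ρmin N n) : nw70q ρ α β 0 = α := by
  refine H.eq_of_int_eq (H.q_mem le_rfl H.nN_nonneg) H.memα ?_
  rw [H.q_int le_rfl H.nN_nonneg, intervalIntegral.integral_same]

theorem Nw70Dens.q_top (H : Nw70Dens ρ α β ρmin N n) : nw70q ρ α β (n / N) = β := by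
  refine H.eq_of_int_eq (H.q_mem H.nN_nonneg le_rfl) H.memβ ?_
  rw [H.q_int H.nN_nonneg le_rfl, H.mass]

/-- The cell boundaries. -/
noncomputable def nw70b (ρ : ℝ → ℝ) (α β N : ℝ) (j : ℕ) : ℝ := nw70q ρ α β (j / N)

/-- The mid-quantiles. -/
noncomputable def nw70x (ρ : ℝ → ℝ) (α β N : ℝ) (n : ℕ) : Fin n → ℝ :=
  fun j => nw70q ρ α β ((((j : ℕ) : ℝ) + 1 / 2) / N)

theorem Nw70Dens.idx (H : Nw70Dens ρ α β ρmin N n) {j : ℕ} (hj : j < n) :
    (0 : ℝ) ≤ j / N ∧ (j : ℝ) / N ≤ ((j : ℝ) + 1 / 2) / N ∧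
      ((j : ℝ) + 1 / 2) / N ≤ ((j + 1 : ℕ) : ℝ) / N ∧ ((j + 1 : ℕ) : ℝ) / N ≤ n / N := by
  have hN := H.Npos
  refine ⟨div_nonneg (Nat.cast_nonneg _) hN.le, ?_, ?_, ?_⟩
  · exact div_le_div_of_nonneg_right (by linarith) hN.le
  · refine div_le_div_of_nonneg_right ?_ hN.le
    push_cast
    linarith
  · refine div_le_div_of_nonneg_right ?_ hN.le
    exact_mod_cast hj

theorem Nw70Dens.b_mem (H : Nw70Dens ρ α β ρmin N n) {j : ℕ} (hj : j ≤ n) :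
    nw70b ρ α β N j ∈ Icc α β :=
  H.q_mem (div_nonneg (Nat.cast_nonneg _) H.Npos.le)
    (div_le_div_of_nonneg_right (by exact_mod_cast hj) H.Npos.le)

theorem Nw70Dens.x_mem (H : Nw70Dens ρ α β ρmin N n) (j : Fin n) :
    nw70x ρ α β N n j ∈ Icc α β := by
  obtain ⟨h0, h1, h2, h3⟩ := H.idx j.2
  exact H.q_mem (h0.trans h1) (h2.trans h3)

theorem Nw70Dens.x_int (H : Nw70Dens ρ α β ρmin N n) (j : Fin n) :
    ∫ y in α..nw70x ρ α β N n j, ρ y = (((j : ℕ) : ℝ) + 1 / 2) / N := by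
  obtain ⟨h0, h1, h2, h3⟩ := H.idx j.2
  exact H.q_int (h0.trans h1) (h2.trans h3)

theorem Nw70Dens.b_le_x (H : Nw70Dens ρ α β ρmin N n) (j : Fin n) :
    nw70b ρ α β N j ≤ nw70x ρ α β N n j := by
  obtain ⟨h0, h1, h2, h3⟩ := H.idx j.2
  exact H.q_mono h0 h1 (h2.trans h3)

theorem Nw70Dens.x_le_b (H : Nw70Dens ρ α β ρmin N n) (j : Fin n) :
    nw70x ρ α β N n j ≤ nw70b ρ α β N (j + 1) := by
  obtain ⟨h0, h1, h2, h3⟩ := H.idx j.2
  exact H.q_mono (h0.trans h1) h2 h3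

theorem Nw70Dens.cell_int (H : Nw70Dens ρ α β ρmin N n) {j : ℕ} (hj : j < n) :
    ∫ y in nw70b ρ α β N j..nw70b ρ α β N (j + 1), ρ y = N⁻¹ := by
  obtain ⟨h0, h1, h2, h3⟩ := H.idx hj
  rw [nw70b, nw70b, H.q_int_sub h0 (h1.trans (h2.trans h3)) (h0.trans (h1.trans h2)) h3]
  push_cast
  field_simp
  ring

theorem Nw70Dens.cell_width (H : Nw70Dens ρ α β ρmin N n) {j : ℕ} (hj : j < n) :
    nw70b ρ α β N (j + 1) - nw70b ρ α β N j ≤ 1 / (N * ρmin) := by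
  obtain ⟨h0, h1, h2, h3⟩ := H.idx hj
  have h := H.q_lip h0 (h1.trans h2) h3
  have e : ((j + 1 : ℕ) : ℝ) / N - (j : ℝ) / N = 1 / N := by
    push_cast
    field_simp
    ring
  rw [e] at h
  rw [le_div_iff₀ (mul_pos H.Npos H.pos)]
  have hN := H.Npos
  have h4 : N * (ρmin * (nw70q ρ α β (((j + 1 : ℕ) : ℝ) / N) - nw70q ρ α β ((j : ℝ) / N))) ≤
      N * (1 / N) := mul_le_mul_of_nonneg_left h hN.le
  rw [mul_one_div_cancel hN.ne'] at h4
  rw [nw70b, nw70b]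
  linarith

theorem nw70_contOn_of_lip (g : ℝ → ℝ) (Lg : ℝ) (hLg : 0 ≤ Lg) (s : Set ℝ)
    (hg : ∀ x ∈ s, ∀ y ∈ s, |g x - g y| ≤ Lg * |x - y|) : ContinuousOn g s := by
  have : LipschitzOnWith (Real.toNNReal Lg) g s := by
    refine LipschitzOnWith.of_dist_le_mul fun x hx y hy => ?_
    rw [Real.dist_eq, Real.dist_eq, Real.coe_toNNReal _ hLg]
    exact hg x hx y hy
  exact this.continuousOn

/-- The quadrature error in one cell. -/
theorem Nw70Dens.cell_quad (H : Nw70Dens ρ α β ρmin N n) (g : ℝ → ℝ) (Lg : ℝ) (hLg : 0 ≤ Lg)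
    (hg : ∀ x ∈ Icc α β, ∀ y ∈ Icc α β, |g x - g y| ≤ Lg * |x - y|) (j : Fin n) :
    |(∫ y in nw70b ρ α β N j..nw70b ρ α β N (j + 1), g y * ρ y) - N⁻¹ * g (nw70x ρ α β N n j)| ≤
      Lg * (1 / (N * ρmin)) * N⁻¹ := by
  set a := nw70b ρ α β N j with ha
  set b := nw70b ρ α β N (j + 1) with hb
  set x := nw70x ρ α β N n j with hx
  have ham : a ∈ Icc α β := H.b_mem j.2.le
  have hbm : b ∈ Icc α β := H.b_mem j.2
  have hxm : x ∈ Icc α β := H.x_mem j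
  have hax : a ≤ x := H.b_le_x j
  have hxb : x ≤ b := H.x_le_b j
  have hab : a ≤ b := hax.trans hxb
  have hw : b - a ≤ 1 / (N * ρmin) := H.cell_width j.2
  have hint : ∫ y in a..b, ρ y = N⁻¹ := H.cell_int j.2
  have hgc : ContinuousOn g (Icc α β) := nw70_contOn_of_lip g Lg hLg _ hg
  have hsub : uIcc a b ⊆ Icc α β := uIcc_subset_Icc ham hbm
  have hi1 : IntervalIntegrable (fun y => g y * ρ y) volume a b :=
    ((hgc.mul H.cont).mono hsub).intervalIntegrable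
  have hi2 : IntervalIntegrable (fun y => g x * ρ y) volume a b :=
    (H.ii ham hbm).const_mul _
  have e : (∫ y in a..b, g y * ρ y) - N⁻¹ * g x = ∫ y in a..b, (g y * ρ y - g x * ρ y) := by
    rw [intervalIntegral.integral_sub hi1 hi2, intervalIntegral.integral_const_mul, hint]
    ring
  rw [e, ← Real.norm_eq_abs]
  have hbd : ∀ᵐ t, t ∈ Ioc a b → ‖g t * ρ t - g x * ρ t‖ ≤ Lg * (1 / (N * ρmin)) * ρ t := by
    refine Filter.Eventually.of_forall fun t ht => ?_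
    have htm : t ∈ Icc α β := ⟨ham.1.trans ht.1.le, ht.2.trans hbm.2⟩
    have hρt : 0 ≤ ρ t := H.pos.le.trans (H.low t htm)
    have h1 : |t - x| ≤ 1 / (N * ρmin) := by
      rw [abs_le]
      constructor <;> linarith [ht.1, ht.2]
    have h2 : g t * ρ t - g x * ρ t = (g t - g x) * ρ t := by ring
    rw [h2, Real.norm_eq_abs, abs_mul, abs_of_nonneg hρt]
    exact mul_le_mul_of_nonneg_right ((hg t htm x hxm).trans (mul_le_mul_of_nonneg_left h1 hLg)) hρt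
  have h3 := intervalIntegral.norm_integral_le_of_norm_le hab hbd
    ((H.ii ham hbm).const_mul _)
  rw [intervalIntegral.integral_const_mul, hint] at h3
  exact h3

/-- First-order quadrature at the mid-quantiles. -/
theorem Nw70Dens.quad (H : Nw70Dens ρ α β ρmin N n) (g : ℝ → ℝ) (Lg : ℝ) (hLg : 0 ≤ Lg)
    (hg : ∀ x ∈ Icc α β, ∀ y ∈ Icc α β, |g x - g y| ≤ Lg * |x - y|) :
    |(∫ y in α..β, g y * ρ y) - N⁻¹ * ∑ j, g (nw70x ρ α β N n j)| ≤
      Lg * (1 / (N * ρmin)) * (n / N) := by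
  have hgc : ContinuousOn g (Icc α β) := nw70_contOn_of_lip g Lg hLg _ hg
  have hsum : ∑ k ∈ Finset.range n, ∫ y in nw70b ρ α β N k..nw70b ρ α β N (k + 1), g y * ρ y =
      ∫ y in nw70b ρ α β N 0..nw70b ρ α β N n, g y * ρ y := by
    refine intervalIntegral.sum_integral_adjacent_intervals fun k hk => ?_
    exact ((hgc.mul H.cont).mono
      (uIcc_subset_Icc (H.b_mem hk.le) (H.b_mem hk))).intervalIntegrable
  have hb0 : nw70b ρ α β N 0 = α := by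
    rw [nw70b, Nat.cast_zero, zero_div, H.q_zero]
  have hbn : nw70b ρ α β N n = β := by
    rw [nw70b, H.q_top]
  rw [hb0, hbn, Finset.sum_range] at hsum
  rw [← hsum, Finset.mul_sum, ← Finset.sum_sub_distrib]
  refine (Finset.abs_sum_le_sum_abs _ _).trans ?_
  refine (Finset.sum_le_sum fun j _ => H.cell_quad g Lg hLg hg j).trans ?_
  rw [Finset.sum_const, Finset.card_univ, Fintype.card_fin, nsmul_eq_mul]
  apply le_of_eq
  rw [div_eq_mul_inv]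
  ring

/-- Quadrature with a mismatch between the weight `N⁻¹` of the sum and the cell mass `N'⁻¹`. -/
theorem Nw70Dens.quad' (H : Nw70Dens ρ α β ρmin N n) (M ε : ℝ)
    (hε₁ : 1 / (N * ρmin) * (n / N) ≤ ε) (hε₂ : (n : ℝ) * |N⁻¹ - M⁻¹| ≤ ε)
    (g : ℝ → ℝ) (Lg Mg : ℝ) (hLg : 0 ≤ Lg)
    (hg : ∀ x ∈ Icc α β, ∀ y ∈ Icc α β, |g x - g y| ≤ Lg * |x - y|)
    (hM : ∀ x ∈ Icc α β, |g x| ≤ Mg) :
    |(∫ y in α..β, g y * ρ y) - M⁻¹ * ∑ j, g (nw70x ρ α β N n j)| ≤ (Lg + Mg) * ε := by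
  have hMg : 0 ≤ Mg := (abs_nonneg _).trans (hM α H.memα)
  have h1 := H.quad g Lg hLg hg
  have h2 : |(N⁻¹ - M⁻¹) * ∑ j, g (nw70x ρ α β N n j)| ≤ Mg * ε := by
    rw [abs_mul]
    have h3 : |∑ j, g (nw70x ρ α β N n j)| ≤ (n : ℝ) * Mg := by
      refine (Finset.abs_sum_le_sum_abs _ _).trans ?_
      refine (Finset.sum_le_sum fun j _ => hM _ (H.x_mem j)).trans ?_
      rw [Finset.sum_const, Finset.card_univ, Fintype.card_fin, nsmul_eq_mul]
    calc |N⁻¹ - M⁻¹| * |∑ j, g (nw70x ρ α β N n j)| ≤ |N⁻¹ - M⁻¹| * ((n : ℝ) * Mg) :=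
          mul_le_mul_of_nonneg_left h3 (abs_nonneg _)
      _ = Mg * ((n : ℝ) * |N⁻¹ - M⁻¹|) := by ring
      _ ≤ Mg * ε := mul_le_mul_of_nonneg_left hε₂ hMg
  have h4 : Lg * (1 / (N * ρmin)) * (n / N) ≤ Lg * ε := by
    rw [mul_assoc]
    exact mul_le_mul_of_nonneg_left hε₁ hLg
  have e : (∫ y in α..β, g y * ρ y) - M⁻¹ * ∑ j, g (nw70x ρ α β N n j) =
      ((∫ y in α..β, g y * ρ y) - N⁻¹ * ∑ j, g (nw70x ρ α β N n j)) +
        (N⁻¹ - M⁻¹) * ∑ j, g (nw70x ρ α β N n j) := by ring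
  rw [e]
  refine (abs_add_le _ _).trans ?_
  linarith

end Layer3

/-! ## 4. Assembly: Bethe roots near the mid-quantiles -/

section Layer4

theorem nw70_lip_of_deriv (f f' : ℝ → ℝ) (B : ℝ) (hf : ∀ x, HasDerivAt f (f' x) x)
    (hB : ∀ x, |f' x| ≤ B) (x y : ℝ) : |f x - f y| ≤ B * |x - y| := by
  have h := (convex_univ (𝕜 := ℝ) (E := ℝ)).norm_image_sub_le_of_norm_hasDerivWithin_le
    (f := f) (f' := f') (C := B) (fun t _ => (hf t).hasDerivWithinAt)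
    (fun t _ => by rw [Real.norm_eq_abs]; exact hB t) (mem_univ y) (mem_univ x)
  rwa [Real.norm_eq_abs, Real.norm_eq_abs] at h

/-- The continuum data; all constants are explicit parameters. -/
structure Nw70Hyp (k θ ξ K ρ : ℝ → ℝ) (α β a₀ κ B₀ Θ₀ B₁ B₂ Lρ : ℝ) : Prop where
  hk : ∀ x, HasDerivAt k (ξ x) x
  hθ : ∀ x, HasDerivAt θ (K x) x
  hξ : ∀ x y, |ξ x - ξ y| ≤ B₂ * |x - y|
  hK : ∀ x y, |K x - K y| ≤ B₁ * |x - y|
  hB₀ : ∀ x, |K x| ≤ B₀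
  hΘ₀ : ∀ x, |θ x| ≤ Θ₀
  hρL : ∀ x ∈ Icc α β, ∀ y ∈ Icc α β, |ρ x - ρ y| ≤ Lρ * |x - y|
  heq : ∀ x ∈ Icc α β, ρ x = ξ x - ∫ y in α..β, K (x - y) * ρ y
  hcount : ∀ x ∈ Icc α β, k x - ∫ y in α..β, θ (x - y) * ρ y = a₀ + ∫ y in α..x, ρ y
  hκ : ∀ x ∈ Icc α β, ∫ y in α..β, |K (x - y)| ≤ κ

variable {k θ ξ K ρ : ℝ → ℝ} {α β a₀ κ B₀ Θ₀ B₁ B₂ Lρ ρmin N' : ℝ} {n : ℕ}

theorem Nw70Hyp.B₀_nonneg (Hy : Nw70Hyp k θ ξ K ρ α β a₀ κ B₀ Θ₀ B₁ B₂ Lρ) : 0 ≤ B₀ :=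
  (abs_nonneg _).trans (Hy.hB₀ 0)

theorem Nw70Hyp.Θ₀_nonneg (Hy : Nw70Hyp k θ ξ K ρ α β a₀ κ B₀ Θ₀ B₁ B₂ Lρ) : 0 ≤ Θ₀ :=
  (abs_nonneg _).trans (Hy.hΘ₀ 0)

theorem Nw70Hyp.B₁_nonneg (Hy : Nw70Hyp k θ ξ K ρ α β a₀ κ B₀ Θ₀ B₁ B₂ Lρ) : 0 ≤ B₁ := by
  have := Hy.hK 0 1
  have h2 : |(0 : ℝ) - 1| = 1 := by norm_num
  rw [h2, mul_one] at this
  exact (abs_nonneg _).trans this

theorem Nw70Hyp.B₂_nonneg (Hy : Nw70Hyp k θ ξ K ρ α β a₀ κ B₀ Θ₀ B₁ B₂ Lρ) : 0 ≤ B₂ := by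
  have := Hy.hξ 0 1
  have h2 : |(0 : ℝ) - 1| = 1 := by norm_num
  rw [h2, mul_one] at this
  exact (abs_nonneg _).trans this

/-- The residual of the Bethe map at the mid-quantiles. -/
theorem nw70_resid (H : Nw70Dens ρ α β ρmin N' n)
    (Hy : Nw70Hyp k θ ξ K ρ α β a₀ κ B₀ Θ₀ B₁ B₂ Lρ) (N ε : ℝ)
    (hε₁ : 1 / (N' * ρmin) * (n / N') ≤ ε) (hε₂ : (n : ℝ) * |N'⁻¹ - N⁻¹| ≤ ε)
    (a : Fin n → ℝ) (ha : ∀ j : Fin n, |a j - (a₀ + (((j : ℕ) : ℝ) + 1 / 2) / N')| ≤ ε) :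
    ‖nw70G k θ N a (nw70x ρ α β N' n)‖ ≤ (B₀ + Θ₀ + 1) * ε := by
  have hε : 0 ≤ ε := le_trans (mul_nonneg (Nat.cast_nonneg _) (abs_nonneg _)) hε₂
  have hB₀ := Hy.B₀_nonneg
  have hΘ₀ := Hy.Θ₀_nonneg
  rw [pi_norm_le_iff_of_nonneg (by positivity)]
  intro j
  rw [Real.norm_eq_abs]
  set x := nw70x ρ α β N' n with hx
  have hq := H.quad' N ε hε₁ hε₂ (fun y => θ (x j - y)) B₀ Θ₀ hB₀
    (fun u _ v _ => by
      have := nw70_lip_of_deriv θ K B₀ Hy.hθ Hy.hB₀ (x j - u) (x j - v)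
      have e : x j - u - (x j - v) = -(u - v) := by ring
      rwa [e, abs_neg] at this)
    (fun u _ => Hy.hΘ₀ _)
  have hc := Hy.hcount (x j) (H.x_mem j)
  rw [H.x_int j] at hc
  have e : nw70G k θ N a x j =
      ((∫ y in α..β, θ (x j - y) * ρ y) - N⁻¹ * ∑ l, θ (x j - x l)) -
        (a j - (a₀ + (((j : ℕ) : ℝ) + 1 / 2) / N')) := by
    rw [nw70G, ← hc]
    ring
  rw [e]
  refine (abs_sub _ _).trans ?_
  have := ha j
  linarith

/-- The derivative of the counting function of the mid-quantiles is close to the density. -/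
theorem nw70_count_deriv (H : Nw70Dens ρ α β ρmin N' n)
    (Hy : Nw70Hyp k θ ξ K ρ α β a₀ κ B₀ Θ₀ B₁ B₂ Lρ) (N ε : ℝ)
    (hε₁ : 1 / (N' * ρmin) * (n / N') ≤ ε) (hε₂ : (n : ℝ) * |N'⁻¹ - N⁻¹| ≤ ε)
    (t : ℝ) (ht : t ∈ Icc α β) :
    |ξ t - N⁻¹ * ∑ l, K (t - nw70x ρ α β N' n l) - ρ t| ≤ (B₁ + B₀) * ε := by
  have hq := H.quad' N ε hε₁ hε₂ (fun y => K (t - y)) B₁ B₀ Hy.B₁_nonneg
    (fun u _ v _ => by
      have := Hy.hK (t - u) (t - v)
      have e : t - u - (t - v) = -(u - v) := by ring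
      rwa [e, abs_neg] at this)
    (fun u _ => Hy.hB₀ _)
  have e : ξ t - N⁻¹ * ∑ l, K (t - nw70x ρ α β N' n l) - ρ t =
      (∫ y in α..β, K (t - y) * ρ y) - N⁻¹ * ∑ l, K (t - nw70x ρ α β N' n l) := by
    rw [Hy.heq t ht]
    ring
  rw [e]
  exact hq

/-- The weighted row sums at the mid-quantiles. -/
theorem nw70_row (H : Nw70Dens ρ α β ρmin N' n)
    (Hy : Nw70Hyp k θ ξ K ρ α β a₀ κ B₀ Θ₀ B₁ B₂ Lρ) (hLρ : 0 ≤ Lρ) (N ε : ℝ)
    (hε₁ : 1 / (N' * ρmin) * (n / N') ≤ ε) (hε₂ : (n : ℝ) * |N'⁻¹ - N⁻¹| ≤ ε)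
    (t : ℝ) (ht : t ∈ Icc α β) :
    N⁻¹ * ∑ l, |K (t - nw70x ρ α β N' n l)| / ρ (nw70x ρ α β N' n l) ≤
      κ + (B₁ / ρmin + B₀ * Lρ / ρmin ^ 2 + B₀ / ρmin) * ε := by
  have hρm := H.pos
  have hB₀ := Hy.B₀_nonneg
  have hB₁ := Hy.B₁_nonneg
  have hρpos : ∀ u ∈ Icc α β, 0 < ρ u := fun u hu => hρm.trans_le (H.low u hu)
  have hq := H.quad' N ε hε₁ hε₂ (fun y => |K (t - y)| / ρ y) (B₁ / ρmin + B₀ * Lρ / ρmin ^ 2)
    (B₀ / ρmin) (by positivity)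
    (fun u hu v hv => by
      have hu0 := hρpos u hu
      have hv0 := hρpos v hv
      have e : |K (t - u)| / ρ u - |K (t - v)| / ρ v =
          (|K (t - u)| - |K (t - v)|) / ρ u + |K (t - v)| * ((ρ v - ρ u) / (ρ u * ρ v)) := by
        field_simp
        ring
      rw [e]
      refine (abs_add_le _ _).trans ?_
      have h1 : |(|K (t - u)| - |K (t - v)|) / ρ u| ≤ B₁ / ρmin * |u - v| := by
        rw [abs_div, abs_of_pos hu0]
        have h2 : |(|K (t - u)| - |K (t - v)|)| ≤ B₁ * |u - v| := by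
          refine (abs_abs_sub_abs_le _ _).trans ?_
          have := Hy.hK (t - u) (t - v)
          have e : t - u - (t - v) = -(u - v) := by ring
          rwa [e, abs_neg] at this
        calc |(|K (t - u)| - |K (t - v)|)| / ρ u ≤ B₁ * |u - v| / ρ u :=
              div_le_div_of_nonneg_right h2 hu0.le
          _ ≤ B₁ * |u - v| / ρmin :=
              div_le_div_of_nonneg_left (by positivity) hρm (H.low u hu)
          _ = B₁ / ρmin * |u - v| := by ring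
      have h2 : |(|K (t - v)| * ((ρ v - ρ u) / (ρ u * ρ v)))| ≤ B₀ * Lρ / ρmin ^ 2 * |u - v| := by
        rw [abs_mul, abs_abs, abs_div, abs_of_pos (mul_pos hu0 hv0)]
        have h3 : |ρ v - ρ u| ≤ Lρ * |u - v| := by
          have := Hy.hρL v hv u hu
          rwa [abs_sub_comm v u] at this
        have h4 : ρmin ^ 2 ≤ ρ u * ρ v := by
          rw [sq]
          exact mul_le_mul (H.low u hu) (H.low v hv) hρm.le hu0.le
        calc |K (t - v)| * (|ρ v - ρ u| / (ρ u * ρ v)) ≤ B₀ * (Lρ * |u - v| / ρmin ^ 2) := by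
              refine mul_le_mul (Hy.hB₀ _) ?_ (by positivity) hB₀
              calc |ρ v - ρ u| / (ρ u * ρ v) ≤ Lρ * |u - v| / (ρ u * ρ v) :=
                    div_le_div_of_nonneg_right h3 (mul_pos hu0 hv0).le
                _ ≤ Lρ * |u - v| / ρmin ^ 2 :=
                    div_le_div_of_nonneg_left (by positivity) (by positivity) h4
          _ = B₀ * Lρ / ρmin ^ 2 * |u - v| := by ring
      linarith)
    (fun u hu => by
      have hu0 := hρpos u hu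
      rw [abs_div, abs_abs, abs_of_pos hu0]
      calc |K (t - u)| / ρ u ≤ B₀ / ρ u := div_le_div_of_nonneg_right (Hy.hB₀ _) hu0.le
        _ ≤ B₀ / ρmin := div_le_div_of_nonneg_left hB₀ hρm (H.low u hu))
  have hint : ∫ y in α..β, |K (t - y)| / ρ y * ρ y = ∫ y in α..β, |K (t - y)| := by
    refine intervalIntegral.integral_congr fun y hy => ?_
    rw [uIcc_of_le H.le] at hy
    exact div_mul_cancel₀ _ (hρpos y hy).ne'
  rw [hint] at hq
  have h5 := (abs_le.1 hq).1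
  have h6 := Hy.hκ t ht
  linarith

end Layer4

/-! ## 5. Jacobian on the ball, order, spacing, symmetry (unfolded statements) -/

section Layer5

variable {n : ℕ}

/-- (J) quantitative: the Jacobian is bounded below on the whole ball around `y0`. -/
theorem nw70_jac_lower (ξ K : ℝ → ℝ) (B₁ B₂ : ℝ) (hξ : ∀ x y, |ξ x - ξ y| ≤ B₂ * |x - y|)
    (hK : ∀ x y, |K x - K y| ≤ B₁ * |x - y|) (N : ℝ) (hN : 0 < N) (hnN : (n : ℝ) ≤ N)
    (y0 : Fin n → ℝ) (dmin κ' r : ℝ) (hd : 0 < dmin)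
    (hD : ∀ j, dmin ≤ ξ (y0 j) - N⁻¹ * ∑ l, K (y0 j - y0 l))
    (hrow : ∀ j, ∑ l, |K (y0 j - y0 l)| / (N * (ξ (y0 l) - N⁻¹ * ∑ m, K (y0 l - y0 m))) ≤ κ')
    (hκ0 : 0 ≤ κ') (hr : 0 ≤ r) (y' : Fin n → ℝ) (hy' : ∀ j, |y' j - y0 j| ≤ r) (v : Fin n → ℝ) :
    ((1 - κ') * dmin - (B₂ + 4 * B₁) * r) * ‖v‖ ≤ ‖nw70A ξ K N y' v‖ := by
  have hB₁ : 0 ≤ B₁ := by
    have := hK 0 1
    have h2 : |(0 : ℝ) - 1| = 1 := by norm_num
    rw [h2, mul_one] at this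
    exact (abs_nonneg _).trans this
  have hrow' : ∀ j, N⁻¹ * ∑ l, |K (y0 j - y0 l)| / nw70D ξ K N y0 l ≤ κ' := by
    intro j
    refine le_trans (le_of_eq ?_) (hrow j)
    rw [Finset.mul_sum]
    refine Finset.sum_congr rfl fun l _ => ?_
    rw [nw70D, div_mul_eq_div_div_swap, inv_mul_eq_div]
  have h1 := nw70_lower ξ K N hN y0 dmin κ' hd hD hrow' hκ0 v
  have hmem : y' ∈ closedBall y0 r := by
    rw [mem_closedBall, dist_eq_norm, pi_norm_le_iff_of_nonneg hr]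
    intro j
    rw [Real.norm_eq_abs, Pi.sub_apply]
    exact hy' j
  have h2 := nw70A_diff ξ K B₁ B₂ hξ hK hB₁ N hN hnN y0 y' r hr hmem v
  have h3 : ‖nw70A ξ K N y0 v‖ ≤ ‖nw70A ξ K N y' v‖ + ‖nw70A ξ K N y' v - nw70A ξ K N y0 v‖ := by
    have := norm_sub_le (nw70A ξ K N y' v) (nw70A ξ K N y' v - nw70A ξ K N y0 v)
    rwa [sub_sub_cancel] at this
  linarith

/-- (J) the Jacobian is injective on the whole ball around `y0`. -/
theorem nw70_jac_inj (ξ K : ℝ → ℝ) (B₁ B₂ : ℝ) (hξ : ∀ x y, |ξ x - ξ y| ≤ B₂ * |x - y|)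
    (hK : ∀ x y, |K x - K y| ≤ B₁ * |x - y|) (N : ℝ) (hN : 0 < N) (hnN : (n : ℝ) ≤ N)
    (y0 : Fin n → ℝ) (dmin κ' r : ℝ) (hd : 0 < dmin)
    (hD : ∀ j, dmin ≤ ξ (y0 j) - N⁻¹ * ∑ l, K (y0 j - y0 l))
    (hrow : ∀ j, ∑ l, |K (y0 j - y0 l)| / (N * (ξ (y0 l) - N⁻¹ * ∑ m, K (y0 l - y0 m))) ≤ κ')
    (hκ0 : 0 ≤ κ') (hr : 0 ≤ r) (hsmall : (B₂ + 4 * B₁) * r < (1 - κ') * dmin)
    (y' : Fin n → ℝ) (hy' : ∀ j, |y' j - y0 j| ≤ r) (v : Fin n → ℝ)
    (hv : ∀ j, (ξ (y' j) - N⁻¹ * ∑ l, K (y' j - y' l)) * v j +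
      N⁻¹ * ∑ l, K (y' j - y' l) * v l = 0) : v = 0 := by
  have h1 := nw70_jac_lower ξ K B₁ B₂ hξ hK N hN hnN y0 dmin κ' r hd hD hrow hκ0 hr y' hy' v
  have h2 : nw70A ξ K N y' v = 0 := by
    funext j
    rw [nw70A_apply', nw70D]
    exact hv j
  rw [h2, norm_zero] at h1
  have h3 : ‖v‖ ≤ 0 := by
    by_contra h4
    rw [not_le] at h4
    have := mul_pos (sub_pos.2 hsmall) h4
    linarith
  exact norm_le_zero_iff.1 h3

/-- The derivative of the counting function of a configuration `y` near `y0`, slightly beyond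
the interval `[α, β]`. -/
theorem nw70_count_lower (ξ K : ℝ → ℝ) (B₁ B₂ : ℝ) (hξ : ∀ x y, |ξ x - ξ y| ≤ B₂ * |x - y|)
    (hK : ∀ x y, |K x - K y| ≤ B₁ * |x - y|) (N : ℝ) (hN : 0 < N) (hnN : (n : ℝ) ≤ N)
    (y0 y : Fin n → ℝ) (α β dmin r : ℝ) (hαβ : α ≤ β)
    (hX : ∀ t ∈ Icc α β, dmin ≤ ξ t - N⁻¹ * ∑ l, K (t - y0 l))
    (hr : ∀ j, |y j - y0 j| ≤ r) (hr0 : 0 ≤ r) (t : ℝ) (ht : t ∈ Icc (α - r) (β + r)) :
    dmin - (B₂ + 2 * B₁) * r ≤ ξ t - N⁻¹ * ∑ l, K (t - y l) := by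
  have hB₁ : 0 ≤ B₁ := by
    have := hK 0 1
    have h2 : |(0 : ℝ) - 1| = 1 := by norm_num
    rw [h2, mul_one] at this
    exact (abs_nonneg _).trans this
  have hB₂ : 0 ≤ B₂ := by
    have := hξ 0 1
    have h2 : |(0 : ℝ) - 1| = 1 := by norm_num
    rw [h2, mul_one] at this
    exact (abs_nonneg _).trans this
  obtain ⟨t', ht', htt'⟩ : ∃ t' ∈ Icc α β, |t - t'| ≤ r := by
    rcases le_total t α with h1 | h1
    · refine ⟨α, ⟨le_rfl, hαβ⟩, ?_⟩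
      rw [abs_le]
      constructor <;> linarith [ht.1]
    · rcases le_total t β with h2 | h2
      · exact ⟨t, ⟨h1, h2⟩, by simpa using hr0⟩
      · refine ⟨β, ⟨hαβ, le_rfl⟩, ?_⟩
        rw [abs_le]
        constructor <;> linarith [ht.2]
  have h1 : ξ t' - B₂ * r ≤ ξ t := by
    have htt'' : |t' - t| ≤ r := by rwa [abs_sub_comm] at htt'
    have := (hξ t' t).trans (mul_le_mul_of_nonneg_left htt'' hB₂)
    linarith [(abs_le.1 this).2]
  have h2 : ∀ l, K (t - y l) ≤ K (t' - y0 l) + 2 * B₁ * r := by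
    intro l
    have h3 : |t - y l - (t' - y0 l)| ≤ 2 * r := by
      have e : t - y l - (t' - y0 l) = (t - t') - (y l - y0 l) := by ring
      rw [e]
      exact (abs_sub _ _).trans (by linarith [hr l])
    have := (hK (t - y l) (t' - y0 l)).trans (mul_le_mul_of_nonneg_left h3 hB₁)
    linarith [(abs_le.1 this).2]
  have h3 : ∑ l, K (t - y l) ≤ ∑ l, K (t' - y0 l) + (n : ℝ) * (2 * B₁ * r) := by
    refine (Finset.sum_le_sum fun l _ => h2 l).trans (le_of_eq ?_)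
    rw [Finset.sum_add_distrib, Finset.sum_const, Finset.card_univ, Fintype.card_fin,
      nsmul_eq_mul]
  have h4 : N⁻¹ * ∑ l, K (t - y l) ≤ N⁻¹ * ∑ l, K (t' - y0 l) + 2 * B₁ * r := by
    have h5 : N⁻¹ * ((n : ℝ) * (2 * B₁ * r)) ≤ 1 * (2 * B₁ * r) := by
      rw [← mul_assoc]
      refine mul_le_mul_of_nonneg_right ?_ (by positivity)
      rw [inv_mul_le_iff₀ hN, mul_one]
      exact hnN
    have h6 := mul_le_mul_of_nonneg_left h3 (inv_pos.2 hN).le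
    rw [mul_add] at h6
    linarith
  have h5 := hX t' ht'
  linarith

/-- The counting function of a configuration and its derivative. -/
theorem nw70_count_hasDerivAt (k θ ξ K : ℝ → ℝ) (hk : ∀ x, HasDerivAt k (ξ x) x)
    (hθ : ∀ x, HasDerivAt θ (K x) x) (N : ℝ) (y : Fin n → ℝ) (t : ℝ) :
    HasDerivAt (fun t => k t - N⁻¹ * ∑ l, θ (t - y l)) (ξ t - N⁻¹ * ∑ l, K (t - y l)) t := by
  refine (hk t).sub (HasDerivAt.const_mul _ ?_)
  have h := HasDerivAt.fun_sum (u := Finset.univ) (A := fun l t => θ (t - y l))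
    (A' := fun l => K (t - y l)) (x := t) (fun l _ => by
      have h1 : HasDerivAt (fun t => t - y l) 1 t := (hasDerivAt_id t).sub_const (y l)
      have h2 := (hθ (t - y l)).comp t h1
      rw [mul_one] at h2
      exact h2)
  exact h

/-- (O) spacing from below and order: a zero of the Bethe map near `y0` is strictly increasing, with
`(dmin - (B₂ + 2 B₁) r) (y j - y i) ≤ a j - a i` for `y i ≤ y j`. -/
theorem nw70_order (k θ ξ K : ℝ → ℝ) (B₁ B₂ : ℝ) (hk : ∀ x, HasDerivAt k (ξ x) x)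
    (hθ : ∀ x, HasDerivAt θ (K x) x) (hξ : ∀ x y, |ξ x - ξ y| ≤ B₂ * |x - y|)
    (hK : ∀ x y, |K x - K y| ≤ B₁ * |x - y|) (N : ℝ) (hN : 0 < N) (hnN : (n : ℝ) ≤ N)
    (y0 y a : Fin n → ℝ) (α β dmin r : ℝ) (hαβ : α ≤ β) (hy0 : ∀ j, y0 j ∈ Icc α β)
    (hX : ∀ t ∈ Icc α β, dmin ≤ ξ t - N⁻¹ * ∑ l, K (t - y0 l))
    (hr : ∀ j, |y j - y0 j| ≤ r) (hr0 : 0 ≤ r) (hd : (B₂ + 2 * B₁) * r < dmin) (ha : StrictMono a)
    (hG : ∀ j, k (y j) - N⁻¹ * ∑ l, θ (y j - y l) - a j = 0) : StrictMono y := by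
  set Y : ℝ → ℝ := fun t => k t - N⁻¹ * ∑ l, θ (t - y l) with hY
  have hYd : ∀ t, HasDerivAt Y (ξ t - N⁻¹ * ∑ l, K (t - y l)) t :=
    nw70_count_hasDerivAt k θ ξ K hk hθ N y
  have hmono : StrictMonoOn Y (Icc (α - r) (β + r)) := by
    refine strictMonoOn_of_deriv_pos (convex_Icc _ _)
      (fun t _ => (hYd t).continuousAt.continuousWithinAt) fun t ht => ?_
    rw [(hYd t).deriv]
    have := nw70_count_lower ξ K B₁ B₂ hξ hK N hN hnN y0 y α β dmin r hαβ hX hr hr0 t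
      (interior_subset ht)
    linarith
  have hmem : ∀ j, y j ∈ Icc (α - r) (β + r) := by
    intro j
    have h1 := abs_le.1 (hr j)
    have h2 := hy0 j
    constructor <;> linarith [h1.1, h1.2, h2.1, h2.2]
  have hYa : ∀ j, Y (y j) = a j := by
    intro j
    have := hG j
    simp only [hY]
    linarith
  intro i j hij
  rw [← hmono.lt_iff_lt (hmem i) (hmem j), hYa, hYa]
  exact ha hij

/-- (O) spacing: two-sided bounds for the gaps of a zero of the Bethe map near `y0`. -/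
theorem nw70_spacing (k θ ξ K : ℝ → ℝ) (B₁ B₂ Xmax : ℝ) (hk : ∀ x, HasDerivAt k (ξ x) x)
    (hθ : ∀ x, HasDerivAt θ (K x) x) (hξ : ∀ x y, |ξ x - ξ y| ≤ B₂ * |x - y|)
    (hK : ∀ x y, |K x - K y| ≤ B₁ * |x - y|) (N : ℝ) (hN : 0 < N) (hnN : (n : ℝ) ≤ N)
    (y0 y a : Fin n → ℝ) (α β dmin r : ℝ) (hαβ : α ≤ β) (hy0 : ∀ j, y0 j ∈ Icc α β)
    (hX : ∀ t ∈ Icc α β, dmin ≤ ξ t - N⁻¹ * ∑ l, K (t - y0 l))
    (hXmax : ∀ t, ξ t - N⁻¹ * ∑ l, K (t - y l) ≤ Xmax)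
    (hr : ∀ j, |y j - y0 j| ≤ r) (hr0 : 0 ≤ r)
    (hG : ∀ j, k (y j) - N⁻¹ * ∑ l, θ (y j - y l) - a j = 0) (i j : Fin n) (hij : y i ≤ y j) :
    (dmin - (B₂ + 2 * B₁) * r) * (y j - y i) ≤ a j - a i ∧ a j - a i ≤ Xmax * (y j - y i) := by
  set Y : ℝ → ℝ := fun t => k t - N⁻¹ * ∑ l, θ (t - y l) with hY
  have hYd : ∀ t, HasDerivAt Y (ξ t - N⁻¹ * ∑ l, K (t - y l)) t :=
    nw70_count_hasDerivAt k θ ξ K hk hθ N y
  have hmem : ∀ j, y j ∈ Icc (α - r) (β + r) := by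
    intro j
    have h1 := abs_le.1 (hr j)
    have h2 := hy0 j
    constructor <;> linarith [h1.1, h1.2, h2.1, h2.2]
  have hYa : ∀ j, Y (y j) = a j := by
    intro j
    have := hG j
    simp only [hY]
    linarith
  have hc : ContinuousOn Y (Icc (α - r) (β + r)) :=
    fun t _ => (hYd t).continuousAt.continuousWithinAt
  have hdiff : DifferentiableOn ℝ Y (interior (Icc (α - r) (β + r))) :=
    fun t _ => (hYd t).differentiableAt.differentiableWithinAt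
  constructor
  · have h := (convex_Icc (α - r) (β + r)).mul_sub_le_image_sub_of_le_deriv hc hdiff
      (C := dmin - (B₂ + 2 * B₁) * r) (fun t ht => by
        rw [(hYd t).deriv]
        exact nw70_count_lower ξ K B₁ B₂ hξ hK N hN hnN y0 y α β dmin r hαβ hX hr hr0 t
          (interior_subset ht)) (y i) (hmem i) (y j) (hmem j) hij
    rwa [hYa, hYa] at h
  · have h := (convex_Icc (α - r) (β + r)).image_sub_le_mul_sub_of_deriv_le hc hdiff
      (C := Xmax) (fun t _ => by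
        rw [(hYd t).deriv]
        exact hXmax t) (y i) (hmem i) (y j) (hmem j) hij
    rwa [hYa, hYa] at h

/-- (S) the reflected configuration of a zero is a zero. -/
theorem nw70_symm_zero (k θ : ℝ → ℝ) (hk : ∀ x, k (-x) = -k x) (hθ : ∀ x, θ (-x) = -θ x) (N : ℝ)
    (a y : Fin n → ℝ) (ha : ∀ j, a (Fin.rev j) = -a j)
    (hG : ∀ j, k (y j) - N⁻¹ * ∑ l, θ (y j - y l) - a j = 0) (j : Fin n) :
    k (-y (Fin.rev j)) - N⁻¹ * ∑ l, θ (-y (Fin.rev j) - -y (Fin.rev l)) - a j = 0 := by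
  have h1 := hG (Fin.rev j)
  rw [ha j] at h1
  have h2 : ∑ l, θ (-y (Fin.rev j) - -y (Fin.rev l)) = -∑ l, θ (y (Fin.rev j) - y l) := by
    rw [← Finset.sum_neg_distrib, ← Equiv.sum_comp Fin.revPerm (fun l => -θ (y (Fin.rev j) - y l))]
    refine Finset.sum_congr rfl fun l _ => ?_
    rw [← hθ, Fin.revPerm_apply]
    congr 1
    ring
  rw [hk, h2]
  linarith

/-- (S) a zero which is unique near a symmetric centre is symmetric. -/
theorem nw70_symm (k θ : ℝ → ℝ) (hk : ∀ x, k (-x) = -k x) (hθ : ∀ x, θ (-x) = -θ x) (N : ℝ)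
    (a y y0 : Fin n → ℝ) (r : ℝ) (ha : ∀ j, a (Fin.rev j) = -a j)
    (hy0 : ∀ j, y0 (Fin.rev j) = -y0 j)
    (hG : ∀ j, k (y j) - N⁻¹ * ∑ l, θ (y j - y l) - a j = 0) (hr : ∀ j, |y j - y0 j| ≤ r)
    (huniq : ∀ y' : Fin n → ℝ, (∀ j, k (y' j) - N⁻¹ * ∑ l, θ (y' j - y' l) - a j = 0) →
      (∀ j, |y' j - y0 j| ≤ r) → y' = y) (j : Fin n) : y (Fin.rev j) = -y j := by
  have h := huniq (fun j => -y (Fin.rev j)) (nw70_symm_zero k θ hk hθ N a y ha hG) (fun j => by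
    have h1 := hr (Fin.rev j)
    rw [hy0 j] at h1
    have e : -y (Fin.rev j) - y0 j = -(y (Fin.rev j) - -y0 j) := by ring
    rw [e, abs_neg]
    exact h1)
  have h2 : -y (Fin.rev j) = y j := congrFun h j
  linarith

end Layer5

/-! ## 6. The main theorem: exactly one Bethe root vector near the mid-quantiles -/

section Layer6

/-- The lower bound of the Jacobian at the mid-quantiles. -/
noncomputable def nw70c0 (κ ρmin : ℝ) : ℝ := 3 * (1 - κ) * ρmin / 8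

/-- The radius of the uniqueness ball; it does not depend on `N`. -/
noncomputable def nw70r0 (κ ρmin B₁ B₂ : ℝ) : ℝ := nw70c0 κ ρmin / (2 * (B₂ + 4 * B₁ + 1))

variable {k θ ξ K ρ : ℝ → ℝ} {α β a₀ κ B₀ Θ₀ B₁ B₂ Lρ ρmin N' : ℝ} {n : ℕ}

/-- The data at the mid-quantiles needed by the finite dimensional lemmas. -/
theorem nw70_data (H : Nw70Dens ρ α β ρmin N' n)
    (Hy : Nw70Hyp k θ ξ K ρ α β a₀ κ B₀ Θ₀ B₁ B₂ Lρ) (hLρ : 0 ≤ Lρ) (hκ0 : 0 ≤ κ) (hκ1 : κ < 1)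
    (N ε : ℝ) (hN : 0 < N)
    (hε₁ : 1 / (N' * ρmin) * (n / N') ≤ ε) (hε₂ : (n : ℝ) * |N'⁻¹ - N⁻¹| ≤ ε)
    (hS1 : (B₁ + B₀) * ε ≤ (1 - κ) / 4 * ρmin)
    (hS2 : (B₁ / ρmin + B₀ * Lρ / ρmin ^ 2 + B₀ / ρmin) * ε ≤ (1 - κ) / 4) :
    (∀ t ∈ Icc α β, 3 / 4 * ρmin ≤ ξ t - N⁻¹ * ∑ l, K (t - nw70x ρ α β N' n l)) ∧
      (∀ j, 3 / 4 * ρmin ≤ nw70D ξ K N (nw70x ρ α β N' n) j) ∧
      (∀ j, N⁻¹ * ∑ l, |K (nw70x ρ α β N' n j - nw70x ρ α β N' n l)| /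
        nw70D ξ K N (nw70x ρ α β N' n) l ≤ (1 + κ) / 2) := by
  set x := nw70x ρ α β N' n with hx
  have hρm := H.pos
  have hcd : ∀ t ∈ Icc α β, (1 - (1 - κ) / 4) * ρ t ≤ ξ t - N⁻¹ * ∑ l, K (t - x l) := by
    intro t ht
    have h1 := nw70_count_deriv H Hy N ε hε₁ hε₂ t ht
    have h2 := (abs_le.1 h1).1
    have h3 : (1 - κ) / 4 * ρmin ≤ (1 - κ) / 4 * ρ t :=
      mul_le_mul_of_nonneg_left (H.low t ht) (by linarith)
    linarith
  have h34 : ∀ t ∈ Icc α β, 3 / 4 * ρmin ≤ (1 - (1 - κ) / 4) * ρ t := by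
    intro t ht
    have h1 : 3 / 4 * ρmin ≤ (1 - (1 - κ) / 4) * ρmin :=
      mul_le_mul_of_nonneg_right (by linarith) hρm.le
    have h2 : (1 - (1 - κ) / 4) * ρmin ≤ (1 - (1 - κ) / 4) * ρ t :=
      mul_le_mul_of_nonneg_left (H.low t ht) (by linarith)
    linarith
  refine ⟨fun t ht => (h34 t ht).trans (hcd t ht), fun j => (h34 _ (H.x_mem j)).trans
    (hcd _ (H.x_mem j)), fun j => ?_⟩
  have hw : 0 < 1 - (1 - κ) / 4 := by linarith
  have hρpos : ∀ l, 0 < ρ (x l) := fun l => hρm.trans_le (H.low _ (H.x_mem l))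
  have h1 : ∀ l, |K (x j - x l)| / nw70D ξ K N x l ≤
      (1 - (1 - κ) / 4)⁻¹ * (|K (x j - x l)| / ρ (x l)) := by
    intro l
    have h2 : (1 - (1 - κ) / 4) * ρ (x l) ≤ nw70D ξ K N x l := hcd _ (H.x_mem l)
    calc |K (x j - x l)| / nw70D ξ K N x l ≤ |K (x j - x l)| / ((1 - (1 - κ) / 4) * ρ (x l)) :=
          div_le_div_of_nonneg_left (abs_nonneg _) (mul_pos hw (hρpos l)) h2
      _ = (1 - (1 - κ) / 4)⁻¹ * (|K (x j - x l)| / ρ (x l)) := by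
          rw [div_mul_eq_div_div_swap, inv_mul_eq_div]
  have h2 := nw70_row H Hy hLρ N ε hε₁ hε₂ (x j) (H.x_mem j)
  have h3 : N⁻¹ * ∑ l, |K (x j - x l)| / nw70D ξ K N x l ≤
      (1 - (1 - κ) / 4)⁻¹ * (N⁻¹ * ∑ l, |K (x j - x l)| / ρ (x l)) := by
    calc N⁻¹ * ∑ l, |K (x j - x l)| / nw70D ξ K N x l
        ≤ N⁻¹ * ∑ l, (1 - (1 - κ) / 4)⁻¹ * (|K (x j - x l)| / ρ (x l)) :=
          mul_le_mul_of_nonneg_left (Finset.sum_le_sum fun l _ => h1 l) (inv_pos.2 hN).le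
      _ = (1 - (1 - κ) / 4)⁻¹ * (N⁻¹ * ∑ l, |K (x j - x l)| / ρ (x l)) := by
          rw [← Finset.mul_sum]
          ring
  refine h3.trans ?_
  rw [inv_mul_le_iff₀ hw]
  have h4 : κ + (1 - κ) / 4 ≤ (1 - (1 - κ) / 4) * ((1 + κ) / 2) := by nlinarith
  linarith

theorem nw70c0_pos (hκ1 : κ < 1) (hρ : 0 < ρmin) : 0 < nw70c0 κ ρmin := by
  rw [nw70c0]
  have : 0 < 1 - κ := by linarith
  positivity

theorem nw70r0_pos (hκ1 : κ < 1) (hρ : 0 < ρmin) (hB₁ : 0 ≤ B₁) (hB₂ : 0 ≤ B₂) :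
    0 < nw70r0 κ ρmin B₁ B₂ := by
  rw [nw70r0]
  have := nw70c0_pos hκ1 hρ
  positivity

theorem nw70r0_mul_le (hκ1 : κ < 1) (hρ : 0 < ρmin) (hB₁ : 0 ≤ B₁) (hB₂ : 0 ≤ B₂) :
    (B₂ + 4 * B₁) * nw70r0 κ ρmin B₁ B₂ ≤ nw70c0 κ ρmin / 2 := by
  have h0 := nw70c0_pos hκ1 hρ
  rw [nw70r0, ← mul_div_assoc, div_le_iff₀ (by positivity)]
  nlinarith

/-- **Main theorem (block N / leaf B2a).**  Under three explicit smallness conditions on the error
scale `ε` (`ε ≥` the quadrature scale, the mismatch of the weights, and the mismatch of the levels)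
the Bethe map has exactly one zero in the ball of the `N`-independent radius `nw70r0` around the
mid-quantiles; it lies within `2 (B₀ + Θ₀ + 1) ε / c₀` of them, the Jacobian is bounded below on the
whole ball, and the zero is strictly increasing. -/
theorem nw70_main (H : Nw70Dens ρ α β ρmin N' n)
    (Hy : Nw70Hyp k θ ξ K ρ α β a₀ κ B₀ Θ₀ B₁ B₂ Lρ) (hLρ : 0 ≤ Lρ) (hκ0 : 0 ≤ κ) (hκ1 : κ < 1)
    (N ε : ℝ) (hN : 0 < N) (hnN : (n : ℝ) ≤ N)
    (hε₁ : 1 / (N' * ρmin) * (n / N') ≤ ε) (hε₂ : (n : ℝ) * |N'⁻¹ - N⁻¹| ≤ ε)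
    (a : Fin n → ℝ) (ha : ∀ j : Fin n, |a j - (a₀ + (((j : ℕ) : ℝ) + 1 / 2) / N')| ≤ ε)
    (hS1 : (B₁ + B₀) * ε ≤ (1 - κ) / 4 * ρmin)
    (hS2 : (B₁ / ρmin + B₀ * Lρ / ρmin ^ 2 + B₀ / ρmin) * ε ≤ (1 - κ) / 4)
    (hS3 : (B₀ + Θ₀ + 1) * ε ≤ nw70c0 κ ρmin * nw70r0 κ ρmin B₁ B₂ / 4) :
    ∃ y : Fin n → ℝ, nw70G k θ N a y = 0 ∧
      ‖y - nw70x ρ α β N' n‖ ≤ 2 * ((B₀ + Θ₀ + 1) * ε) / nw70c0 κ ρmin ∧
      ‖y - nw70x ρ α β N' n‖ ≤ nw70r0 κ ρmin B₁ B₂ / 2 ∧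
      (∀ y' ∈ closedBall (nw70x ρ α β N' n) (nw70r0 κ ρmin B₁ B₂),
        nw70G k θ N a y' = 0 → y' = y) ∧
      (∀ y' ∈ closedBall (nw70x ρ α β N' n) (nw70r0 κ ρmin B₁ B₂), ∀ v,
        nw70c0 κ ρmin / 2 * ‖v‖ ≤ ‖nw70A ξ K N y' v‖) ∧
      (StrictMono a → StrictMono y) := by
  set x := nw70x ρ α β N' n with hx
  set c₀ := nw70c0 κ ρmin with hc₀
  set r₀ := nw70r0 κ ρmin B₁ B₂ with hr₀
  have hρm := H.pos
  have hB₁ := Hy.B₁_nonneg
  have hB₂ := Hy.B₂_nonneg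
  have hc₀pos : 0 < c₀ := nw70c0_pos hκ1 hρm
  have hr₀pos : 0 < r₀ := nw70r0_pos hκ1 hρm hB₁ hB₂
  have hcr : (B₂ + 4 * B₁) * r₀ ≤ c₀ / 2 := nw70r0_mul_le hκ1 hρm hB₁ hB₂
  obtain ⟨hX, hD, hrow⟩ := nw70_data H Hy hLρ hκ0 hκ1 N ε hN hε₁ hε₂ hS1 hS2
  have hlow : ∀ v, c₀ * ‖v‖ ≤ ‖nw70A ξ K N x v‖ := by
    intro v
    have h := nw70_lower ξ K N hN x (3 / 4 * ρmin) ((1 + κ) / 2) (by positivity) hD hrow
      (by linarith) v
    have e : (1 - (1 + κ) / 2) * (3 / 4 * ρmin) = c₀ := by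
      rw [hc₀, nw70c0]
      ring
    rwa [e] at h
  have happ := nw70_approx k θ ξ K B₁ B₂ Hy.hk Hy.hθ Hy.hξ Hy.hK hB₁ N hN hnN a x r₀ hr₀pos.le
  have hres := nw70_resid H Hy N ε hε₁ hε₂ a ha
  have hcc : (B₂ + 4 * B₁) * r₀ < c₀ := by linarith
  have hgap : c₀ / 2 ≤ c₀ - (B₂ + 4 * B₁) * r₀ := by linarith
  have h0 : ‖nw70G k θ N a x‖ ≤ (c₀ - (B₂ + 4 * B₁) * r₀) * r₀ := by
    have h1 : c₀ / 2 * r₀ ≤ (c₀ - (B₂ + 4 * B₁) * r₀) * r₀ :=
      mul_le_mul_of_nonneg_right hgap hr₀pos.le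
    have h2 : 0 < c₀ * r₀ := mul_pos hc₀pos hr₀pos
    linarith
  obtain ⟨⟨y, hyb, hy0, hyd⟩, huniq⟩ := nw70_newton (nw70G k θ N a) (nw70A ξ K N x) x c₀
    ((B₂ + 4 * B₁) * r₀) r₀ (by positivity) hcc hlow happ h0
  have hyd' : ‖y - x‖ ≤ 2 * ((B₀ + Θ₀ + 1) * ε) / c₀ := by
    refine hyd.trans ?_
    rw [div_le_div_iff₀ (by linarith) hc₀pos]
    have h1 : 0 ≤ ‖nw70G k θ N a x‖ := norm_nonneg _
    calc ‖nw70G k θ N a x‖ * c₀ = 2 * ‖nw70G k θ N a x‖ * (c₀ / 2) := by ring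
      _ ≤ 2 * ‖nw70G k θ N a x‖ * (c₀ - (B₂ + 4 * B₁) * r₀) :=
          mul_le_mul_of_nonneg_left hgap (by positivity)
      _ ≤ 2 * ((B₀ + Θ₀ + 1) * ε) * (c₀ - (B₂ + 4 * B₁) * r₀) :=
          mul_le_mul_of_nonneg_right (by linarith) (by linarith)
  have hyr : ‖y - x‖ ≤ r₀ / 2 := by
    refine hyd'.trans ?_
    rw [div_le_iff₀ hc₀pos]
    linarith
  refine ⟨y, hy0, hyd', hyr, fun y' hy' h => huniq y' hy' y hyb h hy0, fun y' hy' v => ?_,
    fun hamono => ?_⟩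
  · have h2 := nw70A_diff ξ K B₁ B₂ Hy.hξ Hy.hK hB₁ N hN hnN x y' r₀ hr₀pos.le hy' v
    have h3 : ‖nw70A ξ K N x v‖ ≤ ‖nw70A ξ K N y' v‖ + ‖nw70A ξ K N y' v - nw70A ξ K N x v‖ := by
      have := norm_sub_le (nw70A ξ K N y' v) (nw70A ξ K N y' v - nw70A ξ K N x v)
      rwa [sub_sub_cancel] at this
    have h4 := hlow v
    have h5 : (B₂ + 4 * B₁) * r₀ * ‖v‖ ≤ c₀ / 2 * ‖v‖ :=
      mul_le_mul_of_nonneg_right hcr (norm_nonneg _)
    have e : c₀ * ‖v‖ = c₀ / 2 * ‖v‖ + c₀ / 2 * ‖v‖ := by ring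
    linarith
  · refine nw70_order k θ ξ K B₁ B₂ Hy.hk Hy.hθ Hy.hξ Hy.hK N hN hnN x y a α β (3 / 4 * ρmin)
      (r₀ / 2) H.le H.x_mem hX (fun j => ?_) (by positivity) ?_ hamono
      (fun j => congrFun hy0 j)
    · have := norm_le_pi_norm (y - x) j
      rw [Real.norm_eq_abs, Pi.sub_apply] at this
      exact this.trans hyr
    · have h1 : (B₂ + 2 * B₁) * (r₀ / 2) ≤ (B₂ + 4 * B₁) * r₀ := by nlinarith
      have h2 : c₀ ≤ 3 / 8 * ρmin := by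
        rw [hc₀, nw70c0]
        nlinarith
      linarith

end Layer6

/-! ## 7. Families: symmetric quantiles, closed graph, continuity of the centres and of the roots -/

section Layer7

/-- Closed graph principle: a locally bounded selection of the unique solution of a (sequentially)
closed relation is continuous. -/
theorem nw70_closed_graph {E : Type*} [MetricSpace E] (J : Set ℝ) (f : ℝ → E) (S : Set (ℝ × E))
    (h1 : ∀ t ∈ J, (t, f t) ∈ S) (h2 : ∀ t ∈ J, ∀ e, (t, e) ∈ S → e = f t)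
    (h3 : ∀ (u : ℕ → ℝ) (e : ℕ → E) (t : ℝ) (e' : E), (∀ m, u m ∈ J) → t ∈ J →
      (∀ m, (u m, e m) ∈ S) → Tendsto u atTop (𝓝 t) → Tendsto e atTop (𝓝 e') → (t, e') ∈ S)
    (h4 : ∀ t ∈ J, ∃ Kc : Set E, IsCompact Kc ∧ ∀ᶠ s in 𝓝[J] t, f s ∈ Kc) : ContinuousOn f J := by
  intro t ht
  refine tendsto_of_subseq_tendsto fun ns hns => ?_
  obtain ⟨Kc, hKc, hev⟩ := h4 t ht
  have hns' := tendsto_nhdsWithin_iff.1 hns
  have hev2 : ∀ᶠ m in atTop, ns m ∈ J ∧ f (ns m) ∈ Kc := hns'.2.and (hns.eventually hev)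
  obtain ⟨M, hM⟩ := eventually_atTop.1 hev2
  obtain ⟨a, _, φ, hφ, hlim⟩ := hKc.tendsto_subseq (x := fun m => f (ns (m + M)))
    (fun m => (hM (m + M) (Nat.le_add_left _ _)).2)
  refine ⟨fun m => φ m + M, ?_⟩
  have hu : Tendsto (fun m => ns (φ m + M)) atTop (𝓝 t) := by
    refine hns'.1.comp ?_
    exact tendsto_atTop_mono (fun m => Nat.le_add_right _ _) hφ.tendsto_atTop
  have hS := h3 (fun m => ns (φ m + M)) (fun m => f (ns (φ m + M))) t a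
    (fun m => (hM _ (Nat.le_add_left _ _)).1) ht
    (fun m => h1 _ (hM _ (Nat.le_add_left _ _)).1) hu hlim
  rw [← h2 t ht a hS]
  exact hlim

theorem nw70_seq_cont (J : Set ℝ) (F : ℝ × ℝ → ℝ) (hF : ContinuousOn F (J ×ˢ univ)) (u w : ℕ → ℝ)
    (t w' : ℝ) (hu : ∀ m, u m ∈ J) (ht : t ∈ J) (hut : Tendsto u atTop (𝓝 t))
    (hw : Tendsto w atTop (𝓝 w')) : Tendsto (fun m => F (u m, w m)) atTop (𝓝 (F (t, w'))) :=
  (hF (t, w') ⟨ht, trivial⟩).tendsto.comp (tendsto_nhdsWithin_iff.2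
    ⟨hut.prodMk_nhds hw, Filter.Eventually.of_forall fun m => ⟨hu m, trivial⟩⟩)

theorem nw70_seq_cont₁ (J : Set ℝ) (F : ℝ → ℝ) (hF : ContinuousOn F J) (u : ℕ → ℝ)
    (t : ℝ) (hu : ∀ m, u m ∈ J) (ht : t ∈ J) (hut : Tendsto u atTop (𝓝 t)) :
    Tendsto (fun m => F (u m)) atTop (𝓝 (F t)) :=
  (hF t ht).tendsto.comp (tendsto_nhdsWithin_iff.2 ⟨hut, Filter.Eventually.of_forall hu⟩)

variable {ρmin N : ℝ} {n : ℕ}

/-- The mid-quantiles of an even density on `[-Q, Q]` are symmetric. -/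
theorem Nw70Dens.x_symm {ρ : ℝ → ℝ} {Q : ℝ} (H : Nw70Dens ρ (-Q) Q ρmin N n)
    (hev : ∀ x, ρ (-x) = ρ x) (j : Fin n) :
    nw70x ρ (-Q) Q N n (Fin.rev j) = -nw70x ρ (-Q) Q N n j := by
  have hm := H.x_mem j
  have hm' : -nw70x ρ (-Q) Q N n j ∈ Icc (-Q) Q := ⟨by linarith [hm.2], by linarith [hm.1]⟩
  refine H.eq_of_int_eq (H.x_mem _) hm' ?_
  rw [H.x_int]
  have h1 : ∫ y in (-Q)..(-nw70x ρ (-Q) Q N n j), ρ y = ∫ y in nw70x ρ (-Q) Q N n j..Q, ρ y := by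
    have := intervalIntegral.integral_comp_neg (a := nw70x ρ (-Q) Q N n j) (b := Q) ρ
    rw [← this]
    exact intervalIntegral.integral_congr fun y _ => hev y
  rw [h1, H.int_sub hm H.memβ, H.mass, H.x_int, Fin.val_rev]
  have hj : (j : ℕ) + 1 ≤ n := j.2
  rw [Nat.cast_sub hj]
  push_cast
  ring

/-- For an even density, the primitive from `0`. -/
theorem Nw70Dens.int_zero {ρ : ℝ → ℝ} {Q : ℝ} (H : Nw70Dens ρ (-Q) Q ρmin N n)
    (hev : ∀ x, ρ (-x) = ρ x) {x : ℝ} (hx : x ∈ Icc (-Q) Q) :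
    ∫ y in (0 : ℝ)..x, ρ y = (∫ y in (-Q)..x, ρ y) - (n / N) / 2 := by
  have hQ : -Q ≤ Q := H.le
  have h0 : (0 : ℝ) ∈ Icc (-Q) Q := ⟨by linarith, by linarith⟩
  have h1 : ∫ y in (-Q)..(0 : ℝ), ρ y = ∫ y in (0 : ℝ)..Q, ρ y := by
    have := intervalIntegral.integral_comp_neg (a := (0 : ℝ)) (b := Q) ρ
    rw [neg_zero] at this
    rw [← this]
    exact intervalIntegral.integral_congr fun y _ => hev y
  have h2 : (∫ y in (-Q)..(0 : ℝ), ρ y) + ∫ y in (0 : ℝ)..Q, ρ y = n / N := by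
    rw [intervalIntegral.integral_add_adjacent_intervals (H.ii H.memα h0) (H.ii h0 H.memβ), H.mass]
  rw [H.int_sub h0 hx]
  linarith

/-- Continuity of the centres along a family of densities (closed graph; `F` is any jointly
continuous function which agrees with the primitive of `ρ t` on `[α t, β t]`). -/
theorem nw70_centres_cont (J : Set ℝ) (ρ : ℝ → ℝ → ℝ) (α β : ℝ → ℝ)
    (HD : ∀ t ∈ J, Nw70Dens (ρ t) (α t) (β t) ρmin N n) (hα : ContinuousOn α J)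
    (hβ : ContinuousOn β J) (F : ℝ × ℝ → ℝ) (hF : ContinuousOn F (J ×ˢ univ))
    (hFρ : ∀ t ∈ J, ∀ x ∈ Icc (α t) (β t), F (t, x) = ∫ y in α t..x, ρ t y) :
    ContinuousOn (fun t => nw70x (ρ t) (α t) (β t) N n) J := by
  rw [continuousOn_pi]
  intro j
  refine nw70_closed_graph J (fun t => nw70x (ρ t) (α t) (β t) N n j)
    {p | p.2 ∈ Icc (α p.1) (β p.1) ∧ F p = (((j : ℕ) : ℝ) + 1 / 2) / N} ?_ ?_ ?_ ?_
  · intro t ht
    refine ⟨(HD t ht).x_mem j, ?_⟩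
    rw [hFρ t ht _ ((HD t ht).x_mem j), (HD t ht).x_int]
  · intro t ht e he
    refine (HD t ht).eq_of_int_eq he.1 ((HD t ht).x_mem j) ?_
    rw [(HD t ht).x_int, ← hFρ t ht e he.1]
    exact he.2
  · intro u e t e' hu ht hS hut he
    have ha := nw70_seq_cont₁ J α hα u t hu ht hut
    have hb := nw70_seq_cont₁ J β hβ u t hu ht hut
    refine ⟨⟨le_of_tendsto_of_tendsto' ha he fun m => (hS m).1.1,
      le_of_tendsto_of_tendsto' he hb fun m => (hS m).1.2⟩, ?_⟩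
    have hlim := nw70_seq_cont J F hF u e t e' hu ht hut he
    have hconst : (fun m => F (u m, e m)) = fun _ => (((j : ℕ) : ℝ) + 1 / 2) / N :=
      funext fun m => (hS m).2
    rw [hconst] at hlim
    exact tendsto_nhds_unique hlim tendsto_const_nhds
  · intro t ht
    refine ⟨Icc (α t - 1) (β t + 1), isCompact_Icc, ?_⟩
    have ha : ∀ᶠ s in 𝓝[J] t, α t - 1 < α s := (hα t ht).eventually (lt_mem_nhds (by linarith))
    have hb : ∀ᶠ s in 𝓝[J] t, β s < β t + 1 := (hβ t ht).eventually (gt_mem_nhds (by linarith))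
    filter_upwards [ha, hb, self_mem_nhdsWithin] with s h1 h2 hs
    have := (HD s hs).x_mem j
    exact ⟨h1.le.trans this.1, this.2.trans h2.le⟩

/-- Continuity of the roots along a family (closed graph): the unique zero in a closed ball of fixed
radius around continuous centres depends continuously on the parameter. -/
theorem nw70_glue (J : Set ℝ) (k θ : ℝ → ℝ → ℝ) (a : Fin n → ℝ) (x₀ y : ℝ → Fin n → ℝ) (r₀ : ℝ)
    (hk : ContinuousOn (fun p : ℝ × ℝ => k p.1 p.2) (J ×ˢ univ))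
    (hθ : ContinuousOn (fun p : ℝ × ℝ => θ p.1 p.2) (J ×ˢ univ)) (hx₀ : ContinuousOn x₀ J)
    (hy : ∀ t ∈ J, nw70G (k t) (θ t) N a (y t) = 0 ∧ y t ∈ closedBall (x₀ t) r₀)
    (huniq : ∀ t ∈ J, ∀ y' ∈ closedBall (x₀ t) r₀, nw70G (k t) (θ t) N a y' = 0 → y' = y t) :
    ContinuousOn y J := by
  refine nw70_closed_graph J y
    {p | nw70G (k p.1) (θ p.1) N a p.2 = 0 ∧ p.2 ∈ closedBall (x₀ p.1) r₀} hy
    (fun t ht e he => huniq t ht e he.2 he.1) ?_ ?_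
  · intro u e t e' hu ht hS hut he
    have hej : ∀ j, Tendsto (fun m => e m j) atTop (𝓝 (e' j)) := fun j => (tendsto_pi_nhds.1 he) j
    have hx : Tendsto (fun m => x₀ (u m)) atTop (𝓝 (x₀ t)) :=
      (hx₀ t ht).tendsto.comp (tendsto_nhdsWithin_iff.2 ⟨hut, Filter.Eventually.of_forall hu⟩)
    constructor
    · funext j
      have h1 := nw70_seq_cont J _ hk u (fun m => e m j) t (e' j) hu ht hut (hej j)
      have h2 : Tendsto (fun m => ∑ l, θ (u m) (e m j - e m l)) atTop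
          (𝓝 (∑ l, θ t (e' j - e' l))) :=
        tendsto_finsetSum _ fun l _ =>
          nw70_seq_cont J _ hθ u (fun m => e m j - e m l) t (e' j - e' l) hu ht hut
            ((hej j).sub (hej l))
      have h3 : Tendsto (fun m => nw70G (k (u m)) (θ (u m)) N a (e m) j) atTop
          (𝓝 (nw70G (k t) (θ t) N a e' j)) := (h1.sub (h2.const_mul N⁻¹)).sub_const (a j)
      have hconst : (fun m => nw70G (k (u m)) (θ (u m)) N a (e m) j) = fun _ => (0 : ℝ) :=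
        funext fun m => congrFun (hS m).1 j
      rw [hconst] at h3
      exact tendsto_nhds_unique h3 tendsto_const_nhds
    · rw [mem_closedBall]
      exact le_of_tendsto' (he.dist hx) fun m => mem_closedBall.1 (hS m).2
  · intro t ht
    refine ⟨closedBall (x₀ t) (r₀ + 1), isCompact_closedBall _ _, ?_⟩
    have h1 : ∀ᶠ s in 𝓝[J] t, dist (x₀ s) (x₀ t) < 1 :=
      (hx₀ t ht).eventually (ball_mem_nhds _ one_pos)
    filter_upwards [h1, self_mem_nhdsWithin] with s hs1 hs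
    rw [mem_closedBall]
    have := mem_closedBall.1 (hy s hs).2
    linarith [dist_triangle (y s) (x₀ s) (x₀ t)]

/-- The Bethe levels `I_j / N`, `I_j = j - (n - 1) / 2`. -/
noncomputable def nw70lev (N : ℝ) (n : ℕ) : Fin n → ℝ :=
  fun j => (((j : ℕ) : ℝ) - ((n : ℝ) - 1) / 2) / N

theorem nw70lev_strictMono (hN : 0 < N) : StrictMono (nw70lev N n) := by
  intro i j hij
  rw [nw70lev, nw70lev]
  refine div_lt_div_of_pos_right ?_ hN
  have : ((i : ℕ) : ℝ) < ((j : ℕ) : ℝ) := by exact_mod_cast hij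
  linarith

theorem nw70lev_rev (j : Fin n) : nw70lev N n (Fin.rev j) = -nw70lev N n j := by
  rw [nw70lev, nw70lev, Fin.val_rev]
  have hj : (j : ℕ) + 1 ≤ n := j.2
  rw [Nat.cast_sub hj]
  push_cast
  ring

theorem nw70_mem_closedBall_iff (x y : Fin n → ℝ) (r : ℝ) (hr : 0 ≤ r) :
    y ∈ closedBall x r ↔ ∀ j, |y j - x j| ≤ r := by
  rw [mem_closedBall, dist_eq_norm, pi_norm_le_iff_of_nonneg hr]
  simp only [Pi.sub_apply, Real.norm_eq_abs]

/-- **Path form.**  A family `(k_t, θ_t, ρ_t, Q_t)`, `t ∈ J`, with uniform constants, exact filling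
`∫ ρ_t = n / N`, odd `k_t, θ_t`, even `ρ_t`, jointly continuous `k, θ`, primitive of `ρ`, continuous
`Q`: as soon as `1 / (N ρmin)` satisfies the three explicit smallness conditions there is a continuous
branch of symmetric, strictly increasing solutions of the logarithmic Bethe equations with injective
Jacobian, within `C / N` of the mid-quantiles. -/
theorem nw70_path (J : Set ℝ) (k θ ξ K ρ : ℝ → ℝ → ℝ) (Q : ℝ → ℝ)
    (κ B₀ Θ₀ B₁ B₂ Lρ : ℝ)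
    (HD : ∀ t ∈ J, Nw70Dens (ρ t) (-Q t) (Q t) ρmin N n)
    (HH : ∀ t ∈ J, Nw70Hyp (k t) (θ t) (ξ t) (K t) (ρ t) (-Q t) (Q t) (-((n / N) / 2))
      κ B₀ Θ₀ B₁ B₂ Lρ)
    (hLρ : 0 ≤ Lρ) (hκ0 : 0 ≤ κ) (hκ1 : κ < 1) (hnN : (n : ℝ) ≤ N)
    (hkodd : ∀ t ∈ J, ∀ x, k t (-x) = -k t x) (hθodd : ∀ t ∈ J, ∀ x, θ t (-x) = -θ t x)
    (hρev : ∀ t ∈ J, ∀ x, ρ t (-x) = ρ t x)
    (hkc : ContinuousOn (fun p : ℝ × ℝ => k p.1 p.2) (J ×ˢ univ))
    (hθc : ContinuousOn (fun p : ℝ × ℝ => θ p.1 p.2) (J ×ˢ univ))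
    (hQc : ContinuousOn Q J)
    (F : ℝ × ℝ → ℝ) (hF : ContinuousOn F (J ×ˢ univ))
    (hFρ : ∀ t ∈ J, ∀ x ∈ Icc (-Q t) (Q t), F (t, x) = ∫ y in (0 : ℝ)..x, ρ t y)
    (hS1 : (B₁ + B₀) * (1 / (N * ρmin)) ≤ (1 - κ) / 4 * ρmin)
    (hS2 : (B₁ / ρmin + B₀ * Lρ / ρmin ^ 2 + B₀ / ρmin) * (1 / (N * ρmin)) ≤ (1 - κ) / 4)
    (hS3 : (B₀ + Θ₀ + 1) * (1 / (N * ρmin)) ≤ nw70c0 κ ρmin * nw70r0 κ ρmin B₁ B₂ / 4) :
    ∃ y : ℝ → Fin n → ℝ,
      (∀ t ∈ J, ∀ j, k t (y t j) - N⁻¹ * ∑ l, θ t (y t j - y t l) = nw70lev N n j) ∧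
      ContinuousOn y J ∧
      (∀ t ∈ J, StrictMono (y t)) ∧
      (∀ t ∈ J, ∀ j, y t (Fin.rev j) = -y t j) ∧
      (∀ t ∈ J, ∀ v : Fin n → ℝ,
        (∀ j, ξ t (y t j) * v j - N⁻¹ * ∑ l, K t (y t j - y t l) * (v j - v l) = 0) → v = 0) ∧
      (∀ t ∈ J, ∀ j, |y t j - nw70x (ρ t) (-Q t) (Q t) N n j| ≤
        2 * ((B₀ + Θ₀ + 1) * (1 / (N * ρmin))) / nw70c0 κ ρmin) ∧
      (Even n → ∀ t ∈ J, ∀ j, y t j ≠ 0) := by
  set r₀ := nw70r0 κ ρmin B₁ B₂ with hr₀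
  set c₀ := nw70c0 κ ρmin with hc₀
  have hmain : ∀ t ∈ J, ∃ y : Fin n → ℝ, nw70G (k t) (θ t) N (nw70lev N n) y = 0 ∧
      ‖y - nw70x (ρ t) (-Q t) (Q t) N n‖ ≤ 2 * ((B₀ + Θ₀ + 1) * (1 / (N * ρmin))) / c₀ ∧
      ‖y - nw70x (ρ t) (-Q t) (Q t) N n‖ ≤ r₀ / 2 ∧
      (∀ y' ∈ closedBall (nw70x (ρ t) (-Q t) (Q t) N n) r₀,
        nw70G (k t) (θ t) N (nw70lev N n) y' = 0 → y' = y) ∧
      (∀ y' ∈ closedBall (nw70x (ρ t) (-Q t) (Q t) N n) r₀, ∀ v,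
        c₀ / 2 * ‖v‖ ≤ ‖nw70A (ξ t) (K t) N y' v‖) ∧
      (StrictMono (nw70lev N n) → StrictMono y) := by
    intro t ht
    have H := HD t ht
    have hN := H.Npos
    have hε0 : 0 ≤ 1 / (N * ρmin) := by
      have := H.pos
      positivity
    refine nw70_main H (HH t ht) hLρ hκ0 hκ1 N (1 / (N * ρmin)) hN hnN ?_ ?_ (nw70lev N n) ?_
      hS1 hS2 hS3
    · have : (n : ℝ) / N ≤ 1 := (div_le_one hN).2 hnN
      calc 1 / (N * ρmin) * (n / N) ≤ 1 / (N * ρmin) * 1 := mul_le_mul_of_nonneg_left this hε0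
        _ = 1 / (N * ρmin) := mul_one _
    · rw [sub_self, abs_zero, mul_zero]
      exact hε0
    · intro j
      have e : nw70lev N n j - (-((n / N) / 2) + (((j : ℕ) : ℝ) + 1 / 2) / N) = 0 := by
        rw [nw70lev]
        field_simp
        ring
      rw [e, abs_zero]
      exact hε0
  choose! y hy using hmain
  have hr₀pos : ∀ t ∈ J, 0 < r₀ := fun t ht =>
    nw70r0_pos hκ1 (HD t ht).pos (HH t ht).B₁_nonneg (HH t ht).B₂_nonneg
  have hc₀pos : ∀ t ∈ J, 0 < c₀ := fun t ht => nw70c0_pos hκ1 (HD t ht).pos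
  have hball : ∀ t ∈ J, y t ∈ closedBall (nw70x (ρ t) (-Q t) (Q t) N n) r₀ := by
    intro t ht
    rw [mem_closedBall, dist_eq_norm]
    have := hr₀pos t ht
    linarith [(hy t ht).2.2.1]
  have hmono : ∀ t ∈ J, StrictMono (y t) := fun t ht =>
    (hy t ht).2.2.2.2.2 (nw70lev_strictMono (HD t ht).Npos)
  have hsymm : ∀ t ∈ J, ∀ j, y t (Fin.rev j) = -y t j := by
    intro t ht j
    refine nw70_symm (k t) (θ t) (hkodd t ht) (hθodd t ht) N (nw70lev N n) (y t)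
      (nw70x (ρ t) (-Q t) (Q t) N n) r₀ nw70lev_rev ((HD t ht).x_symm (hρev t ht))
      (fun j => congrFun (hy t ht).1 j)
      ((nw70_mem_closedBall_iff _ _ _ (hr₀pos t ht).le).1 (hball t ht)) ?_ j
    intro y' hy'0 hy'b
    exact (hy t ht).2.2.2.1 y' ((nw70_mem_closedBall_iff _ _ _ (hr₀pos t ht).le).2 hy'b)
      (funext hy'0)
  refine ⟨y, ?_, ?_, hmono, hsymm, ?_, ?_, ?_⟩
  · intro t ht j
    have := congrFun (hy t ht).1 j
    rw [nw70G] at this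
    simp only [Pi.zero_apply] at this
    linarith
  · have hcen : ContinuousOn (fun t => nw70x (ρ t) (-Q t) (Q t) N n) J := by
      refine nw70_centres_cont J ρ (fun t => -Q t) Q HD hQc.neg hQc
        (fun p => F p + (n / N) / 2) (hF.add continuousOn_const) ?_
      intro t ht x hx
      rw [hFρ t ht x hx, (HD t ht).int_zero (hρev t ht) hx]
      ring
    exact nw70_glue J k θ (nw70lev N n) _ y r₀ hkc hθc hcen
      (fun t ht => ⟨(hy t ht).1, hball t ht⟩) (fun t ht => (hy t ht).2.2.2.1)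
  · intro t ht v hv
    have h1 := (hy t ht).2.2.2.2.1 (y t) (hball t ht) v
    have h2 : nw70A (ξ t) (K t) N (y t) v = 0 := by
      funext j
      rw [nw70A_apply]
      exact hv j
    rw [h2, norm_zero] at h1
    have h3 : ‖v‖ ≤ 0 := by
      by_contra h4
      rw [not_le] at h4
      have := mul_pos (half_pos (hc₀pos t ht)) h4
      linarith
    exact norm_le_zero_iff.1 h3
  · intro t ht j
    have := norm_le_pi_norm (y t - nw70x (ρ t) (-Q t) (Q t) N n) j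
    rw [Real.norm_eq_abs, Pi.sub_apply] at this
    exact this.trans (hy t ht).2.1
  · intro hn t ht j hj0
    have h1 := hsymm t ht j
    rw [hj0, neg_zero, ← hj0] at h1
    have h2 : Fin.rev j = j := (hmono t ht).injective h1
    have h3 : ((Fin.rev j : Fin n) : ℕ) = (j : ℕ) := by rw [h2]
    rw [Fin.val_rev] at h3
    obtain ⟨m, hm⟩ := hn
    have := j.2
    omega

end Layer7

end Claimed.Agent.R292
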