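import Claimed.Agent.R292.Bethe.PathT200
import Claimed.Agent.R292.Bethe.T1x150
import Claimed.Agent.R292.Bethe.Inst282

/-!
# Row 292 (S0540), unit BETHE, rope I: the contract (R2) `In282PathEx`      (helper200; prefix `pt200_`)

`pt200_pathEx : In282PathEx` : the path of densities of constant filling through `lam` and `π / 2`.
Inputs: `d1x202_path` (202: window, uniform monotonicity, uniform bounds), `pt200_rQ_lip_t` ((I1): Lipschitz in the parameter),
`d1x202_rQ_lip` (Lipschitz in `Q`), `ba230_dens`, `ba230_dens_unique`, `ba230_D_interval`, `ba230_Dq_lt` (230), `t1x150_main` (150).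
-/

set_option autoImplicit false

namespace Claimed.Agent.R292

open MeasureTheory Filter Topology Set

/-- abbreviation: the density at parameter `t` and Fermi point `q`. -/
noncomputable def pt200_r (t q : ℝ) : ℝ → ℝ := c1x150_rQ (ba230_ker (2 * t)) (ba230_ker t) q

/-- abbreviation: the filling at parameter `t` and Fermi point `q`. -/
noncomputable def pt200_D (t q : ℝ) : ℝ := c1x150_Dq (ba230_ker (2 * t)) (ba230_ker t) q

theorem pt200_lam_bounds {c : ℝ} (hc1 : 1 < c) (hc2 : c < 2) :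
    0 < bh271_lam c ∧ bh271_lam c < 2 * Real.pi / 3 := by
  have hpi := Real.pi_pos
  unfold bh271_lam
  constructor
  · have : 0 < Real.arccos (c / 2) := Real.arccos_pos.2 (by linarith)
    linarith
  · have h3 : Real.arccos (1 / 2) = Real.pi / 3 := by
      rw [← Real.cos_pi_div_three, Real.arccos_cos (by positivity) (by linarith)]
    have h4 : Real.arccos (c / 2) < Real.arccos (1 / 2) :=
      Real.strictAntiOn_arccos ⟨by norm_num, by norm_num⟩ ⟨by linarith, by linarith⟩ (by linarith)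
    rw [h3] at h4
    linarith

/-- the filling is Lipschitz in the parameter. -/
theorem pt200_D_lip_t {a b Qh Lt : ℝ} (ha : 0 < a) (hb : b < Real.pi)
    (hLt : ∀ t ∈ Icc a b, ∀ t' ∈ Icc a b, ∀ Q, 0 ≤ Q → Q ≤ Qh → ∀ u,
      |pt200_r t Q u - pt200_r t' Q u| ≤ Lt * |t - t'|)
    {t t' q : ℝ} (ht : t ∈ Icc a b) (ht' : t' ∈ Icc a b) (hq : 0 ≤ q) (hqh : q ≤ Qh) :
    |pt200_D t q - pt200_D t' q| ≤ Lt * |t - t'| * (2 * q) := by
  have H := d1x202_KerU ha hb ht
  have H' := d1x202_KerU ha hb ht'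
  have hi : IntegrableOn (pt200_r t q) (Icc (-q) q) :=
    (c1x150_rQ_continuous H q).continuousOn.integrableOn_Icc
  have hi' : IntegrableOn (pt200_r t' q) (Icc (-q) q) :=
    (c1x150_rQ_continuous H' q).continuousOn.integrableOn_Icc
  have e : pt200_D t q - pt200_D t' q = ∫ u in Icc (-q) q, (pt200_r t q u - pt200_r t' q u) := by
    rw [integral_sub hi hi']
    rfl
  rw [e]
  have h := norm_setIntegral_le_of_norm_le_const (μ := volume) (s := Icc (-q) q)
    (C := Lt * |t - t'|) (f := fun u => pt200_r t q u - pt200_r t' q u) measure_Icc_lt_top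
    (fun u _ => by rw [Real.norm_eq_abs]; exact hLt t ht t' ht' q hq hqh u)
  rw [Real.norm_eq_abs, Real.volume_real_Icc, max_eq_left (by linarith)] at h
  calc _ ≤ Lt * |t - t'| * (q - -q) := h
    _ = Lt * |t - t'| * (2 * q) := by ring

/-- **CONTRACT (R2).** -/
theorem pt200_pathEx : In282PathEx := by
  intro c Q r hc1 hc2 hQ hr
  have hpi := Real.pi_pos
  obtain ⟨h0, h1⟩ := pt200_lam_bounds hc1 hc2
  set lam := bh271_lam c with hlam
  -- `r` is the canonical density
  have hrQ : r = pt200_r lam Q := funext fun u => ba230_dens_unique h0 h1 hQ.le hr.cont hr.eq u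
  have hD : bh271_D Q r = pt200_D lam Q := by
    rw [hrQ]; exact ba230_D_interval hQ.le
  obtain ⟨-, T2, -, T4, -, -⟩ := t1x150_main h0 h1
  have hd1 : pt200_D lam Q < 1 / 2 := ba230_Dq_lt h0 h1 hQ.le
  have hd0 : 0 < pt200_D lam Q := by
    have := T4 (mem_Ici.2 le_rfl) (mem_Ici.2 hQ.le) hQ
    rw [T2] at this
    exact this
  rw [hD]
  refine ⟨hd1, ?_⟩
  set d := pt200_D lam Q with hd
  obtain ⟨a, b, Qlo, Qhi, c0, eta, hh, Cs, BK, ha0, ha1, hb1, hb2, hQlo, hQlh, hc0, heta, hh1, hall⟩ :=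
    d1x202_path h0 h1 hd0 hd1
  have hbpi : b < Real.pi := by linarith
  have halam : a < lam := lt_of_lt_of_le ha1 (min_le_left _ _)
  have hapi : a < Real.pi / 2 := lt_of_lt_of_le ha1 (min_le_right _ _)
  have hlamb : lam < b := lt_of_le_of_lt (le_max_left _ _) hb1
  have hpib : Real.pi / 2 < b := lt_of_le_of_lt (le_max_right _ _) hb1
  have hlmem : lam ∈ Icc a b := ⟨halam.le, hlamb.le⟩
  have hQhi0 : 0 < Qhi := hQlo.trans hQlh
  have h1h : 0 < 1 - hh := by linarith
  obtain ⟨Lt, hLt0, hLt⟩ := pt200_rQ_lip_t (a := a) (b := b) (Qh := Qhi) ha0 hbpi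
  -- strict monotonicity in the window
  have hincr : ∀ t ∈ Icc a b, ∀ Q1 Q2, 0 ≤ Q1 → Q1 ≤ Q2 → Q2 ≤ Qhi →
      c0 * (Q2 - Q1) ≤ pt200_D t Q2 - pt200_D t Q1 := fun t ht => (hall t ht).2.2.2.2.2.2
  have hinj : ∀ t ∈ Icc a b, ∀ q q', 0 ≤ q → q ≤ Qhi → 0 ≤ q' → q' ≤ Qhi →
      c0 * |q - q'| ≤ |pt200_D t q - pt200_D t q'| := by
    intro t ht q q' hq hqh hq' hqh'
    rcases le_total q q' with h | h
    · have := hincr t ht q q' hq h hqh'
      rw [abs_sub_comm q q', abs_of_nonneg (by linarith : 0 ≤ q' - q), abs_sub_comm]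
      exact this.trans (le_abs_self _)
    · have := hincr t ht q' q hq' h hqh
      rw [abs_of_nonneg (by linarith : 0 ≤ q - q')]
      exact this.trans (le_abs_self _)
  -- the Fermi point by the intermediate value theorem
  have hex : ∀ t, ∃ q, t ∈ Icc a b → q ∈ Icc Qlo Qhi ∧ pt200_D t q = d := by
    intro t
    by_cases ht : t ∈ Icc a b
    · obtain ⟨H, -, hlo, hhi, -⟩ := hall t ht
      have hc : ContinuousOn (pt200_D t) (Icc Qlo Qhi) :=
        (c1x150_Dq_continuousOn H).mono fun x hx => mem_Ici.2 (hQlo.le.trans hx.1)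
      have hmem : d ∈ Icc (pt200_D t Qlo) (pt200_D t Qhi) :=
        ⟨by have : pt200_D t Qlo ≤ d - eta := hlo
            linarith,
         by have : d + eta ≤ pt200_D t Qhi := hhi
            linarith⟩
      obtain ⟨q, hq, hqd⟩ := intermediate_value_Icc hQlh.le hc hmem
      exact ⟨q, fun _ => ⟨hq, hqd⟩⟩
    · exact ⟨0, fun h => absurd h ht⟩
  choose Qp hQp using hex
  have hQp0 : ∀ t ∈ Icc a b, 0 ≤ Qp t := fun t ht => hQlo.le.trans (hQp t ht).1.1
  -- `Qp lam = Q`
  have hQlt : Q ≤ Qhi := by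
    by_contra hcon
    have h2 : Qhi < Q := not_le.1 hcon
    have h3 := T4 (mem_Ici.2 hQhi0.le) (mem_Ici.2 hQ.le) h2
    have h4 : d + eta ≤ pt200_D lam Qhi := (hall lam hlmem).2.2.2.1
    have h5 : pt200_D lam Qhi < d := h3
    linarith
  have hQpl : Qp lam = Q := by
    have h2 := hinj lam hlmem (Qp lam) Q (hQp0 lam hlmem) (hQp lam hlmem).1.2 hQ.le hQlt
    rw [(hQp lam hlmem).2, sub_self, abs_zero] at h2
    have h3 : |Qp lam - Q| ≤ 0 := by
      by_contra hcon
      have := mul_pos hc0 (not_le.1 hcon)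
      linarith
    have h4 := abs_nonpos_iff.1 h3
    linarith
  -- `Qp` is Lipschitz
  have hQplip : ∀ t ∈ Icc a b, ∀ t' ∈ Icc a b, c0 * |Qp t - Qp t'| ≤ Lt * |t - t'| * (2 * Qhi) := by
    intro t ht t' ht'
    have h2 := hinj t' ht' (Qp t) (Qp t') (hQp0 t ht) (hQp t ht).1.2 (hQp0 t' ht') (hQp t' ht').1.2
    rw [(hQp t' ht').2, ← (hQp t ht).2, abs_sub_comm (pt200_D t' (Qp t))] at h2
    have h3 := pt200_D_lip_t ha0 hbpi hLt ht ht' (hQp0 t ht) (hQp t ht).1.2
    have h4 : Lt * |t - t'| * (2 * Qp t) ≤ Lt * |t - t'| * (2 * Qhi) :=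
      mul_le_mul_of_nonneg_left (by linarith [(hQp t ht).1.2]) (by positivity)
    linarith
  -- the densities are Lipschitz in `t`, uniformly in `u`
  set Lr : ℝ := 2 * BK * (Cs / (1 - hh)) / (1 - hh) with hLr
  have hBK0 : 0 ≤ BK := (abs_nonneg _).trans ((hall lam hlmem).2.1 0)
  have hB0 : 0 ≤ Cs / (1 - hh) := c1x150_bound_nonneg (hall lam hlmem).1
  have hLr0 : 0 ≤ Lr := by rw [hLr]; positivity
  have hrq : ∀ t ∈ Icc a b, ∀ q q', 0 ≤ q → 0 ≤ q' → ∀ u,
      |pt200_r t q u - pt200_r t q' u| ≤ Lr * |q - q'| := by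
    intro t ht q q' hq hq' u
    obtain ⟨H, hK, -⟩ := hall t ht
    rcases le_total q q' with h | h
    · have := d1x202_rQ_lip H hK hq h u
      rw [abs_sub_comm, abs_sub_comm q q', abs_of_nonneg (by linarith : 0 ≤ q' - q)]
      calc _ ≤ 2 * BK * (Cs / (1 - hh)) * (q' - q) / (1 - hh) := this
        _ = Lr * (q' - q) := by rw [hLr]; ring
    · have := d1x202_rQ_lip H hK hq' h u
      rw [abs_of_nonneg (by linarith : 0 ≤ q - q')]
      calc _ ≤ 2 * BK * (Cs / (1 - hh)) * (q - q') / (1 - hh) := this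
        _ = Lr * (q - q') := by rw [hLr]; ring
  set A : ℝ := Lt + Lr * (Lt * (2 * Qhi) / c0) with hA
  have hA0 : 0 ≤ A := by rw [hA]; positivity
  have hrp : ∀ t ∈ Icc a b, ∀ t' ∈ Icc a b, ∀ u,
      |pt200_r t (Qp t) u - pt200_r t' (Qp t') u| ≤ A * |t - t'| := by
    intro t ht t' ht' u
    have h2 := hLt t ht t' ht' (Qp t) (hQp0 t ht) (hQp t ht).1.2 u
    have h3 := hrq t' ht' (Qp t) (Qp t') (hQp0 t ht) (hQp0 t' ht') u
    have h4 : |Qp t - Qp t'| ≤ Lt * (2 * Qhi) / c0 * |t - t'| := by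
      have := hQplip t ht t' ht'
      rw [div_mul_eq_mul_div, le_div_iff₀ hc0]
      linarith
    have h5 : Lr * |Qp t - Qp t'| ≤ Lr * (Lt * (2 * Qhi) / c0 * |t - t'|) :=
      mul_le_mul_of_nonneg_left h4 hLr0
    have tri := abs_sub_le (pt200_r t (Qp t) u) (pt200_r t' (Qp t) u) (pt200_r t' (Qp t') u)
    calc _ ≤ _ := tri
      _ ≤ Lt * |t - t'| + Lr * (Lt * (2 * Qhi) / c0 * |t - t'|) := add_le_add h2 (h3.trans h5)
      _ = A * |t - t'| := by rw [hA]; ring
  have htb : ∀ t ∈ Icc a b, 0 < t ∧ t < 2 * Real.pi / 3 := fun t ht =>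
    ⟨lt_of_lt_of_le ha0 ht.1, lt_of_le_of_lt ht.2 hb2⟩
  refine ⟨a, b, Qlo, c0, Cs / (1 - hh), Qp, fun t => pt200_r t (Qp t), ha0, hbpi, halam, hapi, hlamb,
    hpib, hQlo, hc0, ?_, ?_, hQpl, ?_⟩
  · have h2 := (hall lam hlmem).2.2.2.2.1 Q 0 (by rw [abs_zero]; exact hQhi0.le)
    have h3 := (hall lam hlmem).2.2.2.2.2.1 Q 0
    exact h2.trans ((le_abs_self _).trans h3)
  · refine ⟨?_, ?_, ?_, ?_, ?_, ?_⟩
    · intro t ht
      obtain ⟨g1, g2, g3, g4⟩ := ba230_dens (htb t ht).1 (htb t ht).2 (hQp0 t ht)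
      exact ⟨g1, g2, g3, g4⟩
    · intro t ht
      have : bh271_D (Qp t) (pt200_r t (Qp t)) = pt200_D t (Qp t) := ba230_D_interval (hQp0 t ht)
      rw [this, (hQp t ht).2]
    · intro t ht
      exact (hQp t ht).1.1
    · intro t ht x hx
      exact (hall t ht).2.2.2.2.1 (Qp t) x
        (abs_le.2 ⟨by linarith [hx.1, (hQp t ht).1.2], by linarith [hx.2, (hQp t ht).1.2]⟩)
    · intro t ht x _
      exact (le_abs_self _).trans ((hall t ht).2.2.2.2.2.1 (Qp t) x)
    · intro x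
      have hlip : LipschitzOnWith ⟨A * |x|, by positivity⟩
          (fun t => ∫ u in (0 : ℝ)..x, pt200_r t (Qp t) u) (Icc a b) := by
        refine LipschitzOnWith.of_dist_le_mul fun t ht t' ht' => ?_
        rw [Real.dist_eq, Real.dist_eq]
        show _ ≤ A * |x| * |t - t'|
        have hc : Continuous (pt200_r t (Qp t)) := c1x150_rQ_continuous (hall t ht).1 _
        have hc' : Continuous (pt200_r t' (Qp t')) := c1x150_rQ_continuous (hall t' ht').1 _
        rw [← intervalIntegral.integral_sub (hc.intervalIntegrable _ _) (hc'.intervalIntegrable _ _)]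
        have := intervalIntegral.norm_integral_le_of_norm_le_const (a := (0 : ℝ)) (b := x)
          (C := A * |t - t'|) (f := fun u => pt200_r t (Qp t) u - pt200_r t' (Qp t') u)
          (fun u _ => by rw [Real.norm_eq_abs]; exact hrp t ht t' ht' u)
        rw [Real.norm_eq_abs, sub_zero] at this
        calc _ ≤ A * |t - t'| * |x| := this
          _ = A * |x| * |t - t'| := by ring
      exact hlip.continuousOn
  · show pt200_r lam (Qp lam) = r
    rw [hQpl, hrQ]

end Claimed.Agent.R292
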