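import Claimed.Agent.R292.Bethe.D1x202

/-!
# Row 292 (S0540), unit BETHE, rope I, leaf (I1) of 202      (helper200; prefix `pt200_`)

* `pt200_ker_lip`  : `|ker x u - ker x' u| ≤ (1/m + 2/m²)/π |x - x'|` when `m ≤ 1 - cos x, 1 - cos x'`;
* `pt200_rQ_lip_t` : (I1) the density `r_{t,Q}` is Lipschitz in the parameter `t ∈ [a,b] ⊂ (0,π)`, uniformly in `u` and in `Q ∈ [0,Qh]`.
-/

set_option autoImplicit false

namespace Claimed.Agent.R292

open MeasureTheory Filter Topology Set

/-- the kernel is Lipschitz in the parameter, uniformly in `u`. -/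
theorem pt200_ker_lip {x x' m : ℝ} (hm0 : 0 < m) (hm : m ≤ 1 - Real.cos x) (hm' : m ≤ 1 - Real.cos x')
    (u : ℝ) : |ba230_ker x u - ba230_ker x' u| ≤ (1 / m + 2 / m ^ 2) / Real.pi * |x - x'| := by
  have hpi := Real.pi_pos
  set c := Real.cosh (2 * u) with hc
  have hc1 : 1 ≤ c := Real.one_le_cosh _
  set d := c - Real.cos x with hd
  set d' := c - Real.cos x' with hd'
  have hdm : m ≤ d := by rw [hd]; linarith
  have hdm' : m ≤ d' := by rw [hd']; linarith
  have hd0 : 0 < d := hm0.trans_le hdm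
  have hd0' : 0 < d' := hm0.trans_le hdm'
  have e : ba230_ker x u - ba230_ker x' u
      = (c * (Real.sin x - Real.sin x') - Real.sin (x - x')) / (Real.pi * (d * d')) := by
    unfold ba230_ker
    rw [← hc, ← hd, ← hd', Real.sin_sub, div_sub_div _ _ (by positivity) (by positivity),
      div_eq_div_iff (by positivity) (by positivity)]
    rw [hd, hd']
    ring
  have hnum : |c * (Real.sin x - Real.sin x') - Real.sin (x - x')| ≤ (d + 2) * |x - x'| := by
    have h1 := Real.abs_sin_sub_sin_le x x'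
    have h2 : |Real.sin (x - x')| ≤ |x - x'| := by
      have := Real.abs_sin_sub_sin_le (x - x') 0
      simpa using this
    have h3 : |c * (Real.sin x - Real.sin x')| ≤ c * |x - x'| := by
      rw [abs_mul, abs_of_pos (by linarith : 0 < c)]
      exact mul_le_mul_of_nonneg_left h1 (by linarith)
    have h4 : c + 1 ≤ d + 2 := by rw [hd]; linarith [Real.neg_one_le_cos x]
    calc |c * (Real.sin x - Real.sin x') - Real.sin (x - x')|
        ≤ c * |x - x'| + |x - x'| := (abs_sub _ _).trans (add_le_add h3 h2)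
      _ = (c + 1) * |x - x'| := by ring
      _ ≤ (d + 2) * |x - x'| := mul_le_mul_of_nonneg_right h4 (abs_nonneg _)
  have hfrac : (d + 2) / (d * d') ≤ 1 / m + 2 / m ^ 2 := by
    have e2 : (d + 2) / (d * d') = 1 / d' + 2 / (d * d') := by field_simp
    rw [e2]
    refine add_le_add (one_div_le_one_div_of_le hm0 hdm') ?_
    refine div_le_div_of_nonneg_left (by norm_num) (by positivity) ?_
    rw [sq]
    exact mul_le_mul hdm hdm' hm0.le hd0.le
  rw [e, abs_div, abs_of_pos (by positivity : 0 < Real.pi * (d * d'))]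
  calc |c * (Real.sin x - Real.sin x') - Real.sin (x - x')| / (Real.pi * (d * d'))
      ≤ (d + 2) * |x - x'| / (Real.pi * (d * d')) := by gcongr
    _ = (d + 2) / (d * d') / Real.pi * |x - x'| := by field_simp
    _ ≤ (1 / m + 2 / m ^ 2) / Real.pi * |x - x'| := by gcongr

/-- **(I1)** -/
theorem pt200_rQ_lip_t {a b Qh : ℝ} (ha : 0 < a) (hb : b < Real.pi) :
    ∃ Lt : ℝ, 0 ≤ Lt ∧ ∀ t ∈ Icc a b, ∀ t' ∈ Icc a b, ∀ Q, 0 ≤ Q → Q ≤ Qh → ∀ u,
      |c1x150_rQ (ba230_ker (2 * t)) (ba230_ker t) Q u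
        - c1x150_rQ (ba230_ker (2 * t')) (ba230_ker t') Q u| ≤ Lt * |t - t'| := by
  have hpi := Real.pi_pos
  rcases lt_or_ge b a with hab | hab
  · exact ⟨0, le_rfl, fun t ht => absurd (ht.1.trans ht.2) (not_le.2 hab)⟩
  -- the constants
  have hca : Real.cos a < 1 := by
    have := Real.cos_lt_cos_of_nonneg_of_le_pi (x := 0) (y := a) le_rfl (by linarith) ha
    simpa using this
  set ms : ℝ := 1 - Real.cos a with hms
  have hms0 : 0 < ms := by rw [hms]; linarith
  have hσ := d1x202_sin_min_pos ha hab hb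
  set mK : ℝ := 2 * (min (Real.sin a) (Real.sin b)) ^ 2 with hmK
  have hmK0 : 0 < mK := by rw [hmK]; positivity
  set Ls : ℝ := (1 / ms + 2 / ms ^ 2) / Real.pi with hLs
  set LK : ℝ := (1 / mK + 2 / mK ^ 2) / Real.pi with hLK
  have hLs0 : 0 ≤ Ls := by rw [hLs]; positivity
  have hLK0 : 0 ≤ LK := by rw [hLK]; positivity
  set hh := d1x202_hh a b with hhh
  have hh1 : hh < 1 := d1x202_hh_lt ha hb
  have h1h : 0 < 1 - hh := by linarith
  set B : ℝ := d1x202_Cs a / (1 - hh) with hB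
  have hmem : a ∈ Icc a b := ⟨le_rfl, hab⟩
  have hB0 : 0 ≤ B := c1x150_bound_nonneg (d1x202_KerU ha hb hmem)
  refine ⟨(Ls + 2 * LK * B * (2 * |Qh|)) / (1 - hh), by positivity, ?_⟩
  intro t ht t' ht' Q hQ hQh u
  have H := d1x202_KerU ha hb ht
  have H' := d1x202_KerU ha hb ht'
  have hsm : ∀ τ ∈ Icc a b, ms ≤ 1 - Real.cos τ := by
    intro τ hτ
    have := Real.cos_le_cos_of_nonneg_of_le_pi ha.le (by linarith [hτ.2]) hτ.1
    rw [hms]; linarith
  have hKm : ∀ τ ∈ Icc a b, mK ≤ 1 - Real.cos (2 * τ) := by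
    intro τ hτ
    have h1 := d1x202_sin_ge ha hb hτ
    have h2 : 1 - Real.cos (2 * τ) = 2 * Real.sin τ ^ 2 := by
      rw [Real.cos_two_mul, Real.sin_sq]; ring
    rw [h2, hmK]
    have := pow_le_pow_left₀ hσ.le h1 2
    linarith
  set A : Set ℝ := Icc (-Q) Q with hA
  set r := c1x150_rQ (ba230_ker (2 * t)) (ba230_ker t) Q with hr
  set r' := c1x150_rQ (ba230_ker (2 * t')) (ba230_ker t') Q with hr'
  have hrm : Measurable r := (c1x150_rQ_continuous H Q).measurable
  have hrm' : Measurable r' := (c1x150_rQ_continuous H' Q).measurable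
  have hrb : ∀ v ∈ A, |r v| ≤ B := fun v _ => c1x150_rQ_bdd H Q v
  have hrb' : ∀ v ∈ A, |r' v| ≤ B := fun v _ => c1x150_rQ_bdd H' Q v
  have hvol : volume.real A = 2 * Q := by
    rw [hA, Real.volume_real_Icc, max_eq_left (by linarith)]; ring
  have hQabs : Q ≤ |Qh| := hQh.trans (le_abs_self _)
  have hdK : ∀ w, |ba230_ker (2 * t) w - ba230_ker (2 * t') w| ≤ 2 * LK * |t - t'| := by
    intro w
    have := pt200_ker_lip hmK0 (hKm t ht) (hKm t' ht') w
    have e : |2 * t - 2 * t'| = 2 * |t - t'| := by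
      rw [← mul_sub, abs_mul, abs_of_pos (two_pos : (0 : ℝ) < 2)]
    rw [e] at this
    calc _ ≤ LK * (2 * |t - t'|) := this
      _ = 2 * LK * |t - t'| := by ring
  have hmain := d1x202_sup (K := ba230_ker (2 * t)) (F := fun v => r v - r' v)
    (f := fun v => (ba230_ker t v - ba230_ker t' v)
      - c1x150_op (fun w => ba230_ker (2 * t) w - ba230_ker (2 * t') w) A r' v)
    H.K_int H.K_norm H.h_lt (A := A) measurableSet_Icc (M := B + B) (by positivity)
    (fun v hv => (abs_sub _ _).trans (add_le_add (hrb v hv) (hrb' v hv)))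
    (C := (Ls + 2 * LK * B * (2 * |Qh|)) * |t - t'|) ?_ ?_ u
  · calc |r u - r' u| ≤ (Ls + 2 * LK * B * (2 * |Qh|)) * |t - t'| / (1 - hh) := hmain
      _ = (Ls + 2 * LK * B * (2 * |Qh|)) / (1 - hh) * |t - t'| := by ring
  · intro v
    have h1 := pt200_ker_lip hms0 (hsm t ht) (hsm t' ht') v
    have h2 := d1x202_op_small (K := fun w => ba230_ker (2 * t) w - ba230_ker (2 * t') w) (F := r')
      (D := A) hdK hrb' (by rw [hA]; exact measure_Icc_lt_top) v
    rw [hvol] at h2
    have h3 : 2 * LK * |t - t'| * B * (2 * Q) ≤ 2 * LK * |t - t'| * B * (2 * |Qh|) := by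
      have : 0 ≤ 2 * LK * |t - t'| * B := by positivity
      exact mul_le_mul_of_nonneg_left (by linarith) this
    calc _ ≤ |ba230_ker t v - ba230_ker t' v|
          + |c1x150_op (fun w => ba230_ker (2 * t) w - ba230_ker (2 * t') w) A r' v| := abs_sub _ _
      _ ≤ Ls * |t - t'| + 2 * LK * |t - t'| * B * (2 * |Qh|) := add_le_add h1 (h2.trans h3)
      _ = (Ls + 2 * LK * B * (2 * |Qh|)) * |t - t'| := by ring
  · intro v
    rw [c1x150_op_sub H.K_int measurableSet_Icc hrm hrm' hB0 hB0 hrb hrb',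
      c1x150_op_ker_sub H.K_int H'.K_int measurableSet_Icc hrm' hB0 hrb']
    have e1 := c1x150_rQ_eq H Q v
    have e2 := c1x150_rQ_eq H' Q v
    linarith

end Claimed.Agent.R292
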