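import Claimed.Agent.R292.Bethe.Four230

/-!
# Row 292, unit BETHE, block B2: the three Fourier facts consumed by `ba3x80_roots_pos` (helper170, prefix `psd170_`)

* `psd170_repr` : `ba230_ker a u = ∫ G ξ cos (2 π ξ u) dξ` with `G ≥ 0` integrable (`0 < a ≤ π`)   (Fourier inversion).
* `psd170_ker`  : **Bochner**: `0 ≤ ∑ j, ∑ k, ba230_ker a (y j - y k) * v j * v k`.
* `psd170_res`, `psd170_rinf` : the resolvent identities of 230 in the shape of 80.
-/

set_option autoImplicit false
open MeasureTheory Filter Topology Set Complex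
open scoped FourierTransform

namespace Claimed.Agent.R292

lemma psd170_sinh_le {α β x : ℝ} (hαβ : α ≤ β) (hx : 0 ≤ x) :
    Real.sinh (α * x) ≤ Real.exp (-((β - α) * x)) * Real.sinh (β * x) := by
  rw [Real.sinh_eq, Real.sinh_eq]
  have e1 : Real.exp (-((β - α) * x)) * ((Real.exp (β * x) - Real.exp (-(β * x))) / 2)
      = (Real.exp (α * x) - Real.exp (-((2 * β - α) * x))) / 2 := by
    rw [mul_div_assoc', mul_sub, ← Real.exp_add, ← Real.exp_add]
    congr 3 <;> ring
  rw [e1]
  have : Real.exp (-((2 * β - α) * x)) ≤ Real.exp (-(α * x)) := by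
    apply Real.exp_le_exp.2
    nlinarith
  linarith

lemma psd170_symbol {a : ℝ} (h0 : 0 < a) (h1 : a ≤ Real.pi) (w : ℝ) :
    ∃ g : ℝ, 0 ≤ g ∧ g ≤ Real.exp (-(a / 2) * |w|) ∧ ba230_ft (ba230_ker a) w = ((g : ℝ) : ℂ) := by
  have hpi := Real.pi_pos
  have h1' : a < 2 * Real.pi := by linarith
  rcases eq_or_ne w 0 with rfl | hw
  · refine ⟨1 - a / Real.pi, ?_, ?_, ?_⟩
    · rw [sub_nonneg, div_le_one hpi]; exact h1
    · simp only [abs_zero, mul_zero, Real.exp_zero]
      have : 0 < a / Real.pi := by positivity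
      linarith
    · rw [ba230_ft_zero_eq, ba230_ker_integral h0 h1']
  · have hx : 0 < |w| := abs_pos.2 hw
    have hS : 0 < Real.sinh (Real.pi / 2 * |w|) := Real.sinh_pos_iff.2 (by positivity)
    have hT : 0 ≤ Real.sinh ((Real.pi - a) / 2 * |w|) :=
      Real.sinh_nonneg_iff.2 (mul_nonneg (by linarith) hx.le)
    refine ⟨Real.sinh ((Real.pi - a) / 2 * |w|) / Real.sinh (Real.pi / 2 * |w|), by positivity, ?_, ?_⟩
    · rw [div_le_iff₀ hS]
      have := psd170_sinh_le (α := (Real.pi - a) / 2) (β := Real.pi / 2) (x := |w|) (by linarith) hx.le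
      have e : -((Real.pi / 2 - (Real.pi - a) / 2) * |w|) = -(a / 2) * |w| := by ring
      rwa [e] at this
    · have h := ba230_ft_ker h0 h1' w
      have hSw : Real.sinh (Real.pi * w / 2) ≠ 0 := by
        rw [Ne, Real.sinh_eq_zero]
        have : Real.pi * w ≠ 0 := mul_ne_zero hpi.ne' hw
        intro h'
        apply this
        linarith
      have hSw' : ((Real.sinh (Real.pi * w / 2) : ℝ) : ℂ) ≠ 0 := by exact_mod_cast hSw
      have e : ba230_ft (ba230_ker a) w
          = ((Real.sinh ((Real.pi - a) * w / 2) / Real.sinh (Real.pi * w / 2) : ℝ) : ℂ) := by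
        rw [Complex.ofReal_div, eq_div_iff hSw', mul_comm]
        exact h
      rw [e]
      congr 1
      rcases lt_or_gt_of_ne hw with hneg | hpos
      · rw [abs_of_neg hneg]
        have e1 : (Real.pi - a) / 2 * -w = -((Real.pi - a) * w / 2) := by ring
        have e2 : Real.pi / 2 * -w = -(Real.pi * w / 2) := by ring
        rw [e1, e2, Real.sinh_neg, Real.sinh_neg, neg_div_neg_eq]
      · rw [abs_of_pos hpos]
        have e1 : (Real.pi - a) / 2 * w = ((Real.pi - a) * w / 2) := by ring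
        have e2 : Real.pi / 2 * w = (Real.pi * w / 2) := by ring
        rw [e1, e2]

/-- **Fourier inversion** for the kernel: a positive mixture of cosines. -/
theorem psd170_repr {a : ℝ} (h0 : 0 < a) (h1 : a ≤ Real.pi) :
    ∃ G : ℝ → ℝ, (∀ ξ, 0 ≤ G ξ) ∧ Integrable G ∧
      ∀ u, ba230_ker a u = ∫ ξ, G ξ * Real.cos (2 * Real.pi * ξ * u) := by
  have hpi := Real.pi_pos
  have h1' : a < 2 * Real.pi := by linarith
  choose g hg0 hgle hg using psd170_symbol h0 h1
  set f : ℝ → ℂ := fun u => ((ba230_ker a u : ℝ) : ℂ) with hf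
  have hfi : Integrable f := (ba230_ker_integrable h0 h1').ofReal
  have hfc : Continuous f := Complex.continuous_ofReal.comp (ba230_ker_continuous h0 h1')
  have hF : ∀ ξ : ℝ, 𝓕 f ξ = ((g (-(2 * Real.pi * ξ)) : ℝ) : ℂ) := by
    intro ξ
    have e : -(-(2 * Real.pi * ξ) / (2 * Real.pi)) = ξ := by field_simp
    rw [← hg, ba230_ft_eq_fourier, e]
  set G : ℝ → ℝ := fun ξ => g (-(2 * Real.pi * ξ)) with hG
  have hFc : Continuous (fun ξ : ℝ => ((G ξ : ℝ) : ℂ)) := by
    have : (fun ξ : ℝ => ((G ξ : ℝ) : ℂ)) = fun ξ : ℝ => ba230_ft (ba230_ker a) (-(2 * Real.pi * ξ)) := by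
      funext ξ
      rw [hg]
    rw [this]
    exact (ba230_ft_continuous (ba230_ker_integrable h0 h1')).comp (by fun_prop)
  have hGc : Continuous G := by
    have : G = fun ξ => (((G ξ : ℝ) : ℂ)).re := by funext ξ; simp
    rw [this]
    exact Complex.continuous_re.comp hFc
  have hGi : Integrable G := by
    refine Integrable.mono' (ba230_integrable_exp_abs (κ := a * Real.pi) (by positivity))
      hGc.aestronglyMeasurable (Eventually.of_forall fun ξ => ?_)
    rw [Real.norm_eq_abs, abs_of_nonneg (hg0 _)]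
    refine (hgle _).trans (le_of_eq ?_)
    congr 1
    rw [abs_neg, abs_mul, abs_of_pos (by positivity : (0:ℝ) < 2 * Real.pi)]
    ring
  have hFi : Integrable (𝓕 f) := by
    have : 𝓕 f = fun ξ => ((G ξ : ℝ) : ℂ) := funext hF
    rw [this]
    exact hGi.ofReal
  refine ⟨G, fun ξ => hg0 _, hGi, fun u => ?_⟩
  have hinv := hfi.fourierInv_fourier_eq hFi (v := u) hfc.continuousAt
  rw [Real.fourierInv_eq'] at hinv
  have h2 : (∫ v : ℝ, cexp (↑(2 * Real.pi * inner ℝ v u) * I) • 𝓕 f v)
      = ∫ ξ : ℝ, (((G ξ * Real.cos (2 * Real.pi * ξ * u) : ℝ) : ℂ)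
          + ((G ξ * Real.sin (2 * Real.pi * ξ * u) : ℝ) : ℂ) * I) := by
    refine integral_congr_ae (Eventually.of_forall fun ξ => ?_)
    simp only [hF, smul_eq_mul]
    have : (inner ℝ ξ u : ℝ) = ξ * u := by simp [mul_comm]
    rw [this, Complex.exp_mul_I, ← Complex.ofReal_cos, ← Complex.ofReal_sin]
    have e : 2 * Real.pi * (ξ * u) = 2 * Real.pi * ξ * u := by ring
    rw [e]
    push_cast
    ring
  rw [h2] at hinv
  have hi1 : Integrable (fun ξ : ℝ => G ξ * Real.cos (2 * Real.pi * ξ * u)) :=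
    hGi.mul_bdd (c := 1) (Continuous.aestronglyMeasurable (by fun_prop))
      (Eventually.of_forall fun ξ => by rw [Real.norm_eq_abs]; exact Real.abs_cos_le_one _)
  have hi2 : Integrable (fun ξ : ℝ => G ξ * Real.sin (2 * Real.pi * ξ * u)) :=
    hGi.mul_bdd (c := 1) (Continuous.aestronglyMeasurable (by fun_prop))
      (Eventually.of_forall fun ξ => by rw [Real.norm_eq_abs]; exact Real.abs_sin_le_one _)
  have hc1 : Integrable (fun ξ : ℝ => ((G ξ * Real.cos (2 * Real.pi * ξ * u) : ℝ) : ℂ)) := hi1.ofReal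
  have hc2 : Integrable (fun ξ : ℝ => ((G ξ * Real.sin (2 * Real.pi * ξ * u) : ℝ) : ℂ) * I) :=
    hi2.ofReal.mul_const I
  have o1 : (∫ ξ : ℝ, ((G ξ * Real.cos (2 * Real.pi * ξ * u) : ℝ) : ℂ))
      = ((∫ ξ : ℝ, G ξ * Real.cos (2 * Real.pi * ξ * u) : ℝ) : ℂ) := integral_ofReal
  have o2 : (∫ ξ : ℝ, ((G ξ * Real.sin (2 * Real.pi * ξ * u) : ℝ) : ℂ))
      = ((∫ ξ : ℝ, G ξ * Real.sin (2 * Real.pi * ξ * u) : ℝ) : ℂ) := integral_ofReal
  rw [integral_add hc1 hc2, integral_mul_const, o1, o2] at hinv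
  have := congrArg Complex.re hinv
  simp only [hf, Complex.add_re, Complex.ofReal_re, Complex.mul_re, Complex.I_re, mul_zero,
    Complex.ofReal_im, Complex.I_im, mul_one, sub_self, add_zero] at this
  exact this.symm

/-- **Bochner**: the kernel `ba230_ker a`, `0 < a ≤ π`, is positive semidefinite. -/
theorem psd170_ker {a : ℝ} (h0 : 0 < a) (h1 : a ≤ Real.pi) {n : ℕ} (y v : Fin n → ℝ) :
    0 ≤ ∑ j, ∑ k, ba230_ker a (y j - y k) * v j * v k := by
  obtain ⟨G, hG0, hGi, hrep⟩ := psd170_repr h0 h1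
  have hi : ∀ u : ℝ, Integrable (fun ξ : ℝ => G ξ * Real.cos (2 * Real.pi * ξ * u)) := fun u =>
    hGi.mul_bdd (c := 1) (Continuous.aestronglyMeasurable (by fun_prop))
      (Eventually.of_forall fun ξ => by rw [Real.norm_eq_abs]; exact Real.abs_cos_le_one _)
  have key : ∑ j, ∑ k, ba230_ker a (y j - y k) * v j * v k
      = ∫ ξ, G ξ * ((∑ j, v j * Real.cos (2 * Real.pi * ξ * y j)) ^ 2
          + (∑ j, v j * Real.sin (2 * Real.pi * ξ * y j)) ^ 2) := by
    have e : ∀ ξ : ℝ, G ξ * ((∑ j, v j * Real.cos (2 * Real.pi * ξ * y j)) ^ 2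
          + (∑ j, v j * Real.sin (2 * Real.pi * ξ * y j)) ^ 2)
        = ∑ j, ∑ k, G ξ * Real.cos (2 * Real.pi * ξ * (y j - y k)) * v j * v k := by
      intro ξ
      rw [sq, sq, Finset.sum_mul_sum, Finset.sum_mul_sum, ← Finset.sum_add_distrib, Finset.mul_sum]
      refine Finset.sum_congr rfl fun j _ => ?_
      rw [← Finset.sum_add_distrib, Finset.mul_sum]
      refine Finset.sum_congr rfl fun k _ => ?_
      rw [mul_sub, Real.cos_sub]
      ring
    simp_rw [e]
    rw [integral_finsetSum _ (fun j _ => integrable_finsetSum _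
      (fun k _ => ((hi (y j - y k)).mul_const (v j)).mul_const (v k)))]
    refine Finset.sum_congr rfl fun j _ => ?_
    rw [integral_finsetSum _ (fun k _ => ((hi (y j - y k)).mul_const (v j)).mul_const (v k))]
    refine Finset.sum_congr rfl fun k _ => ?_
    rw [integral_mul_const, integral_mul_const, hrep]
  rw [key]
  exact integral_nonneg fun ξ => mul_nonneg (hG0 ξ) (by positivity)

/-! ## The resolvent facts of 230 in the shape of `ba3x80_roots_pos` -/

/-- `hres` of 80: `R0 x + ∫ R0 (x - t) K t dt = K x`. -/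
theorem psd170_res {lam : ℝ} (h0 : 0 < lam) (h1 : lam < 2 * Real.pi / 3) (x : ℝ) :
    ba230_R lam x + ∫ t, ba230_R lam (x - t) * ba230_ker (2 * lam) t = ba230_ker (2 * lam) x := by
  have h := ba230_R_resolvent h0 h1 x
  unfold ba230_conv at h
  have e : (∫ t, ba230_R lam (x - t) * ba230_ker (2 * lam) t)
      = ∫ v, ba230_ker (2 * lam) (x - v) * ba230_R lam v := by
    have := integral_sub_left_eq_self (fun v => ba230_ker (2 * lam) (x - v) * ba230_R lam v) volume x
    rw [← this]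
    refine integral_congr_ae (Eventually.of_forall fun t => ?_)
    simp only [sub_sub_cancel]
    ring
  rw [e]
  exact h

/-- `hrinf` of 80: `s x - ∫ R0 (x - t) s t dt = rinf x`. -/
theorem psd170_rinf {lam : ℝ} (h0 : 0 < lam) (h1 : lam < 2 * Real.pi / 3) (x : ℝ) :
    ba230_ker lam x - ∫ t, ba230_R lam (x - t) * ba230_ker lam t = ba230_rho lam x := by
  have h := ba230_rho_eq_sub h0 h1 x
  unfold ba230_conv at h
  linarith

/-- `hRτ` of 80 with `τ = 1 / 2`. -/
theorem psd170_R_le {lam : ℝ} (h0 : 0 < lam) (h1 : lam < 2 * Real.pi / 3) :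
    ∫ x, ba230_R lam x ≤ 1 / 2 := by
  rw [ba230_R_integral h0 h1]
  have hpi := Real.pi_pos
  have : 0 < Real.pi - lam := by linarith
  rw [div_le_iff₀ (by positivity)]
  linarith

/-- `hrmin` of 80: a lower bound of `rinf = ba230_rho` uniform on a segment of parameters and a box of rapidities. -/
theorem psd170_rho_lower {a b Q lam u : ℝ} (ha : 0 < a) (hal : a ≤ lam) (hlb : lam ≤ b) (hu : |u| ≤ Q) :
    1 / (2 * b * Real.cosh (Real.pi * Q / a)) ≤ ba230_rho lam u := by
  have hpi := Real.pi_pos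
  have hl : 0 < lam := lt_of_lt_of_le ha hal
  have hQ : 0 ≤ Q := (abs_nonneg u).trans hu
  unfold ba230_rho
  have hc : Real.cosh (Real.pi * u / lam) ≤ Real.cosh (Real.pi * Q / a) := by
    rw [Real.cosh_le_cosh, abs_div, abs_mul, abs_of_pos hpi, abs_of_pos hl,
      abs_of_nonneg (by positivity : 0 ≤ Real.pi * Q / a)]
    calc Real.pi * |u| / lam ≤ Real.pi * Q / lam := by gcongr
      _ ≤ Real.pi * Q / a := by gcongr
  have hc0 := Real.cosh_pos (Real.pi * u / lam)
  apply one_div_le_one_div_of_le (by positivity)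
  calc 2 * lam * Real.cosh (Real.pi * u / lam) ≤ 2 * b * Real.cosh (Real.pi * u / lam) := by gcongr
    _ ≤ 2 * b * Real.cosh (Real.pi * Q / a) := by
        have : 0 < b := lt_of_lt_of_le hl hlb
        gcongr

end Claimed.Agent.R292
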