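/-
R292 / unit BETHE, leaf C5 / Z2 of ORDER B-4 (concrete half): THE LIMIT lam -> 0+ IN THE SCALED VARIABLE x = u/lam.
Pen: 222.  Prefix `ba222s_`.  0 sorry.   On `Four230.lean` + `Four222.lean`.

Sec. 1  `ba222s_P a x = a * ba230_ker a (a x)`:  pointwise limit `ba222_cau (1/2) x` (a -> 0+), domination `1/(pi (2 x^2 + 2/pi^2))`,
        `ba222s_P_L1` : int |P_a - cau (1/2)| -> 0.
Sec. 2  rescaling: `ba222s_J_scale`, `ba222s_rho_scale`, `ba222s_eps_scale`, `ba222s_R_scale` : lam R_lam(lam x) = (P_g * rho_1)(x), g = ba230_g lam.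
Sec. 3  `ba222s_conv_L1` (Young, L1 x L1),  `ba222s_R_L1` : int |lam R_lam(lam x) - ba222_R x| dx -> 0  (lam -> 0+).
-/
import Claimed.Agent.R292.Bethe.Four222

set_option autoImplicit false
open MeasureTheory Filter Topology Set

namespace Claimed.Agent.R292

/-! ## Sec. 1  `P_a → cau (1/2)` in `L¹` -/

/-- the scaled kernel `P_a(x) = a ker_a(a x)`. -/
noncomputable def ba222s_P (a x : ℝ) : ℝ := a * ba230_ker a (a * x)

lemma ba222s_den (a x : ℝ) :
    Real.cosh (2 * (a * x)) - Real.cos a = 2 * Real.sinh (a * x) ^ 2 + 2 * Real.sin (a / 2) ^ 2 := by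
  have h1 : Real.cosh (2 * (a * x)) = 1 + 2 * Real.sinh (a * x) ^ 2 := by
    rw [Real.cosh_two_mul, Real.cosh_sq (a * x)]; ring
  have h2 : Real.cos a = 1 - 2 * Real.sin (a / 2) ^ 2 := by
    have : a = 2 * (a / 2) := by ring
    conv_lhs => rw [this]
    rw [Real.cos_two_mul, Real.cos_sq' (a / 2)]; ring
  rw [h1, h2]; ring

lemma ba222s_P_eq {a : ℝ} (ha : a ≠ 0) (x : ℝ) :
    ba222s_P a x = (Real.sin a / a) / (Real.pi * (2 * (Real.sinh (a * x) / a) ^ 2 + 2 * (Real.sin (a / 2) / a) ^ 2)) := by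
  unfold ba222s_P ba230_ker
  rw [ba222s_den]
  have hpi := Real.pi_ne_zero
  by_cases h : 2 * Real.sinh (a * x) ^ 2 + 2 * Real.sin (a / 2) ^ 2 = 0
  · have h' : 2 * (Real.sinh (a * x) / a) ^ 2 + 2 * (Real.sin (a / 2) / a) ^ 2 = 0 := by
      rw [div_pow, div_pow, ← mul_div_assoc, ← mul_div_assoc, ← add_div, h, zero_div]
    rw [h, h']; simp
  · have h' : 2 * (Real.sinh (a * x) / a) ^ 2 + 2 * (Real.sin (a / 2) / a) ^ 2 ≠ 0 := by
      rw [div_pow, div_pow, ← mul_div_assoc, ← mul_div_assoc, ← add_div]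
      exact div_ne_zero h (pow_ne_zero 2 ha)
    rw [mul_div_assoc', div_eq_div_iff (mul_ne_zero hpi h) (mul_ne_zero hpi h')]
    field_simp

lemma ba222s_slope {f : ℝ → ℝ} {f' : ℝ} (hf : HasDerivAt f f' 0) (h0 : f 0 = 0) :
    Tendsto (fun a => f a / a) (𝓝[>] 0) (𝓝 f') := by
  have h := hf.tendsto_slope_zero
  have h2 : Tendsto (fun t : ℝ => t⁻¹ • (f (0 + t) - f 0)) (𝓝[>] 0) (𝓝 f') :=
    h.mono_left (nhdsWithin_mono _ fun t ht => ne_of_gt ht)
  refine h2.congr fun t => ?_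
  rw [zero_add, h0, sub_zero, smul_eq_mul, div_eq_inv_mul]

/-- pointwise limit. -/
lemma ba222s_P_tendsto (x : ℝ) : Tendsto (fun a => ba222s_P a x) (𝓝[>] 0) (𝓝 (ba222_cau (1 / 2) x)) := by
  have l1 : Tendsto (fun a => Real.sin a / a) (𝓝[>] 0) (𝓝 1) := by
    have := Real.hasDerivAt_sin 0
    rw [Real.cos_zero] at this
    exact ba222s_slope this Real.sin_zero
  have l2 : Tendsto (fun a => Real.sinh (a * x) / a) (𝓝[>] 0) (𝓝 x) := by
    have h : HasDerivAt (fun a : ℝ => Real.sinh (a * x)) (Real.cosh (0 * x) * x) 0 := by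
      have h0 : HasDerivAt (fun a : ℝ => a * x) x 0 := by simpa using (hasDerivAt_id (0 : ℝ)).mul_const x
      exact h0.sinh
    rw [zero_mul, Real.cosh_zero, one_mul] at h
    exact ba222s_slope h (by simp)
  have l3 : Tendsto (fun a => Real.sin (a / 2) / a) (𝓝[>] 0) (𝓝 (1 / 2)) := by
    have h : HasDerivAt (fun a : ℝ => Real.sin (a / 2)) (Real.cos (0 / 2) * (1 / 2)) 0 := by
      have h0 : HasDerivAt (fun a : ℝ => a / 2) (1 / 2) 0 := by simpa using (hasDerivAt_id (0 : ℝ)).div_const 2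
      exact h0.sin
    rw [zero_div, Real.cos_zero, one_mul] at h
    exact ba222s_slope h (by simp)
  have hpi := Real.pi_pos
  have hden : Real.pi * (2 * x ^ 2 + 2 * (1 / 2 : ℝ) ^ 2) ≠ 0 := by positivity
  have l4 := l1.div (((l2.pow 2).const_mul 2).add ((l3.pow 2).const_mul 2) |>.const_mul Real.pi) hden
  have e : ba222_cau (1 / 2) x = 1 / (Real.pi * (2 * x ^ 2 + 2 * (1 / 2 : ℝ) ^ 2)) := by
    unfold ba222_cau
    have : 0 < x ^ 2 + (1 / 2 : ℝ) ^ 2 := by positivity
    field_simp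
  rw [e]
  refine l4.congr' ?_
  filter_upwards [self_mem_nhdsWithin] with a ha
  exact (ba222s_P_eq (ne_of_gt ha) x).symm

/-- the dominating function. -/
noncomputable def ba222s_dom (x : ℝ) : ℝ := 1 / (Real.pi * (2 * x ^ 2 + 2 / Real.pi ^ 2))

lemma ba222s_dom_integrable : Integrable ba222s_dom := by
  have hpi := Real.pi_pos
  have h := (ba222_cau_integrable (a := 1 / Real.pi) (by positivity)).const_mul (Real.pi / 2)
  refine h.congr (Eventually.of_forall fun x => ?_)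
  unfold ba222s_dom ba222_cau
  have h1 : 0 < x ^ 2 + (1 / Real.pi) ^ 2 := by positivity
  have h2 : 0 < 2 * x ^ 2 + 2 / Real.pi ^ 2 := by positivity
  simp only []
  field_simp

lemma ba222s_abs_le_sinh (y : ℝ) : y ^ 2 ≤ Real.sinh y ^ 2 := by
  rw [sq_le_sq]
  rcases le_total 0 y with h | h
  · rw [abs_of_nonneg h, abs_of_nonneg (Real.sinh_nonneg_iff.2 h)]
    exact Real.self_le_sinh_iff.2 h
  · rw [abs_of_nonpos h, abs_of_nonpos (Real.sinh_nonpos_iff.2 h)]
    have := Real.sinh_le_self_iff.2 h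
    linarith

lemma ba222s_P_nonneg {a : ℝ} (h0 : 0 < a) (h1 : a ≤ Real.pi) (x : ℝ) : 0 ≤ ba222s_P a x :=
  mul_nonneg h0.le (ba230_ker_nonneg h0 h1 _)

lemma ba222s_P_le {a : ℝ} (h0 : 0 < a) (h1 : a ≤ Real.pi) (x : ℝ) : ba222s_P a x ≤ ba222s_dom x := by
  have hpi := Real.pi_pos
  unfold ba222s_P ba230_ker ba222s_dom
  rw [ba222s_den, mul_div_assoc']
  have hs : Real.sin a ≤ a := Real.sin_le h0.le
  have hj : 2 / Real.pi * (a / 2) ≤ Real.sin (a / 2) := Real.mul_le_sin (by positivity) (by linarith)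
  have hj2 : (a / Real.pi) ^ 2 ≤ Real.sin (a / 2) ^ 2 := by
    refine pow_le_pow_left₀ (by positivity) ?_ 2
    calc a / Real.pi = 2 / Real.pi * (a / 2) := by field_simp
      _ ≤ _ := hj
  have hsh := ba222s_abs_le_sinh (a * x)
  have hden : a ^ 2 * (2 * x ^ 2 + 2 / Real.pi ^ 2) ≤ 2 * Real.sinh (a * x) ^ 2 + 2 * Real.sin (a / 2) ^ 2 := by
    have e : a ^ 2 * (2 * x ^ 2 + 2 / Real.pi ^ 2) = 2 * (a * x) ^ 2 + 2 * (a / Real.pi) ^ 2 := by
      field_simp
    rw [e]; linarith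
  have hpos : 0 < a ^ 2 * (2 * x ^ 2 + 2 / Real.pi ^ 2) := by positivity
  rw [div_le_div_iff₀ (mul_pos hpi (lt_of_lt_of_le hpos hden)) (by positivity)]
  calc a * Real.sin a * (Real.pi * (2 * x ^ 2 + 2 / Real.pi ^ 2))
      ≤ a * a * (Real.pi * (2 * x ^ 2 + 2 / Real.pi ^ 2)) := by gcongr
    _ = Real.pi * (a ^ 2 * (2 * x ^ 2 + 2 / Real.pi ^ 2)) := by ring
    _ ≤ Real.pi * (2 * Real.sinh (a * x) ^ 2 + 2 * Real.sin (a / 2) ^ 2) := by gcongr
    _ = 1 * (Real.pi * (2 * Real.sinh (a * x) ^ 2 + 2 * Real.sin (a / 2) ^ 2)) := by ring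

lemma ba222s_P_integrable {a : ℝ} (h0 : 0 < a) (h1 : a < 2 * Real.pi) : Integrable (ba222s_P a) :=
  ((ba230_ker_integrable h0 h1).comp_mul_left' h0.ne').const_mul _

lemma ba222s_P_continuous {a : ℝ} (h0 : 0 < a) (h1 : a < 2 * Real.pi) : Continuous (ba222s_P a) :=
  continuous_const.mul ((ba230_ker_continuous h0 h1).comp (by fun_prop))

/-- **`P_a → cau (1/2)` in `L¹`** as `a → 0+`. -/
theorem ba222s_P_L1 : Tendsto (fun a => ∫ x, |ba222s_P a x - ba222_cau (1 / 2) x|) (𝓝[>] 0) (𝓝 0) := by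
  have hpi := Real.pi_pos
  have hsmall : ∀ᶠ a : ℝ in 𝓝[>] 0, 0 < a ∧ a < Real.pi := by
    filter_upwards [Ioo_mem_nhdsGT hpi] with a ha using ha
  have h := tendsto_integral_filter_of_dominated_convergence (μ := volume) (l := 𝓝[>] (0 : ℝ))
    (F := fun a x => |ba222s_P a x - ba222_cau (1 / 2) x|) (f := fun _ => (0 : ℝ))
    (fun x => ba222s_dom x + ba222_cau (1 / 2) x) ?_ ?_
    (ba222s_dom_integrable.add (ba222_cau_integrable (by norm_num))) ?_
  · simpa using h
  · filter_upwards [hsmall] with a ha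
    exact (((ba222s_P_continuous ha.1 (by linarith)).sub (ba222_cau_continuous (by norm_num))).abs).aestronglyMeasurable
  · filter_upwards [hsmall] with a ha
    refine Eventually.of_forall fun x => ?_
    rw [Real.norm_eq_abs, abs_abs]
    have p0 := ba222s_P_nonneg ha.1 ha.2.le x
    have p1 := ba222s_P_le ha.1 ha.2.le x
    have c0 := (ba222_cau_pos (a := 1 / 2) (by norm_num) x).le
    rw [abs_le]; constructor <;> linarith
  · refine Eventually.of_forall fun x => ?_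
    have := ((ba222s_P_tendsto x).sub_const (ba222_cau (1 / 2) x)).abs
    simpa using this

/-! ## Sec. 2  rescaling `u = lam x` -/

lemma ba222s_J_scale (lam x : ℝ) : lam * ba230_J lam (lam * x) = ba222s_P (ba230_g lam) x := by
  unfold ba230_J ba222s_P ba230_g ba230_r
  have e : Real.pi / (Real.pi - lam) * (lam * x) = Real.pi * lam / (Real.pi - lam) * x := by ring
  rw [e]; ring

lemma ba222s_rho_scale {lam : ℝ} (hl : lam ≠ 0) (x : ℝ) : lam * ba230_rho lam (lam * x) = ba230_rho 1 x := by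
  unfold ba230_rho
  have e : Real.pi * (lam * x) / lam = Real.pi * x / 1 := by field_simp
  rw [e]
  have := (Real.cosh_pos (Real.pi * x / 1)).ne'
  field_simp

lemma ba222s_eps_scale {lam : ℝ} (hl : lam ≠ 0) (x : ℝ) : ba230_eps lam (lam * x) = ba230_eps 1 x := by
  unfold ba230_eps
  have e : Real.pi / (2 * lam) * (lam * x) = Real.pi / (2 * 1) * x := by field_simp
  rw [e]

/-- `lam R_lam(lam x) = (P_g * rho_1)(x)`, `g = ba230_g lam`. -/
theorem ba222s_R_scale {lam : ℝ} (hl : 0 < lam) (x : ℝ) :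
    lam * ba230_R lam (lam * x) = ba230_conv (ba222s_P (ba230_g lam)) (ba230_rho 1) x := by
  unfold ba230_R ba230_conv
  have h := MeasureTheory.Measure.integral_comp_mul_left
    (fun v : ℝ => ba230_J lam (lam * x - v) * ba230_rho lam v) lam
  rw [abs_of_pos (inv_pos.2 hl), smul_eq_mul] at h
  have h2 : ∫ v : ℝ, ba230_J lam (lam * x - v) * ba230_rho lam v
      = lam * ∫ t : ℝ, ba230_J lam (lam * x - lam * t) * ba230_rho lam (lam * t) := by
    rw [h, ← mul_assoc, mul_inv_cancel₀ hl.ne', one_mul]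
  rw [h2, ← mul_assoc, ← integral_const_mul]
  refine integral_congr_ae (Eventually.of_forall fun t => ?_)
  simp only []
  rw [← ba222s_J_scale, ← ba222s_rho_scale hl.ne' t, mul_sub]
  ring

/-! ## Sec. 3  `lam R_lam(lam ·) → R2` in `L¹` -/

lemma ba222s_conv_sub {K K' f : ℝ → ℝ} (hKc : Continuous K) (hKc' : Continuous K') {b b' : ℝ}
    (hKb : ∀ u, |K u| ≤ b) (hKb' : ∀ u, |K' u| ≤ b') (hf : Integrable f) (u : ℝ) :
    ba230_conv K f u - ba230_conv K' f u = ba230_conv (fun v => K v - K' v) f u := by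
  unfold ba230_conv
  have i1 : Integrable fun v => K (u - v) * f v :=
    hf.bdd_mul (c := b) (hKc.comp (continuous_const.sub continuous_id)).aestronglyMeasurable
      (Eventually.of_forall fun v => by rw [Real.norm_eq_abs]; exact hKb _)
  have i2 : Integrable fun v => K' (u - v) * f v :=
    hf.bdd_mul (c := b') (hKc'.comp (continuous_const.sub continuous_id)).aestronglyMeasurable
      (Eventually.of_forall fun v => by rw [Real.norm_eq_abs]; exact hKb' _)
  rw [← integral_sub i1 i2]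
  refine integral_congr_ae (Eventually.of_forall fun v => ?_)
  simp only []; ring

/-- Young's inequality `L¹ * L¹ ⊆ L¹`. -/
theorem ba222s_conv_L1 {D f : ℝ → ℝ} (hD : Integrable D) (hf : Integrable f) :
    ∫ u, |ba230_conv D f u| ≤ (∫ u, |D u|) * ∫ u, |f u| := by
  rw [← ba230_conv_integral hD.abs hf.abs]
  refine integral_mono (ba230_conv_integrable hD hf).abs (ba230_conv_integrable hD.abs hf.abs) fun u => ?_
  simp only []
  unfold ba230_conv
  refine (abs_integral_le_integral_abs).trans (le_of_eq ?_)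
  refine integral_congr_ae (Eventually.of_forall fun v => ?_)
  simp only [abs_mul]

lemma ba222s_g_tendsto : Tendsto ba230_g (𝓝[>] 0) (𝓝[>] 0) := by
  have hpi := Real.pi_pos
  rw [tendsto_nhdsWithin_iff]
  constructor
  · have hc : ContinuousAt ba230_g 0 := by
      unfold ba230_g
      exact ContinuousAt.div (by fun_prop) (by fun_prop) (by simp [hpi.ne'])
    have h0 : ba230_g 0 = 0 := by unfold ba230_g; simp
    have := hc.tendsto
    rw [h0] at this
    exact this.mono_left nhdsWithin_le_nhds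
  · filter_upwards [Ioo_mem_nhdsGT hpi] with lam hl
    unfold ba230_g
    exact div_pos (mul_pos hpi hl.1) (by linarith [hl.2])

lemma ba222s_P_bdd {a : ℝ} (h0 : 0 < a) (h1 : a < 2 * Real.pi) : ∃ b : ℝ, ∀ u, |ba222s_P a u| ≤ b := by
  obtain ⟨b, hb⟩ := ba230_ker_bdd h0 h1
  refine ⟨a * b, fun u => ?_⟩
  unfold ba222s_P
  rw [abs_mul, abs_of_pos h0]
  exact mul_le_mul_of_nonneg_left (hb _) h0.le

/-- the quantitative form: `‖lam R_lam(lam ·) - R2‖₁ ≤ (1/2) ‖P_g - cau (1/2)‖₁`. -/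
theorem ba222s_R_L1_le {lam : ℝ} (h0 : 0 < lam) (h1 : lam < 2 * Real.pi / 3) :
    ∫ x, |lam * ba230_R lam (lam * x) - ba222_R x|
      ≤ 1 / 2 * ∫ x, |ba222s_P (ba230_g lam) x - ba222_cau (1 / 2) x| := by
  have g0 := ba230_g_pos h0 h1
  have g1 := ba230_g_lt h0 h1
  obtain ⟨b, hb⟩ := ba222s_P_bdd g0 g1
  have e : ∀ x, lam * ba230_R lam (lam * x) - ba222_R x
      = ba230_conv (fun v => ba222s_P (ba230_g lam) v - ba222_cau (1 / 2) v) (ba230_rho 1) x := by
    intro x
    rw [ba222s_R_scale h0]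
    exact ba222s_conv_sub (ba222s_P_continuous g0 g1) (ba222_cau_continuous (by norm_num)) hb
      (ba222_cau_le (by norm_num)) (ba230_rho_integrable one_pos) x
  simp_rw [e]
  refine (ba222s_conv_L1 ((ba222s_P_integrable g0 g1).sub (ba222_cau_integrable (by norm_num)))
    (ba230_rho_integrable one_pos)).trans (le_of_eq ?_)
  have : ∀ u, |ba230_rho 1 u| = ba230_rho 1 u := fun u => abs_of_pos (ba230_rho_pos one_pos u)
  simp_rw [this]
  rw [ba230_rho_integral one_pos, mul_comm]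
  rfl

/-- **`lam R_lam(lam ·) → ba222_R` in `L¹`** as `lam → 0+`. -/
theorem ba222s_R_L1 :
    Tendsto (fun lam => ∫ x, |lam * ba230_R lam (lam * x) - ba222_R x|) (𝓝[>] 0) (𝓝 0) := by
  have hpi := Real.pi_pos
  have h1 : Tendsto (fun lam => 1 / 2 * ∫ x, |ba222s_P (ba230_g lam) x - ba222_cau (1 / 2) x|) (𝓝[>] 0) (𝓝 0) := by
    have := (ba222s_P_L1.comp ba222s_g_tendsto).const_mul (1 / 2)
    simpa using this
  refine tendsto_of_tendsto_of_tendsto_of_le_of_le' tendsto_const_nhds h1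
    (Eventually.of_forall fun lam => integral_nonneg fun x => abs_nonneg _) ?_
  filter_upwards [Ioo_mem_nhdsGT (show (0 : ℝ) < 2 * Real.pi / 3 by positivity)] with lam hl
  exact ba222s_R_L1_le hl.1 hl.2

end Claimed.Agent.R292
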