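import Claimed.Agent.R292.Defs.Top

/-!
# Row 292 (and 290), unit BETHE : the SQUEEZE      (owner helper176; prefix `sq176`)

Half filling needs no Bethe analysis.

* `sq176Ins r β ω` : insert `r` frozen rows (all horizontal arrows `= β`, vertical arrows copied from the row that is cut)
  into a torus configuration.  It keeps the ice rule and `svNumC`, adds `r` (if `β`) or `0` arrows to every column, and is injective.
* `sq176_svZN_le_empty`, `sq176_svZN_le_full` : `svZN c M N n ≤ svZN c M (N + r) n`, `≤ svZN c M (N + r) (n + r)`.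
* `sq176_stiff` : `SvStiff c A` follows from a locally uniform limit of the free energy at densities `d ∈ (0, 1/2)` ONLY
  and the expansion of that limit at `d = (1 - s) / 2`, `s ↓ 0`.
-/

set_option autoImplicit false

namespace Claimed.Agent.R292

open Filter Topology
open Claims Claims.C0466

/-! ## 1. the ice rule on `ZMod` -/

/-- the in-count at a vertex of the torus. -/
def sq176Cnt {M L : ℕ} (ω : ZMod M × ZMod L × Bool → Bool) (x : ZMod M) (y : ZMod L) : ℕ :=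
  (if ω (x - 1, y, false) then 1 else 0) + (if ω (x, y, false) then 0 else 1) +
    (if ω (x, y - 1, true) then 1 else 0) + (if ω (x, y, true) then 0 else 1)

theorem sq176_inCount {M L : ℕ} (ω : ZMod M × ZMod L × Bool → Bool) (a b : ℤ) :
    svInCount ω a b = sq176Cnt ω (a : ZMod M) (b : ZMod L) := by
  unfold svInCount sq176Cnt svH svV
  rw [Int.cast_sub, Int.cast_sub, Int.cast_one, Int.cast_one]

theorem sq176_ice_iff {M L : ℕ} (ω : ZMod M × ZMod L × Bool → Bool) :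
    (∀ a b : ℤ, svInCount ω a b = 2) ↔ ∀ (x : ZMod M) (y : ZMod L), sq176Cnt ω x y = 2 := by
  constructor
  · intro h x y
    obtain ⟨a, rfl⟩ := ZMod.intCast_surjective x
    obtain ⟨b, rfl⟩ := ZMod.intCast_surjective y
    rw [← sq176_inCount]; exact h a b
  · intro h a b
    rw [sq176_inCount]; exact h _ _

/-! ## 2. insertion of frozen rows -/

/-- insert `r` frozen rows after row `L - 1`. -/
def sq176Ins {M L : ℕ} (r : ℕ) (β : Bool) (ω : ZMod M × ZMod L × Bool → Bool) :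
    ZMod M × ZMod (L + r) × Bool → Bool :=
  fun p =>
    if p.2.1.val < L then ω (p.1, ((p.2.1.val : ℕ) : ZMod L), p.2.2)
    else if p.2.2 then ω (p.1, -1, true) else β

section ins

variable {M L : ℕ} (r : ℕ) (β : Bool) (ω : ZMod M × ZMod L × Bool → Bool)

theorem sq176_ins_lt (x : ZMod M) (y : ZMod (L + r)) (e : Bool) (h : y.val < L) :
    sq176Ins r β ω (x, y, e) = ω (x, ((y.val : ℕ) : ZMod L), e) := by
  simp [sq176Ins, h]

theorem sq176_ins_ge_false (x : ZMod M) (y : ZMod (L + r)) (h : L ≤ y.val) :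
    sq176Ins r β ω (x, y, false) = β := by
  simp [sq176Ins, Nat.not_lt.2 h]

theorem sq176_ins_ge_true (x : ZMod M) (y : ZMod (L + r)) (h : L ≤ y.val) :
    sq176Ins r β ω (x, y, true) = ω (x, -1, true) := by
  simp [sq176Ins, Nat.not_lt.2 h]

/-- the vertical edge below row `y`. -/
theorem sq176_ins_below (hL : 0 < L) (x : ZMod M) (y : ZMod (L + r)) :
    sq176Ins r β ω (x, y - 1, true) =
      if y.val < L then ω (x, ((y.val : ℕ) : ZMod L) - 1, true) else ω (x, -1, true) := by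
  have : NeZero (L + r) := ⟨by omega⟩
  have : NeZero L := ⟨by omega⟩
  have hy : y.val < L + r := ZMod.val_lt y
  rcases Nat.eq_zero_or_pos y.val with h0 | hpos
  · -- `y = 0`
    have hy0 : y = 0 := (ZMod.val_eq_zero y).1 h0
    subst hy0
    have hv : ((0 : ZMod (L + r)) - 1).val = L + r - 1 := by
      rw [zero_sub]
      rcases Nat.lt_or_ge 1 (L + r) with h1 | h1
      · have : Fact (1 < L + r) := ⟨h1⟩
        rw [ZMod.neg_val, if_neg one_ne_zero, ZMod.val_one]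
      · have : L + r = 1 := by omega
        have hlt := ZMod.val_lt (-1 : ZMod (L + r))
        omega
    simp only [ZMod.val_zero, hL, if_true, Nat.cast_zero, zero_sub]
    rcases Nat.lt_or_ge (L + r - 1) L with h1 | h1
    · rw [← zero_sub, sq176_ins_lt _ _ _ _ _ _ (by rw [hv]; exact h1), hv]
      have : L + r - 1 = L - 1 := by omega
      rw [this, Nat.cast_sub hL]
      simp
    · rw [← zero_sub, sq176_ins_ge_true _ _ _ _ _ (by rw [hv]; exact h1)]
  · have hv : (y - 1).val = y.val - 1 := by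
      have h1 : y = ((y.val : ℕ) : ZMod (L + r)) := (ZMod.natCast_zmod_val y).symm
      have h2 : y - 1 = (((y.val - 1 : ℕ)) : ZMod (L + r)) := by
        rw [Nat.cast_sub hpos, ← h1]; simp
      rw [h2, ZMod.val_natCast_of_lt (by omega)]
    by_cases h : y.val < L
    · rw [if_pos h, sq176_ins_lt _ _ _ _ _ _ (by rw [hv]; omega), hv, Nat.cast_sub hpos]
      simp
    · rw [if_neg h]
      rcases Nat.lt_or_ge (y.val - 1) L with h1 | h1
      · rw [sq176_ins_lt _ _ _ _ _ _ (by rw [hv]; exact h1), hv]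
        have : y.val - 1 = L - 1 := by omega
        rw [this, Nat.cast_sub hL]
        simp
      · rw [sq176_ins_ge_true _ _ _ _ _ (by rw [hv]; exact h1)]

theorem sq176_ins_cnt (hL : 0 < L) (x : ZMod M) (y : ZMod (L + r)) :
    sq176Cnt (sq176Ins r β ω) x y =
      if y.val < L then sq176Cnt ω x ((y.val : ℕ) : ZMod L) else 2 := by
  unfold sq176Cnt
  rw [sq176_ins_below r β ω hL]
  by_cases h : y.val < L
  · simp only [if_pos h, sq176_ins_lt r β ω _ y _ h]
  · have h' : L ≤ y.val := Nat.not_lt.1 h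
    simp only [if_neg h, sq176_ins_ge_false r β ω _ y h', sq176_ins_ge_true r β ω _ y h']
    cases β <;> cases ω (x, -1, true) <;> simp

theorem sq176_ins_ice (hL : 0 < L) (h : ∀ a b : ℤ, svInCount ω a b = 2) :
    ∀ a b : ℤ, svInCount (sq176Ins r β ω) a b = 2 := by
  rw [sq176_ice_iff] at h ⊢
  intro x y
  rw [sq176_ins_cnt r β ω hL]
  split_ifs
  · exact h _ _
  · rfl

/-- horizontal arrows of the new configuration. -/
theorem sq176_ins_H (a : ℤ) (j : ℕ) (hj : j < L + r) :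
    svH (sq176Ins r β ω) a (j : ℤ) = if j < L then svH ω a (j : ℤ) else β := by
  have : NeZero (L + r) := ⟨by omega⟩
  have hv : (((j : ℤ)) : ZMod (L + r)).val = j := by
    rw [Int.cast_natCast, ZMod.val_natCast_of_lt hj]
  unfold svH
  by_cases h : j < L
  · rw [if_pos h, sq176_ins_lt _ _ _ _ _ _ (by rw [hv]; exact h), hv]
    simp
  · rw [if_neg h, sq176_ins_ge_false _ _ _ _ _ (by rw [hv]; omega)]

/-- the number of arrows `true` in a column. -/
theorem sq176_ins_col (i : ℤ) :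
    ((Finset.range (L + r)).filter (fun j : ℕ => svH (sq176Ins r β ω) i (j : ℤ) = true)).card =
      ((Finset.range L).filter (fun j : ℕ => svH ω i (j : ℤ) = true)).card + if β then r else 0 := by
  rw [Finset.card_filter, Finset.card_filter, Finset.sum_range_add]
  congr 1
  · refine Finset.sum_congr rfl fun j hj => ?_
    have hj' : j < L := Finset.mem_range.1 hj
    rw [sq176_ins_H r β ω i j (by omega), if_pos hj']
  · have : ∀ j ∈ Finset.range r,
        (if svH (sq176Ins r β ω) i ((L + j : ℕ) : ℤ) = true then 1 else 0) = if β then 1 else 0 := by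
      intro j hj
      have hj' : j < r := Finset.mem_range.1 hj
      have hn : ¬ (L + j < L) := by omega
      rw [sq176_ins_H r β ω i (L + j) (by omega)]
      simp only [hn, if_false]
    rw [Finset.sum_congr rfl this]
    cases β <;> simp

theorem sq176_ins_isC (a : ℤ) (j : ℕ) (hj : j < L + r) :
    svIsC (sq176Ins r β ω) a (j : ℤ) ↔ j < L ∧ svIsC ω a (j : ℤ) := by
  unfold svIsC
  rw [sq176_ins_H r β ω _ j hj, sq176_ins_H r β ω _ j hj]
  by_cases h : j < L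
  · simp [h]
  · simp only [h, false_and, iff_false]
    cases β <;> simp

theorem sq176_ins_numC : svNumC (sq176Ins r β ω) = svNumC ω := by
  classical
  unfold svNumC
  rw [Finset.card_filter, Finset.card_filter, Finset.sum_product, Finset.sum_product]
  refine Finset.sum_congr rfl fun a _ => ?_
  rw [Finset.sum_range_add]
  have h2 : ∑ j ∈ Finset.range r,
      (if svIsC (sq176Ins r β ω) ((a, L + j).1 : ℕ) ((a, L + j).2 : ℕ) then 1 else 0) = 0 := by
    refine Finset.sum_eq_zero fun j hj => ?_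
    have hj' : j < r := Finset.mem_range.1 hj
    rw [if_neg]
    intro hc
    have := (sq176_ins_isC r β ω (a : ℤ) (L + j) (by omega)).1 hc
    omega
  rw [h2, add_zero]
  refine Finset.sum_congr rfl fun j hj => ?_
  have hj' : j < L := Finset.mem_range.1 hj
  have := sq176_ins_isC r β ω (a : ℤ) j (by omega)
  simp only [this, hj', true_and]

theorem sq176_ins_injective (hL : 0 < L) :
    Function.Injective (sq176Ins r β : (ZMod M × ZMod L × Bool → Bool) → _) := by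
  have : NeZero (L + r) := ⟨by omega⟩
  have : NeZero L := ⟨by omega⟩
  intro ω₁ ω₂ h
  funext ⟨x, y, e⟩
  have hy : y.val < L := ZMod.val_lt y
  have hv : (((y.val : ℕ)) : ZMod (L + r)).val = y.val := ZMod.val_natCast_of_lt (by omega)
  have h1 := congrFun h (x, ((y.val : ℕ) : ZMod (L + r)), e)
  rw [sq176_ins_lt _ _ _ _ _ _ (by rw [hv]; exact hy), sq176_ins_lt _ _ _ _ _ _ (by rw [hv]; exact hy),
    hv, ZMod.natCast_zmod_val] at h1
  exact h1

theorem sq176_ins_adm (hL : 0 < L) {n : ℕ} (h : svAdmN n ω) :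
    svAdmN (n + if β then r else 0) (sq176Ins r β ω) := by
  refine ⟨sq176_ins_ice r β ω hL h.1, fun i => ?_⟩
  rw [sq176_ins_col, h.2 i]

end ins

/-! ## 3. the partition functions -/

open Classical in
theorem sq176_svZN_le (c : ℝ) (hc : 0 ≤ c) {M L : ℕ} (hM : 0 < M) (hL : 0 < L) (r : ℕ) (β : Bool) (n : ℕ) :
    svZN c M L n ≤ svZN c M (L + r) (n + if β then r else 0) := by
  have : NeZero M := ⟨by omega⟩
  have : NeZero L := ⟨by omega⟩
  have : NeZero (L + r) := ⟨by omega⟩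
  unfold svZN
  set g : (ZMod M × ZMod (L + r) × Bool → Bool) → ℝ :=
    fun ω => if svAdmN (n + if β then r else 0) ω then c ^ svNumC ω else 0 with hg
  have hg0 : ∀ ω, 0 ≤ g ω := by
    intro ω
    simp only [hg]
    by_cases h : svAdmN (n + if β then r else 0) ω
    · rw [if_pos h]; positivity
    · rw [if_neg h]
  have h1 : (∑' ω : ZMod M × ZMod L × Bool → Bool, if svAdmN n ω then c ^ svNumC ω else 0)
      ≤ ∑' ω : ZMod M × ZMod L × Bool → Bool, g (sq176Ins r β ω) := by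
    rw [tsum_fintype, tsum_fintype]
    refine Finset.sum_le_sum fun ω _ => ?_
    by_cases h : svAdmN n ω
    · rw [if_pos h]
      simp only [hg]
      rw [if_pos (sq176_ins_adm r β ω hL h), sq176_ins_numC]
    · rw [if_neg h]; exact hg0 _
  refine h1.trans ?_
  exact tsum_comp_le_tsum_of_inj (hasSum_fintype g).summable hg0 (sq176_ins_injective r β hL)

/-- **(S1)** inserting empty rows. -/
theorem sq176_svZN_le_empty (c : ℝ) (hc : 0 ≤ c) {M L : ℕ} (hM : 0 < M) (hL : 0 < L) (r n : ℕ) :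
    svZN c M L n ≤ svZN c M (L + r) n := by
  simpa using sq176_svZN_le c hc hM hL r false n

/-- **(S2)** inserting full rows. -/
theorem sq176_svZN_le_full (c : ℝ) (hc : 0 ≤ c) {M L : ℕ} (hM : 0 < M) (hL : 0 < L) (r n : ℕ) :
    svZN c M L n ≤ svZN c M (L + r) (n + r) := by
  simpa using sq176_svZN_le c hc hM hL r true n

open Classical in
/-- for `c ≥ 1` a partition function is `0` or `≥ 1`. -/
theorem sq176_svZN_zero_or (c : ℝ) (hc : 1 ≤ c) {M L : ℕ} (hM : 0 < M) (hL : 0 < L) (n : ℕ) :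
    svZN c M L n = 0 ∨ 1 ≤ svZN c M L n := by
  have : NeZero M := ⟨by omega⟩
  have : NeZero L := ⟨by omega⟩
  unfold svZN
  rw [tsum_fintype]
  by_cases h : ∃ ω : ZMod M × ZMod L × Bool → Bool, svAdmN n ω
  · obtain ⟨ω₀, h₀⟩ := h
    right
    have h1 : (if svAdmN n ω₀ then c ^ svNumC ω₀ else 0) ≤
        ∑ ω : ZMod M × ZMod L × Bool → Bool, if svAdmN n ω then c ^ svNumC ω else 0 := by
      refine Finset.single_le_sum (f := fun ω : ZMod M × ZMod L × Bool → Bool =>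
        if svAdmN n ω then c ^ svNumC ω else 0) (fun ω _ => ?_) (Finset.mem_univ ω₀)
      split_ifs
      · positivity
      · exact le_rfl
    rw [if_pos h₀] at h1
    exact (one_le_pow₀ hc).trans h1
  · left
    refine Finset.sum_eq_zero fun ω _ => ?_
    rw [if_neg]
    exact fun hω => h ⟨ω, hω⟩

theorem sq176_log_nonneg (c : ℝ) (hc : 1 ≤ c) {M L : ℕ} (hM : 0 < M) (hL : 0 < L) (n : ℕ) :
    0 ≤ Real.log (svZN c M L n) := by
  rcases sq176_svZN_zero_or c hc hM hL n with h | h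
  · rw [h, Real.log_zero]
  · exact Real.log_nonneg h

theorem sq176_log_le (c : ℝ) (hc : 1 ≤ c) {M L L' : ℕ} (hM : 0 < M) (hL : 0 < L) (hL' : 0 < L') (n n' : ℕ)
    (h : svZN c M L n ≤ svZN c M L' n') :
    Real.log (svZN c M L n) ≤ Real.log (svZN c M L' n') := by
  rcases sq176_svZN_zero_or c hc hM hL n with h0 | h1
  · rw [h0, Real.log_zero]; exact sq176_log_nonneg c hc hM hL' n'
  · exact Real.log_le_log (by linarith) h

/-! ## 4. the reduction of `SvStiff` to densities `< 1/2` -/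

/-- free energy per site. -/
noncomputable def sq176F (c : ℝ) (M N n : ℕ) : ℝ := Real.log (svZN c M N n) / ((N : ℝ) * (M : ℝ))

/-- **(H1)** locally uniform limit of the free energy per site at the densities `d ∈ (0, 1/2)`. -/
def Sq176Lim (c : ℝ) (EE : ℝ → ℝ) : Prop :=
  ∀ d : ℝ, 0 < d → d < 1 / 2 → ∀ ε : ℝ, 0 < ε → ∃ η : ℝ, 0 < η ∧ ∀ᶠ N : ℕ in atTop, ∀ n : ℕ,
    |(n : ℝ) / N - d| ≤ η → ∀ᶠ M : ℕ in atTop, |sq176F c M N n - EE d| ≤ ε

/-- **(H2)** expansion of the limit at `d = (1 - s) / 2`, `s ↓ 0`. -/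
def Sq176Exp (EE : ℝ → ℝ) (Einf A : ℝ) : Prop :=
  ∀ ε : ℝ, 0 < ε → ∃ s₀ : ℝ, 0 < s₀ ∧ ∀ s : ℝ, 0 < s → s < s₀ →
    |EE ((1 - s) / 2) - Einf + A / 2 * s ^ 2| ≤ ε * s ^ 2

theorem sq176F_nonneg (c : ℝ) (hc : 1 ≤ c) {M N : ℕ} (hM : 0 < M) (hN : 0 < N) (n : ℕ) :
    0 ≤ sq176F c M N n :=
  div_nonneg (sq176_log_nonneg c hc hM hN n) (by positivity)

theorem sq176_lim_seq {c : ℝ} {EE : ℝ → ℝ} (H : Sq176Lim c EE) {d : ℝ} (hd0 : 0 < d) (hd1 : d < 1 / 2)
    {τ : ℝ} (hτ : 0 < τ) (Nf nf : ℕ → ℕ) (hN : Tendsto Nf atTop atTop)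
    (hr : Tendsto (fun L => (nf L : ℝ) / (Nf L : ℝ)) atTop (𝓝 d)) :
    ∀ᶠ L : ℕ in atTop, ∀ᶠ M : ℕ in atTop, |sq176F c M (Nf L) (nf L) - EE d| ≤ τ := by
  obtain ⟨η, hη, hev⟩ := H d hd0 hd1 τ hτ
  have h1 := hN.eventually hev
  have h2 : ∀ᶠ L in atTop, |(nf L : ℝ) / (Nf L : ℝ) - d| ≤ η := by
    have := hr.eventually (Metric.closedBall_mem_nhds d hη)
    filter_upwards [this] with L hL
    rwa [Real.dist_eq] at hL
  filter_upwards [h1, h2] with L a b using a _ b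

theorem sq176_floor_ratio (ρ : ℝ) (hρ : 0 ≤ ρ) :
    Tendsto (fun L : ℕ => ((⌊ρ * (L : ℝ)⌋₊ : ℕ) : ℝ) / (L : ℝ)) atTop (𝓝 ρ) :=
  (tendsto_nat_floor_mul_div_atTop hρ).comp tendsto_natCast_atTop_atTop

theorem sq176_floor_le (ρ : ℝ) (_hρ : 0 ≤ ρ) (hρ1 : ρ ≤ 1) (L : ℕ) : ⌊ρ * (L : ℝ)⌋₊ ≤ L := by
  have h1 : ρ * (L : ℝ) ≤ (L : ℝ) := by nlinarith [(Nat.cast_nonneg L : (0 : ℝ) ≤ L)]
  have h2 := Nat.floor_le_floor h1
  rwa [Nat.floor_natCast] at h2

/-- the tilted sector. -/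
theorem sq176_ratio_a (s : ℝ) (hs : 0 ≤ s) (hs1 : s ≤ 1) :
    Tendsto (fun L : ℕ => ((L - ⌊s * (L : ℝ)⌋₊ : ℕ) : ℝ) / ((2 * L : ℕ) : ℝ)) atTop (𝓝 ((1 - s) / 2)) := by
  have h := ((tendsto_const_nhds (x := (1 : ℝ))).sub (sq176_floor_ratio s hs)).div_const 2
  refine h.congr' ?_
  filter_upwards [eventually_gt_atTop 0] with L hL
  have hL' : (0 : ℝ) < L := by exact_mod_cast hL
  rw [Nat.cast_sub (sq176_floor_le s hs hs1 L)]
  push_cast
  field_simp

/-- the balanced sector with empty rows added. -/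
theorem sq176_ratio_up (ρ : ℝ) (hρ : 0 ≤ ρ) :
    Tendsto (fun L : ℕ => (L : ℝ) / ((2 * L + ⌊ρ * (L : ℝ)⌋₊ : ℕ) : ℝ)) atTop (𝓝 (1 / (2 + ρ))) := by
  have h := (tendsto_const_nhds (x := (1 : ℝ))).div
    ((tendsto_const_nhds (x := (2 : ℝ))).add (sq176_floor_ratio ρ hρ)) (by positivity)
  refine h.congr' ?_
  filter_upwards [eventually_gt_atTop 0] with L hL
  have hL' : (0 : ℝ) < L := by exact_mod_cast hL
  push_cast
  have : (0 : ℝ) ≤ ((⌊ρ * (L : ℝ)⌋₊ : ℕ) : ℝ) := Nat.cast_nonneg _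
  simp only [Pi.div_apply]
  field_simp

/-- the balanced sector with full rows removed. -/
theorem sq176_ratio_low (ρ : ℝ) (hρ : 0 ≤ ρ) (hρ1 : ρ ≤ 1) :
    Tendsto (fun L : ℕ => ((L - ⌊ρ * (L : ℝ)⌋₊ : ℕ) : ℝ) / ((2 * L - ⌊ρ * (L : ℝ)⌋₊ : ℕ) : ℝ)) atTop
      (𝓝 ((1 - ρ) / (2 - ρ))) := by
  have h := ((tendsto_const_nhds (x := (1 : ℝ))).sub (sq176_floor_ratio ρ hρ)).div
    ((tendsto_const_nhds (x := (2 : ℝ))).sub (sq176_floor_ratio ρ hρ)) (by linarith)
  refine h.congr' ?_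
  filter_upwards [eventually_gt_atTop 0] with L hL
  have hL' : (0 : ℝ) < L := by exact_mod_cast hL
  have hf := sq176_floor_le ρ hρ hρ1 L
  have hf' : ((⌊ρ * (L : ℝ)⌋₊ : ℕ) : ℝ) ≤ L := by exact_mod_cast hf
  rw [Nat.cast_sub hf, Nat.cast_sub (by omega)]
  push_cast
  have h2 : (0 : ℝ) < 2 * L - ((⌊ρ * (L : ℝ)⌋₊ : ℕ) : ℝ) := by linarith
  have h3 : (0 : ℝ) < 2 - ((⌊ρ * (L : ℝ)⌋₊ : ℕ) : ℝ) / L := by
    rw [sub_pos, div_lt_iff₀ hL']; linarith
  simp only [Pi.div_apply]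
  field_simp

/-- upper half of the squeeze. -/
theorem sq176_bal_le (c : ℝ) (hc : 1 ≤ c) {M L : ℕ} (hM : 0 < M) (hL : 0 < L) (ρ : ℝ) (hρ : 0 ≤ ρ) :
    sq176F c M (2 * L) L ≤ sq176F c M (2 * L + ⌊ρ * (L : ℝ)⌋₊) L * (1 + ρ / 2) := by
  set r := ⌊ρ * (L : ℝ)⌋₊ with hr
  have hL' : (0 : ℝ) < L := by exact_mod_cast hL
  have hM' : (0 : ℝ) < M := by exact_mod_cast hM
  have hrle : (r : ℝ) ≤ ρ * L := Nat.floor_le (by positivity)
  have hr0 : (0 : ℝ) ≤ r := Nat.cast_nonneg _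
  have h1 := sq176_log_le c hc hM (by omega : 0 < 2 * L) (by omega : 0 < 2 * L + r) L L
    (sq176_svZN_le_empty c (by linarith) hM (by omega) r L)
  have h0 := sq176_log_nonneg c hc hM (by omega : 0 < 2 * L + r) L
  unfold sq176F
  calc Real.log (svZN c M (2 * L) L) / (((2 * L : ℕ) : ℝ) * M)
      ≤ Real.log (svZN c M (2 * L + r) L) / (((2 * L : ℕ) : ℝ) * M) := by gcongr
    _ = Real.log (svZN c M (2 * L + r) L) / (((2 * L + r : ℕ) : ℝ) * M) *
          (((2 * L + r : ℕ) : ℝ) / ((2 * L : ℕ) : ℝ)) := by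
        push_cast; field_simp
    _ ≤ Real.log (svZN c M (2 * L + r) L) / (((2 * L + r : ℕ) : ℝ) * M) * (1 + ρ / 2) := by
        refine mul_le_mul_of_nonneg_left ?_ (by positivity)
        push_cast
        rw [div_le_iff₀ (by positivity)]
        nlinarith

/-- lower half of the squeeze. -/
theorem sq176_bal_ge (c : ℝ) (hc : 1 ≤ c) {M L : ℕ} (hM : 0 < M) (hL : 0 < L) (ρ : ℝ) (hρ : 0 ≤ ρ)
    (hρ1 : ρ ≤ 1) :
    sq176F c M (2 * L - ⌊ρ * (L : ℝ)⌋₊) (L - ⌊ρ * (L : ℝ)⌋₊) * (1 - ρ / 2) ≤ sq176F c M (2 * L) L := by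
  have hf := sq176_floor_le ρ hρ hρ1 L
  set r := ⌊ρ * (L : ℝ)⌋₊ with hr
  have hL' : (0 : ℝ) < L := by exact_mod_cast hL
  have hM' : (0 : ℝ) < M := by exact_mod_cast hM
  have hrle : (r : ℝ) ≤ ρ * L := Nat.floor_le (by positivity)
  have hr0 : (0 : ℝ) ≤ r := Nat.cast_nonneg _
  have hrL : (r : ℝ) ≤ L := by exact_mod_cast hf
  have hN : 0 < 2 * L - r := by omega
  have h2 := sq176_svZN_le_full c (by linarith) hM hN r (L - r)
  rw [Nat.sub_add_cancel (by omega : r ≤ 2 * L), Nat.sub_add_cancel hf] at h2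
  have h1 := sq176_log_le c hc hM hN (by omega : 0 < 2 * L) (L - r) L h2
  have h0 := sq176_log_nonneg c hc hM hN (L - r)
  have hcast : ((2 * L - r : ℕ) : ℝ) = 2 * L - r := by
    rw [Nat.cast_sub (by omega)]; push_cast; ring
  have hpos : (0 : ℝ) < 2 * L - r := by linarith
  unfold sq176F
  calc Real.log (svZN c M (2 * L - r) (L - r)) / (((2 * L - r : ℕ) : ℝ) * M) * (1 - ρ / 2)
      ≤ Real.log (svZN c M (2 * L - r) (L - r)) / (((2 * L - r : ℕ) : ℝ) * M) *
          (((2 * L - r : ℕ) : ℝ) / ((2 * L : ℕ) : ℝ)) := by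
        refine mul_le_mul_of_nonneg_left ?_ (by rw [hcast]; positivity)
        rw [hcast]
        push_cast
        rw [le_div_iff₀ (by positivity)]
        nlinarith
    _ = Real.log (svZN c M (2 * L - r) (L - r)) / (((2 * L : ℕ) : ℝ) * M) := by
        rw [hcast]; push_cast; field_simp
    _ ≤ Real.log (svZN c M (2 * L) L) / (((2 * L : ℕ) : ℝ) * M) := by gcongr

/-- elementary: a number close to `E`, times `1 ± ρ/2`, is close to `E`. -/
theorem sq176_real (x E B ρ : ℝ) (hB : 0 ≤ B) (hρ : 0 < ρ) (hρ1 : ρ ≤ 1 / 2) (h : |x - E| ≤ (B + 1) * ρ) :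
    x * (1 + ρ / 2) ≤ E + (2 * B + 2 + |E|) * ρ ∧ E - (2 * B + 2 + |E|) * ρ ≤ x * (1 - ρ / 2) := by
  obtain ⟨h1, h2⟩ := abs_le.1 h
  have hE1 := le_abs_self E
  have hE2 := neg_abs_le E
  have hE0 := abs_nonneg E
  have hx1 : x ≤ |E| + (B + 1) * ρ := by linarith
  have hx2 : -(|E| + (B + 1) * ρ) ≤ x := by linarith
  have hb : (B + 1) * ρ ≤ (B + 1) := by nlinarith
  have h3 : x * (ρ / 2) ≤ (|E| + (B + 1)) * (ρ / 2) := by
    refine mul_le_mul_of_nonneg_right (by linarith) (by positivity)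
  have h4 : -((|E| + (B + 1)) * (ρ / 2)) ≤ x * (ρ / 2) := by
    have : (-(|E| + (B + 1))) * (ρ / 2) ≤ x * (ρ / 2) :=
      mul_le_mul_of_nonneg_right (by linarith) (by positivity)
    linarith
  have h5 : 0 ≤ |E| * ρ := by positivity
  have h6 : 0 ≤ (B + 1) * ρ := by positivity
  constructor <;> nlinarith

/-- **The reduction.**  `SvStiff c A` from densities `< 1/2` only. -/
theorem sq176_stiff (c A Einf : ℝ) (EE : ℝ → ℝ) (hc : 1 ≤ c) (H1 : Sq176Lim c EE)
    (H2 : Sq176Exp EE Einf A) : SvStiff c A := by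
  intro ε hε
  obtain ⟨s0, hs0, H2a⟩ := H2 (ε / 2) (by positivity)
  obtain ⟨s1, hs1, H2b⟩ := H2 1 one_pos
  refine ⟨min s0 1, lt_min hs0 one_pos, fun s hs hs' => ?_⟩
  have hsa : s < s0 := lt_of_lt_of_le hs' (min_le_left _ _)
  have hsb : s < 1 := lt_of_lt_of_le hs' (min_le_right _ _)
  set τ := ε * s ^ 2 / 4 with hτdef
  have hτ : 0 < τ := by positivity
  set B := 1 + |A| / 2 with hB
  set K := 2 * B + 2 + |Einf| with hK
  have hBpos : 0 < B := by positivity
  have hKpos : 0 < K := by positivity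
  set ρ := min (min (1 / 2) s1) (τ / K) with hρdef
  have hρ : 0 < ρ := lt_min (lt_min (by norm_num) hs1) (div_pos hτ hKpos)
  have hρ2 : ρ ≤ 1 / 2 := (min_le_left _ _).trans (min_le_left _ _)
  have hρs : ρ ≤ s1 := (min_le_left _ _).trans (min_le_right _ _)
  have hρK : K * ρ ≤ τ := by
    have : ρ ≤ τ / K := min_le_right _ _
    rw [le_div_iff₀ hKpos] at this
    linarith
  -- `EE` near `1/2`
  have key : ∀ σ : ℝ, 0 < σ → σ < ρ → |EE ((1 - σ) / 2) - Einf| ≤ B * ρ := by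
    intro σ h0 h1
    have h2 := H2b σ h0 (by linarith)
    have h3 : |A / 2 * σ ^ 2| = |A| / 2 * σ ^ 2 := by
      rw [abs_mul, abs_div, abs_of_pos (by norm_num : (0 : ℝ) < 2), abs_of_nonneg (by positivity : (0 : ℝ) ≤ σ ^ 2)]
    have h4 : σ ^ 2 ≤ ρ := by nlinarith
    calc |EE ((1 - σ) / 2) - Einf| = |(EE ((1 - σ) / 2) - Einf + A / 2 * σ ^ 2) - A / 2 * σ ^ 2| := by
          congr 1; ring
      _ ≤ |EE ((1 - σ) / 2) - Einf + A / 2 * σ ^ 2| + |A / 2 * σ ^ 2| := abs_sub _ _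
      _ ≤ 1 * σ ^ 2 + |A| / 2 * σ ^ 2 := by rw [h3]; linarith
      _ = B * σ ^ 2 := by rw [hB]; ring
      _ ≤ B * ρ := by gcongr
  -- the three densities
  have e_up : 1 / (2 + ρ) = (1 - ρ / (2 + ρ)) / 2 := by field_simp; ring
  have e_low : (1 - ρ) / (2 - ρ) = (1 - ρ / (2 - ρ)) / 2 := by
    have : (2 : ℝ) - ρ ≠ 0 := by linarith
    field_simp; ring
  have su0 : 0 < ρ / (2 + ρ) := by positivity
  have su1 : ρ / (2 + ρ) < ρ := by
    rw [div_lt_iff₀ (by positivity)]; nlinarith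
  have sl0 : 0 < ρ / (2 - ρ) := div_pos hρ (by linarith)
  have sl1 : ρ / (2 - ρ) < ρ := by
    rw [div_lt_iff₀ (by linarith)]; nlinarith
  have k_up := key _ su0 su1
  have k_low := key _ sl0 sl1
  rw [← e_up] at k_up
  rw [← e_low] at k_low
  have ev_a := sq176_lim_seq H1 (d := (1 - s) / 2) (by linarith) (by linarith) hτ
    (fun L => 2 * L) (fun L => L - ⌊s * (L : ℝ)⌋₊)
    (tendsto_atTop_mono (fun L => by show L ≤ 2 * L; omega) tendsto_id) (sq176_ratio_a s hs.le hsb.le)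
  have ev_up := sq176_lim_seq H1 (d := 1 / (2 + ρ)) (by positivity)
    (by rw [div_lt_div_iff₀ (by positivity) (by norm_num)]; linarith) hρ
    (fun L => 2 * L + ⌊ρ * (L : ℝ)⌋₊) (fun L => L)
    (tendsto_atTop_mono (fun L => by show L ≤ 2 * L + ⌊ρ * (L : ℝ)⌋₊; omega) tendsto_id)
    (sq176_ratio_up ρ hρ.le)
  have ev_low := sq176_lim_seq H1 (d := (1 - ρ) / (2 - ρ)) (div_pos (by linarith) (by linarith))
    (by rw [div_lt_div_iff₀ (by linarith) (by norm_num)]; linarith) hρ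
    (fun L => 2 * L - ⌊ρ * (L : ℝ)⌋₊) (fun L => L - ⌊ρ * (L : ℝ)⌋₊)
    (tendsto_atTop_mono (fun L => by
      have := sq176_floor_le ρ hρ.le (by linarith) L
      show L ≤ 2 * L - ⌊ρ * (L : ℝ)⌋₊
      omega) tendsto_id) (sq176_ratio_low ρ hρ.le (by linarith))
  filter_upwards [ev_a, ev_up, ev_low, eventually_gt_atTop 0] with L ha hu hl hL
  filter_upwards [ha, hu, hl, eventually_gt_atTop 0] with M ha hu hl hM
  have hL' : (0 : ℝ) < L := by exact_mod_cast hL
  have hM' : (0 : ℝ) < M := by exact_mod_cast hM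
  -- the balanced sector
  have b1 := sq176_bal_le c hc hM hL ρ hρ.le
  have b2 := sq176_bal_ge c hc hM hL ρ hρ.le (by linarith)
  have xu : |sq176F c M (2 * L + ⌊ρ * (L : ℝ)⌋₊) L - Einf| ≤ (B + 1) * ρ := by
    calc _ = |(sq176F c M (2 * L + ⌊ρ * (L : ℝ)⌋₊) L - EE (1 / (2 + ρ))) + (EE (1 / (2 + ρ)) - Einf)| := by
          congr 1; ring
      _ ≤ _ := (abs_add_le _ _).trans (by linarith)
  have xl : |sq176F c M (2 * L - ⌊ρ * (L : ℝ)⌋₊) (L - ⌊ρ * (L : ℝ)⌋₊) - Einf| ≤ (B + 1) * ρ := by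
    calc _ = |(sq176F c M (2 * L - ⌊ρ * (L : ℝ)⌋₊) (L - ⌊ρ * (L : ℝ)⌋₊) - EE ((1 - ρ) / (2 - ρ)))
            + (EE ((1 - ρ) / (2 - ρ)) - Einf)| := by congr 1; ring
      _ ≤ _ := (abs_add_le _ _).trans (by linarith)
  have r1 := (sq176_real _ Einf B ρ hBpos.le hρ hρ2 xu).1
  have r2 := (sq176_real _ Einf B ρ hBpos.le hρ hρ2 xl).2
  have hbal : |sq176F c M (2 * L) L - Einf| ≤ τ := by
    rw [abs_le]; constructor <;> linarith
  have hexp := H2a s hs hsa
  have e : (Real.log (svZN c M (2 * L) (L - ⌊s * (L : ℝ)⌋₊)) - Real.log (svZN c M (2 * L) L)) / (2 * L * M)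
      + A / 2 * s ^ 2
      = (sq176F c M (2 * L) (L - ⌊s * (L : ℝ)⌋₊) - EE ((1 - s) / 2))
        + (EE ((1 - s) / 2) - Einf + A / 2 * s ^ 2) - (sq176F c M (2 * L) L - Einf) := by
    unfold sq176F
    push_cast
    ring
  rw [e]
  have t1 := abs_sub ((sq176F c M (2 * L) (L - ⌊s * (L : ℝ)⌋₊) - EE ((1 - s) / 2))
        + (EE ((1 - s) / 2) - Einf + A / 2 * s ^ 2)) (sq176F c M (2 * L) L - Einf)
  have t2 := abs_add_le (sq176F c M (2 * L) (L - ⌊s * (L : ℝ)⌋₊) - EE ((1 - s) / 2))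
        (EE ((1 - s) / 2) - Einf + A / 2 * s ^ 2)
  have : ε * s ^ 2 = τ + ε / 2 * s ^ 2 + τ := by rw [hτdef]; ring
  linarith

end Claimed.Agent.R292
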