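import Claimed.Agent.R292.Bethe.Hub
import Claimed.Agent.R292.Bethe.C1x150
import Claimed.Agent.R292.Bethe.Four230
import Claimed.Agent.R292.Bethe.T1x150
import Claimed.Agent.R292.Bethe.BA4Wire120
import Claimed.Agent.R292.Bethe.T3x259
import Claimed.Agent.R292.Bethe.CondB77
import Claimed.Agent.R292.Bethe.Neg170

/-!
# Row 292 (S0540), Bethe/Thermo : THE CONTRACTS OF UNIT BETHE, ON THE REAL NAMES, ALL CLOSED      (owner helper116; prefix `ba`)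

`0 < lam < 2π/3`, `c = ba120c lam = 2 cos (lam / 2) ∈ (1, 2)`, `s = ba230_ker lam`, `K = ba230_ker (2 lam)`, `e0 = ba230_e0 lam`.

* `ba_t1`  CLOSED (150, 202: `t1x150_main`)   continuum at a finite Fermi point `Q`;
* `ba_t2`  CLOSED (230, 200: `ba230_t2`)      `(Einf - Eq Q) / (1/2 - Dq Q)^2 → π - lam`;
* `ba_t3`  condensation, EVEN sectors, uniform on compacts of `Q`: PROVED from `t3x259_of_AB` (259), `t3x259_A_pos` (259, 120, 80),
  `condb77_B80` (77, 180), `ba120_roots_neg` (120, 130) and `ba_hull_neg := neg170_hull_inst` (170: hull of the roots, `K ≤ 0`).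
NO OPEN LEAF.
`ba_thermo_lam`, `ba_thermo_lt` : `BaThermo c` for `1 < c < 2`, PROVED from the three.
-/

set_option autoImplicit false

namespace Claimed.Agent.R292

open Filter Topology MeasureTheory

/-- filling at the Fermi point `Q` -/
noncomputable def baDq (lam Q : ℝ) : ℝ := c1x150_Dq (ba230_ker (2 * lam)) (ba230_ker lam) Q

/-- free energy at the Fermi point `Q` -/
noncomputable def baEq (lam Q : ℝ) : ℝ :=
  c1x150_Eq (ba230_ker (2 * lam)) (ba230_ker lam) (ba230_e0 lam) Q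

/-- free energy at half filling -/
noncomputable def baEinf (lam : ℝ) : ℝ := ∫ u, ba230_ker lam u * ba230_eps lam u

/-- **T1** (150, 202). -/
theorem ba_t1 (lam : ℝ) (h0 : 0 < lam) (h1 : lam < 2 * Real.pi / 3) :
    ContinuousOn (baDq lam) (Set.Ici 0) ∧ baDq lam 0 = 0 ∧ ContinuousOn (baEq lam) (Set.Ioi 0) ∧
      StrictMonoOn (baDq lam) (Set.Ici 0) ∧ (∀ Q, 0 < Q → baDq lam Q < 1 / 2) ∧
      Tendsto (baDq lam) atTop (𝓝 (1 / 2)) :=
  t1x150_main h0 h1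

/-- **T2** (230, 200). -/
theorem ba_t2 (lam : ℝ) (h0 : 0 < lam) (h1 : lam < 2 * Real.pi / 3) :
    Tendsto (fun Q => (baEinf lam - baEq lam Q) / (1 / 2 - baDq lam Q) ^ 2) atTop (𝓝 (Real.pi - lam)) :=
  ba230_t2 h0 h1

/-- **L8, the hull of the roots for `K ≤ 0`** (170: `neg170_hull_inst`). -/
theorem ba_hull_neg {lam Q₁ Q₂ : ℝ} (h0 : Real.pi / 2 ≤ lam) (h1 : lam < 2 * Real.pi / 3) (hQ₁ : 0 < Q₁) (hQ : Q₁ ≤ Q₂) :
    ∃ N₀ : ℕ, ∀ N m : ℕ, N₀ ≤ N → ∀ Q ∈ Set.Icc Q₁ Q₂,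
      ((m + 1 : ℕ) : ℝ) = N * c1x150_Dq (ba230_ker (2 * lam)) (ba230_ker lam) Q →
      ∀ y : Fin (m + 1) → ℝ, ba3x80_F (N : ℝ) ba3x80_S ba3x80_Th (ba3x80_I (m + 1)) (lam, y) = 0 →
        ∀ j, |y j| ≤ Q₂ + 1 :=
  neg170_hull_inst h0 h1 hQ₁

/-- (A) of T3 for `π/2 < lam` (`K ≤ 0`). -/
theorem ba_A_neg {lam : ℝ} (h0 : Real.pi / 2 < lam) (h1 : lam < 2 * Real.pi / 3) : T3x259A lam := by
  intro Q₁ Q₂ hQ1 hQ12
  have hpi := Real.pi_pos
  obtain ⟨-, -, -, -, hDlt, -⟩ := t1x150_main (lam := lam) (by linarith) h1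
  obtain ⟨N₀, hN₀⟩ := ba_hull_neg h0.le h1 hQ1 hQ12
  refine ⟨Q₂ + 1, N₀, fun N m hN hev hQ => ?_⟩
  obtain ⟨Q, hQm, hmQ⟩ := hQ
  have h2 : 2 * (m + 1) ≤ N := by
    have h3 := hDlt Q (lt_of_lt_of_le hQ1 hQm.1)
    have h4 : (0 : ℝ) ≤ N := Nat.cast_nonneg N
    have : ((2 * (m + 1) : ℕ) : ℝ) ≤ N := by
      rw [Nat.cast_mul, hmQ]
      push_cast
      nlinarith
    exact_mod_cast this
  obtain ⟨y, a1, a2, -, a4, -, a6, a7⟩ := ba120_roots_neg h0 (by linarith) h2 hev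
  exact ⟨y, ⟨a1, a2, a6, fun u _ => (a4 u).le⟩, hN₀ N m hN Q hQm hmQ y a1, a7⟩

/-- **T3** (skeleton 259; (A) 120 80 130 170; (B) 77 180). -/
theorem ba_t3 (lam : ℝ) (h0 : 0 < lam) (h1 : lam < 2 * Real.pi / 3) :
    ∀ Q₁ Q₂ : ℝ, 0 < Q₁ → Q₁ ≤ Q₂ → ∀ ε : ℝ, 0 < ε → ∃ N₀ : ℕ, ∀ N n : ℕ, N₀ ≤ N → Even n →
      ∀ Q ∈ Set.Icc Q₁ Q₂, (n : ℝ) = N * baDq lam Q → |baF (ba120c lam) N n / N - baEq lam Q| ≤ ε := by
  have hB : T3x259B lam := fun Qm ε hε => by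
    obtain ⟨N₀, hN₀⟩ := condb77_B80 h0 h1 Qm ε hε
    exact ⟨N₀, fun N m y hN hmN hev hc hbox => hN₀ N m y hN hmN hev hc.1 hc.2.1 hc.2.2.1 hc.2.2.2 hbox⟩
  rcases le_or_gt lam (Real.pi / 2) with h | h
  · exact t3x259_of_AB h0 h1 (t3x259_A_pos h0 h) hB
  · exact t3x259_of_AB h0 h1 (ba_A_neg h h1) hB

theorem ba_arcsin (lam : ℝ) (h0 : 0 ≤ lam) (h1 : lam ≤ 2 * Real.pi) :
    2 * Real.arcsin (ba120c lam / 2) = Real.pi - lam := by
  have e : ba120c lam / 2 = Real.cos (lam / 2) := by unfold ba120c; ring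
  rw [e, Real.arcsin_eq_pi_div_two_sub_arccos, Real.arccos_cos (by linarith) (by linarith)]
  ring

theorem ba_thermo_lam (lam : ℝ) (h0 : 0 < lam) (h1 : lam < 2 * Real.pi / 3) : BaThermo (ba120c lam) := by
  obtain ⟨a1, a2, a3, a4, a5, a6⟩ := ba_t1 lam h0 h1
  refine ⟨baDq lam, baEq lam, baEinf lam, a1.mono Set.Ioi_subset_Ici_self, a3,
    a4.mono Set.Ioi_subset_Ici_self, fun Q hQ => ⟨?_, a5 Q hQ⟩, a6, ba_t3 lam h0 h1, ?_⟩
  · have := a4 (Set.mem_Ici.2 le_rfl) (Set.mem_Ici.2 hQ.le) hQ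
    rwa [a2] at this
  · rw [ba_arcsin lam h0.le (by have := Real.pi_pos; linarith)]
    exact ba_t2 lam h0 h1

theorem ba_thermo_lt (c : ℝ) (hc1 : 1 < c) (hc2 : c < 2) : BaThermo c := by
  have hpi := Real.pi_pos
  set lam := 2 * Real.arccos (c / 2) with hlam
  have e : ba120c lam = c := by
    unfold ba120c
    rw [hlam, mul_div_cancel_left₀ _ (two_ne_zero), Real.cos_arccos (by linarith) (by linarith)]
    ring
  have h0 : 0 < lam := by
    have : 0 < Real.arccos (c / 2) := Real.arccos_pos.2 (by linarith)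
    linarith
  have h1 : lam < 2 * Real.pi / 3 := by
    have h3 : Real.arccos (1 / 2) = Real.pi / 3 := by
      rw [← Real.cos_pi_div_three, Real.arccos_cos (by positivity) (by linarith)]
    have h4 : Real.arccos (c / 2) < Real.arccos (1 / 2) :=
      Real.strictAntiOn_arccos ⟨by norm_num, by norm_num⟩ ⟨by linarith, by linarith⟩ (by linarith)
    rw [h3] at h4
    linarith
  rw [← e]
  exact ba_thermo_lam lam h0 h1

end Claimed.Agent.R292
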