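import Claimed.Agent.R292.Bethe.Thermo
import Claimed.Agent.R292.Bethe.A4x10
import Claimed.Agent.R292.Bethe.B1w160
import Claimed.Agent.R292.Bethe.C5x210

/-!
# Row 292, unit BETHE : THE END POINT `c = 2`, CLOSED OVER `T1 T2 T3`      (helper10; prefix `two10`)

`two10_main : SvStiff 2 (arcsin (2/2))` from the three contracts `ba_t1 ba_t2 ba_t3` of `Bethe/Thermo.lean` (at `1 < c < 2`) ONLY.

* `two10_y lam q x = lam * r_Q (lam (x + q))`, `Q = lam q` : the density outside the Fermi interval, in the rescaled variable;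
* `two10_link_eq`  : it solves the two-edge equation of 210 with kernel `c5xT (c5xP (ba230_g lam))`, source `ρ₁ (x + q)`;
* `two10_link_D`, `two10_link_E` : `1/2 - D = 2 Z ∫ y`, `Einf - E = 2 ∫ ε₁ (· + q) y`;
* `two10_lim`      : `lam → 0+` at fixed `q` (`c5x_lam_tendsto` of 210);
* `two10_hth`      : the hypotheses of `a4x10_hub_two` at `1 < c < 2`, in the variable `q = Q / lam`;
* `two10_main`     : `a4x10_hub_two` with `D₂ q = 1/2 - ∫ y⁰_q`, `dE₂ q = 2 ∫ ε₁ (· + q) y⁰_q`, `y⁰ = c5xY c5xP0_prof`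
                     (`c5x_mass_continuousOn`, `c5x_mass_ge`, `c5x_ratio` of 210).
-/

set_option autoImplicit false

namespace Claimed.Agent.R292

open Filter Topology MeasureTheory Set

/-! ### 1. Change of variables -/

theorem two10_ray {lam : ℝ} (h0 : 0 < lam) (q : ℝ) (F : ℝ → ℝ) :
    ∫ Y in Ioi (lam * q), F Y = lam * ∫ t in Ioi (0 : ℝ), F (lam * (t + q)) := by
  have h1 := MeasureTheory.integral_comp_mul_left_Ioi F q h0
  rw [c1x150_Ioi_shift (fun t => F (lam * t)) q, h1, smul_eq_mul, ← mul_assoc,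
    mul_inv_cancel₀ h0.ne', one_mul]

theorem two10_rho_scale {lam : ℝ} (h0 : 0 < lam) (z : ℝ) :
    lam * ba230_rho lam (lam * z) = ba230_rho 1 z := by
  unfold ba230_rho
  have : Real.pi * (lam * z) / lam = Real.pi * z / 1 := by field_simp
  rw [this]
  field_simp

theorem two10_eps_scale {lam : ℝ} (h0 : 0 < lam) (z : ℝ) :
    ba230_eps lam (lam * z) = ba230_eps 1 z := by
  unfold ba230_eps
  congr 1
  field_simp

theorem two10_T {lam : ℝ} (h0 : 0 < lam) (z : ℝ) :
    c5xT (c5xP (ba230_g lam)) z = -(lam * ba230_R lam (lam * z)) := by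
  rw [ba230_R_rescale h0]
  rfl

/-! ### 2. The link -/

/-- the density outside the Fermi interval, in the rescaled variable -/
noncomputable def two10_y (lam q x : ℝ) : ℝ :=
  lam * c1x150_rQ (ba230_ker (2 * lam)) (ba230_ker lam) (lam * q) (lam * (x + q))

section link

variable {lam : ℝ} (h0 : 0 < lam) (h1 : lam < 2 * Real.pi / 3)
include h0 h1

theorem two10_y_int (q : ℝ) : IntegrableOn (two10_y lam q) (Ioi 0) := by
  obtain ⟨C, H⟩ := ba230_Ker h0 h1
  have h := c1x150_rQ_integrable H (lam * q)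
  exact (((h.comp_mul_left' h0.ne').comp_add_right q).const_mul lam).integrableOn

theorem two10_link_eq {q : ℝ} (hq : 0 ≤ q) (x : ℝ) :
    two10_y lam q x + ba6h200_op (c5xT (c5xP (ba230_g lam))) (two10_y lam q) x +
      ba6h200_op (c5xT (c5xP (ba230_g lam))) (two10_y lam q) (-(2 * q) - x) = ba230_rho 1 (x + q) := by
  obtain ⟨C, H⟩ := ba230_Ker h0 h1
  set f := c1x150_rQ (ba230_ker (2 * lam)) (ba230_ker lam) (lam * q) with hf
  have hfc : Continuous f := c1x150_rQ_continuous H _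
  have hfe := c1x150_rQ_eq H (lam * q)
  have hev : ∀ u, f (-u) = f u := c1x150_rQ_even H _
  have hQ : 0 ≤ lam * q := by positivity
  have hc := ba230_comp' h0 h1 hQ hfc hfe (lam * (x + q))
  rw [← integral_Iic_eq_integral_Iio,
    ← integral_comp_neg_Ioi (lam * q) (fun y => ba230_R lam (lam * (x + q) - y) * f y),
    two10_ray h0 q, two10_ray h0 q] at hc
  have e1 : ba6h200_op (c5xT (c5xP (ba230_g lam))) (two10_y lam q) x =
      -(lam * (lam * ∫ t in Ioi (0 : ℝ), ba230_R lam (lam * (x + q) - lam * (t + q)) * f (lam * (t + q)))) := by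
    unfold ba6h200_op
    rw [← integral_const_mul, ← integral_const_mul, ← integral_neg]
    refine integral_congr_ae (Eventually.of_forall fun t => ?_)
    simp only []
    rw [two10_T h0]
    have : lam * (x + q) - lam * (t + q) = lam * (x - t) := by ring
    rw [this]
    unfold two10_y
    ring
  have e2 : ba6h200_op (c5xT (c5xP (ba230_g lam))) (two10_y lam q) (-(2 * q) - x) =
      -(lam * (lam * ∫ t in Ioi (0 : ℝ),
        ba230_R lam (lam * (x + q) - -(lam * (t + q))) * f (-(lam * (t + q))))) := by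
    unfold ba6h200_op
    rw [← integral_const_mul, ← integral_const_mul, ← integral_neg]
    refine integral_congr_ae (Eventually.of_forall fun t => ?_)
    simp only []
    rw [two10_T h0, hev]
    have : lam * (x + q) - -(lam * (t + q)) = -(lam * (-(2 * q) - x - t)) := by ring
    rw [this, ba230_R_even]
    unfold two10_y
    ring
  rw [e1, e2, ← two10_rho_scale h0 (x + q)]
  have e3 : two10_y lam q x = lam * f (lam * (x + q)) := rfl
  rw [e3, hc]
  ring

theorem two10_link_D {q : ℝ} (hq : 0 ≤ q) :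
    1 / 2 - baDq lam (lam * q) =
      2 * (Real.pi / (2 * (Real.pi - lam))) * ∫ x in Ioi (0 : ℝ), two10_y lam q x := by
  obtain ⟨C, H⟩ := ba230_Ker h0 h1
  have hQ : 0 ≤ lam * q := by positivity
  have h := ba230_mass_id h0 h1 hQ (c1x150_rQ_continuous H _) (c1x150_rQ_eq H (lam * q))
  rw [ba230_Z_eq h0 h1, two10_ray h0 q, ← integral_const_mul] at h
  exact h

theorem two10_link_E {q : ℝ} (hq : 0 ≤ q) :
    baEinf lam - baEq lam (lam * q) =
      2 * ∫ x in Ioi (0 : ℝ), ba230_eps 1 (x + q) * two10_y lam q x := by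
  obtain ⟨C, H⟩ := ba230_Ker h0 h1
  have hQ : 0 ≤ lam * q := by positivity
  have h := c1x150_hE H (ba230_Res h0 h1) (lam * q) hQ
  rw [two10_ray h0 q, ← integral_const_mul] at h
  refine h.trans ?_
  congr 1
  refine integral_congr_ae (Eventually.of_forall fun t => ?_)
  simp only []
  rw [two10_eps_scale h0]
  unfold two10_y
  ring

end link

/-! ### 3. `lam → 0+` at fixed `q` -/

/-- the inverse of `ba230_g` -/
noncomputable def two10_inv (a : ℝ) : ℝ := Real.pi * a / (Real.pi + a)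

theorem two10_inv_spec {a : ℝ} (ha : a ∈ Ioc 0 Real.pi) :
    0 < two10_inv a ∧ two10_inv a < 2 * Real.pi / 3 ∧ ba230_g (two10_inv a) = a := by
  have hpi := Real.pi_pos
  obtain ⟨h0, h1⟩ := ha
  have hs : 0 < Real.pi + a := by linarith
  refine ⟨by unfold two10_inv; positivity, ?_, ?_⟩
  · unfold two10_inv
    rw [div_lt_iff₀ hs]
    nlinarith
  · unfold ba230_g two10_inv
    have e : Real.pi - Real.pi * a / (Real.pi + a) = Real.pi ^ 2 / (Real.pi + a) := by
      field_simp
      ring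
    rw [e]
    field_simp

theorem two10_inv_g {lam : ℝ} (h1 : lam < Real.pi) : two10_inv (ba230_g lam) = lam := by
  have hpi := Real.pi_pos
  have hs : 0 < Real.pi - lam := by linarith
  unfold ba230_g two10_inv
  have e : Real.pi + Real.pi * lam / (Real.pi - lam) = Real.pi ^ 2 / (Real.pi - lam) := by
    field_simp
    ring
  rw [e]
  field_simp

theorem two10_g_tendsto : Tendsto ba230_g (𝓝[>] 0) (𝓝[>] 0) := by
  have hpi := Real.pi_pos
  refine tendsto_nhdsWithin_iff.2 ⟨?_, ?_⟩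
  · have hc : ContinuousAt ba230_g 0 := by
      unfold ba230_g
      refine ContinuousAt.div (by fun_prop) (by fun_prop) (by simp [hpi.ne'])
    have h := hc.tendsto
    have e : ba230_g 0 = 0 := by unfold ba230_g; simp
    rw [e] at h
    exact h.mono_left nhdsWithin_le_nhds
  · filter_upwards [Ioo_mem_nhdsGT hpi] with lam hl
    have : 0 < Real.pi - lam := by linarith [hl.2]
    exact div_pos (mul_pos hpi hl.1) this

theorem two10_lim {q : ℝ} (hq : 0 < q) :
    Tendsto (fun lam => ∫ x in Ioi (0 : ℝ), two10_y lam q x) (𝓝[>] 0)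
        (𝓝 (∫ x in Ioi (0 : ℝ), c5xY c5xP0_prof q x)) ∧
      Tendsto (fun lam => ∫ x in Ioi (0 : ℝ), ba230_eps 1 (x + q) * two10_y lam q x) (𝓝[>] 0)
        (𝓝 (∫ x in Ioi (0 : ℝ), ba230_eps 1 (x + q) * c5xY c5xP0_prof q x)) := by
  have hpi := Real.pi_pos
  have key := c5x_lam_tendsto hq (y := fun a => two10_y (two10_inv a) q) (y0 := c5xY c5xP0_prof q)
    (fun a ha => two10_y_int (two10_inv_spec ha).1 (two10_inv_spec ha).2.1 q)
    (fun a ha x _ => by
      have h := two10_link_eq (two10_inv_spec ha).1 (two10_inv_spec ha).2.1 hq.le x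
      rwa [(two10_inv_spec ha).2.2] at h)
    (c5xY_int _ q) (fun x _ => c5xY_eq _ hq.le x)
  have hev : ∀ᶠ lam in 𝓝[>] (0 : ℝ), two10_inv (ba230_g lam) = lam := by
    filter_upwards [Ioo_mem_nhdsGT hpi] with lam hl using two10_inv_g hl.2
  refine ⟨(key.2.1.comp two10_g_tendsto).congr' ?_, (key.2.2.comp two10_g_tendsto).congr' ?_⟩
  · filter_upwards [hev] with lam hl
    simp only [Function.comp, hl]
  · filter_upwards [hev] with lam hl
    simp only [Function.comp, hl]

/-! ### 4. The parameter `lam (c)` -/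

noncomputable def two10_lam (c : ℝ) : ℝ := 2 * Real.arccos (c / 2)

theorem two10_lam_spec {c : ℝ} (hc1 : 1 < c) (hc2 : c < 2) :
    0 < two10_lam c ∧ two10_lam c < 2 * Real.pi / 3 ∧ ba120c (two10_lam c) = c := by
  have hpi := Real.pi_pos
  refine ⟨?_, ?_, ?_⟩
  · have : 0 < Real.arccos (c / 2) := Real.arccos_pos.2 (by linarith)
    unfold two10_lam
    linarith
  · have h3 : Real.arccos (1 / 2) = Real.pi / 3 := by
      rw [← Real.cos_pi_div_three, Real.arccos_cos (by positivity) (by linarith)]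
    have h4 : Real.arccos (c / 2) < Real.arccos (1 / 2) :=
      Real.strictAntiOn_arccos ⟨by norm_num, by norm_num⟩ ⟨by linarith, by linarith⟩ (by linarith)
    rw [h3] at h4
    unfold two10_lam
    linarith
  · unfold ba120c two10_lam
    rw [mul_div_cancel_left₀ _ (two_ne_zero), Real.cos_arccos (by linarith) (by linarith)]
    ring

theorem two10_lam_tendsto : Tendsto two10_lam (𝓝[<] 2) (𝓝[>] 0) := by
  refine tendsto_nhdsWithin_iff.2 ⟨?_, ?_⟩
  · have hc : Continuous two10_lam := by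
      unfold two10_lam
      exact continuous_const.mul (Real.continuous_arccos.comp (by fun_prop))
    have h := hc.tendsto 2
    have e : two10_lam 2 = 0 := by unfold two10_lam; simp
    rw [e] at h
    exact h.mono_left nhdsWithin_le_nhds
  · filter_upwards [Ioo_mem_nhdsLT (show (1 : ℝ) < 2 by norm_num)] with c hc
    exact (two10_lam_spec hc.1 hc.2).1

/-! ### 5. The hypotheses of `a4x10_hub_two` at `1 < c < 2` -/

theorem two10_hth (c : ℝ) (hc1 : 1 < c) (hc2 : c < 2) :
    ContinuousOn (fun Q => baDq (two10_lam c) (two10_lam c * Q)) (Set.Ioi 0) ∧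
    ContinuousOn (fun Q => baEq (two10_lam c) (two10_lam c * Q)) (Set.Ioi 0) ∧
    StrictMonoOn (fun Q => baDq (two10_lam c) (two10_lam c * Q)) (Set.Ioi 0) ∧
    (∀ Q, 0 < Q → 0 < baDq (two10_lam c) (two10_lam c * Q) ∧
      baDq (two10_lam c) (two10_lam c * Q) < 1 / 2) ∧
    Tendsto (fun Q => baDq (two10_lam c) (two10_lam c * Q)) atTop (𝓝 (1 / 2)) ∧
    (∀ Q₁ Q₂ : ℝ, 0 < Q₁ → Q₁ ≤ Q₂ → ∀ ε : ℝ, 0 < ε → ∃ N₀ : ℕ, ∀ N n : ℕ, N₀ ≤ N → Even n →
      ∀ Q ∈ Set.Icc Q₁ Q₂, (n : ℝ) = N * baDq (two10_lam c) (two10_lam c * Q) →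
        |baF c N n / N - baEq (two10_lam c) (two10_lam c * Q)| ≤ ε) ∧
    Tendsto (fun Q => baEinf (two10_lam c) - baEq (two10_lam c) (two10_lam c * Q)) atTop (𝓝 0) := by
  obtain ⟨h0, h1, hc⟩ := two10_lam_spec hc1 hc2
  set lam := two10_lam c with hlam
  obtain ⟨a1, a2, a3, a4, a5, a6⟩ := ba_t1 lam h0 h1
  have hmul : Continuous fun Q : ℝ => lam * Q := by fun_prop
  have hpos : ∀ Q : ℝ, 0 < Q → 0 < lam * Q := fun Q hQ => mul_pos h0 hQ
  have hsc : Tendsto (fun Q : ℝ => lam * Q) atTop atTop := tendsto_id.const_mul_atTop h0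
  refine ⟨a1.comp hmul.continuousOn (fun Q hQ => (hpos Q hQ).le),
    a3.comp hmul.continuousOn (fun Q hQ => hpos Q hQ), ?_, ?_, a6.comp hsc, ?_, ?_⟩
  · intro Q hQ Q' hQ' hlt
    exact a4 (hpos Q hQ).le (hpos Q' hQ').le (mul_lt_mul_of_pos_left hlt h0)
  · intro Q hQ
    refine ⟨?_, a5 _ (hpos Q hQ)⟩
    have := a4 (Set.mem_Ici.2 le_rfl) (Set.mem_Ici.2 (hpos Q hQ).le) (hpos Q hQ)
    rwa [a2] at this
  · intro Q₁ Q₂ hQ₁ hQ₁₂ ε hε
    obtain ⟨N₀, H⟩ := ba_t3 lam h0 h1 (lam * Q₁) (lam * Q₂) (hpos Q₁ hQ₁)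
      (mul_le_mul_of_nonneg_left hQ₁₂ h0.le) ε hε
    refine ⟨N₀, fun N n hN he Q hQ hn => ?_⟩
    have := H N n hN he (lam * Q) ⟨mul_le_mul_of_nonneg_left hQ.1 h0.le,
      mul_le_mul_of_nonneg_left hQ.2 h0.le⟩ hn
    rwa [hc] at this
  · have t2 := ba_t2 lam h0 h1
    have t3 : Tendsto (fun Q => (1 / 2 - baDq lam Q) ^ 2) atTop (𝓝 0) := by
      have := ((tendsto_const_nhds (x := (1 / 2 : ℝ))).sub a6).pow 2
      simpa using this
    have t4 := t2.mul t3
    rw [mul_zero] at t4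
    have t5 : Tendsto (fun Q => baEinf lam - baEq lam Q) atTop (𝓝 0) := by
      refine t4.congr' ?_
      filter_upwards [eventually_gt_atTop 0] with Q hQ
      have : (1 / 2 - baDq lam Q) ^ 2 ≠ 0 := by
        have := a5 Q hQ
        exact pow_ne_zero _ (by linarith)
      exact div_mul_cancel₀ _ this
    exact t5.comp hsc

/-! ### 6. The end point -/

/-- **`c = 2`, from `T1 T2 T3` at `1 < c < 2`.** -/
theorem two10_main : SvStiff 2 (Real.arcsin (2 / 2)) := by
  have hpi := Real.pi_pos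
  have hK := c5xT_ker c5xP0_prof
  obtain ⟨M, hM⟩ := hK.bdd
  have hyi : ∀ q, IntegrableOn (c5xY c5xP0_prof q) (Ioi 0) := c5xY_int _
  have hye : ∀ q, 0 ≤ q → ∀ x, 0 < x → c5xY c5xP0_prof q x +
      ba6h200_op (c5xT c5xP0) (c5xY c5xP0_prof q) x +
      ba6h200_op (c5xT c5xP0) (c5xY c5xP0_prof q) (-(2 * q) - x) = ba230_rho 1 (x + q) :=
    fun q hq x _ => c5xY_eq _ hq x
  obtain ⟨r1, r2⟩ := c5x_ratio c5xP0_prof hyi hye
  have hIoo : ∀ᶠ lam in 𝓝[>] (0 : ℝ), lam ∈ Ioo 0 (2 * Real.pi / 3) :=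
    Ioo_mem_nhdsGT (by positivity)
  refine a4x10_hub_two (c₀ := 1) one_pos (by norm_num) baF 2
    (fun c h _ N n hN hn => b1w160_lim c (by linarith) N n hN hn)
    (fun c Q => baDq (two10_lam c) (two10_lam c * Q))
    (fun c Q => baEq (two10_lam c) (two10_lam c * Q)) (fun c => baEinf (two10_lam c))
    two10_hth
    (fun q => 1 / 2 - ∫ x in Ioi (0 : ℝ), c5xY c5xP0_prof q x)
    (fun q => 2 * ∫ x in Ioi (0 : ℝ), ba230_eps 1 (x + q) * c5xY c5xP0_prof q x) ?_ ?_ ?_ ?_ ?_ ?_
  · intro q hq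
    have hZ : Tendsto (fun lam : ℝ => 2 * (Real.pi / (2 * (Real.pi - lam)))) (𝓝[>] 0) (𝓝 1) := by
      have hc : ContinuousAt (fun lam : ℝ => 2 * (Real.pi / (2 * (Real.pi - lam)))) 0 := by
        refine ContinuousAt.mul continuousAt_const
          (ContinuousAt.div continuousAt_const (by fun_prop) (by simp [hpi.ne']))
      have h := hc.tendsto
      have e : 2 * (Real.pi / (2 * (Real.pi - 0))) = 1 := by field_simp; ring
      rw [e] at h
      exact h.mono_left nhdsWithin_le_nhds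
    have h1 := (tendsto_const_nhds (x := (1 / 2 : ℝ))).sub (hZ.mul (two10_lim hq).1)
    rw [one_mul] at h1
    have h2 : Tendsto (fun lam => baDq lam (lam * q)) (𝓝[>] 0)
        (𝓝 (1 / 2 - ∫ x in Ioi (0 : ℝ), c5xY c5xP0_prof q x)) := by
      refine h1.congr' ?_
      filter_upwards [hIoo] with lam hl
      rw [← two10_link_D hl.1 hl.2 hq.le]
      ring
    exact h2.comp two10_lam_tendsto
  · intro q hq
    have h1 := (two10_lim hq).2.const_mul 2
    have h2 : Tendsto (fun lam => baEinf lam - baEq lam (lam * q)) (𝓝[>] 0)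
        (𝓝 (2 * ∫ x in Ioi (0 : ℝ), ba230_eps 1 (x + q) * c5xY c5xP0_prof q x)) := by
      refine h1.congr' ?_
      filter_upwards [hIoo] with lam hl
      rw [← two10_link_E hl.1 hl.2 hq.le]
    exact h2.comp two10_lam_tendsto
  · have h := c5x_mass_continuousOn hK.int hM hK.lt_one (ba230_rho_integrable one_pos)
      (y := c5xY c5xP0_prof) (fun q _ => hyi q) hye
    exact continuousOn_const.sub (h.mono Ioi_subset_Ici_self)
  · intro q hq
    have h := c5x_mass_ge c5xP0_prof hq.le (hyi q) (hye q hq.le)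
    have : 0 < Real.exp (-(Real.pi / 1 * q)) / (2 * (Real.pi / 1)) := by positivity
    show 1 / 2 - ∫ x in Ioi (0 : ℝ), c5xY c5xP0_prof q x < 1 / 2
    linarith
  · have := (tendsto_const_nhds (x := (1 / 2 : ℝ))).sub r2
    simpa using this
  · have h := r1.const_mul 2
    rw [c5xP0_integral] at h
    have e : 2 * (Real.pi * (1 - 1 / 2)) = 2 * Real.arcsin (2 / 2) := by
      rw [div_self (two_ne_zero), Real.arcsin_one]
      ring
    rw [e] at h
    refine h.congr fun q => ?_
    have : (1 : ℝ) / 2 - (1 / 2 - ∫ x in Ioi (0 : ℝ), c5xY c5xP0_prof q x) =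
        ∫ x in Ioi (0 : ℝ), c5xY c5xP0_prof q x := by ring
    rw [this]
    ring

end Claimed.Agent.R292
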