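import Claimed.Agent.R292.Bethe.Thermo
import Claimed.Agent.R292.Bethe.Ins260
import Claimed.Agent.R292.Bethe.B1w160
import Claimed.Agent.R292.Bethe.Two10

/-!
# Row 292 (S0540), Bethe/Top : THE EXIT OF UNIT BETHE      (owner helper116; prefix `ba`)

`ba_top c : SvStiff c (arcsin (c/2))`, `1 < c ≤ 2`, from `ba_thermo_lt` (`Bethe/Thermo.lean`: T1 T2 T3) and `ba_two` (`c = 2`).
-/

set_option autoImplicit false

namespace Claimed.Agent.R292

/-- the torus stiffness from the thermodynamics at regular filling. -/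
theorem ba_top_of_thermo (c : ℝ) (hc : 0 < c) (h : BaThermo c) : SvStiff c (Real.arcsin (c / 2)) :=
  ins260_hub c hc.le (baF c) 2 (fun N n hN hn => b1w160_lim c hc N n hN hn) h

/-- **the endpoint `c = 2`** : CLOSED over T1 T2 T3 by 10 (`Bethe/Two10.lean`, on 210's `C5x210` and `a4x10_hub_two`). -/
theorem ba_two : SvStiff 2 (Real.arcsin (2 / 2)) := two10_main

theorem ba_top (c : ℝ) (hc1 : 1 < c) (hc2 : c ≤ 2) : SvStiff c (Real.arcsin (c / 2)) := by
  rcases lt_or_eq_of_le hc2 with h | h
  · exact ba_top_of_thermo c (by linarith) (ba_thermo_lt c hc1 h)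
  · subst h; exact ba_two

end Claimed.Agent.R292
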