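import Claimed.Agent.R292.Bethe.HubB271
import Claimed.Agent.R292.Bethe.B4w77
import Claimed.Agent.R292.Bethe.T1x150
import Claimed.Agent.R292.Bethe.Inst282

/-!
# Rows 292 / 290, cell C1, unit BETHE: `BaThermo c`, `1 < c < 2`, FROM THE ROOTS ALONE      (helper271; prefix `bt271_`)

* `bt271_t3_at : Bh271B2at (ba120c lam) → (the statement of ba_t3 lam of Bethe/Thermo.lean, VERBATIM after unfolding baDq, baEq)`;
* `bt271_t3 : In282PathEx → (the same, for every 0 < lam < 2π/3)`, over `in282_B2 b2a287_main` (282, 287): BOTH signs of `K`;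
* `bt271_thermo_at : Bh271B2at c → 1 < c → c < 2 → (the body of BaThermo c)`;
* `bt271_ker_lip` (PB), `bt271_stab_ker` (PC, abstract), **`bt271_I1`** (I1 of 202, verbatim): `r_{t,Q}` Lipschitz in `t`, uniformly in `u`, `Q ∈ [0,Qh]`.

Assembly, nothing else: `bh271_thermo` (HubB271: dictionary, Perron identification over 120 / 140 / 160, row insertion over 110, compactness),
`b4w77_B4 : Bh271B4` (77), `t1x150_main` (150, 202: T1), `ba230_t2` (230, 200: T2), `ba230_dens`, `ba230_D_interval`, `ba230_Phi_interval` (230).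
(A second file is forced: `B4w77` imports `HubB271`.)
-/

set_option autoImplicit false

namespace Claimed.Agent.R292

open MeasureTheory Filter Topology Set

theorem bt271_lam_lt {c : ℝ} (hc1 : 1 < c) (hc2 : c < 2) : bh271_lam c < 2 * Real.pi / 3 := by
  have h1 : Real.arccos (c / 2) < Real.arccos (1 / 2) :=
    Real.arccos_lt_arccos (by norm_num) (by linarith) (by linarith)
  have h2 : Real.arccos (1 / 2) = Real.pi / 3 := by
    rw [← Real.cos_pi_div_three, Real.arccos_cos (by positivity) (by linarith [Real.pi_pos])]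
  unfold bh271_lam
  rw [h2] at h1
  linarith

theorem bt271_pi_sub_lam (c : ℝ) : Real.pi - bh271_lam c = 2 * Real.arcsin (c / 2) := by
  unfold bh271_lam
  rw [Real.arccos_eq_pi_div_two_sub_arcsin]
  ring

/-- the canonical density of block C (150) is a density in the sense of hub B. -/
theorem bt271_dens {lam : ℝ} (h0 : 0 < lam) (h1 : lam < 2 * Real.pi / 3) {Q : ℝ} (hQ : 0 ≤ Q) :
    Bh271Dens lam Q (c1x150_rQ (ba230_ker (2 * lam)) (ba230_ker lam) Q) := by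
  obtain ⟨a, b, c, d⟩ := ba230_dens h0 h1 hQ
  exact ⟨a, b, c, d⟩

theorem bt271_D {lam Q : ℝ} (hQ : 0 ≤ Q) :
    bh271_D Q (c1x150_rQ (ba230_ker (2 * lam)) (ba230_ker lam) Q) =
      c1x150_Dq (ba230_ker (2 * lam)) (ba230_ker lam) Q :=
  ba230_D_interval hQ

theorem bt271_Phi {lam Q : ℝ} (hQ : 0 ≤ Q) :
    bh271_Phi lam Q (c1x150_rQ (ba230_ker (2 * lam)) (ba230_ker lam) Q) =
      c1x150_Eq (ba230_ker (2 * lam)) (ba230_ker lam) (ba230_e0 lam) Q :=
  ba230_Phi_interval hQ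

theorem bt271_c_spec {lam : ℝ} (h0 : 0 < lam) (h1 : lam < 2 * Real.pi / 3) :
    1 < ba120c lam ∧ ba120c lam < 2 ∧ bh271_lam (ba120c lam) = lam := by
  have hpi := Real.pi_pos
  have e : ba120c lam / 2 = Real.cos (lam / 2) := by unfold ba120c; ring
  have hc1 : 1 / 2 < Real.cos (lam / 2) := by
    rw [← Real.cos_pi_div_three]
    exact Real.cos_lt_cos_of_nonneg_of_le_pi (by linarith) (by linarith) (by linarith)
  have hc2 : Real.cos (lam / 2) < 1 := by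
    rw [← Real.cos_zero]
    exact Real.cos_lt_cos_of_nonneg_of_le_pi le_rfl (by linarith) (by linarith)
  refine ⟨by linarith, by linarith, ?_⟩
  unfold bh271_lam
  rw [e, Real.arccos_cos (by linarith) (by linarith)]
  ring

/-- (BA⋆) at every Fermi point, in the vocabulary of block C. -/
theorem bt271_FE {lam : ℝ} (h0 : 0 < lam) (h1 : lam < 2 * Real.pi / 3) (h2 : Bh271B2at (ba120c lam)) {Q : ℝ} (hQ : 0 < Q) :
    bs110_FE (ba120c lam) (c1x150_Dq (ba230_ker (2 * lam)) (ba230_ker lam) Q)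
      (c1x150_Eq (ba230_ker (2 * lam)) (ba230_ker lam) (ba230_e0 lam) Q) := by
  obtain ⟨hc1, hc2, hl⟩ := bt271_c_spec h0 h1
  have h := bh271_exit_at (ba120c lam) hc1 hc2 h2 b4w77_B4 Q hQ
    (c1x150_rQ (ba230_ker (2 * lam)) (ba230_ker lam) Q) (by rw [hl]; exact bt271_dens h0 h1 hQ.le)
  rwa [hl, bt271_D hQ.le, bt271_Phi hQ.le] at h

/-- **T3 (`ba_t3` of `Bethe/Thermo.lean`, verbatim after unfolding `baDq`, `baEq`) from the roots at the weight `c = ba120c lam`.** -/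
theorem bt271_t3_at (lam : ℝ) (h0 : 0 < lam) (h1 : lam < 2 * Real.pi / 3) (h2 : Bh271B2at (ba120c lam)) :
    ∀ Q₁ Q₂ : ℝ, 0 < Q₁ → Q₁ ≤ Q₂ → ∀ ε : ℝ, 0 < ε → ∃ N₀ : ℕ, ∀ N n : ℕ, N₀ ≤ N → Even n →
      ∀ Q ∈ Set.Icc Q₁ Q₂, (n : ℝ) = N * c1x150_Dq (ba230_ker (2 * lam)) (ba230_ker lam) Q →
        |baF (ba120c lam) N n / N - c1x150_Eq (ba230_ker (2 * lam)) (ba230_ker lam) (ba230_e0 lam) Q| ≤ ε := by
  obtain ⟨hc1, -, -⟩ := bt271_c_spec h0 h1
  obtain ⟨tD, tZ, tE, tM, tH, -⟩ := t1x150_main h0 h1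
  refine bh271_cond_of_FE (ba120c lam) (by linarith) _ _ (tD.mono Ioi_subset_Ici_self) tE (fun Q hQ => ⟨?_, tH Q hQ⟩)
    (fun Q hQ => bt271_FE h0 h1 h2 hQ)
  have := tM (Set.mem_Ici.2 le_rfl) (Set.mem_Ici.2 hQ.le) hQ
  rwa [tZ] at this

/-- **T3 for every `0 < lam < 2π/3` (both signs of `K`) from the path of densities of constant filling ALONE** (rope (b): Newton). -/
theorem bt271_t3 (hpath : In282PathEx) (lam : ℝ) (h0 : 0 < lam) (h1 : lam < 2 * Real.pi / 3) :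
    ∀ Q₁ Q₂ : ℝ, 0 < Q₁ → Q₁ ≤ Q₂ → ∀ ε : ℝ, 0 < ε → ∃ N₀ : ℕ, ∀ N n : ℕ, N₀ ≤ N → Even n →
      ∀ Q ∈ Set.Icc Q₁ Q₂, (n : ℝ) = N * c1x150_Dq (ba230_ker (2 * lam)) (ba230_ker lam) Q →
        |baF (ba120c lam) N n / N - c1x150_Eq (ba230_ker (2 * lam)) (ba230_ker lam) (ba230_e0 lam) Q| ≤ ε :=
  bt271_t3_at lam h0 h1
    (bh271_B2at_of (in282_B2 b2a287_main hpath) (bt271_c_spec h0 h1).1 (bt271_c_spec h0 h1).2.1)

/-- **`BaThermo c` (its body, verbatim) for `1 < c < 2` from the contract `Bh271B2at c` (existence of the branch of roots) ALONE.** -/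
theorem bt271_thermo_at (c : ℝ) (hc1 : 1 < c) (hc2 : c < 2) (h2 : Bh271B2at c) :
    ∃ (Dq Eq : ℝ → ℝ) (Einf : ℝ),
      ContinuousOn Dq (Set.Ioi 0) ∧ ContinuousOn Eq (Set.Ioi 0) ∧ StrictMonoOn Dq (Set.Ioi 0) ∧
      (∀ Q, 0 < Q → 0 < Dq Q ∧ Dq Q < 1 / 2) ∧ Tendsto Dq atTop (𝓝 (1 / 2)) ∧
      (∀ Q₁ Q₂ : ℝ, 0 < Q₁ → Q₁ ≤ Q₂ → ∀ ε : ℝ, 0 < ε → ∃ N₀ : ℕ, ∀ N n : ℕ, N₀ ≤ N → Even n →
        ∀ Q ∈ Set.Icc Q₁ Q₂, (n : ℝ) = N * Dq Q → |baF c N n / N - Eq Q| ≤ ε) ∧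
      Tendsto (fun Q => (Einf - Eq Q) / (1 / 2 - Dq Q) ^ 2) atTop (𝓝 (2 * Real.arcsin (c / 2))) := by
  obtain ⟨h0, -, -⟩ := bh271_lam_spec hc1 hc2
  have h1 := bt271_lam_lt hc1 hc2
  set lam := bh271_lam c with hlam
  obtain ⟨tD, -, tE, tM, tH, tL⟩ := t1x150_main h0 h1
  have t2 := ba230_t2 h0 h1
  have hev : ∀ᶠ Q : ℝ in atTop, 0 ≤ Q := eventually_ge_atTop 0
  refine bh271_thermo_at c hc1 hc2 h2 b4w77_B4 (fun Q => c1x150_rQ (ba230_ker (2 * lam)) (ba230_ker lam) Q)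
    (∫ u, ba230_ker lam u * ba230_eps lam u) (fun Q hQ => bt271_dens h0 h1 hQ.le) ?_ ?_ ?_ ?_ ?_ ?_
  · exact (tD.mono Ioi_subset_Ici_self).congr fun Q hQ => bt271_D (le_of_lt hQ)
  · exact tE.congr fun Q hQ => bt271_Phi (le_of_lt hQ)
  · intro a ha b hb hab
    show bh271_D a _ < bh271_D b _
    rw [bt271_D (le_of_lt ha), bt271_D (le_of_lt hb)]
    exact tM (Set.mem_Ici.2 (le_of_lt ha)) (Set.mem_Ici.2 (le_of_lt hb)) hab
  · intro Q hQ
    rw [bt271_D hQ.le]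
    exact tH Q hQ
  · exact tL.congr' (hev.mono fun Q hQ => (bt271_D hQ).symm)
  · rw [← bt271_pi_sub_lam c]
    refine t2.congr' (hev.mono fun Q hQ => ?_)
    show _ = (_ - bh271_Phi lam Q _) / (1 / 2 - bh271_D Q _) ^ 2
    rw [bt271_D hQ, bt271_Phi hQ]

/-! ## (I1) the densities are Lipschitz in the parameter, uniformly -/

theorem bt271_abs_sin_sub_le (x y : ℝ) : |Real.sin x - Real.sin y| ≤ |x - y| := by
  have h := Real.lipschitzWith_sin.dist_le_mul x y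
  simpa [Real.dist_eq] using h

theorem bt271_abs_sin_le (x : ℝ) : |Real.sin x| ≤ |x| := by
  have h := bt271_abs_sin_sub_le x 0
  simpa using h

/-- **(PB)** the kernels are Lipschitz in the parameter, uniformly in `u`. -/
theorem bt271_ker_lip {x x' η : ℝ} (hη : 0 < η) (h : η ≤ 1 - Real.cos x) (h' : η ≤ 1 - Real.cos x') (u : ℝ) :
    |ba230_ker x u - ba230_ker x' u| ≤ (1 / η + 2 / η ^ 2) / Real.pi * |x - x'| := by
  have hpi := Real.pi_pos
  obtain ⟨c, hc⟩ : ∃ c, c = Real.cosh (2 * u) := ⟨_, rfl⟩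
  have hc1 : 1 ≤ c := by rw [hc]; exact Real.one_le_cosh _
  obtain ⟨A, hA⟩ : ∃ A, A = c - Real.cos x := ⟨_, rfl⟩
  obtain ⟨B, hB⟩ : ∃ B, B = c - Real.cos x' := ⟨_, rfl⟩
  have hAη : η ≤ A := by rw [hA]; linarith
  have hBη : η ≤ B := by rw [hB]; linarith
  have hA0 : 0 < A := lt_of_lt_of_le hη hAη
  have hB0 : 0 < B := lt_of_lt_of_le hη hBη
  have e : ba230_ker x u - ba230_ker x' u =
      (c * (Real.sin x - Real.sin x') - Real.sin (x - x')) / (Real.pi * (A * B)) := by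
    unfold ba230_ker
    rw [← hc, ← hA, ← hB, Real.sin_sub, div_sub_div _ _ (by positivity) (by positivity),
      div_eq_div_iff (by positivity) (by positivity), hA, hB]
    ring
  have hnum : |c * (Real.sin x - Real.sin x') - Real.sin (x - x')| ≤ (A + 2) * |x - x'| := by
    have h1 : |c * (Real.sin x - Real.sin x')| ≤ c * |x - x'| := by
      rw [abs_mul, abs_of_nonneg (by linarith)]
      exact mul_le_mul_of_nonneg_left (bt271_abs_sin_sub_le x x') (by linarith)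
    have h2 := bt271_abs_sin_le (x - x')
    have h3 : c + 1 ≤ A + 2 := by rw [hA]; linarith [Real.cos_le_one x]
    calc _ ≤ |c * (Real.sin x - Real.sin x')| + |Real.sin (x - x')| := abs_sub _ _
      _ ≤ c * |x - x'| + |x - x'| := add_le_add h1 h2
      _ = (c + 1) * |x - x'| := by ring
      _ ≤ (A + 2) * |x - x'| := mul_le_mul_of_nonneg_right h3 (abs_nonneg _)
  have hkey : A + 2 ≤ (1 / η + 2 / η ^ 2) * (A * B) := by
    have hb : 1 ≤ B / η := by rw [le_div_iff₀ hη]; linarith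
    have ha : 1 ≤ A / η := by rw [le_div_iff₀ hη]; linarith
    have e2 : (1 / η + 2 / η ^ 2) * (A * B) = A * (B / η) + 2 * ((A / η) * (B / η)) := by
      field_simp
    rw [e2]
    have h4 : A ≤ A * (B / η) := le_mul_of_one_le_right hA0.le hb
    have h5 : 1 ≤ (A / η) * (B / η) := one_le_mul_of_one_le_of_one_le ha hb
    linarith
  rw [e, abs_div, abs_of_pos (by positivity : 0 < Real.pi * (A * B)), div_le_iff₀ (by positivity)]
  calc _ ≤ (A + 2) * |x - x'| := hnum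
    _ ≤ (1 / η + 2 / η ^ 2) * (A * B) * |x - x'| := mul_le_mul_of_nonneg_right hkey (abs_nonneg _)
    _ = (1 / η + 2 / η ^ 2) / Real.pi * |x - x'| * (Real.pi * (A * B)) := by field_simp

/-- **(PC), abstract**: stability of the truncated equation in the kernel and in the source (sup norm). -/
theorem bt271_stab_ker {K K' s s' r r' : ℝ → ℝ} (hK : Integrable K) (hK' : Integrable K') {h : ℝ}
    (hh : ∫ w, |K w| ≤ h) (hh1 : h < 1) {Q : ℝ} (hQ : 0 ≤ Q) (hr : Measurable r) (hr' : Measurable r')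
    {M : ℝ} (hM0 : 0 ≤ M) (hM : ∀ v, |r v| ≤ M) (hM' : ∀ v, |r' v| ≤ M)
    {ds dK : ℝ} (hds : ∀ u, |s u - s' u| ≤ ds) (hdK : ∀ w, |K w - K' w| ≤ dK)
    (hrs : ∀ u, r u + c1x150_op K (Icc (-Q) Q) r u = s u)
    (hrs' : ∀ u, r' u + c1x150_op K' (Icc (-Q) Q) r' u = s' u) (u : ℝ) :
    |r u - r' u| ≤ (ds + dK * M * (2 * Q)) / (1 - h) := by
  have hvol : volume.real (Icc (-Q) Q) = 2 * Q := by
    rw [Real.volume_real_Icc_of_le (by linarith)]; ring
  refine d1x202_sup (F := fun v => r v - r' v)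
    (f := fun v => (s v - s' v) - c1x150_op (fun w => K w - K' w) (Icc (-Q) Q) r' v) hK hh hh1
    (A := Icc (-Q) Q) measurableSet_Icc (M := M + M) (by positivity)
    (fun v _ => (abs_sub _ _).trans (add_le_add (hM v) (hM' v))) (fun v => ?_) (fun v => ?_) u
  · refine (abs_sub _ _).trans (add_le_add (hds v) ?_)
    have := d1x202_op_small (K := fun w => K w - K' w) (F := r') (D := Icc (-Q) Q) hdK (fun w _ => hM' w)
      measure_Icc_lt_top v
    rwa [hvol] at this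
  · rw [c1x150_op_sub hK measurableSet_Icc hr hr' hM0 hM0 (fun w _ => hM w) (fun w _ => hM' w),
      c1x150_op_ker_sub hK hK' measurableSet_Icc hr' hM0 (fun w _ => hM' w)]
    linarith [hrs v, hrs' v]

/-- **(I1)** (statement of 202, verbatim): `r_{t,Q}` is Lipschitz in `t`, uniformly in `u` and in `Q ∈ [0, Qh]`. -/
theorem bt271_I1 {a b Qh : ℝ} (ha : 0 < a) (hb : b < Real.pi) :
    ∃ Lt : ℝ, 0 ≤ Lt ∧ ∀ t ∈ Icc a b, ∀ t' ∈ Icc a b, ∀ Q, 0 ≤ Q → Q ≤ Qh → ∀ u,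
      |c1x150_rQ (ba230_ker (2 * t)) (ba230_ker t) Q u - c1x150_rQ (ba230_ker (2 * t')) (ba230_ker t') Q u|
        ≤ Lt * |t - t'| := by
  have hpi := Real.pi_pos
  by_cases hab : a ≤ b
  swap
  · exact ⟨0, le_rfl, fun t ht => absurd (ht.1.trans ht.2) hab⟩
  have hh1 := d1x202_hh_lt ha hb
  obtain ⟨ηs, hηs⟩ : ∃ η, η = 1 - Real.cos a := ⟨_, rfl⟩
  have hηs0 : 0 < ηs := by
    have := Real.cos_lt_cos_of_nonneg_of_le_pi (x := 0) (y := a) le_rfl (by linarith) ha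
    rw [Real.cos_zero] at this
    rw [hηs]; linarith
  have hσ := d1x202_sin_min_pos ha hab hb
  obtain ⟨ηK, hηK⟩ : ∃ η, η = 2 * (min (Real.sin a) (Real.sin b)) ^ 2 := ⟨_, rfl⟩
  have hηK0 : 0 < ηK := by rw [hηK]; positivity
  have hs : ∀ t ∈ Icc a b, ηs ≤ 1 - Real.cos t := by
    intro t ht
    have := Real.cos_le_cos_of_nonneg_of_le_pi ha.le (by linarith [ht.2]) ht.1
    rw [hηs]; linarith
  have hKη : ∀ t ∈ Icc a b, ηK ≤ 1 - Real.cos (2 * t) := by
    intro t ht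
    have h1 := d1x202_sin_ge ha hb ht
    have h2 : 1 - Real.cos (2 * t) = 2 * Real.sin t ^ 2 := by
      rw [Real.cos_two_mul, Real.sin_sq]; ring
    rw [h2, hηK]
    have := pow_le_pow_left₀ hσ.le h1 2
    linarith
  obtain ⟨Ls, hLs⟩ : ∃ L, L = (1 / ηs + 2 / ηs ^ 2) / Real.pi := ⟨_, rfl⟩
  obtain ⟨LK, hLK⟩ : ∃ L, L = (1 / ηK + 2 / ηK ^ 2) / Real.pi * 2 := ⟨_, rfl⟩
  have hLs0 : 0 ≤ Ls := by rw [hLs]; positivity
  have hLK0 : 0 ≤ LK := by rw [hLK]; positivity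
  obtain ⟨M, hMdef⟩ : ∃ M, M = d1x202_Cs a / (1 - d1x202_hh a b) := ⟨_, rfl⟩
  have hCs0 : 0 ≤ d1x202_Cs a := by
    unfold d1x202_Cs
    rw [← hηs]; positivity
  have hM0 : 0 ≤ M := by rw [hMdef]; exact div_nonneg hCs0 (by linarith)
  refine ⟨(Ls + LK * M * (2 * |Qh|)) / (1 - d1x202_hh a b), div_nonneg (by positivity) (by linarith),
    fun t ht t' ht' Q hQ hQh u => ?_⟩
  have H := d1x202_KerU ha hb ht
  have H' := d1x202_KerU ha hb ht'
  have key := bt271_stab_ker (K := ba230_ker (2 * t)) (K' := ba230_ker (2 * t')) (s := ba230_ker t) (s' := ba230_ker t')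
    H.K_int H'.K_int H.K_norm H.h_lt hQ (c1x150_rQ_continuous H Q).measurable (c1x150_rQ_continuous H' Q).measurable
    hM0 (fun v => by rw [hMdef]; exact c1x150_rQ_bdd H Q v) (fun v => by rw [hMdef]; exact c1x150_rQ_bdd H' Q v)
    (ds := Ls * |t - t'|) (dK := LK * |t - t'|)
    (fun v => by rw [hLs]; exact bt271_ker_lip hηs0 (hs t ht) (hs t' ht') v)
    (fun w => by
      have h1 := bt271_ker_lip hηK0 (hKη t ht) (hKη t' ht') w
      have h2 : |2 * t - 2 * t'| = 2 * |t - t'| := by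
        rw [← mul_sub, abs_mul, abs_of_pos (two_pos)]
      rw [h2] at h1
      rw [hLK]
      calc _ ≤ _ := h1
        _ = _ := by ring)
    (c1x150_rQ_eq H Q) (c1x150_rQ_eq H' Q) u
  refine key.trans ?_
  rw [div_mul_eq_mul_div]
  refine div_le_div_of_nonneg_right ?_ (by linarith)
  have hQabs : Q ≤ |Qh| := hQh.trans (le_abs_self _)
  have h3 : LK * |t - t'| * M * (2 * Q) ≤ LK * |t - t'| * M * (2 * |Qh|) :=
    mul_le_mul_of_nonneg_left (by linarith) (by positivity)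
  calc Ls * |t - t'| + LK * |t - t'| * M * (2 * Q) ≤ Ls * |t - t'| + LK * |t - t'| * M * (2 * |Qh|) := by linarith
    _ = (Ls + LK * M * (2 * |Qh|)) * |t - t'| := by ring

end Claimed.Agent.R292
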