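/-
Row 292 (S0540), unit BETHE, block B4 DISC (chief 180, ORDER D-1), post (u6) SEED, pen helper60, prefix `u6x60_`.
complete, 0 sorry, imports Mathlib only.

THE SEED OF THE CONTINUATION (free fermion point: `K = Θ = 0`).  The folded logarithmic Bethe system
    `G_i(w) = N S(w_i) - Σ_k [Θ(w_i - w_k) + Θ(w_i + w_k)] - (i + 1/2)`,      `w : Fin (m+1) → ℝ`,
reduces for `Θ = 0` to `N S(w_i) = i + 1/2`.  Let `S 0 = 0`, `S' = s ∈ [smin, smax]` on `[0, Qm]`, `smin > 0`,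
`S Qm > (m+1)/N`.  Then

* `u6x60_exists`  there is a solution `w`, with `0 < w_i < Qm`, with the gaps
      `1/(2 N smax) ≤ w_0 ≤ 1/(2 N smin)`,  `1/(N smax) ≤ w_(i+1) - w_i ≤ 1/(N smin)`,  `1/(2 N smax) < Qm - w_m`;
* `u6x60_unique`  it is the only solution with values in `[0, Qm]`;
* `u6x60_class`, `u6x60_class_strict`   it lies in the class
      `C(a, b, Qm) = {a/(2N) ≤ w_0 ≤ b/(2N), a/N ≤ w_(i+1) - w_i ≤ b/N, w_m ≤ Qm}`
  if `a ≤ 1/smax`, `1/smin ≤ b` (with strict inequalities everywhere if `a < 1/smax`, `1/smin < b`);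
* `u6x60_folded`  the same as a zero of the folded system with a kernel primitive `Θ` that vanishes identically;
* `u6x60_mem_interior`  the strict inequalities describe interior points of the class (sup norm on `Fin (m+1) → ℝ`).
-/
import Mathlib

set_option autoImplicit false

namespace Claimed.Agent.R292

open Set Filter Topology

/-- the class `C(a, b, Qm)` of ORDER D-1. -/
def u6x60Class (N a b Qm : ℝ) (m : ℕ) : Set (Fin (m + 1) → ℝ) :=
  {w | a / (2 * N) ≤ w 0 ∧ w 0 ≤ b / (2 * N) ∧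
    (∀ i : Fin m, a / N ≤ w i.succ - w i.castSucc ∧ w i.succ - w i.castSucc ≤ b / N) ∧
    w (Fin.last m) ≤ Qm}

/-- the same with strict inequalities. -/
def u6x60ClassS (N a b Qm : ℝ) (m : ℕ) : Set (Fin (m + 1) → ℝ) :=
  {w | a / (2 * N) < w 0 ∧ w 0 < b / (2 * N) ∧
    (∀ i : Fin m, a / N < w i.succ - w i.castSucc ∧ w i.succ - w i.castSucc < b / N) ∧
    w (Fin.last m) < Qm}

section one

variable {S s : ℝ → ℝ} {Qm smin smax : ℝ}

theorem u6x60_contOn (hder : ∀ x ∈ Icc 0 Qm, HasDerivAt S (s x) x) : ContinuousOn S (Icc 0 Qm) :=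
  fun x hx => (hder x hx).continuousAt.continuousWithinAt

theorem u6x60_diffOn (hder : ∀ x ∈ Icc 0 Qm, HasDerivAt S (s x) x) :
    DifferentiableOn ℝ S (interior (Icc 0 Qm)) :=
  fun x hx => (hder x (interior_subset hx)).differentiableAt.differentiableWithinAt

/-- lower mean value bound. -/
theorem u6x60_lower (hder : ∀ x ∈ Icc 0 Qm, HasDerivAt S (s x) x)
    (hlo : ∀ x ∈ Icc 0 Qm, smin ≤ s x) {x y : ℝ} (hx : x ∈ Icc 0 Qm) (hy : y ∈ Icc 0 Qm)
    (hxy : x ≤ y) : smin * (y - x) ≤ S y - S x :=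
  (convex_Icc 0 Qm).mul_sub_le_image_sub_of_le_deriv (u6x60_contOn hder) (u6x60_diffOn hder)
    (fun z hz => by
      rw [(hder z (interior_subset hz)).deriv]; exact hlo z (interior_subset hz)) x hx y hy hxy

/-- upper mean value bound. -/
theorem u6x60_upper (hder : ∀ x ∈ Icc 0 Qm, HasDerivAt S (s x) x)
    (hhi : ∀ x ∈ Icc 0 Qm, s x ≤ smax) {x y : ℝ} (hx : x ∈ Icc 0 Qm) (hy : y ∈ Icc 0 Qm)
    (hxy : x ≤ y) : S y - S x ≤ smax * (y - x) :=
  (convex_Icc 0 Qm).image_sub_le_mul_sub_of_deriv_le (u6x60_contOn hder) (u6x60_diffOn hder)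
    (fun z hz => by
      rw [(hder z (interior_subset hz)).deriv]; exact hhi z (interior_subset hz)) x hx y hy hxy

theorem u6x60_strictMonoOn (hder : ∀ x ∈ Icc 0 Qm, HasDerivAt S (s x) x) (hmin : 0 < smin)
    (hlo : ∀ x ∈ Icc 0 Qm, smin ≤ s x) : StrictMonoOn S (Icc 0 Qm) := by
  intro x hx y hy hxy
  have := u6x60_lower hder hlo hx hy hxy.le
  have h2 : 0 < smin * (y - x) := mul_pos hmin (sub_pos.2 hxy)
  linarith

/-- one equation `S x = t`. -/
theorem u6x60_solve (hQ : 0 ≤ Qm) (hS0 : S 0 = 0) (hder : ∀ x ∈ Icc 0 Qm, HasDerivAt S (s x) x)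
    {t : ℝ} (ht0 : 0 ≤ t) (ht : t ≤ S Qm) : ∃ x ∈ Icc 0 Qm, S x = t := by
  have := intermediate_value_Icc hQ (u6x60_contOn hder)
  rw [hS0] at this
  obtain ⟨x, hx, hxt⟩ := this ⟨ht0, ht⟩
  exact ⟨x, hx, hxt⟩

end one

section seed

variable {S s : ℝ → ℝ} {Qm smin smax N : ℝ}

/-- **Existence of the seed**, with all the gaps. -/
theorem u6x60_exists (m : ℕ) (hN : 0 < N) (hQ : 0 ≤ Qm) (hS0 : S 0 = 0)
    (hder : ∀ x ∈ Icc 0 Qm, HasDerivAt S (s x) x) (hmin : 0 < smin)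
    (hlo : ∀ x ∈ Icc 0 Qm, smin ≤ s x) (hhi : ∀ x ∈ Icc 0 Qm, s x ≤ smax)
    (hfill : ((m : ℝ) + 1) / N < S Qm) :
    ∃ w : Fin (m + 1) → ℝ,
      (∀ i, N * S (w i) - (((i : ℕ) : ℝ) + 1 / 2) = 0) ∧
      (∀ i, 0 < w i ∧ w i < Qm) ∧
      1 / (2 * N * smax) ≤ w 0 ∧ w 0 ≤ 1 / (2 * N * smin) ∧
      (∀ i : Fin m, 1 / (N * smax) ≤ w i.succ - w i.castSucc ∧
        w i.succ - w i.castSucc ≤ 1 / (N * smin)) ∧
      1 / (2 * N * smax) < Qm - w (Fin.last m) := by
  have h0mem : (0 : ℝ) ∈ Icc 0 Qm := ⟨le_rfl, hQ⟩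
  have hQmem : Qm ∈ Icc 0 Qm := ⟨hQ, le_rfl⟩
  have hmax : 0 < smax := lt_of_lt_of_le hmin ((hlo 0 h0mem).trans (hhi 0 h0mem))
  have hmono := u6x60_strictMonoOn hder hmin hlo
  -- the targets
  have htar : ∀ i : Fin (m + 1), 0 < (((i : ℕ) : ℝ) + 1 / 2) / N ∧
      (((i : ℕ) : ℝ) + 1 / 2) / N + 1 / (2 * N) ≤ ((m : ℝ) + 1) / N := by
    intro i
    have hi : ((i : ℕ) : ℝ) ≤ m := by exact_mod_cast Nat.lt_succ_iff.1 i.2
    constructor
    · positivity
    · have e : (((i : ℕ) : ℝ) + 1 / 2) / N + 1 / (2 * N) = (((i : ℕ) : ℝ) + 1) / N := by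
        field_simp; ring
      rw [e]
      exact div_le_div_of_nonneg_right (by linarith) hN.le
  have h2N : 0 < 1 / (2 * N) := by positivity
  have hex : ∀ i : Fin (m + 1), ∃ x ∈ Icc 0 Qm, S x = (((i : ℕ) : ℝ) + 1 / 2) / N := fun i =>
    u6x60_solve hQ hS0 hder (htar i).1.le (by linarith [(htar i).2])
  choose w hw hSw using hex
  have hgapQ : ∀ i, 1 / (2 * N) < S Qm - S (w i) := by
    intro i; rw [hSw i]; linarith [(htar i).2]
  have hdiv : ∀ {u v σ : ℝ}, 0 < σ → u ≤ σ * v → u / σ ≤ v := by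
    intro u v σ hσ h
    rw [div_le_iff₀ hσ]; linarith
  have hdiv' : ∀ {u v σ : ℝ}, 0 < σ → σ * v ≤ u → v ≤ u / σ := by
    intro u v σ hσ h
    rw [le_div_iff₀ hσ]; linarith
  refine ⟨w, ?_, ?_, ?_, ?_, ?_, ?_⟩
  · intro i
    rw [hSw i]; field_simp; ring
  · intro i
    constructor
    · rcases (hw i).1.lt_or_eq with h | h
      · exact h
      · exfalso
        have := hSw i
        rw [← h, hS0] at this
        linarith [(htar i).1]
    · rcases (hw i).2.lt_or_eq with h | h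
      · exact h
      · exfalso
        have := hgapQ i
        rw [h] at this
        linarith
  · have h1 := u6x60_upper hder hhi h0mem (hw 0) (hw 0).1
    rw [hSw 0, hS0] at h1
    have e : 1 / (2 * N * smax) = ((((0 : Fin (m + 1)) : ℕ) : ℝ) + 1 / 2) / N / smax := by
      simp; field_simp
    rw [e]
    exact hdiv hmax (by linarith)
  · have h1 := u6x60_lower hder hlo h0mem (hw 0) (hw 0).1
    rw [hSw 0, hS0] at h1
    have e : 1 / (2 * N * smin) = ((((0 : Fin (m + 1)) : ℕ) : ℝ) + 1 / 2) / N / smin := by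
      simp; field_simp
    rw [e]
    exact hdiv' hmin (by linarith)
  · intro i
    have hS : S (w i.succ) - S (w i.castSucc) = 1 / N := by
      rw [hSw, hSw]
      simp only [Fin.val_succ, Fin.val_castSucc]
      push_cast
      field_simp; ring
    have hle : w i.castSucc ≤ w i.succ := by
      by_contra hcon
      rw [not_le] at hcon
      have := hmono (hw i.succ) (hw i.castSucc) hcon
      have h3 : 0 < 1 / N := by positivity
      linarith
    constructor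
    · have h1 := u6x60_upper hder hhi (hw i.castSucc) (hw i.succ) hle
      rw [hS] at h1
      have e : 1 / (N * smax) = 1 / N / smax := by field_simp
      rw [e]
      exact hdiv hmax h1
    · have h1 := u6x60_lower hder hlo (hw i.castSucc) (hw i.succ) hle
      rw [hS] at h1
      have e : 1 / (N * smin) = 1 / N / smin := by field_simp
      rw [e]
      exact hdiv' hmin h1
  · have h1 := u6x60_upper hder hhi (hw (Fin.last m)) hQmem (hw (Fin.last m)).2
    have h2 := hgapQ (Fin.last m)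
    have e : 1 / (2 * N * smax) = 1 / (2 * N) / smax := by field_simp
    rw [e, div_lt_iff₀ hmax]
    linarith

/-- **Uniqueness of the seed** among the vectors with entries in `[0, Qm]`. -/
theorem u6x60_unique {m : ℕ} (hN : 0 < N)
    (hder : ∀ x ∈ Icc 0 Qm, HasDerivAt S (s x) x) (hmin : 0 < smin)
    (hlo : ∀ x ∈ Icc 0 Qm, smin ≤ s x) {w w' : Fin (m + 1) → ℝ}
    (hw : ∀ i, w i ∈ Icc 0 Qm) (hw' : ∀ i, w' i ∈ Icc 0 Qm)
    (h : ∀ i, N * S (w i) - (((i : ℕ) : ℝ) + 1 / 2) = 0)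
    (h' : ∀ i, N * S (w' i) - (((i : ℕ) : ℝ) + 1 / 2) = 0) : w = w' := by
  funext i
  refine (u6x60_strictMonoOn hder hmin hlo).injOn (hw i) (hw' i) ?_
  have e : N * S (w i) = N * S (w' i) := by linarith [h i, h' i]
  exact mul_left_cancel₀ hN.ne' e

/-- every member of the class with `0 ≤ a` has its entries in `[0, Qm]` and is monotone. -/
theorem u6x60_class_mem_Icc {m : ℕ} {a b : ℝ} (hN : 0 < N) (ha : 0 ≤ a) {w : Fin (m + 1) → ℝ}
    (hw : w ∈ u6x60Class N a b Qm m) : Monotone w ∧ ∀ i, w i ∈ Icc 0 Qm := by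
  obtain ⟨h0, -, hg, hl⟩ := hw
  have hmono : Monotone w := by
    refine Fin.monotone_iff_le_succ.2 fun i => ?_
    have h1 := (hg i).1
    have h2 : 0 ≤ a / N := by positivity
    linarith
  refine ⟨hmono, fun i => ⟨?_, ?_⟩⟩
  · have h1 : 0 ≤ a / (2 * N) := by positivity
    exact (h1.trans h0).trans (hmono (Fin.zero_le i))
  · exact (hmono (Fin.le_last i)).trans hl

/-- **The seed lies in the class** `C(a, b, Qm)`. -/
theorem u6x60_class (m : ℕ) {a b : ℝ} (hN : 0 < N) (hQ : 0 ≤ Qm) (hS0 : S 0 = 0)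
    (hder : ∀ x ∈ Icc 0 Qm, HasDerivAt S (s x) x) (hmin : 0 < smin)
    (hlo : ∀ x ∈ Icc 0 Qm, smin ≤ s x) (hhi : ∀ x ∈ Icc 0 Qm, s x ≤ smax)
    (hfill : ((m : ℝ) + 1) / N < S Qm) (ha : a ≤ 1 / smax) (hb : 1 / smin ≤ b) :
    ∃ w ∈ u6x60Class N a b Qm m, ∀ i, N * S (w i) - (((i : ℕ) : ℝ) + 1 / 2) = 0 := by
  obtain ⟨w, hw, hpos, h1, h2, h3, h4⟩ := u6x60_exists m hN hQ hS0 hder hmin hlo hhi hfill
  have e1 : ∀ σ : ℝ, 1 / (2 * N * σ) = 1 / σ / (2 * N) := fun σ => by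
    rw [div_div, mul_comm σ]
  have e2 : ∀ σ : ℝ, 1 / (N * σ) = 1 / σ / N := fun σ => by
    rw [div_div, mul_comm σ]
  have h2N : 0 < 2 * N := by positivity
  refine ⟨w, ⟨?_, ?_, fun i => ⟨?_, ?_⟩, (hpos _).2.le⟩, hw⟩
  · exact (div_le_div_of_nonneg_right ha h2N.le).trans (by rw [← e1]; exact h1)
  · exact (by rw [← e1]; exact h2 : w 0 ≤ 1 / smin / (2 * N)).trans
      (div_le_div_of_nonneg_right hb h2N.le)
  · exact (div_le_div_of_nonneg_right ha hN.le).trans (by rw [← e2]; exact (h3 i).1)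
  · exact (by rw [← e2]; exact (h3 i).2 : w i.succ - w i.castSucc ≤ 1 / smin / N).trans
      (div_le_div_of_nonneg_right hb hN.le)

/-- **The seed satisfies the strict inequalities** of the class if `a < 1/smax`, `1/smin < b`. -/
theorem u6x60_class_strict (m : ℕ) {a b : ℝ} (hN : 0 < N) (hQ : 0 ≤ Qm) (hS0 : S 0 = 0)
    (hder : ∀ x ∈ Icc 0 Qm, HasDerivAt S (s x) x) (hmin : 0 < smin)
    (hlo : ∀ x ∈ Icc 0 Qm, smin ≤ s x) (hhi : ∀ x ∈ Icc 0 Qm, s x ≤ smax)
    (hfill : ((m : ℝ) + 1) / N < S Qm) (ha : a < 1 / smax) (hb : 1 / smin < b) :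
    ∃ w ∈ u6x60ClassS N a b Qm m, ∀ i, N * S (w i) - (((i : ℕ) : ℝ) + 1 / 2) = 0 := by
  obtain ⟨w, hw, hpos, h1, h2, h3, h4⟩ := u6x60_exists m hN hQ hS0 hder hmin hlo hhi hfill
  have e1 : ∀ σ : ℝ, 1 / (2 * N * σ) = 1 / σ / (2 * N) := fun σ => by
    rw [div_div, mul_comm σ]
  have e2 : ∀ σ : ℝ, 1 / (N * σ) = 1 / σ / N := fun σ => by
    rw [div_div, mul_comm σ]
  have h2N : 0 < 2 * N := by positivity
  refine ⟨w, ⟨?_, ?_, fun i => ⟨?_, ?_⟩, (hpos _).2⟩, hw⟩
  · exact (div_lt_div_of_pos_right ha h2N).trans_le (by rw [← e1]; exact h1)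
  · exact (by rw [← e1]; exact h2 : w 0 ≤ 1 / smin / (2 * N)).trans_lt
      (div_lt_div_of_pos_right hb h2N)
  · exact (div_lt_div_of_pos_right ha hN).trans_le (by rw [← e2]; exact (h3 i).1)
  · exact (by rw [← e2]; exact (h3 i).2 : w i.succ - w i.castSucc ≤ 1 / smin / N).trans_lt
      (div_lt_div_of_pos_right hb hN)

end seed

/-! ## the class: closed, bounded, convex; the strict class is open and inside -/

theorem u6x60ClassS_subset (N a b Qm : ℝ) (m : ℕ) :
    u6x60ClassS N a b Qm m ⊆ u6x60Class N a b Qm m := by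
  rintro w ⟨h1, h2, h3, h4⟩
  exact ⟨h1.le, h2.le, fun i => ⟨(h3 i).1.le, (h3 i).2.le⟩, h4.le⟩

theorem u6x60ClassS_isOpen (N a b Qm : ℝ) (m : ℕ) : IsOpen (u6x60ClassS N a b Qm m) := by
  have e : u6x60ClassS N a b Qm m =
      {w | a / (2 * N) < w 0} ∩ {w | w 0 < b / (2 * N)} ∩
        (⋂ i : Fin m, ({w : Fin (m + 1) → ℝ | a / N < w i.succ - w i.castSucc} ∩
          {w | w i.succ - w i.castSucc < b / N})) ∩ {w | w (Fin.last m) < Qm} := by
    ext w
    simp only [u6x60ClassS, mem_ofPred_eq, mem_inter_iff, mem_iInter]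
    tauto
  rw [e]
  have c : ∀ i : Fin (m + 1), Continuous (fun w : Fin (m + 1) → ℝ => w i) := fun i =>
    continuous_apply i
  refine ((((isOpen_lt continuous_const (c 0)).inter
    (isOpen_lt (c 0) continuous_const)).inter
    (isOpen_iInter_of_finite fun i => ?_))).inter (isOpen_lt (c _) continuous_const)
  exact (isOpen_lt continuous_const ((c _).sub (c _))).inter
    (isOpen_lt ((c _).sub (c _)) continuous_const)

/-- the strict inequalities give interior points of the class. -/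
theorem u6x60_mem_interior {N a b Qm : ℝ} {m : ℕ} {w : Fin (m + 1) → ℝ}
    (hw : w ∈ u6x60ClassS N a b Qm m) : w ∈ interior (u6x60Class N a b Qm m) :=
  interior_maximal (u6x60ClassS_subset N a b Qm m) (u6x60ClassS_isOpen N a b Qm m) hw

theorem u6x60Class_isClosed (N a b Qm : ℝ) (m : ℕ) : IsClosed (u6x60Class N a b Qm m) := by
  have e : u6x60Class N a b Qm m =
      {w | a / (2 * N) ≤ w 0} ∩ {w | w 0 ≤ b / (2 * N)} ∩
        (⋂ i : Fin m, ({w : Fin (m + 1) → ℝ | a / N ≤ w i.succ - w i.castSucc} ∩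
          {w | w i.succ - w i.castSucc ≤ b / N})) ∩ {w | w (Fin.last m) ≤ Qm} := by
    ext w
    simp only [u6x60Class, mem_ofPred_eq, mem_inter_iff, mem_iInter]
    tauto
  rw [e]
  have c : ∀ i : Fin (m + 1), Continuous (fun w : Fin (m + 1) → ℝ => w i) := fun i =>
    continuous_apply i
  refine ((((isClosed_le continuous_const (c 0)).inter
    (isClosed_le (c 0) continuous_const)).inter
    (isClosed_iInter fun i => ?_))).inter (isClosed_le (c _) continuous_const)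
  exact (isClosed_le continuous_const ((c _).sub (c _))).inter
    (isClosed_le ((c _).sub (c _)) continuous_const)

theorem u6x60Class_isCompact {N a b Qm : ℝ} (m : ℕ) (hN : 0 < N) (ha : 0 ≤ a) :
    IsCompact (u6x60Class N a b Qm m) := by
  refine IsCompact.of_isClosed_subset (isCompact_univ_pi fun _ : Fin (m + 1) => isCompact_Icc
    (a := (0 : ℝ)) (b := Qm)) (u6x60Class_isClosed N a b Qm m) ?_
  intro w hw i _
  exact (u6x60_class_mem_Icc hN ha hw).2 i

theorem u6x60Class_convex (N a b Qm : ℝ) (m : ℕ) : Convex ℝ (u6x60Class N a b Qm m) := by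
  intro w hw w' hw' t t' ht ht' htt
  obtain ⟨h1, h2, h3, h4⟩ := hw
  obtain ⟨h1', h2', h3', h4'⟩ := hw'
  have key : ∀ {x y c : ℝ}, c ≤ x → c ≤ y → c ≤ t * x + t' * y := by
    intro x y c hx hy
    have : c = t * c + t' * c := by rw [← add_mul, htt, one_mul]
    rw [this]
    exact add_le_add (mul_le_mul_of_nonneg_left hx ht) (mul_le_mul_of_nonneg_left hy ht')
  have key' : ∀ {x y c : ℝ}, x ≤ c → y ≤ c → t * x + t' * y ≤ c := by
    intro x y c hx hy
    have : c = t * c + t' * c := by rw [← add_mul, htt, one_mul]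
    rw [this]
    exact add_le_add (mul_le_mul_of_nonneg_left hx ht) (mul_le_mul_of_nonneg_left hy ht')
  refine ⟨?_, ?_, fun i => ⟨?_, ?_⟩, ?_⟩
  · simpa using key h1 h1'
  · simpa using key' h2 h2'
  · have := key (h3 i).1 (h3' i).1
    simp only [Pi.add_apply, Pi.smul_apply, smul_eq_mul]
    linarith
  · have := key' (h3 i).2 (h3' i).2
    simp only [Pi.add_apply, Pi.smul_apply, smul_eq_mul]
    linarith
  · simpa using key' h4 h4'

/-! ## the folded system -/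

/-- the folded logarithmic Bethe system of ORDER D-1. -/
noncomputable def u6x60G (N : ℝ) (S Th : ℝ → ℝ) {m : ℕ} (w : Fin (m + 1) → ℝ) (i : Fin (m + 1)) : ℝ :=
  N * S (w i) - ∑ k, (Th (w i - w k) + Th (w i + w k)) - (((i : ℕ) : ℝ) + 1 / 2)

theorem u6x60G_of_zero (N : ℝ) (S Th : ℝ → ℝ) (hTh : ∀ x, Th x = 0) {m : ℕ}
    (w : Fin (m + 1) → ℝ) (i : Fin (m + 1)) :
    u6x60G N S Th w i = N * S (w i) - (((i : ℕ) : ℝ) + 1 / 2) := by
  unfold u6x60G
  simp [hTh]

/-- **(u6)**: at the free fermion point the folded system has exactly one zero in the class, and this zero satisfies the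
strict inequalities (so it is an interior point). -/
theorem u6x60_folded {S s Th : ℝ → ℝ} {Qm smin smax N a b : ℝ} (m : ℕ) (hTh : ∀ x, Th x = 0)
    (hN : 0 < N) (hQ : 0 ≤ Qm) (hS0 : S 0 = 0)
    (hder : ∀ x ∈ Icc 0 Qm, HasDerivAt S (s x) x) (hmin : 0 < smin)
    (hlo : ∀ x ∈ Icc 0 Qm, smin ≤ s x) (hhi : ∀ x ∈ Icc 0 Qm, s x ≤ smax)
    (hfill : ((m : ℝ) + 1) / N < S Qm) (ha0 : 0 ≤ a) (ha : a < 1 / smax) (hb : 1 / smin < b) :
    ∃ w : Fin (m + 1) → ℝ, w ∈ u6x60ClassS N a b Qm m ∧ w ∈ interior (u6x60Class N a b Qm m) ∧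
      u6x60G N S Th w = 0 ∧
      ∀ w' ∈ u6x60Class N a b Qm m, u6x60G N S Th w' = 0 → w' = w := by
  obtain ⟨w, hwS, hw⟩ := u6x60_class_strict m hN hQ hS0 hder hmin hlo hhi hfill ha hb
  refine ⟨w, hwS, u6x60_mem_interior hwS, ?_, ?_⟩
  · funext i
    rw [u6x60G_of_zero N S Th hTh]
    exact hw i
  · intro w' hw' hG
    refine u6x60_unique hN hder hmin hlo (u6x60_class_mem_Icc hN ha0 hw').2
      (u6x60_class_mem_Icc hN ha0 (u6x60ClassS_subset _ _ _ _ _ hwS)).2 ?_ hw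
    intro i
    have := congrFun hG i
    rwa [u6x60G_of_zero N S Th hTh] at this

end Claimed.Agent.R292
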