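import Mathlib

/-!
# Row 292, unit BETHE, block BA6 (abstract part): the half-line equation without Wiener-Hopf factorisation

`J` even, uniformly continuous, bounded, integrable, `∫ |J| ≤ θ < 1`.
Half-line operator `wh190_op J f x = ∫_{t > 0} J (x - t) f t`.

* a-priori bounds in sup norm and in `L¹`, symmetry of the pairing, shift identity;
* existence of bounded continuous solutions of `u - op u = g`, integrable if `g` is;
* shift derivative `T_s' = - s T_s + T_s(0) R`;
* Chandrasekhar identities `(s + t) ⟨T_s, e_t⟩ = H s * H t`, `H 0 ^ 2 * (1 - ∫ J) = 1`;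
* the two-edge problem outside `[-q, q]` and the limit of `(∫ w G) / (∫ G) ^ 2`.
-/

set_option autoImplicit false

open MeasureTheory Set Filter Topology
open scoped Convolution

namespace Claimed.Agent.R292

/-- The half-line operator. -/
noncomputable def wh190_op (J f : ℝ → ℝ) (x : ℝ) : ℝ := ∫ t in Ioi (0 : ℝ), J (x - t) * f t

/-- The class of kernels. -/
structure Wh190Ker (J : ℝ → ℝ) (θ : ℝ) : Prop where
  unif : UniformContinuous J
  even : ∀ x, J (-x) = J x
  int : Integrable J
  bdd : ∃ C, ∀ x, |J x| ≤ C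
  norm_le : ∫ x, |J x| ≤ θ
  lt_one : θ < 1

namespace Wh190Ker

variable {J : ℝ → ℝ} {θ : ℝ}

theorem cont (h : Wh190Ker J θ) : Continuous J := h.unif.continuous

theorem nonneg (h : Wh190Ker J θ) : 0 ≤ θ :=
  le_trans (integral_nonneg fun _ => abs_nonneg _) h.norm_le

theorem int_sub (h : Wh190Ker J θ) (x : ℝ) : Integrable (fun t => J (x - t)) :=
  h.int.comp_sub_left x

theorem int_abs_sub (_h : Wh190Ker J θ) (x : ℝ) : ∫ t, |J (x - t)| = ∫ t, |J t| :=
  integral_sub_left_eq_self (fun t => |J t|) volume x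

end Wh190Ker

variable {J : ℝ → ℝ} {θ : ℝ}

/-! ## A. basic facts -/

theorem wh190_integrable (h : Wh190Ker J θ) {f : ℝ → ℝ} {B : ℝ}
    (hf : AEStronglyMeasurable f (volume.restrict (Ioi 0))) (hB : ∀ t, 0 < t → |f t| ≤ B) (x : ℝ) :
    IntegrableOn (fun t => J (x - t) * f t) (Ioi 0) := by
  have h1 : IntegrableOn (fun t => J (x - t)) (Ioi 0) := (h.int_sub x).integrableOn
  refine Integrable.mul_bdd (c := B) h1 hf ?_
  exact (ae_restrict_iff' measurableSet_Ioi).2 (Eventually.of_forall fun t ht => by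
    simpa using hB t ht)

theorem wh190_op_le (h : Wh190Ker J θ) {f : ℝ → ℝ} {B : ℝ}
    (hB : ∀ t, 0 < t → |f t| ≤ B) (x : ℝ) :
    |wh190_op J f x| ≤ θ * B := by
  have hB0 : 0 ≤ B := le_trans (abs_nonneg _) (hB 1 one_pos)
  have h1 : IntegrableOn (fun t => |J (x - t)| * B) (Ioi 0) :=
    ((h.int_sub x).abs.mul_const B).integrableOn
  have h2 : ‖∫ t in Ioi (0 : ℝ), J (x - t) * f t‖ ≤ ∫ t in Ioi (0 : ℝ), |J (x - t)| * B := by
    refine norm_integral_le_of_norm_le h1 ?_
    refine (ae_restrict_iff' measurableSet_Ioi).2 (Eventually.of_forall fun t ht => ?_)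
    rw [Real.norm_eq_abs, abs_mul]
    exact mul_le_mul_of_nonneg_left (hB t ht) (abs_nonneg _)
  have h3 : ∫ t in Ioi (0 : ℝ), |J (x - t)| * B ≤ ∫ t, |J (x - t)| * B :=
    setIntegral_le_integral ((h.int_sub x).abs.mul_const B)
      (Eventually.of_forall fun t => mul_nonneg (abs_nonneg _) hB0)
  have h4 : ∫ t, |J (x - t)| * B = (∫ t, |J t|) * B := by
    rw [integral_mul_const, h.int_abs_sub]
  calc |wh190_op J f x| = ‖∫ t in Ioi (0 : ℝ), J (x - t) * f t‖ := rfl
    _ ≤ (∫ t, |J t|) * B := by rw [← h4]; exact h2.trans h3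
    _ ≤ θ * B := mul_le_mul_of_nonneg_right h.norm_le hB0

/-- Sup-norm a-priori bound. -/
theorem wh190_sup (h : Wh190Ker J θ) {u φ : ℝ → ℝ} {B ε : ℝ}
    (hB : ∀ t, 0 < t → |u t| ≤ B)
    (heq : ∀ x, 0 ≤ x → u x - wh190_op J u x = φ x) (hφ : ∀ x, 0 ≤ x → |φ x| ≤ ε) :
    ∀ x, 0 ≤ x → |u x| ≤ ε / (1 - θ) := by
  have h1 : 0 < 1 - θ := by linarith [h.lt_one]
  have key : ∀ n : ℕ, ∀ x, 0 ≤ x → |u x| ≤ ε / (1 - θ) + θ ^ n * (θ * B + ε) := by
    intro n
    induction n with
    | zero =>
      intro x hx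
      have e1 := heq x hx
      have e2 := wh190_op_le h hB x
      have e3 := hφ x hx
      have e4 : 0 ≤ ε := le_trans (abs_nonneg _) e3
      have e5 : 0 ≤ ε / (1 - θ) := div_nonneg e4 h1.le
      have : u x = φ x + wh190_op J u x := by linarith
      rw [this]
      calc |φ x + wh190_op J u x| ≤ |φ x| + |wh190_op J u x| := abs_add_le _ _
        _ ≤ ε + θ * B := add_le_add e3 e2
        _ ≤ ε / (1 - θ) + θ ^ 0 * (θ * B + ε) := by simp; linarith
    | succ n ih =>
      intro x hx
      have e1 := heq x hx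
      have e2 := wh190_op_le h (fun t ht => ih t ht.le) x
      have e3 := hφ x hx
      have : u x = φ x + wh190_op J u x := by linarith
      rw [this]
      calc |φ x + wh190_op J u x| ≤ |φ x| + |wh190_op J u x| := abs_add_le _ _
        _ ≤ ε + θ * (ε / (1 - θ) + θ ^ n * (θ * B + ε)) := add_le_add e3 e2
        _ = ε / (1 - θ) + θ ^ (n + 1) * (θ * B + ε) := by
          field_simp
          ring
  intro x hx
  have ht : Tendsto (fun n : ℕ => ε / (1 - θ) + θ ^ n * (θ * B + ε)) atTop
      (𝓝 (ε / (1 - θ) + 0 * (θ * B + ε))) :=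
    tendsto_const_nhds.add ((tendsto_pow_atTop_nhds_zero_of_lt_one h.nonneg h.lt_one).mul_const _)
  have := ge_of_tendsto' ht (fun n => key n x hx)
  simpa using this

theorem wh190_op_eq (J f : ℝ → ℝ) (x : ℝ) :
    wh190_op J f x = ∫ t, J (x - t) * (Ioi (0 : ℝ)).indicator f t := by
  unfold wh190_op
  rw [← integral_indicator measurableSet_Ioi]
  congr 1
  funext t
  by_cases ht : t ∈ Ioi (0 : ℝ) <;> simp [ht]

/-- `L¹` bound of the operator. -/
theorem wh190_op_L1 (h : Wh190Ker J θ) {u : ℝ → ℝ} (hu : IntegrableOn u (Ioi 0)) :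
    Integrable (wh190_op J u) ∧ ∫ x, |wh190_op J u x| ≤ θ * ∫ t in Ioi (0 : ℝ), |u t| := by
  set f : ℝ → ℝ := (Ioi (0 : ℝ)).indicator u with hf
  have hfi : Integrable f := (integrable_indicator_iff measurableSet_Ioi).2 hu
  set L := ContinuousLinearMap.mul ℝ ℝ with hL
  have e1 : wh190_op J u = (f ⋆[L, volume] J) := by
    funext x
    rw [wh190_op_eq, convolution_def]
    congr 1
    funext t
    simp only [hL, ContinuousLinearMap.mul_apply']
    rw [mul_comm]
  have i1 : Integrable (f ⋆[L, volume] J) := hfi.integrable_convolution L h.int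
  have i2 : Integrable ((fun t => |f t|) ⋆[L, volume] (fun t => |J t|)) :=
    hfi.abs.integrable_convolution L h.int.abs
  have e2 : ∫ x, ((fun t => |f t|) ⋆[L, volume] (fun t => |J t|)) x
      = (∫ t, |f t|) * ∫ t, |J t| := by
    rw [integral_convolution L hfi.abs h.int.abs]
    simp [hL]
  have e3 : ∫ t, |f t| = ∫ t in Ioi (0 : ℝ), |u t| := by
    rw [← integral_indicator measurableSet_Ioi]
    congr 1
    funext t
    by_cases ht : t ∈ Ioi (0 : ℝ) <;> simp [hf, ht]
  refine ⟨e1 ▸ i1, ?_⟩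
  have e4 : ∫ x, |wh190_op J u x| ≤ ∫ x, ((fun t => |f t|) ⋆[L, volume] (fun t => |J t|)) x := by
    refine integral_mono (e1 ▸ i1).abs i2 fun x => ?_
    rw [e1, convolution_def, convolution_def]
    have : ∀ t, ‖L (f t) (J (x - t))‖ = L (|f t|) (|J (x - t)|) := by
      intro t
      simp [hL]
    calc |∫ t, L (f t) (J (x - t))| = ‖∫ t, L (f t) (J (x - t))‖ := rfl
      _ ≤ ∫ t, ‖L (f t) (J (x - t))‖ := norm_integral_le_integral_norm _
      _ = ∫ t, L (|f t|) (|J (x - t)|) := by simp_rw [this]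
  calc ∫ x, |wh190_op J u x| ≤ (∫ t, |f t|) * ∫ t, |J t| := e2 ▸ e4
    _ = (∫ t, |J t|) * ∫ t in Ioi (0 : ℝ), |u t| := by rw [e3, mul_comm]
    _ ≤ θ * ∫ t in Ioi (0 : ℝ), |u t| :=
      mul_le_mul_of_nonneg_right h.norm_le (integral_nonneg fun _ => abs_nonneg _)

/-- `L¹` a-priori bound. -/
theorem wh190_L1 (h : Wh190Ker J θ) {u φ : ℝ → ℝ} (hu : IntegrableOn u (Ioi 0))
    (heq : ∀ x, 0 < x → u x - wh190_op J u x = φ x) :
    IntegrableOn φ (Ioi 0) ∧
      ∫ x in Ioi (0 : ℝ), |u x| ≤ (∫ x in Ioi (0 : ℝ), |φ x|) / (1 - θ) := by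
  have h1 : 0 < 1 - θ := by linarith [h.lt_one]
  obtain ⟨i1, b1⟩ := wh190_op_L1 h hu
  have i2 : IntegrableOn (fun x => u x - wh190_op J u x) (Ioi 0) := hu.sub i1.integrableOn
  have i3 : IntegrableOn φ (Ioi 0) :=
    i2.congr_fun (fun x hx => heq x hx) measurableSet_Ioi
  refine ⟨i3, ?_⟩
  have b2 : ∫ x in Ioi (0 : ℝ), |wh190_op J u x| ≤ ∫ x, |wh190_op J u x| :=
    setIntegral_le_integral i1.abs (Eventually.of_forall fun _ => abs_nonneg _)
  have b3 : ∫ x in Ioi (0 : ℝ), |u x| ≤
      (∫ x in Ioi (0 : ℝ), |φ x|) + ∫ x in Ioi (0 : ℝ), |wh190_op J u x| := by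
    rw [← integral_add i3.abs i1.integrableOn.abs]
    refine setIntegral_mono_on hu.abs (i3.abs.add i1.integrableOn.abs) measurableSet_Ioi ?_
    intro x hx
    have := heq x hx
    have e : u x = φ x + wh190_op J u x := by linarith
    calc |u x| = |φ x + wh190_op J u x| := by rw [← e]
      _ ≤ _ := abs_add_le _ _
  rw [le_div_iff₀ h1]
  nlinarith

/-- Symmetry of the pairing. -/
theorem wh190_symm (h : Wh190Ker J θ) {f g : ℝ → ℝ} {B : ℝ} (hf : IntegrableOn f (Ioi 0))
    (hg : AEStronglyMeasurable g volume) (hB : ∀ t, 0 < t → |g t| ≤ B) :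
    ∫ x in Ioi (0 : ℝ), f x * wh190_op J g x = ∫ x in Ioi (0 : ℝ), wh190_op J f x * g x := by
  set f' : ℝ → ℝ := (Ioi (0 : ℝ)).indicator f with hf'
  set g' : ℝ → ℝ := (Ioi (0 : ℝ)).indicator g with hg'
  have hfi : Integrable f' := (integrable_indicator_iff measurableSet_Ioi).2 hf
  have hgm : AEStronglyMeasurable g' volume := hg.indicator measurableSet_Ioi
  have hgb : ∀ t, ‖g' t‖ ≤ |B| := by
    intro t
    by_cases ht : t ∈ Ioi (0 : ℝ)
    · simp only [hg', indicator_of_mem ht, Real.norm_eq_abs]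
      exact (hB t ht).trans (le_abs_self _)
    · simp [hg', indicator_of_notMem ht]
  have key : Integrable (Function.uncurry fun t x => f' x * (J (t - x) * g' t))
      (volume.prod volume) := by
    have k1 := hfi.convolution_integrand (ContinuousLinearMap.mul ℝ ℝ) h.int (μ := volume)
    have k2 : Integrable (fun p : ℝ × ℝ => (f' p.2 * J (p.1 - p.2)) * g' p.1)
        (volume.prod volume) := by
      refine Integrable.mul_bdd (c := |B|) (by simpa using k1) hgm.comp_fst ?_
      exact Eventually.of_forall fun p => hgb p.1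
    refine k2.congr (Eventually.of_forall fun p => ?_)
    simp only [Function.uncurry]
    ring
  have l1 : ∫ x in Ioi (0 : ℝ), f x * wh190_op J g x
      = ∫ x, ∫ t, f' x * (J (t - x) * g' t) := by
    rw [← integral_indicator measurableSet_Ioi]
    congr 1
    funext x
    rw [integral_const_mul]
    by_cases hx : x ∈ Ioi (0 : ℝ)
    · rw [indicator_of_mem hx, wh190_op_eq]
      simp only [hf', indicator_of_mem hx]
      congr 2
      funext t
      rw [← h.even (x - t)]
      congr 2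
      ring
    · simp [hf', indicator_of_notMem hx]
  have l2 : ∫ x in Ioi (0 : ℝ), wh190_op J f x * g x
      = ∫ t, ∫ x, f' x * (J (t - x) * g' t) := by
    rw [← integral_indicator measurableSet_Ioi]
    congr 1
    funext t
    by_cases ht : t ∈ Ioi (0 : ℝ)
    · rw [indicator_of_mem ht, wh190_op_eq, ← integral_mul_const]
      simp only [hg', indicator_of_mem ht]
      congr 1
      funext x
      ring
    · simp [hg', indicator_of_notMem ht]
  rw [l1, l2]
  exact (integral_integral_swap key).symm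

/-- Shift identity. -/
theorem wh190_shift (h : Wh190Ker J θ) {f : ℝ → ℝ} {B : ℝ}
    (hf : AEStronglyMeasurable f volume) (hB : ∀ t, 0 < t → |f t| ≤ B) (x : ℝ) {a : ℝ}
    (ha : 0 ≤ a) :
    wh190_op J (fun t => f (t + a)) x
      = wh190_op J f (x + a) - ∫ t in Ioc (0 : ℝ) a, J (x + a - t) * f t := by
  have i0 : IntegrableOn (fun t => J (x + a - t) * f t) (Ioi 0) :=
    wh190_integrable h hf.restrict hB (x + a)
  have e1 : wh190_op J (fun t => f (t + a)) x = ∫ t in Ioi a, J (x + a - t) * f t := by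
    have := (measurePreserving_add_right volume a).setIntegral_preimage_emb
      (measurableEmbedding_addRight a) (fun t => J (x + a - t) * f t) (Ioi a)
    rw [← this]
    unfold wh190_op
    have hs : (fun t : ℝ => t + a) ⁻¹' Ioi a = Ioi 0 := by
      ext t
      simp
    rw [hs]
    congr 1
    funext t
    congr 2
    ring
  have e2 : wh190_op J f (x + a)
      = (∫ t in Ioc (0 : ℝ) a, J (x + a - t) * f t) + ∫ t in Ioi a, J (x + a - t) * f t := by
    unfold wh190_op
    rw [← Ioc_union_Ioi_eq_Ioi ha]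
    refine setIntegral_union (Ioc_disjoint_Ioi le_rfl) measurableSet_Ioi
      (i0.mono_set Ioc_subset_Ioi_self) (i0.mono_set (Ioi_subset_Ioi ha))
  rw [e1, e2]
  ring

/-! ## B. existence -/

theorem wh190_op_eq' (J f : ℝ → ℝ) (x : ℝ) :
    wh190_op J f x = ∫ s, (Iio x).indicator (fun s => J s * f (x - s)) s := by
  rw [wh190_op_eq, ← integral_sub_left_eq_self _ volume x]
  congr 1
  funext s
  by_cases hs : s < x
  · have h1 : x - s ∈ Ioi (0 : ℝ) := by simpa using hs
    have h2 : s ∈ Iio x := hs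
    rw [indicator_of_mem h1, indicator_of_mem h2]
    congr 2
    ring
  · have h1 : x - s ∉ Ioi (0 : ℝ) := by simpa using hs
    have h2 : s ∉ Iio x := hs
    rw [indicator_of_notMem h1, indicator_of_notMem h2, mul_zero]

theorem wh190_op_continuous (h : Wh190Ker J θ) {u : ℝ → ℝ} (hu : Continuous u) {B : ℝ}
    (hB : ∀ t, |u t| ≤ B) : Continuous (wh190_op J u) := by
  have e : wh190_op J u = fun x => ∫ s, (Iio x).indicator (fun s => J s * u (x - s)) s :=
    funext (wh190_op_eq' J u)
  rw [e, continuous_iff_continuousAt]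
  intro x0
  refine continuousAt_of_dominated (bound := fun s => |J s| * B) ?_ ?_ (h.int.abs.mul_const B) ?_
  · refine Eventually.of_forall fun x => ?_
    exact ((h.cont.mul (hu.comp (continuous_const.sub continuous_id))).aestronglyMeasurable).indicator
      measurableSet_Iio
  · refine Eventually.of_forall fun x => Eventually.of_forall fun s => ?_
    have hB0 : 0 ≤ B := le_trans (abs_nonneg _) (hB 0)
    by_cases hs : s ∈ Iio x
    · rw [indicator_of_mem hs, Real.norm_eq_abs, abs_mul]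
      exact mul_le_mul_of_nonneg_left (hB _) (abs_nonneg _)
    · rw [indicator_of_notMem hs, norm_zero]
      exact mul_nonneg (abs_nonneg _) hB0
  · have hne : ∀ᵐ s : ℝ, s ≠ x0 := by
      have : ({x0} : Set ℝ)ᶜ ∈ ae (volume : Measure ℝ) := compl_mem_ae_iff.2 (measure_singleton x0)
      exact this
    filter_upwards [hne] with s hs
    rcases lt_or_gt_of_ne hs with hlt | hgt
    · have c1 : ContinuousAt (fun x => J s * u (x - s)) x0 :=
        (continuous_const.mul (hu.comp (continuous_id.sub continuous_const))).continuousAt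
      refine c1.congr ?_
      filter_upwards [lt_mem_nhds hlt] with x hx
      have : s ∈ Iio x := hx
      rw [indicator_of_mem this]
    · have c1 : ContinuousAt (fun _ : ℝ => (0 : ℝ)) x0 := continuousAt_const
      refine c1.congr ?_
      filter_upwards [gt_mem_nhds hgt] with x hx
      have : s ∉ Iio x := by simpa using hx.le
      rw [indicator_of_notMem this]

theorem wh190_op_sub (h : Wh190Ker J θ) {u v : ℝ → ℝ} {B B' : ℝ}
    (hu : AEStronglyMeasurable u volume) (hv : AEStronglyMeasurable v volume)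
    (hB : ∀ t, 0 < t → |u t| ≤ B) (hB' : ∀ t, 0 < t → |v t| ≤ B') (x : ℝ) :
    wh190_op J (fun t => u t - v t) x = wh190_op J u x - wh190_op J v x := by
  unfold wh190_op
  rw [← integral_sub (wh190_integrable h hu.restrict hB x) (wh190_integrable h hv.restrict hB' x)]
  congr 1
  funext t
  ring

theorem wh190_op_add (h : Wh190Ker J θ) {u v : ℝ → ℝ} {B B' : ℝ}
    (hu : AEStronglyMeasurable u volume) (hv : AEStronglyMeasurable v volume)
    (hB : ∀ t, 0 < t → |u t| ≤ B) (hB' : ∀ t, 0 < t → |v t| ≤ B') (x : ℝ) :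
    wh190_op J (fun t => u t + v t) x = wh190_op J u x + wh190_op J v x := by
  unfold wh190_op
  rw [← integral_add (wh190_integrable h hu.restrict hB x) (wh190_integrable h hv.restrict hB' x)]
  congr 1
  funext t
  ring

theorem wh190_op_smul (J u : ℝ → ℝ) (c x : ℝ) :
    wh190_op J (fun t => c * u t) x = c * wh190_op J u x := by
  unfold wh190_op
  rw [← integral_const_mul]
  congr 1
  funext t
  ring

/-- The operator on bounded continuous functions. -/
noncomputable def wh190_bop (h : Wh190Ker J θ) (u : BoundedContinuousFunction ℝ ℝ) :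
    BoundedContinuousFunction ℝ ℝ :=
  BoundedContinuousFunction.ofNormedAddCommGroup (wh190_op J u)
    (wh190_op_continuous h u.continuous (B := ‖u‖) (fun t => u.norm_coe_le_norm t)) (θ * ‖u‖)
    (fun x => wh190_op_le h (fun t _ => u.norm_coe_le_norm t) x)

theorem wh190_bop_apply (h : Wh190Ker J θ) (u : BoundedContinuousFunction ℝ ℝ) (x : ℝ) :
    wh190_bop h u x = wh190_op J u x := rfl

theorem wh190_contracting (h : Wh190Ker J θ) (g : BoundedContinuousFunction ℝ ℝ) :
    ContractingWith (Real.toNNReal θ) (fun u => g + wh190_bop h u) := by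
  refine ⟨by
    rw [← NNReal.coe_lt_coe, Real.coe_toNNReal _ h.nonneg]
    exact_mod_cast h.lt_one, LipschitzWith.of_dist_le_mul fun u v => ?_⟩
  rw [Real.coe_toNNReal _ h.nonneg,
    BoundedContinuousFunction.dist_le (mul_nonneg h.nonneg dist_nonneg)]
  intro x
  simp only [BoundedContinuousFunction.coe_add, Pi.add_apply, wh190_bop_apply]
  rw [Real.dist_eq]
  have e1 : g x + wh190_op J u x - (g x + wh190_op J v x)
      = wh190_op J (fun t => u t - v t) x := by
    rw [wh190_op_sub h u.continuous.aestronglyMeasurable v.continuous.aestronglyMeasurable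
      (fun t _ => u.norm_coe_le_norm t) (fun t _ => v.norm_coe_le_norm t)]
    ring
  rw [e1]
  refine wh190_op_le h (fun t _ => ?_) x
  rw [← Real.dist_eq]
  exact BoundedContinuousFunction.dist_coe_le_dist t

/-- Existence of bounded continuous solutions, integrable on the half line if the datum is. -/
theorem wh190_exists (h : Wh190Ker J θ) {g : ℝ → ℝ} (hg : Continuous g) {Bg : ℝ}
    (hgB : ∀ x, |g x| ≤ Bg) :
    ∃ u : ℝ → ℝ, Continuous u ∧ (∃ B, ∀ x, |u x| ≤ B) ∧ (∀ x, u x - wh190_op J u x = g x) ∧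
      (IntegrableOn g (Ioi 0) → IntegrableOn u (Ioi 0)) := by
  set g' : BoundedContinuousFunction ℝ ℝ :=
    BoundedContinuousFunction.ofNormedAddCommGroup g hg Bg hgB with hg'
  have hc := wh190_contracting h g'
  set Φ : BoundedContinuousFunction ℝ ℝ → BoundedContinuousFunction ℝ ℝ :=
    fun u => g' + wh190_bop h u with hΦ
  set u := ContractingWith.fixedPoint Φ hc with hu
  have hfix : Φ u = u := hc.fixedPoint_isFixedPt
  have heq : ∀ x, u x - wh190_op J u x = g x := by
    intro x
    have := congrArg (fun w : BoundedContinuousFunction ℝ ℝ => w x) hfix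
    simp only [hΦ, BoundedContinuousFunction.coe_add, Pi.add_apply, wh190_bop_apply] at this
    have e : g' x = g x := rfl
    rw [e] at this
    linarith
  refine ⟨u, u.continuous, ⟨‖u‖, fun x => u.norm_coe_le_norm x⟩, heq, fun hgi => ?_⟩
  have h1 : 0 < 1 - θ := by linarith [h.lt_one]
  set G : ℝ := ∫ x in Ioi (0 : ℝ), |g x| with hG
  have hG0 : 0 ≤ G := integral_nonneg fun _ => abs_nonneg _
  have hit : ∀ n : ℕ, IntegrableOn (Φ^[n] 0) (Ioi 0) ∧
      ∫ x in Ioi (0 : ℝ), |(Φ^[n] 0) x| ≤ G / (1 - θ) := by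
    intro n
    induction n with
    | zero =>
      simp only [Function.iterate_zero, id_eq, BoundedContinuousFunction.coe_zero, Pi.zero_apply,
        abs_zero, integral_zero]
      exact ⟨integrableOn_zero, div_nonneg hG0 h1.le⟩
    | succ n ih =>
      obtain ⟨i1, b1⟩ := ih
      obtain ⟨i2, b2⟩ := wh190_op_L1 h i1
      have e : ∀ x, (Φ^[n + 1] 0) x = g x + wh190_op J (Φ^[n] 0) x := by
        intro x
        rw [Function.iterate_succ_apply']
        rfl
      have i3 : IntegrableOn (fun x => g x + wh190_op J (Φ^[n] 0) x) (Ioi 0) :=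
        hgi.add i2.integrableOn
      have i4 : IntegrableOn (Φ^[n + 1] 0) (Ioi 0) := by
        have : (⇑(Φ^[n + 1] 0) : ℝ → ℝ) = fun x => g x + wh190_op J (Φ^[n] 0) x := funext e
        rw [this]
        exact i3
      refine ⟨i4, ?_⟩
      have b3 : ∫ x in Ioi (0 : ℝ), |wh190_op J (Φ^[n] 0) x| ≤ ∫ x, |wh190_op J (Φ^[n] 0) x| :=
        setIntegral_le_integral i2.abs (Eventually.of_forall fun _ => abs_nonneg _)
      have b4 : ∫ x in Ioi (0 : ℝ), |(Φ^[n + 1] 0) x| ≤
          G + ∫ x in Ioi (0 : ℝ), |wh190_op J (Φ^[n] 0) x| := by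
        rw [hG, ← integral_add hgi.abs i2.integrableOn.abs]
        refine setIntegral_mono_on i4.abs (hgi.abs.add i2.integrableOn.abs) measurableSet_Ioi ?_
        intro x _
        rw [e x]
        exact abs_add_le _ _
      have b5 : θ * (∫ x in Ioi (0 : ℝ), |(Φ^[n] 0) x|) ≤ θ * (G / (1 - θ)) :=
        mul_le_mul_of_nonneg_left b1 h.nonneg
      have e6 : G + θ * (G / (1 - θ)) = G / (1 - θ) := by
        field_simp
        ring
      linarith
  have hlim : ∀ x, Tendsto (fun n => (Φ^[n] 0) x) atTop (𝓝 (u x)) := by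
    intro x
    have t1 := hc.tendsto_iterate_fixedPoint (0 : BoundedContinuousFunction ℝ ℝ)
    have c1 : Continuous fun f : BoundedContinuousFunction ℝ ℝ => f x :=
      (continuous_apply x).comp BoundedContinuousFunction.continuous_coe
    exact (c1.tendsto _).comp t1
  refine ⟨u.continuous.aestronglyMeasurable, ?_⟩
  rw [hasFiniteIntegral_iff_enorm]
  have f1 : ∫⁻ x in Ioi (0 : ℝ), ‖u x‖ₑ
      = ∫⁻ x in Ioi (0 : ℝ), liminf (fun n => ‖(Φ^[n] 0) x‖ₑ) atTop := by
    congr 1
    funext x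
    exact ((continuous_enorm.tendsto _).comp (hlim x)).liminf_eq.symm
  have f2 : ∫⁻ x in Ioi (0 : ℝ), liminf (fun n => ‖(Φ^[n] 0) x‖ₑ) atTop
      ≤ liminf (fun n => ∫⁻ x in Ioi (0 : ℝ), ‖(Φ^[n] 0) x‖ₑ) atTop :=
    lintegral_liminf_le (fun n => (Φ^[n] 0).continuous.measurable.enorm)
  have f3 : liminf (fun n => ∫⁻ x in Ioi (0 : ℝ), ‖(Φ^[n] 0) x‖ₑ) atTop
      ≤ ENNReal.ofReal (G / (1 - θ)) := by
    refine liminf_le_of_frequently_le' (Frequently.of_forall fun n => ?_)
    rw [← ofReal_integral_norm_eq_lintegral_enorm (hit n).1]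
    exact ENNReal.ofReal_le_ofReal (hit n).2
  rw [f1]
  exact lt_of_le_of_lt (f2.trans f3) ENNReal.ofReal_lt_top

/-! ## C. the shift derivative and the Chandrasekhar identities -/

/-- Uniform first order expansion of a solution with exponential datum. -/
theorem wh190_deriv_est (h : Wh190Ker J θ) {s : ℝ} {T R : ℝ → ℝ} (hTc : Continuous T)
    (hRc : Continuous R) {BT BR : ℝ} (hTB : ∀ x, |T x| ≤ BT) (hRB : ∀ x, |R x| ≤ BR)
    (hT : ∀ x, 0 ≤ x → T x - wh190_op J T x = Real.exp (-s * x))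
    (hR : ∀ x, 0 ≤ x → R x - wh190_op J R x = J x) :
    ∀ c : ℝ, 0 < c → ∃ δ : ℝ, 0 < δ ∧ ∀ a : ℝ, 0 < a → a < δ → ∀ x, 0 ≤ x →
      |T (x + a) - Real.exp (-s * a) * T x - a * T 0 * R x| ≤ c * a := by
  intro c hc
  have h1 : 0 < 1 - θ := by linarith [h.lt_one]
  obtain ⟨CJ, hCJ⟩ := h.bdd
  have hBT0 : 0 ≤ BT := le_trans (abs_nonneg _) (hTB 0)
  have hCJ0 : 0 ≤ CJ := le_trans (abs_nonneg _) (hCJ 0)
  set η : ℝ := c * (1 - θ) with hη
  have hη0 : 0 < η := mul_pos hc h1
  set η1 : ℝ := η / (BT + CJ + 1) with hη1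
  have hden : 0 < BT + CJ + 1 := by linarith
  have hη10 : 0 < η1 := div_pos hη0 hden
  obtain ⟨δ1, hδ1, hJu⟩ := Metric.uniformContinuous_iff.1 h.unif η1 hη10
  obtain ⟨δ2, hδ2, hT0⟩ := Metric.continuousAt_iff.1 (hTc.continuousAt (x := 0)) η1 hη10
  refine ⟨min δ1 δ2, lt_min hδ1 hδ2, fun a ha haδ => ?_⟩
  have ha1 : a < δ1 := lt_of_lt_of_le haδ (min_le_left _ _)
  have ha2 : a < δ2 := lt_of_lt_of_le haδ (min_le_right _ _)
  set c2 : ℝ := Real.exp (-s * a) with hc2
  set c3 : ℝ := a * T 0 with hc3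
  set w : ℝ → ℝ := fun x => T (x + a) - c2 * T x - c3 * R x with hw
  have hSc : Continuous fun t => T (t + a) := hTc.comp (continuous_id.add continuous_const)
  have hwB : ∀ t, 0 < t → |w t| ≤ BT + |c2| * BT + |c3| * BR := by
    intro t _
    have e1 : |c2 * T t| ≤ |c2| * BT := by
      rw [abs_mul]; exact mul_le_mul_of_nonneg_left (hTB t) (abs_nonneg _)
    have e2 : |c3 * R t| ≤ |c3| * BR := by
      rw [abs_mul]; exact mul_le_mul_of_nonneg_left (hRB t) (abs_nonneg _)
    calc |w t| ≤ |T (t + a) - c2 * T t| + |c3 * R t| := abs_sub _ _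
      _ ≤ |T (t + a)| + |c2 * T t| + |c3 * R t| := by
        gcongr
        exact abs_sub _ _
      _ ≤ _ := by linarith [hTB (t + a)]
  have hop : ∀ x, wh190_op J w x = wh190_op J (fun t => T (t + a)) x - c2 * wh190_op J T x
      - c3 * wh190_op J R x := by
    intro x
    have m1 : AEStronglyMeasurable (fun t => T (t + a) - c2 * T t) volume :=
      (hSc.sub (continuous_const.mul hTc)).aestronglyMeasurable
    have b1 : ∀ t, 0 < t → |T (t + a) - c2 * T t| ≤ BT + |c2| * BT := by
      intro t _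
      have e1 : |c2 * T t| ≤ |c2| * BT := by
        rw [abs_mul]; exact mul_le_mul_of_nonneg_left (hTB t) (abs_nonneg _)
      calc |T (t + a) - c2 * T t| ≤ |T (t + a)| + |c2 * T t| := abs_sub _ _
        _ ≤ _ := by linarith [hTB (t + a)]
    have b2 : ∀ t, 0 < t → |c3 * R t| ≤ |c3| * BR := by
      intro t _
      rw [abs_mul]; exact mul_le_mul_of_nonneg_left (hRB t) (abs_nonneg _)
    have b3 : ∀ t, 0 < t → |c2 * T t| ≤ |c2| * BT := by
      intro t _
      rw [abs_mul]; exact mul_le_mul_of_nonneg_left (hTB t) (abs_nonneg _)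
    have m2 : AEStronglyMeasurable (fun t => c3 * R t) volume :=
      (continuous_const.mul hRc).aestronglyMeasurable
    have m3 : AEStronglyMeasurable (fun t => c2 * T t) volume :=
      (continuous_const.mul hTc).aestronglyMeasurable
    rw [hw, wh190_op_sub h m1 m2 b1 b2,
      wh190_op_sub h hSc.aestronglyMeasurable m3 (fun t _ => hTB (t + a)) b3,
      wh190_op_smul, wh190_op_smul]
  have herr : ∀ x, 0 ≤ x → w x - wh190_op J w x
      = ∫ t in Ioc (0 : ℝ) a, (J (x + a - t) * T t - J x * T 0) := by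
    intro x hx
    have i1 : IntegrableOn (fun t => J (x + a - t) * T t) (Ioc 0 a) :=
      (wh190_integrable h hTc.aestronglyMeasurable.restrict (fun t _ => hTB t) (x + a)).mono_set
        Ioc_subset_Ioi_self
    have i2 : IntegrableOn (fun _ : ℝ => J x * T 0) (Ioc 0 a) :=
      integrableOn_const (by simp)
    rw [integral_sub i1 i2, setIntegral_const, hop,
      wh190_shift h hTc.aestronglyMeasurable (fun t _ => hTB t) x ha.le]
    have e1 := hT (x + a) (by linarith)
    have e2 := hT x hx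
    have e3 := hR x hx
    have e4 : Real.exp (-s * (x + a)) = c2 * Real.exp (-s * x) := by
      rw [hc2, ← Real.exp_add]
      congr 1
      ring
    have e5 : (volume : Measure ℝ).real (Ioc 0 a) = a := by
      simp [Measure.real, ha.le]
    rw [e5, smul_eq_mul]
    simp only [hw]
    have e6 : T (x + a) = c2 * Real.exp (-s * x) + wh190_op J T (x + a) := by linarith
    have e7 : T x = Real.exp (-s * x) + wh190_op J T x := by linarith
    have e8 : R x = J x + wh190_op J R x := by linarith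
    rw [e6]
    nth_rewrite 1 [e7]
    nth_rewrite 1 [e8]
    rw [hc3]
    ring
  have hbound : ∀ x, 0 ≤ x → |∫ t in Ioc (0 : ℝ) a, (J (x + a - t) * T t - J x * T 0)| ≤ η * a := by
    intro x _
    have k := norm_setIntegral_le_of_norm_le_const (μ := (volume : Measure ℝ)) (s := Ioc (0 : ℝ) a)
      (f := fun t => J (x + a - t) * T t - J x * T 0) (C := η) (by simp) ?_
    · have e5 : (volume : Measure ℝ).real (Ioc 0 a) = a := by
        simp [Measure.real, ha.le]
      rw [e5] at k
      exact k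
    · intro t ht
      have d1 : dist (x + a - t) x < δ1 := by
        rw [Real.dist_eq]
        have : x + a - t - x = a - t := by ring
        rw [this, abs_of_nonneg (by linarith [ht.2])]
        linarith [ht.1]
      have d2 : dist t 0 < δ2 := by
        rw [Real.dist_eq, sub_zero, abs_of_pos ht.1]
        linarith [ht.2]
      have j1 := hJu d1
      have j2 := hT0 d2
      rw [Real.dist_eq] at j1 j2
      have e : J (x + a - t) * T t - J x * T 0
          = (J (x + a - t) - J x) * T t + J x * (T t - T 0) := by ring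
      rw [Real.norm_eq_abs, e]
      calc |(J (x + a - t) - J x) * T t + J x * (T t - T 0)|
          ≤ |(J (x + a - t) - J x) * T t| + |J x * (T t - T 0)| := abs_add_le _ _
        _ = |J (x + a - t) - J x| * |T t| + |J x| * |T t - T 0| := by rw [abs_mul, abs_mul]
        _ ≤ η1 * BT + CJ * η1 := by
          gcongr
          · exact hTB t
          · exact hCJ x
        _ ≤ η1 * (BT + CJ + 1) := by nlinarith
        _ = η := by rw [hη1]; field_simp
  intro x hx
  have k := wh190_sup h (u := w) (φ := fun x => ∫ t in Ioc (0 : ℝ) a, (J (x + a - t) * T t - J x * T 0))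
    (ε := η * a) hwB herr hbound x hx
  have e : η * a / (1 - θ) = c * a := by
    rw [hη]; field_simp
  rw [e] at k
  exact k


/-- The right derivative of a solution with exponential datum. -/
theorem wh190_hasDeriv (h : Wh190Ker J θ) {s : ℝ} {T R : ℝ → ℝ} (hTc : Continuous T)
    (hRc : Continuous R) {BT BR : ℝ} (hTB : ∀ x, |T x| ≤ BT) (hRB : ∀ x, |R x| ≤ BR)
    (hT : ∀ x, 0 ≤ x → T x - wh190_op J T x = Real.exp (-s * x))
    (hR : ∀ x, 0 ≤ x → R x - wh190_op J R x = J x) (x : ℝ) (hx : 0 ≤ x) :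
    HasDerivWithinAt T (-s * T x + T 0 * R x) (Ioi x) x := by
  have hest := wh190_deriv_est h hTc hRc hTB hRB hT hR
  set φ : ℝ → ℝ := fun y => Real.exp (-s * (y - x)) * T x + (y - x) * (T 0 * R x) with hφ
  have h1 : HasDerivAt φ (-s * T x + T 0 * R x) x := by
    have a1 : HasDerivAt (fun y : ℝ => -s * (y - x)) (-s) x := by
      simpa using ((hasDerivAt_id x).sub_const x).const_mul (-s)
    have a2 : HasDerivAt (fun y : ℝ => Real.exp (-s * (y - x))) (Real.exp (-s * (x - x)) * -s) x :=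
      a1.exp
    have a3 : HasDerivAt (fun y : ℝ => (y - x) * (T 0 * R x)) (1 * (T 0 * R x)) x :=
      ((hasDerivAt_id x).sub_const x).mul_const _
    have a4 := (a2.mul_const (T x)).add a3
    simp only [sub_self, mul_zero, Real.exp_zero, one_mul] at a4
    exact a4
  have h2 : HasDerivWithinAt (fun y => T y - φ y) 0 (Ioi x) x := by
    rw [hasDerivWithinAt_iff_isLittleO, Asymptotics.isLittleO_iff]
    intro c hc
    obtain ⟨δ, hδ, hd⟩ := hest c hc
    have hmem : Ioo x (x + δ) ∈ 𝓝[>] x := Ioo_mem_nhdsGT (by linarith)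
    filter_upwards [hmem] with y hy
    have ha : 0 < y - x := by linarith [hy.1]
    have ha' : y - x < δ := by linarith [hy.2]
    have k := hd (y - x) ha ha' x hx
    have e0 : φ x = T x := by simp [hφ]
    have e1 : x + (y - x) = y := by ring
    rw [e1] at k
    have e2 : T y - φ y - (T x - φ x) - (y - x) • (0 : ℝ)
        = T y - Real.exp (-s * (y - x)) * T x - (y - x) * T 0 * R x := by
      rw [e0]
      simp only [hφ, smul_eq_mul]
      ring
    rw [e2, Real.norm_eq_abs, Real.norm_eq_abs, abs_of_pos ha]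
    exact k
  have h3 := h1.hasDerivWithinAt (s := Ioi x) |>.add h2
  have e : (fun y => φ y + (T y - φ y)) = T := by
    funext y
    ring
  simp only [add_zero] at h3
  have h4 : HasDerivWithinAt (fun y => φ y + (T y - φ y)) (-s * T x + T 0 * R x) (Ioi x) x := h3
  rwa [e] at h4

/-- Fundamental theorem of calculus for `T x * exp (-t x)`. -/
theorem wh190_ftc (h : Wh190Ker J θ) {s : ℝ} {T R : ℝ → ℝ} (hTc : Continuous T)
    (hRc : Continuous R) {BT BR : ℝ} (hTB : ∀ x, |T x| ≤ BT) (hRB : ∀ x, |R x| ≤ BR)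
    (hT : ∀ x, 0 ≤ x → T x - wh190_op J T x = Real.exp (-s * x))
    (hR : ∀ x, 0 ≤ x → R x - wh190_op J R x = J x) (t X : ℝ) (hX : 0 ≤ X) :
    ∫ x in (0 : ℝ)..X, (-(s + t) * (T x * Real.exp (-t * x)) + T 0 * (R x * Real.exp (-t * x)))
      = T X * Real.exp (-t * X) - T 0 := by
  have hexp : Continuous fun x : ℝ => Real.exp (-t * x) :=
    Real.continuous_exp.comp (continuous_const.mul continuous_id)
  have k := intervalIntegral.integral_eq_sub_of_hasDeriv_right (a := 0) (b := X)
    (f := fun x => T x * Real.exp (-t * x))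
    (f' := fun x => (-(s + t) * (T x * Real.exp (-t * x)) + T 0 * (R x * Real.exp (-t * x))))
    (hTc.mul hexp).continuousOn ?_ ?_
  · rw [k]
    simp
  · intro x hx
    rw [min_eq_left hX] at hx
    have d1 := wh190_hasDeriv h hTc hRc hTB hRB hT hR x hx.1.le
    have a1 : HasDerivAt (fun y : ℝ => -t * y) (-t) x := by
      simpa using (hasDerivAt_id x).const_mul (-t)
    have d2 : HasDerivAt (fun y : ℝ => Real.exp (-t * y)) (Real.exp (-t * x) * -t) x := a1.exp
    have d3 := d1.mul d2.hasDerivWithinAt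
    have d4 : HasDerivWithinAt (fun x => T x * Real.exp (-t * x))
        ((-s * T x + T 0 * R x) * Real.exp (-t * x) + T x * (Real.exp (-t * x) * -t)) (Ioi x) x := d3
    have e : (-(s + t) * (T x * Real.exp (-t * x)) + T 0 * (R x * Real.exp (-t * x)))
        = (-s * T x + T 0 * R x) * Real.exp (-t * x) + T x * (Real.exp (-t * x) * -t) := by ring
    rw [e]
    exact d4
  · exact ((continuous_const.mul (hTc.mul hexp)).add
      (continuous_const.mul (hRc.mul hexp))).intervalIntegrable _ _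

theorem wh190_int_exp {f : ℝ → ℝ} (hf : Continuous f) {B : ℝ} (hB : ∀ x, |f x| ≤ B) {t : ℝ}
    (ht : 0 < t) : IntegrableOn (fun x => f x * Real.exp (-t * x)) (Ioi 0) := by
  refine Integrable.bdd_mul (c := B) (exp_neg_integrableOn_Ioi 0 ht) hf.aestronglyMeasurable ?_
  exact Eventually.of_forall fun x => by simpa using hB x

/-- First identity: `(s + t) ⟨T, e_t⟩ = T 0 * (1 + ⟨R, e_t⟩)`. -/
theorem wh190_id1 (h : Wh190Ker J θ) {s : ℝ} {T R : ℝ → ℝ} (hTc : Continuous T)
    (hRc : Continuous R) {BT BR : ℝ} (hTB : ∀ x, |T x| ≤ BT) (hRB : ∀ x, |R x| ≤ BR)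
    (hT : ∀ x, 0 ≤ x → T x - wh190_op J T x = Real.exp (-s * x))
    (hR : ∀ x, 0 ≤ x → R x - wh190_op J R x = J x) {t : ℝ} (ht : 0 < t) :
    (s + t) * (∫ x in Ioi (0 : ℝ), T x * Real.exp (-t * x))
      = T 0 * (1 + ∫ x in Ioi (0 : ℝ), R x * Real.exp (-t * x)) := by
  have i1 := wh190_int_exp hTc hTB ht
  have i2 := wh190_int_exp hRc hRB ht
  have i3 : IntegrableOn (fun x => (-(s + t) * (T x * Real.exp (-t * x))
      + T 0 * (R x * Real.exp (-t * x)))) (Ioi 0) := (i1.const_mul _).add (i2.const_mul _)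
  have l1 := intervalIntegral_tendsto_integral_Ioi 0 i3 tendsto_id
  have l2 : Tendsto (fun X : ℝ => T X * Real.exp (-t * X) - T 0) atTop (𝓝 (0 - T 0)) := by
    refine Tendsto.sub_const ?_ _
    have z1 : Tendsto (fun X : ℝ => Real.exp (-t * X)) atTop (𝓝 0) := by
      have : Tendsto (fun X : ℝ => -t * X) atTop atBot :=
        tendsto_id.const_mul_atTop_of_neg (by linarith)
      exact Real.tendsto_exp_atBot.comp this
    have z2 : Tendsto (fun X : ℝ => BT * Real.exp (-t * X)) atTop (𝓝 0) := by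
      simpa using z1.const_mul BT
    refine squeeze_zero_norm (fun X => ?_) z2
    rw [Real.norm_eq_abs, abs_mul, abs_of_pos (Real.exp_pos _)]
    exact mul_le_mul_of_nonneg_right (hTB X) (Real.exp_pos _).le
  have l3 : Tendsto (fun X : ℝ => T X * Real.exp (-t * X) - T 0) atTop
      (𝓝 (∫ x in Ioi (0 : ℝ), (-(s + t) * (T x * Real.exp (-t * x))
        + T 0 * (R x * Real.exp (-t * x))))) := by
    refine l1.congr' ?_
    filter_upwards [eventually_ge_atTop (0 : ℝ)] with X hX
    exact wh190_ftc h hTc hRc hTB hRB hT hR t X hX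
  have e := tendsto_nhds_unique l3 l2
  rw [integral_add (i1.const_mul _) (i2.const_mul _), integral_const_mul, integral_const_mul] at e
  linarith

/-- Second identity: `⟨R, g⟩ = u 0 - g 0` for `u - op u = g`. -/
theorem wh190_id2 (h : Wh190Ker J θ) {u g R : ℝ → ℝ} (huc : Continuous u)
    {Bu : ℝ} (huB : ∀ x, |u x| ≤ Bu)
    (hRi : IntegrableOn R (Ioi 0))
    (hu : ∀ x, 0 ≤ x → u x - wh190_op J u x = g x)
    (hR : ∀ x, 0 ≤ x → R x - wh190_op J R x = J x) :
    ∫ x in Ioi (0 : ℝ), R x * g x = u 0 - g 0 := by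
  have hsym := wh190_symm h hRi huc.aestronglyMeasurable (fun t _ => huB t)
  obtain ⟨iop, -⟩ := wh190_op_L1 h hRi
  have bu : ∀ᵐ x ∂(volume.restrict (Ioi (0 : ℝ))), ‖u x‖ ≤ Bu :=
    Eventually.of_forall fun x => by simpa using huB x
  have i1 : IntegrableOn (fun x => R x * u x) (Ioi 0) :=
    Integrable.mul_bdd (c := Bu) hRi huc.aestronglyMeasurable bu
  have i2 : IntegrableOn (fun x => wh190_op J R x * u x) (Ioi 0) :=
    Integrable.mul_bdd (c := Bu) iop.integrableOn huc.aestronglyMeasurable bu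
  have i3 : IntegrableOn (fun x => R x * wh190_op J u x) (Ioi 0) := by
    refine Integrable.mul_bdd (c := θ * Bu) hRi
      (wh190_op_continuous h huc huB).aestronglyMeasurable ?_
    exact Eventually.of_forall fun x => by simpa using wh190_op_le h (fun t _ => huB t) x
  have e1 : ∫ x in Ioi (0 : ℝ), R x * g x
      = (∫ x in Ioi (0 : ℝ), R x * u x) - ∫ x in Ioi (0 : ℝ), R x * wh190_op J u x := by
    rw [← integral_sub i1 i3]
    refine setIntegral_congr_fun measurableSet_Ioi fun x hx => ?_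
    have := hu x (le_of_lt hx)
    rw [← this]
    ring
  have e2 : (∫ x in Ioi (0 : ℝ), R x * u x) - ∫ x in Ioi (0 : ℝ), wh190_op J R x * u x
      = ∫ x in Ioi (0 : ℝ), J x * u x := by
    rw [← integral_sub i1 i2]
    refine setIntegral_congr_fun measurableSet_Ioi fun x hx => ?_
    have := hR x (le_of_lt hx)
    rw [← this]
    ring
  have e3 : ∫ x in Ioi (0 : ℝ), J x * u x = wh190_op J u 0 := by
    unfold wh190_op
    congr 1
    funext x
    rw [zero_sub, h.even]
  have e4 := hu 0 le_rfl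
  rw [e1, hsym, e2, e3]
  linarith

/-- Limit at infinity of the operator applied to a function with a limit. -/
theorem wh190_op_tendsto (h : Wh190Ker J θ) {Z : ℝ → ℝ} (hZc : Continuous Z) {B : ℝ}
    (hZB : ∀ x, |Z x| ≤ B) {ℓ : ℝ} (hl : Tendsto Z atTop (𝓝 ℓ)) :
    Tendsto (wh190_op J Z) atTop (𝓝 ((∫ x, J x) * ℓ)) := by
  have e : wh190_op J Z = fun x => ∫ s, (Iio x).indicator (fun s => J s * Z (x - s)) s :=
    funext (wh190_op_eq' J Z)
  have e2 : (∫ x, J x) * ℓ = ∫ s, J s * ℓ := (integral_mul_const _ _).symm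
  rw [e, e2]
  refine tendsto_integral_filter_of_dominated_convergence (fun s => |J s| * B) ?_ ?_
    (h.int.abs.mul_const B) ?_
  · refine Eventually.of_forall fun x => ?_
    exact ((h.cont.mul (hZc.comp (continuous_const.sub continuous_id))).aestronglyMeasurable).indicator
      measurableSet_Iio
  · refine Eventually.of_forall fun x => Eventually.of_forall fun s => ?_
    have hB0 : 0 ≤ B := le_trans (abs_nonneg _) (hZB 0)
    by_cases hs : s ∈ Iio x
    · rw [indicator_of_mem hs, Real.norm_eq_abs, abs_mul]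
      exact mul_le_mul_of_nonneg_left (hZB _) (abs_nonneg _)
    · rw [indicator_of_notMem hs, norm_zero]
      exact mul_nonneg (abs_nonneg _) hB0
  · refine Eventually.of_forall fun s => ?_
    have t1 : Tendsto (fun x : ℝ => x - s) atTop atTop := by
      simpa [sub_eq_add_neg] using tendsto_atTop_add_const_right atTop (-s) tendsto_id
    have t2 : Tendsto (fun x : ℝ => J s * Z (x - s)) atTop (𝓝 (J s * ℓ)) :=
      (hl.comp t1).const_mul _
    refine t2.congr' ?_
    filter_upwards [eventually_gt_atTop s] with x hx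
    have : s ∈ Iio x := hx
    rw [indicator_of_mem this]

/-- `Z 0 ^ 2 * (1 - ∫ J) = 1` for the solution with datum `1`. -/
theorem wh190_Z (h : Wh190Ker J θ) {Z R : ℝ → ℝ} (hZc : Continuous Z)
    (hRc : Continuous R) {BZ BR : ℝ} (hZB : ∀ x, |Z x| ≤ BZ) (hRB : ∀ x, |R x| ≤ BR)
    (hRi : IntegrableOn R (Ioi 0))
    (hZ : ∀ x, 0 ≤ x → Z x - wh190_op J Z x = 1)
    (hR : ∀ x, 0 ≤ x → R x - wh190_op J R x = J x) :
    Z 0 ^ 2 * (1 - ∫ x, J x) = 1 := by
  have hZ' : ∀ x, 0 ≤ x → Z x - wh190_op J Z x = Real.exp (-(0 : ℝ) * x) := by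
    intro x hx
    simpa using hZ x hx
  have e1 : ∫ x in Ioi (0 : ℝ), R x = Z 0 - 1 := by
    have := wh190_id2 h (g := fun _ => (1 : ℝ)) hZc hZB hRi hZ hR
    simpa using this
  have e2 : ∀ X : ℝ, 0 ≤ X → ∫ x in (0 : ℝ)..X, Z 0 * R x = Z X - Z 0 := by
    intro X hX
    have := wh190_ftc h hZc hRc hZB hRB hZ' hR 0 X hX
    simpa using this
  have l1 := intervalIntegral_tendsto_integral_Ioi 0 (hRi.const_mul (Z 0)) tendsto_id
  have l2 : Tendsto (fun X : ℝ => Z X - Z 0) atTop (𝓝 (∫ x in Ioi (0 : ℝ), Z 0 * R x)) := by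
    refine l1.congr' ?_
    filter_upwards [eventually_ge_atTop (0 : ℝ)] with X hX
    exact e2 X hX
  rw [integral_const_mul, e1] at l2
  have l3 : Tendsto Z atTop (𝓝 (Z 0 ^ 2)) := by
    have := l2.add_const (Z 0)
    have e : Z 0 * (Z 0 - 1) + Z 0 = Z 0 ^ 2 := by ring
    rw [e] at this
    simpa using this
  have l4 := wh190_op_tendsto h hZc hZB l3
  have l5 : Tendsto (fun x => Z x - wh190_op J Z x) atTop (𝓝 (Z 0 ^ 2 - (∫ x, J x) * Z 0 ^ 2)) :=
    l3.sub l4
  have l6 : Tendsto (fun x => Z x - wh190_op J Z x) atTop (𝓝 1) := by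
    refine tendsto_const_nhds.congr' ?_
    filter_upwards [eventually_ge_atTop (0 : ℝ)] with X hX
    exact (hZ X hX).symm
  have := tendsto_nhds_unique l5 l6
  linarith

/-- **Chandrasekhar identities** (replace the Wiener-Hopf factorisation): `T = (1 - J_+)⁻¹ e^{-κ x}`,
`H = T 0`, `Z0 = ((1 - J_+)⁻¹ 1) 0`. -/
theorem wh190_chandra (h : Wh190Ker J θ) {κ : ℝ} (hκ : 0 < κ) :
    ∃ (T : ℝ → ℝ) (H Z0 : ℝ), Continuous T ∧ (∃ B, ∀ x, |T x| ≤ B) ∧ IntegrableOn T (Ioi 0) ∧
      (∀ x, 0 ≤ x → T x - wh190_op J T x = Real.exp (-κ * x)) ∧ H ≠ 0 ∧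
      2 * κ * (∫ x in Ioi (0 : ℝ), T x * Real.exp (-κ * x)) = H ^ 2 ∧
      κ * (∫ x in Ioi (0 : ℝ), T x) = H * Z0 ∧ Z0 ^ 2 * (1 - ∫ x, J x) = 1 := by
  obtain ⟨CJ, hCJ⟩ := h.bdd
  obtain ⟨R, hRc, ⟨BR, hRB⟩, hReq, hRint⟩ := wh190_exists h h.cont hCJ
  have hRi := hRint h.int.integrableOn
  have hR : ∀ x, 0 ≤ x → R x - wh190_op J R x = J x := fun x _ => hReq x
  obtain ⟨Z, hZc, ⟨BZ, hZB⟩, hZeq, -⟩ := wh190_exists h (g := fun _ => (1 : ℝ)) continuous_const
    (Bg := 1) (fun _ => by simp)
  have hZ : ∀ x, 0 ≤ x → Z x - wh190_op J Z x = 1 := fun x _ => hZeq x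
  have hgc : Continuous fun x : ℝ => Real.exp (-κ * max x 0) :=
    Real.continuous_exp.comp (continuous_const.mul (continuous_id.max continuous_const))
  have hgB : ∀ x : ℝ, |Real.exp (-κ * max x 0)| ≤ 1 := by
    intro x
    rw [abs_of_pos (Real.exp_pos _), Real.exp_le_one_iff]
    have : 0 ≤ max x 0 := le_max_right _ _
    nlinarith
  obtain ⟨T, hTc, ⟨BT, hTB⟩, hTeq, hTint⟩ := wh190_exists h hgc hgB
  have hgi : IntegrableOn (fun x : ℝ => Real.exp (-κ * max x 0)) (Ioi 0) := by
    refine (exp_neg_integrableOn_Ioi 0 hκ).congr_fun (fun x hx => ?_) measurableSet_Ioi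
    have : max x 0 = x := max_eq_left (le_of_lt hx)
    simp only [this]
  have hTi := hTint hgi
  have hT : ∀ x, 0 ≤ x → T x - wh190_op J T x = Real.exp (-κ * x) := by
    intro x hx
    rw [hTeq x, max_eq_left hx]
  have hZ' : ∀ x, 0 ≤ x → Z x - wh190_op J Z x = Real.exp (-(0 : ℝ) * x) := by
    intro x hx
    simpa using hZ x hx
  have eR : ∫ x in Ioi (0 : ℝ), R x * Real.exp (-κ * x) = T 0 - 1 := by
    have := wh190_id2 h (g := fun x => Real.exp (-κ * x)) hTc hTB hRi hT hR
    simpa using this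
  have id1 := wh190_id1 h hTc hRc hTB hRB hT hR hκ
  have id2 := wh190_id1 h hZc hRc hZB hRB hZ' hR hκ
  rw [eR] at id1 id2
  -- `⟨Z, e_κ⟩ = ∫ T`
  have eZT : ∫ x in Ioi (0 : ℝ), Z x * Real.exp (-κ * x) = ∫ x in Ioi (0 : ℝ), T x := by
    have hsym := wh190_symm h hTi hZc.aestronglyMeasurable (fun t _ => hZB t)
    obtain ⟨iop, -⟩ := wh190_op_L1 h hTi
    have bz : ∀ᵐ x ∂(volume.restrict (Ioi (0 : ℝ))), ‖Z x‖ ≤ BZ :=
      Eventually.of_forall fun x => by simpa using hZB x
    have i1 : IntegrableOn (fun x => T x * Z x) (Ioi 0) :=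
      Integrable.mul_bdd (c := BZ) hTi hZc.aestronglyMeasurable bz
    have i2 : IntegrableOn (fun x => wh190_op J T x * Z x) (Ioi 0) :=
      Integrable.mul_bdd (c := BZ) iop.integrableOn hZc.aestronglyMeasurable bz
    have i3 : IntegrableOn (fun x => T x * wh190_op J Z x) (Ioi 0) := by
      refine Integrable.mul_bdd (c := θ * BZ) hTi
        (wh190_op_continuous h hZc hZB).aestronglyMeasurable ?_
      exact Eventually.of_forall fun x => by simpa using wh190_op_le h (fun t _ => hZB t) x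
    have a1 : ∫ x in Ioi (0 : ℝ), Z x * Real.exp (-κ * x)
        = (∫ x in Ioi (0 : ℝ), T x * Z x) - ∫ x in Ioi (0 : ℝ), wh190_op J T x * Z x := by
      rw [← integral_sub i1 i2]
      refine setIntegral_congr_fun measurableSet_Ioi fun x hx => ?_
      have := hT x (le_of_lt hx)
      rw [← this]
      ring
    have a2 : (∫ x in Ioi (0 : ℝ), T x * Z x) - ∫ x in Ioi (0 : ℝ), T x * wh190_op J Z x
        = ∫ x in Ioi (0 : ℝ), T x := by
      rw [← integral_sub i1 i3]
      refine setIntegral_congr_fun measurableSet_Ioi fun x hx => ?_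
      have := hZ x (le_of_lt hx)
      have e : T x * Z x - T x * wh190_op J Z x = T x * (Z x - wh190_op J Z x) := by ring
      rw [e, this, mul_one]
    rw [a1, ← hsym, a2]
  have hH : T 0 ≠ 0 := by
    intro h0
    have z : ∀ X, 0 ≤ X → T X = 0 := by
      intro X hX
      have k := wh190_ftc h hTc hRc hTB hRB hT hR (-κ) X hX
      rw [h0] at k
      simp only [add_neg_cancel, neg_zero, zero_mul, add_zero, intervalIntegral.integral_zero,
        sub_zero] at k
      have := (Real.exp_pos (- -κ * X)).ne'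
      rcases mul_eq_zero.1 k.symm with h1 | h1
      · exact h1
      · exact absurd h1 this
    have k0 := hT 0 le_rfl
    have o0 : wh190_op J T 0 = 0 := by
      unfold wh190_op
      have : ∫ t in Ioi (0 : ℝ), J (0 - t) * T t = ∫ t in Ioi (0 : ℝ), (0 : ℝ) := by
        refine setIntegral_congr_fun measurableSet_Ioi fun t ht => ?_
        simp only [z t (le_of_lt ht), mul_zero]
      rw [this, integral_zero]
    rw [h0, o0] at k0
    simp at k0
  refine ⟨T, T 0, Z 0, hTc, ⟨BT, hTB⟩, hTi, hT, hH, ?_, ?_,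
    wh190_Z h hZc hRc hZB hRB hRi hZ hR⟩
  · have : (κ + κ) * (∫ x in Ioi (0 : ℝ), T x * Real.exp (-κ * x)) = T 0 * (1 + (T 0 - 1)) := id1
    have e : 2 * κ = κ + κ := by ring
    rw [e, this]
    ring
  · rw [← eZT]
    have : (0 + κ) * (∫ x in Ioi (0 : ℝ), Z x * Real.exp (-κ * x)) = Z 0 * (1 + (T 0 - 1)) := id2
    rw [zero_add] at this
    rw [this]
    ring

end Claimed.Agent.R292
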