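import Claimed.Agent.R292.Bethe.BA1x70
import Claimed.Agent.R292.Bethe.Ins260

/-!
# Row 292 (S0540), Bethe/Wire89 : THE LEAVES H1, H2a, H2b OF `Bethe/Hub` BY CITATION      (helper89; prefix `bw89`)

`baF c N n` of the hub is `limUnder atTop (fun M => log (svZN c M N n) / M)`; here it is written out (`bw89F`, same body), so that the hub
can import this file and close `ba_lim`, `ba_ins0`, `ba_ins1` by `exact`.
-/

set_option autoImplicit false

namespace Claimed.Agent.R292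

open Filter Topology

/-- same body as `baF` of `Bethe/Hub`. -/
noncomputable def bw89F (c : ℝ) (N n : ℕ) : ℝ :=
  limUnder atTop (fun M : ℕ => Real.log (svZN c M N n) / M)

theorem bw89_defs_cite : True := by
  have := @bw89F.eq_1
  trivial

/-- `baF = log` of the top eigenvalue of 70. -/
theorem bw89F_eq {c : ℝ} (hc : 0 ≤ c) (N n : ℕ) (hN : 0 < N) (hn : n ≤ N) :
    bw89F c N n = Real.log (ba70Lam c N n) := by
  have : NeZero N := ⟨hN.ne'⟩
  exact (ba70_log_svZN_tendsto hc N n hn).limUnder_eq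

/-- **H1**. -/
theorem bw89_lim {c : ℝ} (hc : 0 ≤ c) (N n : ℕ) (hN : 0 < N) (hn : n ≤ N) :
    Tendsto (fun M : ℕ => Real.log (svZN c M N n) / M) atTop (𝓝 (bw89F c N n)) := by
  have : NeZero N := ⟨hN.ne'⟩
  rw [bw89F_eq hc N n hN hn]
  exact ba70_log_svZN_tendsto hc N n hn

theorem bw89_le_of_le {c : ℝ} (hc : 0 ≤ c) (N n N' n' : ℕ) (hN : 0 < N) (hn : n ≤ N) (hN' : 0 < N') (hn' : n' ≤ N')
    (h : ∀ M : ℕ, 0 < M → svZN c M N n ≤ svZN c M N' n') : bw89F c N n ≤ bw89F c N' n' := by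
  refine le_of_tendsto_of_tendsto (bw89_lim hc N n hN hn) (bw89_lim hc N' n' hN' hn') ?_
  filter_upwards [eventually_gt_atTop 0] with M hM
  have h1 : 1 ≤ svZN c M N n := ins260_one_le_svZN c hc hM hN n hn
  exact div_le_div_of_nonneg_right (Real.log_le_log (by linarith) (h M hM)) (Nat.cast_nonneg _)

/-- **H2a**. -/
theorem bw89_ins0 {c : ℝ} (hc : 0 ≤ c) (N n : ℕ) (hN : 0 < N) (hn : n ≤ N) : bw89F c N n ≤ bw89F c (N + 1) n :=
  bw89_le_of_le hc N n (N + 1) n hN hn (by omega) (by omega) fun _ hM => ins260_svZN_le_empty c hc hM hN n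

/-- **H2b**. -/
theorem bw89_ins1 {c : ℝ} (hc : 0 ≤ c) (N n : ℕ) (hN : 0 < N) (hn : n ≤ N) : bw89F c N n ≤ bw89F c (N + 1) (n + 1) :=
  bw89_le_of_le hc N n (N + 1) (n + 1) hN hn (by omega) (by omega) fun _ hM => ins260_svZN_le_full c hc hM hN n

/-- `0 ≤ baF`. -/
theorem bw89F_nonneg {c : ℝ} (hc : 0 ≤ c) (N n : ℕ) (hN : 0 < N) (hn : n ≤ N) : 0 ≤ bw89F c N n := by
  refine ge_of_tendsto (bw89_lim hc N n hN hn) ?_
  filter_upwards [eventually_gt_atTop 0] with M hM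
  exact div_nonneg (Real.log_nonneg (ins260_one_le_svZN c hc hM hN n hn)) (Nat.cast_nonneg _)

end Claimed.Agent.R292
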